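import Crest.Agent.R001.Tree

set_option autoImplicit false

namespace Crest.Agent.R001

open Finset Filter Crest.Agent.R008 Crest.Agent.R026

/-! # Rosser's identity, cutting sums over sets of primes -/

/-- Rosser's identity.  For `n = ∅` only `s = ∅` contributes.  Otherwise let `m = min n`; only
`p = m` contributes to the second sum; pair `s ↔ insert m s` for `s ⊆ n.erase m`
(`valid_insert_min`): the pair cancels unless `Bd π M s m`, in which case it leaves
`(-1)^|s| = (-1)^π`. -/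
theorem ident (π : ℕ) (M : ℝ) {P n : Finset ℕ} (hn : n ⊆ P) :
    ind (n = ∅) = ∑ s ∈ P.powerset, ind (valid π M s ∧ s ⊆ n) * (-1) ^ s.card -
      (-1) ^ π * ∑ p ∈ P, ∑ ν ∈ P.powerset,
        ind (Bd π M ν p ∧ ν ⊆ n ∧ p ∈ n ∧ ∀ q ∈ n, p ≤ q) := by
  classical
  rcases n.eq_empty_or_nonempty with rfl | hne
  · rw [ind_pos rfl, sum_eq_single ∅, ind_pos ⟨valid_empty _ _, Subset.rfl⟩,
      sum_eq_zero fun p _ => sum_eq_zero fun ν _ => ind_neg fun h => by simpa using h.2.2.1]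
    · simp
    · intro s _ hs
      rw [ind_neg fun h => hs (subset_empty.1 h.2), zero_mul]
    · simp
  rw [ind_neg hne.ne_empty]
  obtain ⟨m, hm, hmin⟩ := n.exists_min_image id hne
  simp only [id] at hmin
  have e1 : ∀ F : Finset ℕ → ℝ, ∀ Q : Finset ℕ → Prop,
      ∑ s ∈ P.powerset, ind (Q s ∧ s ⊆ n) * F s = ∑ s ∈ n.powerset, ind (Q s) * F s := by
    intro F Q
    symm
    refine sum_subset_zero_on_sdiff (powerset_mono.2 hn) (fun s hs => ?_) fun s hs => ?_
    · rw [ind_neg fun h => (mem_sdiff.1 hs).2 (mem_powerset.2 h.2), zero_mul]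
    · rw [ind_congr (and_iff_left (mem_powerset.1 hs))]
  have e2 : ∑ p ∈ P, ∑ ν ∈ P.powerset, ind (Bd π M ν p ∧ ν ⊆ n ∧ p ∈ n ∧ ∀ q ∈ n, p ≤ q) =
      ∑ ν ∈ (n.erase m).powerset, ind (Bd π M ν m) := by
    rw [sum_eq_single_of_mem m (hn hm) fun p _ hp => sum_eq_zero fun ν _ => ind_neg fun h =>
      hp (le_antisymm (h.2.2.2 m hm) (hmin p h.2.2.1))]
    symm
    refine sum_subset_zero_on_sdiff (powerset_mono.2 ((erase_subset _ _).trans hn))
      (fun s hs => ind_neg fun h => (mem_sdiff.1 hs).2 (mem_powerset.2 fun q hq =>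
        mem_erase.2 ⟨(h.1.1 q hq).ne', h.2.1 hq⟩)) fun s hs => ?_
    exact ind_congr (and_iff_left ⟨(mem_powerset.1 hs).trans (erase_subset _ _), hm, hmin⟩).symm
  rw [e1 _ (valid π M), e2]
  conv_rhs => rw [← insert_erase hm, sum_powerset_insert (notMem_erase _ _), insert_erase hm]
  rw [← sum_add_distrib, mul_sum, ← sum_sub_distrib]
  symm
  refine sum_eq_zero fun s hs => ?_
  have hlt : ∀ q ∈ s, m < q := fun q hq => by
    have := mem_erase.1 (mem_powerset.1 hs hq)
    exact lt_of_le_of_ne (hmin q this.2) this.1.symm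
  have hms : m ∉ s := fun h => lt_irrefl _ (hlt m h)
  rw [card_insert_of_notMem hms, pow_succ, ind_congr (valid_insert_min hlt)]
  by_cases hv : valid π M s
  · by_cases hb : Even (s.card + π) → (pr s : ℝ) * (m : ℝ) ^ 3 ≤ M
    · rw [ind_pos hv, ind_pos ⟨hv, hb⟩, ind_neg fun h => absurd (hb h.2.2.1) (not_le.2 h.2.2.2)]
      ring
    · rw [ind_pos hv, ind_neg fun h => hb h.2]
      push Not at hb
      rw [ind_pos ⟨hlt, hv, hb.1, hb.2⟩]
      have : (-1 : ℝ) ^ s.card = (-1) ^ π := by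
        have h1 := hb.1.neg_one_pow (α := ℝ)
        have h2 : ((-1 : ℝ) ^ π) * (-1) ^ π = 1 := by rw [← mul_pow]; simp
        rw [pow_add] at h1
        linear_combination ((-1 : ℝ) ^ π) * h1 - ((-1 : ℝ) ^ s.card) * h2
      rw [this]
      ring
  · rw [ind_neg hv, ind_neg fun h => hv h.1, ind_neg fun h => hv h.2.1]
    ring

theorem primesIoc_union {w y T : ℝ} (h1 : w ≤ y) (h2 : y ≤ T) :
    primesIoc w T = primesIoc y T ∪ primesIoc w y := by
  unfold primesIoc
  rw [← filter_union, union_comm, Ioc_union_Ioc_eq_Ioc (Nat.floor_mono h1) (Nat.floor_mono h2)]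

theorem primesIoc_lt {w y T : ℝ} {q r : ℕ} (hq : q ∈ primesIoc y T) (hr : r ∈ primesIoc w y) :
    r < q := by
  exact (mem_Ioc.1 (mem_filter.1 hr).1).2.trans_lt (mem_Ioc.1 (mem_filter.1 hq).1).1

theorem primesIoc_mono {w w' T T' : ℝ} (h1 : w' ≤ w) (h2 : T ≤ T') :
    primesIoc w T ⊆ primesIoc w' T' := by
  exact filter_subset_filter _ (Ioc_subset_Ioc (Nat.floor_mono h1) (Nat.floor_mono h2))

/-- Cutting at `y`. -/
theorem sum_cut {w y T : ℝ} (h1 : w ≤ y) (h2 : y ≤ T) (F : Finset ℕ → ℝ) :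
    ∑ s ∈ (primesIoc w T).powerset, F s =
      ∑ ν ∈ (primesIoc y T).powerset, ∑ s ∈ (primesIoc w y).powerset, F (ν ∪ s) := by
  have hd : Disjoint (primesIoc y T) (primesIoc w y) :=
    disjoint_left.2 fun q hq hq' => lt_irrefl _ (primesIoc_lt hq hq')
  rw [primesIoc_union h1 h2]
  generalize primesIoc y T = A at hd ⊢
  generalize primesIoc w y = B at hd ⊢
  rw [← sum_product']
  refine sum_nbij' (fun s => (s ∩ A, s ∩ B)) (fun x => x.1 ∪ x.2) ?_ ?_ ?_ ?_ ?_
  · intro s _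
    simp only [mem_product, mem_powerset]
    exact ⟨inter_subset_right, inter_subset_right⟩
  · intro x hx
    simp only [mem_product, mem_powerset] at hx ⊢
    exact union_subset_union hx.1 hx.2
  · intro s hs
    rw [← inter_union_distrib_left, inter_eq_left.2 (mem_powerset.1 hs)]
  · intro x hx
    simp only [mem_product, mem_powerset] at hx
    refine Prod.ext ?_ ?_
    · simp only
      rw [union_inter_distrib_right, inter_eq_left.2 hx.1,
        disjoint_iff_inter_eq_empty.1 (hd.symm.mono_left hx.2), union_empty]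
    · simp only
      rw [union_inter_distrib_right, inter_eq_left.2 hx.2,
        disjoint_iff_inter_eq_empty.1 (hd.mono_left hx.1), empty_union]
  · intro s hs
    rw [← inter_union_distrib_left, inter_eq_left.2 (mem_powerset.1 hs)]

/-- The same without `y ≤ T` (then `primesIoc y T = ∅`). -/
theorem sum_cut_le {w y : ℝ} (T : ℝ) (h1 : w ≤ y) (F : Finset ℕ → ℝ) (hF : ∀ s, 0 ≤ F s) :
    ∑ s ∈ (primesIoc w T).powerset, F s ≤
      ∑ ν ∈ (primesIoc y T).powerset, ∑ s ∈ (primesIoc w y).powerset, F (ν ∪ s) := by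
  rcases le_total y T with h | h
  · exact (sum_cut h1 h F).le
  · have : primesIoc y T = ∅ := by
      unfold primesIoc
      rw [Ioc_eq_empty (not_lt.2 (Nat.floor_mono h)), filter_empty]
    rw [this, powerset_empty, sum_singleton]
    simp only [empty_union]
    exact sum_le_sum_of_subset_of_nonneg (powerset_mono.2 (primesIoc_mono le_rfl h))
      fun s _ _ => hF s

/-- Removing the largest element. -/
theorem sum_top (P : Finset ℕ) (F : Finset ℕ → ℝ) :
    ∑ s ∈ P.powerset, F s =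
      F ∅ + ∑ q ∈ P, ∑ s ∈ (P.filter (fun r => r < q)).powerset, F (insert q s) := by
  induction P using Finset.induction_on_max with
  | empty => simp
  | insert a P ha ih =>
    have hn : a ∉ P := fun h => lt_irrefl _ (ha a h)
    have e : ∀ q ∈ P, (insert a P).filter (fun r => r < q) = P.filter (fun r => r < q) :=
      fun q hq => by rw [filter_insert, if_neg (ha q hq).not_gt]
    rw [sum_powerset_insert hn, sum_insert hn, ih, filter_insert, if_neg (lt_irrefl _),
      filter_true_of_mem ha, sum_congr rfl fun q hq => by rw [← e q hq]]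
    ring

/-- Removing the smallest element. -/
theorem sum_bot (P : Finset ℕ) (F : Finset ℕ → ℝ) :
    ∑ s ∈ P.powerset, F s =
      F ∅ + ∑ q ∈ P, ∑ s ∈ (P.filter (fun r => q < r)).powerset, F (insert q s) := by
  induction P using Finset.induction_on_min with
  | empty => simp
  | insert a P ha ih =>
    have hn : a ∉ P := fun h => lt_irrefl _ (ha a h)
    have e : ∀ q ∈ P, (insert a P).filter (fun r => q < r) = P.filter (fun r => q < r) :=
      fun q hq => by rw [filter_insert, if_neg (ha q hq).not_gt]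
    rw [sum_powerset_insert hn, sum_insert hn, ih, filter_insert, if_neg (lt_irrefl _),
      filter_true_of_mem ha, sum_congr rfl fun q hq => by rw [← e q hq]]
    ring

theorem Bm_nonneg (π : ℕ) (w M T : ℝ) {φ : ℕ → ℝ} (hφ : ∀ p, 0 ≤ φ p) : 0 ≤ Bm π w M T φ := by
  exact sum_nonneg fun p _ => sum_nonneg fun ν _ => mul_nonneg (ind_nonneg _)
    (div_nonneg (hφ p) (by positivity))

theorem Bm_parity {π π' : ℕ} (h : π % 2 = π' % 2) (w M T : ℝ) (φ : ℕ → ℝ) :
    Bm π w M T φ = Bm π' w M T φ := by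
  simp only [Bm, Bd_parity h]

theorem Bm_mono (π : ℕ) (w M : ℝ) {T T' : ℝ} (h : T ≤ T') {φ : ℕ → ℝ} (hφ : ∀ p, 0 ≤ φ p) :
    Bm π w M T φ ≤ Bm π w M T' φ := by
  have h0 : ∀ p ν, 0 ≤ ind (Bd π M ν p) * (φ p / (pr ν * p)) := fun p ν =>
    mul_nonneg (ind_nonneg _) (div_nonneg (hφ p) (by positivity))
  refine (sum_le_sum fun p _ => sum_le_sum_of_subset_of_nonneg
    (powerset_mono.2 (primesIoc_mono le_rfl h)) fun ν _ _ => h0 p ν).trans ?_
  exact sum_le_sum_of_subset_of_nonneg (primesIoc_mono le_rfl h)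
    fun p _ _ => sum_nonneg fun ν _ => h0 p ν

theorem BmQ_true (π : ℕ) (w M T y : ℝ) (φ : ℕ → ℝ) :
    BmQ π w M T y (fun _ => True) φ = Bm π w M T φ := by
  simp only [BmQ, Bm, and_true]

theorem phi_nonneg (y₁ y₂ : ℝ) (p : ℕ) : 0 ≤ phi y₁ y₂ p := by
  exact div_nonneg (ind_nonneg _) (Real.log_natCast_nonneg p)

/-- Prefix and suffix: keep only `p ≤ y`, apply `sum_cut`, `Bd_union`, `big y (ν ∪ s) = ν`. -/
theorem pre (π : ℕ) {w y T : ℝ} (M : ℝ) (h0 : 0 ≤ w) (h1 : w ≤ y) (h2 : y ≤ T)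
    (Q : Finset ℕ → Prop) {φ : ℕ → ℝ} (hφ : ∀ p, 0 ≤ φ p) :
    ∑ ν ∈ (primesIoc y T).powerset, ind (valid π M ν ∧ Q ν) *
      (Bm (ν.card + π) w (M / pr ν) y φ / pr ν) ≤ BmQ π w M T y Q φ := by
  have hy : 0 ≤ y := h0.trans h1
  have hT : 0 ≤ T := hy.trans h2
  unfold BmQ
  refine le_trans ?_ (sum_le_sum_of_subset_of_nonneg (primesIoc_mono le_rfl h2)
    fun p _ _ => sum_nonneg fun ν _ => mul_nonneg (ind_nonneg _)
      (div_nonneg (hφ p) (by positivity)))
  simp only [sum_cut h1 h2]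
  rw [sum_comm]
  refine sum_le_sum fun ν hν => ?_
  have hν' := mem_powerset.1 hν
  have hpos : ∀ q ∈ ν, 0 < q := fun q hq => (mem_filter.1 (hν' hq)).2.pos
  unfold Bm
  rw [sum_div, mul_sum]
  refine sum_le_sum fun p hp => ?_
  rw [sum_div, mul_sum]
  refine sum_le_sum fun s hs => le_of_eq ?_
  have hs' := mem_powerset.1 hs
  have hlt : ∀ q ∈ ν, ∀ r ∈ s, r < q := fun q hq r hr => primesIoc_lt (hν' hq) (hs' hr)
  have hd : Disjoint ν s := disjoint_left.2 fun q hq hq' => lt_irrefl _ (hlt q hq q hq')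
  have hb : big y (ν ∪ s) = ν := by
    ext q
    simp only [big, mem_filter, mem_union]
    refine ⟨fun h => h.1.resolve_right fun h' => ?_, fun h => ⟨Or.inl h, ?_⟩⟩
    · exact absurd ((mem_primesIoc h0 hy).1 (hs' h')).2.2 (not_le.2 h.2)
    · exact ((mem_primesIoc hy hT).1 (hν' h)).2.1
  rw [hb, ind_congr (and_congr_left' (Bd_union hpos hlt fun q hq => primesIoc_lt (hν' hq) hp)),
    pr_union hd, ind_congr and_right_comm, ind_and (_ ∧ _)]
  push_cast
  ring

/-- `pre` with the singletons as prefixes. -/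
theorem stepF {w y T : ℝ} (M : ℝ) (h0 : 0 ≤ w) (h1 : w ≤ y) (h2 : y ≤ T) {φ : ℕ → ℝ}
    (hφ : ∀ p, 0 ≤ φ p) :
    ∑ q ∈ primesIoc y T, Bm 0 w (M / q) y φ / q ≤ Bm 1 w M T φ := by
  have h := pre 1 M h0 h1 h2 (fun _ => True) hφ
  rw [BmQ_true] at h
  refine le_trans ?_ h
  refine le_trans (le_of_eq ?_) (sum_le_sum_of_subset_of_nonneg
    (s := (primesIoc y T).image fun q => ({q} : Finset ℕ)) (fun s hs => ?_)
    fun ν _ _ => mul_nonneg (ind_nonneg _) (div_nonneg (Bm_nonneg _ _ _ _ hφ) (by positivity)))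
  · rw [sum_image fun a _ b _ h => singleton_injective h]
    refine sum_congr rfl fun q _ => ?_
    have hv : valid 1 M {q} := fun r hr he => by
      rw [mem_singleton.1 hr] at he
      simp [up, filter_singleton] at he
    rw [ind_pos ⟨hv, trivial⟩, one_mul, Bm_parity (π := ({q} : Finset ℕ).card + 1) (π' := 0) (by simp)]
    simp [pr]
  · obtain ⟨q, hq, rfl⟩ := mem_image.1 hs
    simpa using hq

theorem stepC {w y T : ℝ} (M : ℝ) (h0 : 0 ≤ w) (h1 : w ≤ y) (h2 : y ≤ T) {φ : ℕ → ℝ}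
    (hφ : ∀ p, 0 ≤ φ p) :
    ∑ q ∈ primesIoc y T, ind ((q : ℝ) ^ 3 ≤ M) * (Bm 1 w (M / q) y φ / q) ≤ Bm 0 w M T φ := by
  have h := pre 0 M h0 h1 h2 (fun _ => True) hφ
  rw [BmQ_true] at h
  refine le_trans ?_ h
  refine le_trans (le_of_eq ?_) (sum_le_sum_of_subset_of_nonneg
    (s := (primesIoc y T).image fun q => ({q} : Finset ℕ)) (fun s hs => ?_)
    fun ν _ _ => mul_nonneg (ind_nonneg _) (div_nonneg (Bm_nonneg _ _ _ _ hφ) (by positivity)))
  · rw [sum_image fun a _ b _ h => singleton_injective h]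
    refine sum_congr rfl fun q _ => ?_
    have hv : (valid 0 M {q} ∧ True) ↔ (q : ℝ) ^ 3 ≤ M := by
      simp [valid, up, filter_singleton, pr]
    rw [ind_congr hv]
    simp [pr]
  · obtain ⟨q, hq, rfl⟩ := mem_image.1 hs
    simpa using hq

/-- `pre` with pairs as prefixes (`(q₁, q₂) ↦ {q₁, q₂}` is injective on `q₂ < q₁`). -/
theorem stepQ {w y T : ℝ} (M : ℝ) (h0 : 0 ≤ w) (h1 : w ≤ y) (h2 : y ≤ T)
    (Q : Finset ℕ → Prop) {φ : ℕ → ℝ} (hφ : ∀ p, 0 ≤ φ p) (A : Finset ℕ) (N : ℕ → Finset ℕ)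
    (hA : A ⊆ primesIoc y T) (hN : ∀ q ∈ A, N q ⊆ primesIoc y T)
    (h : ∀ q ∈ A, ∀ r ∈ N q, r < q ∧ (q : ℝ) * (r : ℝ) ^ 3 ≤ M ∧ Q {q, r}) :
    ∑ q ∈ A, ∑ r ∈ N q, Bm 1 w (M / (q * r)) y φ / (q * r) ≤ BmQ 1 w M T y Q φ := by
  refine le_trans ?_ (pre 1 M h0 h1 h2 Q hφ)
  rw [sum_sigma']
  refine le_trans (le_of_eq ?_) (sum_le_sum_of_subset_of_nonneg
    (s := (A.sigma N).image fun x => ({x.1, x.2} : Finset ℕ)) (fun s hs => ?_)
    fun ν _ _ => mul_nonneg (ind_nonneg _) (div_nonneg (Bm_nonneg _ _ _ _ hφ) (by positivity)))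
  · rw [sum_image]
    · refine sum_congr rfl fun x hx => ?_
      obtain ⟨q, r⟩ := x
      obtain ⟨hq, hr⟩ := mem_sigma.1 hx
      obtain ⟨a1, a2, a3⟩ := h q hq r hr
      have hv : valid 1 M {q, r} := fun t ht he => by
        rcases mem_insert.1 ht with rfl | ht
        · simp [up, filter_insert, filter_singleton, a1.not_gt] at he
        · rw [mem_singleton.1 ht]
          simpa [up, filter_insert, filter_singleton, a1, pr] using a2
      simp only
      rw [ind_pos ⟨hv, a3⟩, one_mul,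
        Bm_parity (π := ({q, r} : Finset ℕ).card + 1) (π' := 1) (by rw [card_pair a1.ne'])]
      simp [pr, prod_pair a1.ne']
    · rintro ⟨q, r⟩ hx ⟨q', r'⟩ hx' e
      obtain ⟨hq, hr⟩ := mem_sigma.1 (mem_coe.1 hx)
      obtain ⟨hq', hr'⟩ := mem_sigma.1 (mem_coe.1 hx')
      have a1 := (h q hq r hr).1
      have a2 := (h q' hq' r' hr').1
      simp only at e a1 a2
      have b1 : q ∈ ({q', r'} : Finset ℕ) := e ▸ mem_insert_self _ _
      have b2 : r ∈ ({q', r'} : Finset ℕ) := e ▸ by simp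
      have b3 : q' ∈ ({q, r} : Finset ℕ) := e ▸ mem_insert_self _ _
      have b4 : r' ∈ ({q, r} : Finset ℕ) := e.symm ▸ by simp
      simp only [mem_insert, mem_singleton] at b1 b2 b3 b4
      obtain rfl : q = q' := by omega
      obtain rfl : r = r' := by omega
      rfl
  · obtain ⟨⟨q, r⟩, hx, rfl⟩ := mem_image.1 hs
    obtain ⟨hq, hr⟩ := mem_sigma.1 hx
    exact mem_powerset.2 (insert_subset (hA hq) (singleton_subset_iff.2 (hN q hq hr)))

end Crest.Agent.R001
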