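import Crest.Agent.R001.Four
import Crest.Agent.R001.Tree2

set_option autoImplicit false

namespace Crest.Agent.R001

open Finset Filter Crest.Agent.R008 Crest.Agent.R026

theorem A1a48_Sw_le (X : ℕ) (b : ℤ) (w z : ℝ) :
    Sw (X / 2) b (primesIoc w z) ≤ ((X / 2 : ℕ) : ℝ) * surv X b w z := by
  unfold Sw
  rw [sum_product]
  refine (sum_le_card_nsmul _ _ (surv X b w z) fun n₁ h₁ => ?_).trans (by simp)
  unfold surv
  have hinj : Set.InjOn (fun n₂ : ℕ => n₁ + n₂) (Icc 1 (X / 2) : Finset ℕ) :=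
    fun a _ c _ h => by simpa using h
  have h := sum_image (f := fun n : ℕ => ind (∀ p ∈ primesIoc w z, ¬ (p : ℤ) ∣ (n : ℤ) - b)) hinj
  simp only [Nat.cast_add] at h
  rw [← h]
  refine sum_le_sum_of_subset_of_nonneg (fun n hn => ?_) fun _ _ _ => ind_nonneg _
  obtain ⟨n₂, h₂, rfl⟩ := mem_image.1 hn
  rw [mem_Icc] at h₁ h₂ ⊢
  omega

theorem A1a48_pr_dvd {s : Finset ℕ} (hs : ∀ q ∈ s, q.Prime) (m : ℤ) :
    ((pr s : ℕ) : ℤ) ∣ m ↔ ∀ q ∈ s, (q : ℤ) ∣ m := by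
  simp only [Int.natCast_dvd]
  exact ⟨fun h q hq => (dvd_prod_of_mem _ hq).trans h,
    fun h => Finset.prod_primes_dvd _ (fun q hq => (hs q hq).prime) h⟩

theorem A1a48_ident (D : ℝ) {P : Finset ℕ} (hP : ∀ q ∈ P, q.Prime) (m : ℤ) :
    ind (∀ p ∈ P, ¬ (p : ℤ) ∣ m) =
      ∑ s ∈ P.powerset, ind (valid 1 D s) * (-1) ^ s.card * ind (((pr s : ℕ) : ℤ) ∣ m) +
      ∑ p ∈ P, ∑ ν ∈ P.powerset, ind (Bd 1 D ν p) *
        ind (((pr ν * p : ℕ) : ℤ) ∣ m ∧ ∀ q ∈ P, q < p → ¬ (q : ℤ) ∣ m) := by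
  have h := ident 1 D (filter_subset (fun q : ℕ => (q : ℤ) ∣ m) P)
  have hsub : ∀ s ⊆ P, (s ⊆ P.filter (fun q : ℕ => (q : ℤ) ∣ m) ↔ ((pr s : ℕ) : ℤ) ∣ m) := by
    intro s hs
    rw [A1a48_pr_dvd (fun q hq => hP q (hs hq))]
    exact ⟨fun h q hq => (mem_filter.1 (h hq)).2, fun h q hq => mem_filter.2 ⟨hs hq, h q hq⟩⟩
  rw [ind_congr filter_eq_empty_iff] at h
  rw [h, pow_one, neg_one_mul, sub_neg_eq_add]
  congr 1
  · refine sum_congr rfl fun s hs => ?_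
    rw [ind_and, ind_congr (hsub s (mem_powerset.1 hs))]
    ring
  · refine sum_congr rfl fun p hp => sum_congr rfl fun ν hν => ?_
    rw [← ind_and]
    refine ind_congr (and_congr_right fun hB => ?_)
    have hν' := mem_powerset.1 hν
    have hp' : p ∉ ν := fun h => lt_irrefl _ (hB.1 p h)
    have e : pr ν * p = pr (insert p ν) := by
      unfold pr
      rw [prod_insert hp', mul_comm]
    rw [e, ← hsub _ (insert_subset hp hν'), insert_subset_iff]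
    constructor
    · rintro ⟨h1, h2, h3⟩
      exact ⟨⟨h2, h1⟩, fun q hq hlt hd => absurd (h3 q (mem_filter.2 ⟨hq, hd⟩)) (not_le.2 hlt)⟩
    · rintro ⟨⟨h2, h1⟩, h3⟩
      exact ⟨h1, h2, fun q hq => not_lt.1 fun hlt => h3 q (mem_filter.1 hq).1 hlt (mem_filter.1 hq).2⟩

theorem A1a48_main (N : ℕ) (b : ℤ) {w D z : ℝ} (hD : 1 ≤ D) (hz : z ≤ D) :
    (N : ℝ) ^ 2 * Main 1 w D z - D * N ≤
      ∑ s ∈ (primesIoc w z).powerset, ind (valid 1 D s) * (-1) ^ s.card * Tm N b (pr s) := by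
  have hP : ∀ q ∈ primesIoc w z, q.Prime := fun q hq => (mem_filter.1 hq).2
  have hPD : ∀ q ∈ primesIoc w z, (q : ℝ) ≤ D := by
    intro q hq
    have h1 : q ≤ ⌊z⌋₊ := (mem_Ioc.1 (mem_filter.1 hq).1).2
    have h2 : q ≤ ⌊D⌋₊ := h1.trans (Nat.floor_mono hz)
    exact (Nat.le_floor_iff (by linarith)).1 h2
  have hc := card_pr_le (primesIoc w z) hP (D := D) (by linarith) (valid 1 D)
    (fun s hs h => valid_le h hD fun q hq => ⟨(hP q (hs hq)).one_lt.le, hPD q (hs hq)⟩)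
  have hN : (0 : ℝ) ≤ N := Nat.cast_nonneg N
  have h1 : (N : ℝ) ^ 2 * Main 1 w D z - D * N ≤ (N : ℝ) ^ 2 * Main 1 w D z -
      (∑ s ∈ (primesIoc w z).powerset, ind (valid 1 D s)) * N := by
    nlinarith
  refine h1.trans ?_
  unfold Main
  rw [mul_sum, sum_mul, ← sum_sub_distrib]
  refine sum_le_sum fun s hs => ?_
  have hpos : 1 ≤ pr s := pr_pos fun q hq => hP q (mem_powerset.1 hs hq)
  have hr := rm_le N b hpos
  have e : Tm N b (pr s) = (N : ℝ) ^ 2 / pr s + rm N b (pr s) := by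
    unfold rm
    ring
  have h2 : -(N : ℝ) ≤ (-1) ^ s.card * rm N b (pr s) := by
    have : |(-1 : ℝ) ^ s.card * rm N b (pr s)| ≤ N := by
      rw [abs_mul, abs_pow, abs_neg, abs_one, one_pow, one_mul]
      exact hr
    exact (abs_le.1 this).1
  have h3 := mul_le_mul_of_nonneg_left h2 (ind_nonneg (valid 1 D s))
  rw [e]
  have e2 : ind (valid 1 D s) * (-1) ^ s.card * ((N : ℝ) ^ 2 / pr s + rm N b (pr s)) =
      (N : ℝ) ^ 2 * (ind (valid 1 D s) * ((-1) ^ s.card / pr s)) +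
        ind (valid 1 D s) * ((-1) ^ s.card * rm N b (pr s)) := by ring
  rw [e2]
  linarith

theorem A1a48_Sw_eq (N : ℕ) (b : ℤ) (D : ℝ) {P : Finset ℕ} (hP : ∀ q ∈ P, q.Prime) :
    Sw N b P = ∑ s ∈ P.powerset, ind (valid 1 D s) * (-1) ^ s.card * Tm N b (pr s) +
      ∑ p ∈ P, ∑ ν ∈ P.powerset, ind (Bd 1 D ν p) *
        ∑ i ∈ Icc 1 N ×ˢ Icc 1 N, ind (((pr ν * p : ℕ) : ℤ) ∣ (i.1 : ℤ) + i.2 - b ∧
          ∀ q ∈ P, q < p → ¬ (q : ℤ) ∣ (i.1 : ℤ) + i.2 - b) := by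
  unfold Sw Tm
  simp only [A1a48_ident D hP, sum_add_distrib, mul_sum]
  congr 1
  · exact sum_comm
  · rw [sum_comm]
    exact sum_congr rfl fun p _ => sum_comm

end Crest.Agent.R001
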