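import Crest.Agent.R001.Inv1

set_option autoImplicit false

namespace Crest.Agent.R001

open Finset Filter Crest.Agent.R008 Crest.Agent.R026

theorem Four9_count (N : ℕ) (c : ℤ) {m : ℕ} (hm : 1 ≤ m) :
    |∑ n ∈ Icc 1 N, ind ((m : ℤ) ∣ c + (n : ℤ)) - (N : ℝ) / m| ≤ 1 := by
  classical
  have hm' : (0 : ℝ) < m := by exact_mod_cast hm
  have hmz : (0 : ℤ) < m := by exact_mod_cast hm
  rw [sum_ind]
  have hc : ((Icc 1 N).filter (fun n : ℕ => (m : ℤ) ∣ c + (n : ℤ))).card =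
      #{x ∈ Ioc c (c + N) | (m : ℤ) ∣ x} := by
    refine card_bij (fun n _ => c + (n : ℤ)) ?_ ?_ ?_
    · intro n hn
      simp only [mem_filter, mem_Icc, mem_Ioc] at hn ⊢
      exact ⟨⟨by omega, by omega⟩, hn.2⟩
    · intro a _ b _ h
      omega
    · intro x hx
      simp only [mem_filter, mem_Icc, mem_Ioc] at hx ⊢
      refine ⟨(x - c).toNat, ⟨⟨by omega, by omega⟩, ?_⟩, by omega⟩
      rw [show c + (((x - c).toNat : ℕ) : ℤ) = x by omega]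
      exact hx.2
  rw [hc]
  have h1 := Int.Ioc_filter_dvd_card c (c + N) hmz
  have hfl : ∀ t : ℤ, ⌊(t : ℚ) / ((m : ℤ) : ℚ)⌋ = ⌊(t : ℝ) / m⌋ := by
    intro t
    rw [Int.cast_natCast, Int.floor_div_natCast, Int.floor_div_natCast, Int.floor_intCast,
      Int.floor_intCast]
  rw [hfl, hfl] at h1
  have hmono : ⌊(c : ℝ) / m⌋ ≤ ⌊((c + N : ℤ) : ℝ) / m⌋ :=
    Int.floor_mono (div_le_div_of_nonneg_right (by push_cast; linarith [Nat.cast_nonneg (α := ℝ) N])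
      hm'.le)
  rw [max_eq_left (by omega)] at h1
  have h2 : ((#{x ∈ Ioc c (c + N) | (m : ℤ) ∣ x} : ℕ) : ℝ) =
      (⌊((c + N : ℤ) : ℝ) / m⌋ : ℝ) - (⌊(c : ℝ) / m⌋ : ℝ) := by exact_mod_cast h1
  rw [h2, show (N : ℝ) / m = ((c + N : ℤ) : ℝ) / m - (c : ℝ) / m by push_cast; ring, abs_le]
  have a1 := Int.floor_le (((c + N : ℤ) : ℝ) / m)
  have a2 := Int.lt_floor_add_one (((c + N : ℤ) : ℝ) / m)
  have b1 := Int.floor_le ((c : ℝ) / m)
  have b2 := Int.lt_floor_add_one ((c : ℝ) / m)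
  constructor <;> linarith

theorem Four9_rm_le (N : ℕ) (b : ℤ) {m : ℕ} (hm : 1 ≤ m) : |rm N b m| ≤ N := by
  have e : rm N b m = ∑ a ∈ Icc 1 N,
      (∑ n ∈ Icc 1 N, ind ((m : ℤ) ∣ ((a : ℤ) - b) + (n : ℤ)) - (N : ℝ) / m) := by
    unfold rm Tm
    rw [sum_product, sum_sub_distrib, sum_const, Nat.card_Icc, nsmul_eq_mul]
    congr 1
    · refine sum_congr rfl fun a _ => sum_congr rfl fun n _ => ?_
      congr 2
      ring
    · simp only [Nat.add_sub_cancel]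
      ring
  rw [e]
  refine (abs_sum_le_sum_abs _ _).trans ?_
  refine (sum_le_sum fun a _ => Four9_count N _ hm).trans ?_
  simp

theorem Four9_norm_Gf_le (N : ℕ) (θ : ℝ) : ‖Gf N θ‖ ≤ N := by
  unfold Gf
  refine (norm_sum_le _ _).trans ?_
  simp

theorem Four9_ee_sub_one {θ : ℝ} (h1 : |θ| ≤ 1 / 2) : 4 * |θ| ≤ ‖ee θ - 1‖ := by
  unfold ee
  rw [Complex.norm_exp_I_mul_ofReal_sub_one, Real.norm_eq_abs, abs_mul]
  have hpi := Real.pi_pos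
  have h2 : |2 * Real.pi * θ / 2| = Real.pi * |θ| := by
    rw [show 2 * Real.pi * θ / 2 = Real.pi * θ by ring, abs_mul, abs_of_pos hpi]
  have h3 := Real.mul_abs_le_abs_sin (x := 2 * Real.pi * θ / 2) (by rw [h2]; nlinarith)
  rw [h2, show 2 / Real.pi * (Real.pi * |θ|) = 2 * |θ| by field_simp] at h3
  rw [abs_two]
  linarith

theorem Four9_geom (N : ℕ) (θ : ℝ) : Gf N θ * (ee θ - 1) = ee ((N + 1) * θ) - ee θ := by
  induction N with
  | zero => simp [Gf]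
  | succ N ih =>
    have e : Gf (N + 1) θ = Gf N θ + ee ((N + 1) * θ) := by
      unfold Gf
      rw [sum_Icc_succ_top (by omega)]
      push_cast
      rfl
    rw [e, add_mul, ih, mul_sub, ← ee_add]
    push_cast
    rw [show ((N : ℝ) + 1) * θ + θ = (N + 1 + 1) * θ by ring]
    ring

theorem Four9_norm_Gf_le' (N : ℕ) {θ : ℝ} (h0 : θ ≠ 0) (h : |θ| ≤ 1 / 2) :
    ‖Gf N θ‖ ≤ 1 / (2 * |θ|) := by
  have hp : 0 < |θ| := abs_pos.2 h0
  have h1 := Four9_ee_sub_one h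
  have h2 : ‖Gf N θ‖ * ‖ee θ - 1‖ ≤ 2 := by
    rw [← norm_mul, Four9_geom]
    refine (norm_sub_le _ _).trans ?_
    simp only [norm_ee]
    norm_num
  rw [le_div_iff₀ (by positivity)]
  nlinarith [norm_nonneg (Gf N θ)]

theorem Four9_ee (a b : ℝ) : ‖ee a - ee b‖ ≤ 2 * Real.pi * |a - b| := by
  have e : ee a - ee b = ee b * (ee (a - b) - 1) := by
    rw [mul_sub, ← ee_add, mul_one, add_sub_cancel]
  rw [e, norm_mul, norm_ee, one_mul]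
  refine Real.norm_exp_I_mul_ofReal_sub_one_le.trans (le_of_eq ?_)
  rw [Real.norm_eq_abs, abs_mul, abs_of_pos (by positivity)]

theorem Four9_Gf_lip (N : ℕ) (θ θ' : ℝ) :
    ‖Gf N θ - Gf N θ'‖ ≤ 2 * Real.pi * (N : ℝ) ^ 2 * |θ - θ'| := by
  unfold Gf
  rw [← sum_sub_distrib]
  refine (norm_sum_le _ _).trans ?_
  have h : ∀ n ∈ Icc 1 N, ‖ee (n * θ) - ee (n * θ')‖ ≤ 2 * Real.pi * N * |θ - θ'| := by
    intro n hn
    refine (Four9_ee _ _).trans ?_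
    have h1 : (n : ℝ) ≤ N := by exact_mod_cast (mem_Icc.1 hn).2
    rw [← mul_sub, abs_mul, Nat.abs_cast, ← mul_assoc]
    gcongr
  refine (sum_le_sum h).trans (le_of_eq ?_)
  simp only [sum_const, Nat.card_Icc, Nat.add_sub_cancel, nsmul_eq_mul]
  ring

theorem Four9_cf_le (N : ℕ) (h : ℤ) {x : ℝ} (hx : 0 < x) : ‖cf N h x‖ ≤ (N : ℝ) ^ 2 / x := by
  unfold cf
  rw [norm_div, norm_pow, Complex.norm_real, Real.norm_eq_abs, abs_of_pos hx]
  gcongr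
  exact Four9_norm_Gf_le _ _

theorem Four9_cf_lip (N : ℕ) {h : ℤ} {x x₀ η H : ℝ} (h0 : 0 < x₀) (h1 : x₀ ≤ x)
    (h2 : x ≤ x₀ * (1 + η)) (hh : |(h : ℝ)| ≤ H) :
    ‖cf N h x - cf N h x₀‖ ≤ (N : ℝ) ^ 2 / x₀ * (η * (1 + 13 * N * H / x₀)) := by
  have hx : 0 < x := h0.trans_le h1
  have hη : 0 ≤ η := by nlinarith
  have hH : 0 ≤ H := (abs_nonneg _).trans hh
  have hN : (0 : ℝ) ≤ N := Nat.cast_nonneg N
  have hd : |1 / x - 1 / x₀| ≤ η / x₀ := by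
    rw [abs_sub_comm, abs_of_nonneg (sub_nonneg.2 (one_div_le_one_div_of_le h0 h1)),
      div_sub_div _ _ h0.ne' hx.ne', div_le_div_iff₀ (by positivity) h0]
    have : x₀ * η ≤ x * η := mul_le_mul_of_nonneg_right h1 hη
    nlinarith
  set A := Gf N (h / x)
  set B := Gf N (h / x₀)
  have hA : ‖A‖ ≤ N := Four9_norm_Gf_le _ _
  have hB : ‖B‖ ≤ N := Four9_norm_Gf_le _ _
  have hAB : ‖A - B‖ ≤ 2 * Real.pi * (N : ℝ) ^ 2 * (H * (η / x₀)) := by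
    refine (Four9_Gf_lip N _ _).trans ?_
    rw [show (h : ℝ) / x - h / x₀ = h * (1 / x - 1 / x₀) by ring, abs_mul]
    gcongr
  have e : cf N h x - cf N h x₀ =
      A ^ 2 * ((1 / x - 1 / x₀ : ℝ) : ℂ) + (A + B) * (A - B) * ((1 / x₀ : ℝ) : ℂ) := by
    unfold cf
    push_cast
    ring
  rw [e]
  refine (norm_add_le _ _).trans ?_
  rw [norm_mul, norm_mul, norm_mul, norm_pow, Complex.norm_real, Complex.norm_real,
    Real.norm_eq_abs, Real.norm_eq_abs, abs_of_pos (show 0 < 1 / x₀ by positivity)]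
  have t1 : ‖A‖ ^ 2 * |1 / x - 1 / x₀| ≤ (N : ℝ) ^ 2 * (η / x₀) := by gcongr
  have t0 : ‖A + B‖ ≤ 2 * N := (norm_add_le _ _).trans (by linarith)
  have t2 : ‖A + B‖ * ‖A - B‖ * (1 / x₀) ≤
      2 * N * (2 * Real.pi * (N : ℝ) ^ 2 * (H * (η / x₀))) * (1 / x₀) := by gcongr
  have t3 : 2 * N * (2 * Real.pi * (N : ℝ) ^ 2 * (H * (η / x₀))) * (1 / x₀) ≤
      2 * N * (2 * 3.15 * (N : ℝ) ^ 2 * (H * (η / x₀))) * (1 / x₀) := by
    gcongr
    exact Real.pi_lt_d2.le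
  have t4 : 0 ≤ (N : ℝ) ^ 3 * H * η / x₀ ^ 2 := by positivity
  have e1 : 2 * N * (2 * 3.15 * (N : ℝ) ^ 2 * (H * (η / x₀))) * (1 / x₀) =
      12.6 * ((N : ℝ) ^ 3 * H * η / x₀ ^ 2) := by
    field_simp
    ring
  have e2 : (N : ℝ) ^ 2 / x₀ * (η * (1 + 13 * N * H / x₀)) =
      (N : ℝ) ^ 2 * (η / x₀) + 13 * ((N : ℝ) ^ 3 * H * η / x₀ ^ 2) := by
    field_simp
  rw [e2]
  linarith

end Crest.Agent.R001
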