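import Crest.Agent.R001.Inv1
import Crest.Agent.R001.FourAux9

set_option autoImplicit false

namespace Crest.Agent.R001

open Finset Filter Crest.Agent.R008 Crest.Agent.R026

/-! # Fourier expansion of the remainders -/

/-- For fixed `n₁` the number of `n₂ ∈ [1, N]` in a residue class is `N / m ± 1`
(`Int.Ioc_filter_modEq_card`, `Nat.count_modEq_card`). -/
theorem rm_le (N : ℕ) (b : ℤ) {m : ℕ} (hm : 1 ≤ m) : |rm N b m| ≤ N :=
  Four9_rm_le N b hm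

theorem norm_Gf_le (N : ℕ) (θ : ℝ) : ‖Gf N θ‖ ≤ N :=
  Four9_norm_Gf_le N θ

/-- Geometric sum: `‖Gf‖ ≤ 2 / ‖e(θ) - 1‖ = 1 / |sin π θ| ≤ 1 / (2 |θ|)`. -/
theorem norm_Gf_le' (N : ℕ) {θ : ℝ} (h0 : θ ≠ 0) (h : |θ| ≤ 1 / 2) : ‖Gf N θ‖ ≤ 1 / (2 * |θ|) :=
  Four9_norm_Gf_le' N h0 h

theorem Gf_lip (N : ℕ) (θ θ' : ℝ) : ‖Gf N θ - Gf N θ'‖ ≤ 2 * Real.pi * (N : ℝ) ^ 2 * |θ - θ'| :=
  Four9_Gf_lip N θ θ'

theorem cf_le (N : ℕ) (h : ℤ) {x : ℝ} (hx : 0 < x) : ‖cf N h x‖ ≤ (N : ℝ) ^ 2 / x :=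
  Four9_cf_le N h hx

theorem cf_lip (N : ℕ) {h : ℤ} {x x₀ η H : ℝ} (h0 : 0 < x₀) (h1 : x₀ ≤ x) (h2 : x ≤ x₀ * (1 + η))
    (hh : |(h : ℝ)| ≤ H) :
    ‖cf N h x - cf N h x₀‖ ≤ (N : ℝ) ^ 2 / x₀ * (η * (1 + 13 * N * H / x₀)) :=
  Four9_cf_lip N h0 h1 h2 hh

theorem four63_orth (a c : ℤ) {m : ℕ} (hm : 1 ≤ m) :
    ∑ h ∈ Ico c (c + m), ee ((h : ℝ) * a / m) = if (m : ℤ) ∣ a then (m : ℂ) else 0 := by
  have hm0 : (m : ℝ) ≠ 0 := by positivity
  rw [Int.Ico_eq_finset_map, sum_map]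
  have h1 : (c + m - c).toNat = m := by simp
  rw [h1]
  have h2 : ∀ t ∈ range m, ee ((((Nat.castEmbedding.trans <| addLeftEmbedding c) t : ℤ) : ℝ) * a / m) =
      ee ((c : ℝ) * a / m) * ee ((t : ℝ) * a / m) := by
    intro t _
    rw [← ee_add]
    congr 1
    simp only [Function.Embedding.trans_apply, Nat.castEmbedding_apply, addLeftEmbedding_apply]
    push_cast; ring
  rw [sum_congr rfl h2, ← mul_sum, sum_ee_range hm]
  split_ifs with h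
  · obtain ⟨k, rfl⟩ := h
    have : (c : ℝ) * ((m * k : ℤ) : ℝ) / m = ((c * k : ℤ) : ℝ) := by push_cast; field_simp
    rw [this, ee_int, one_mul]
  · simp

theorem four63_tail {H : ℕ} (hH : 1 ≤ H) (R : Finset ℤ) (hR : ∀ h ∈ R, (H : ℤ) ≤ |h|) :
    ∑ h ∈ R, (1 : ℝ) / (h : ℝ) ^ 2 ≤ 4 / H := by
  classical
  have key : ∀ T : Finset ℤ, T ⊆ R → Set.InjOn Int.natAbs T → ∑ h ∈ T, (1 : ℝ) / (h : ℝ) ^ 2 ≤ 2 / H := by
    intro T hT hinj
    have h1 : ∑ h ∈ T, (1 : ℝ) / (h : ℝ) ^ 2 = ∑ n ∈ T.image Int.natAbs, (1 : ℝ) / (n : ℝ) ^ 2 := by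
      rw [sum_image hinj]
      refine sum_congr rfl fun h _ => ?_
      rw [Nat.cast_natAbs, Int.cast_abs, sq_abs]
    rw [h1]
    refine sum_inv_sq_le H (by exact_mod_cast hH) _ fun n hn => ?_
    obtain ⟨h, hh, rfl⟩ := mem_image.1 hn
    have := hR h (hT hh)
    rw [Nat.cast_natAbs]
    exact_mod_cast this
  rw [← sum_filter_add_sum_filter_not R (fun h => 0 ≤ h)]
  have h1 := key (R.filter fun h => 0 ≤ h) (filter_subset _ _) fun a ha b hb hab => by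
    have := (mem_filter.1 ha).2
    have := (mem_filter.1 hb).2
    omega
  have h2 := key (R.filter fun h => ¬ 0 ≤ h) (filter_subset _ _) fun a ha b hb hab => by
    have := (mem_filter.1 ha).2
    have := (mem_filter.1 hb).2
    omega
  have h3 : (4 : ℝ) / H = 2 / H + 2 / H := by ring
  linarith

/-- `Tm = ∑_h cf h m e(-h b / m)` over any complete residue system, e.g.
`h ∈ Ioc (-(m/2) - …)`: shift `sum_ee_range` to the `m` consecutive integers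
`c ≤ h < c + m`. -/
theorem Tm_eq (N : ℕ) (b c : ℤ) {m : ℕ} (hm : 1 ≤ m) :
    (Tm N b m : ℂ) = ∑ h ∈ Ico c (c + m), cf N h m * ee (((-h * b : ℤ) : ℝ) / m) := by
  have hm0 : (m : ℂ) ≠ 0 := by exact_mod_cast (by omega : m ≠ 0)
  have h1 : ∀ h : ℤ, cf N h m * ee (((-h * b : ℤ) : ℝ) / m) =
      ∑ i ∈ Icc 1 N ×ˢ Icc 1 N, ee ((h : ℝ) * (((i.1 : ℤ) + i.2 - b : ℤ) : ℝ) / m) / m := by
    intro h
    unfold cf Gf
    rw [sq, sum_mul_sum, ← sum_product', div_mul_eq_mul_div, sum_mul, sum_div]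
    refine sum_congr rfl fun i _ => ?_
    rw [← ee_add, ← ee_add]
    congr 2
    push_cast; ring
  simp only [h1]
  rw [sum_comm]
  unfold Tm
  push_cast
  refine sum_congr rfl fun i _ => ?_
  have h2 := four63_orth ((i.1 : ℤ) + i.2 - b) c hm
  push_cast at h2
  rw [← sum_div, h2]
  split_ifs with h
  · rw [ind_pos h, div_self hm0]; simp
  · rw [ind_neg h]; simp

/-- `Tm_eq` with `c = -(m / 2)`; `h = 0` gives the main term, the terms `|h| > H` are at most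
`m / (4 h²)` by `norm_Gf_le'`. -/
theorem four (N : ℕ) (b : ℤ) {m H : ℕ} (hH : 1 ≤ H) (hm : 2 * H < m) :
    ‖(rm N b m : ℂ) - ∑ h ∈ Hs H, cf N h m * ee (((-h * b : ℤ) : ℝ) / m)‖ ≤ m / H := by
  classical
  have hm1 : 1 ≤ m := by omega
  have hm0 : (0 : ℝ) < m := by exact_mod_cast hm1
  set F : ℤ → ℂ := fun h => cf N h m * ee (((-h * b : ℤ) : ℝ) / m) with hF
  set c : ℤ := -((m / 2 : ℕ) : ℤ) with hc
  have hsub : Icc (-(H : ℤ)) H ⊆ Ico c (c + m) := by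
    intro h hh
    rw [mem_Icc] at hh
    rw [mem_Ico]
    omega
  have h0 : (0 : ℤ) ∈ Icc (-(H : ℤ)) H := by rw [mem_Icc]; omega
  have hF0 : F 0 = (N : ℂ) ^ 2 / m := by simp [hF, cf, Gf]
  have h1 : (rm N b m : ℂ) - ∑ h ∈ Hs H, F h = ∑ h ∈ Ico c (c + m) \ Icc (-(H : ℤ)) H, F h := by
    have h2 := Tm_eq N b c hm1
    have h3 := sum_sdiff (f := F) hsub
    have h4 := add_sum_erase _ F h0
    unfold rm Hs
    push_cast
    rw [h2]
    linear_combination -h3 - h4 + hF0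
  rw [h1]
  refine (norm_sum_le _ _).trans ?_
  have h5 : ∀ h ∈ Ico c (c + m) \ Icc (-(H : ℤ)) H, ‖F h‖ ≤ (m : ℝ) / 4 * (1 / (h : ℝ) ^ 2) := by
    intro h hh
    rw [Finset.mem_sdiff, mem_Ico, mem_Icc] at hh
    have hne : h ≠ 0 := by omega
    have hne' : (h : ℝ) ≠ 0 := by exact_mod_cast hne
    have hb : 2 * |h| ≤ m := by
      rcases abs_cases h with h' | h' <;> omega
    have hb' : 2 * |(h : ℝ)| ≤ m := by exact_mod_cast hb
    have hθ : |(h : ℝ) / m| ≤ 1 / 2 := by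
      rw [abs_div, abs_of_pos hm0, div_le_iff₀ hm0]; linarith
    have h6 := norm_Gf_le' N (div_ne_zero hne' hm0.ne') hθ
    have h7 : ‖F h‖ = ‖Gf N ((h : ℝ) / m)‖ ^ 2 / m := by simp [hF, cf]
    rw [h7, div_le_iff₀ hm0]
    refine (pow_le_pow_left₀ (norm_nonneg _) h6 2).trans (le_of_eq ?_)
    rw [div_pow, mul_pow, sq_abs]
    field_simp
    ring
  refine (sum_le_sum h5).trans ?_
  rw [← mul_sum]
  have h8 := four63_tail hH (Ico c (c + m) \ Icc (-(H : ℤ)) H) fun h hh => by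
    rw [Finset.mem_sdiff, mem_Ico, mem_Icc] at hh
    rcases abs_cases h with h' | h' <;> omega
  calc (m : ℝ) / 4 * _ ≤ m / 4 * (4 / H) := mul_le_mul_of_nonneg_left h8 (by positivity)
    _ = m / H := by ring

theorem card_Hs (H : ℕ) : (Hs H).card = 2 * H := by
  unfold Hs
  rw [card_erase_of_mem (by rw [mem_Icc]; omega), Int.card_Icc]
  omega

theorem mem_Hs {H : ℕ} {h : ℤ} : h ∈ Hs H ↔ h ≠ 0 ∧ |h| ≤ H := by
  unfold Hs
  rw [mem_erase, mem_Icc, abs_le]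

end Crest.Agent.R001
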