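import Crest.Agent.R001.Unc
import Crest.Agent.R001.Four

set_option autoImplicit false

namespace Crest.Agent.R001

open Finset Filter Crest.Agent.R008 Crest.Agent.R026

/-- One modulus: Fourier expansion with the coefficients frozen at `M₀`. -/
theorem A1_57_one (N : ℕ) (b : ℤ) {M H : ℕ} (hH : 1 ≤ H) (hM : 2 * H < M) {M₀ η : ℝ}
    (h0 : 0 < M₀) (h1 : M₀ ≤ M) (h2 : (M : ℝ) ≤ M₀ * (1 + η)) :
    ‖(rm N b M : ℂ) - ∑ h ∈ Hs H, cf N h M₀ * ee (((-h * b : ℤ) : ℝ) / M)‖ ≤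
      M / H + 2 * H * ((N : ℝ) ^ 2 / M₀ * (η * (1 + 13 * N * H / M₀))) := by
  have e : (rm N b M : ℂ) - ∑ h ∈ Hs H, cf N h M₀ * ee (((-h * b : ℤ) : ℝ) / M) =
      ((rm N b M : ℂ) - ∑ h ∈ Hs H, cf N h M * ee (((-h * b : ℤ) : ℝ) / M)) +
        ∑ h ∈ Hs H, (cf N h M - cf N h M₀) * ee (((-h * b : ℤ) : ℝ) / M) := by
    simp only [sub_mul, sum_sub_distrib]; ring
  rw [e]
  refine (norm_add_le _ _).trans (add_le_add (four N b hH hM) ?_)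
  refine (norm_sum_le _ _).trans ?_
  calc _ ≤ ∑ _h ∈ Hs H, (N : ℝ) ^ 2 / M₀ * (η * (1 + 13 * N * H / M₀)) := by
        refine sum_le_sum fun h hh => ?_
        rw [norm_mul, norm_ee, mul_one]
        refine cf_lip N h0 h1 h2 ?_
        exact_mod_cast (mem_Hs.1 hh).2
    _ = _ := by rw [sum_const, card_Hs, nsmul_eq_mul]; push_cast; ring

theorem A1_57_neg {H : ℕ} (F : ℤ → ℝ) : ∑ h ∈ Hs H, F (-h) = ∑ h ∈ Hs H, F h := by
  refine sum_bij' (fun h _ => -h) (fun h _ => -h) ?_ ?_ ?_ ?_ ?_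
  · intro h hh; rw [mem_Hs] at hh ⊢; exact ⟨neg_ne_zero.2 hh.1, by rw [abs_neg]; exact hh.2⟩
  · intro h hh; rw [mem_Hs] at hh ⊢; exact ⟨neg_ne_zero.2 hh.1, by rw [abs_neg]; exact hh.2⟩
  · intro h _; exact neg_neg h
  · intro h _; exact neg_neg h
  · intro h _; rfl

/-- The numerical bound for the freezing error. -/
theorem A1_57_num {N H M₀ η r Z D : ℝ} (hN : 0 ≤ N) (hH : 0 ≤ H) (h0 : 0 < M₀) (hη : 0 ≤ η)
    (hr : 0 < r) (hZ : 0 ≤ Z) (h1 : r ≤ 2 * M₀) (h2 : N ≤ Z * D) (h3 : D < r * Z ^ 2) :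
    2 * H * (N ^ 2 / M₀ * (η * (1 + 13 * N * H / M₀))) ≤
      N ^ 2 * (4 * H * (η * (1 + 26 * Z ^ 3 * H))) * (1 / r) := by
  have a1 : 1 / M₀ ≤ 2 * (1 / r) := by
    rw [mul_one_div, div_le_div_iff₀ h0 hr]; linarith
  have a2 : N / M₀ ≤ 2 * Z ^ 3 := by
    rw [div_le_iff₀ h0]
    have : Z * D ≤ Z * (r * Z ^ 2) := mul_le_mul_of_nonneg_left h3.le hZ
    have h4 : Z * (r * Z ^ 2) ≤ Z * (2 * M₀ * Z ^ 2) := by gcongr
    nlinarith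
  have a3 : 13 * N * H / M₀ ≤ 26 * Z ^ 3 * H := by
    have : 13 * N * H / M₀ = 13 * H * (N / M₀) := by ring
    rw [this]
    nlinarith
  calc 2 * H * (N ^ 2 / M₀ * (η * (1 + 13 * N * H / M₀)))
      = 2 * H * N ^ 2 * η * ((1 / M₀) * (1 + 13 * N * H / M₀)) := by ring
    _ ≤ 2 * H * N ^ 2 * η * ((2 * (1 / r)) * (1 + 26 * Z ^ 3 * H)) := by gcongr
    _ = _ := by ring

namespace AP

variable {g : AP}

theorem A1_57_cls (h : g.OK) {H : ℕ} (hH : 1 ≤ H) (hHD : 2 * H * g.Z ^ 2 ≤ g.D) {p m : ℕ}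
    {ι : Fin (g.n + 1) → ℕ} {ν : Finset ℕ} (hp : p ∈ g.P) (hι : ι ∈ g.Idx) (hν : ν ⊆ g.P)
    (hc : g.Cls p ι ν) (hm : 1 ≤ m) (hmZ : (m : ℝ) ≤ g.Z) :
    |∑ x ∈ g.cells ι, rm g.N g.b (pr (g.join ν x) * p * m)| ≤
      ∑ x ∈ g.cells ι, (g.D * g.Z / H + (g.N : ℝ) ^ 2 * (4 * H *
        (2 * ((g.n : ℝ) + 1) / g.J * (1 + 26 * g.Z ^ 3 * H))) * (1 / ((pr (g.join ν x) : ℝ) * p))) +
      ∑ k ∈ Hs H, (g.N : ℝ) ^ 2 / (p * g.U ι * pr ν) * ‖g.Ex k (p * m) (pr ν) ι‖ := by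
  obtain ⟨hZ1, -, -, hD1, -, hJ1⟩ := h.basic
  have hJ : (8 : ℝ) * (g.n + 4) ≤ g.J := by exact_mod_cast h.nJ
  have hJ0 : (0 : ℝ) < g.J := by exact_mod_cast hJ1
  obtain ⟨η, hη⟩ : ∃ η : ℝ, η = 2 * ((g.n : ℝ) + 1) / g.J := ⟨_, rfl⟩
  have hη0 : 0 ≤ η := by rw [hη]; positivity
  have hη1 : η ≤ 1 := by
    rw [hη, div_le_one hJ0]; linarith [Nat.cast_nonneg (α := ℝ) g.n]
  rw [← hη]
  have hp0 : (0 : ℝ) < p := by exact_mod_cast (mem_filter.1 hp).2.pos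
  have hv0 : (0 : ℝ) < pr ν := by
    exact_mod_cast pr_pos fun q hq => (mem_filter.1 (hν hq)).2
  have hU0 : 0 < g.U ι := Real.exp_pos _
  have hm1 : (1 : ℝ) ≤ m := by exact_mod_cast hm
  have hH0 : (0 : ℝ) < H := by exact_mod_cast hH
  obtain ⟨M₀, hM₀⟩ : ∃ M₀ : ℝ, M₀ = p * g.U ι * pr ν * m := ⟨_, rfl⟩
  have h0 : 0 < M₀ := by rw [hM₀]; positivity
  have key : ∀ x ∈ g.cells ι,
      ‖(rm g.N g.b (pr (g.join ν x) * p * m) : ℂ) - ∑ k ∈ Hs H, cf g.N k M₀ *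
        ee (((-k * g.b : ℤ) : ℝ) / (((p * m : ℕ) : ℝ) * ((∏ j, x j : ℕ) : ℝ) * pr ν))‖ ≤
      g.D * g.Z / H + (g.N : ℝ) ^ 2 * (4 * H * (η * (1 + 26 * g.Z ^ 3 * H))) *
        (1 / ((pr (g.join ν x) : ℝ) * p)) := by
    intro x hx
    obtain ⟨f1, f2⟩ := fam_le h hp (join_sub h hι hx hν) (hc.2 x hx)
    obtain ⟨c1, c2⟩ := prod_cells h hι hx
    rw [← hη] at c2
    have e1 : (pr (g.join ν x) : ℝ) = pr ν * ((∏ j, x j : ℕ) : ℝ) := by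
      rw [cls_pr h hι hx hc, Nat.cast_mul]
    have e2 : ((pr (g.join ν x) * p * m : ℕ) : ℝ) =
        ((p * m : ℕ) : ℝ) * ((∏ j, x j : ℕ) : ℝ) * pr ν := by
      rw [Nat.cast_mul, Nat.cast_mul, e1, Nat.cast_mul]; ring
    have e3 : ((pr (g.join ν x) * p * m : ℕ) : ℝ) = (pr (g.join ν x) : ℝ) * p * m := by
      rw [Nat.cast_mul, Nat.cast_mul]
    have e4 : ((pr (g.join ν x) * p * m : ℕ) : ℝ) =
        (p * pr ν * m) * ((∏ j, x j : ℕ) : ℝ) := by rw [e3, e1]; ring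
    have hr0 : (0 : ℝ) < (pr (g.join ν x) : ℝ) * p := by
      rw [e1]; have := hU0.trans_le c1; positivity
    have l1 : M₀ ≤ ((pr (g.join ν x) * p * m : ℕ) : ℝ) := by
      rw [e4, hM₀]
      calc p * g.U ι * pr ν * m = (p * pr ν * m) * g.U ι := by ring
        _ ≤ _ := by gcongr
    have l2 : ((pr (g.join ν x) * p * m : ℕ) : ℝ) ≤ M₀ * (1 + η) := by
      rw [e4, hM₀]
      calc _ ≤ (p * pr ν * m) * (g.U ι * (1 + η)) := by gcongr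
        _ = _ := by ring
    have l3 : (pr (g.join ν x) : ℝ) * p ≤ ((pr (g.join ν x) * p * m : ℕ) : ℝ) := by
      rw [e3]; exact le_mul_of_one_le_right hr0.le hm1
    have l4 : 2 * H < pr (g.join ν x) * p * m := by
      have : 2 * (H : ℝ) < (pr (g.join ν x) : ℝ) * p :=
        lt_of_mul_lt_mul_right (hHD.trans_lt f2) (by positivity)
      have := this.trans_le l3
      exact_mod_cast this
    have l5 : ((pr (g.join ν x) * p * m : ℕ) : ℝ) ≤ g.D * g.Z := by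
      rw [e3]; gcongr
    have l6 : (pr (g.join ν x) : ℝ) * p ≤ 2 * M₀ := by nlinarith
    rw [← e2]
    refine (A1_57_one g.N g.b hH l4 h0 l1 l2).trans (add_le_add (by gcongr) ?_)
    exact A1_57_num (Nat.cast_nonneg _) hH0.le h0 hη0 hr0 (by linarith) l6 h.NZ f2
  have e : ((∑ x ∈ g.cells ι, rm g.N g.b (pr (g.join ν x) * p * m) : ℝ) : ℂ) =
      ∑ x ∈ g.cells ι, ((rm g.N g.b (pr (g.join ν x) * p * m) : ℂ) - ∑ k ∈ Hs H, cf g.N k M₀ *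
        ee (((-k * g.b : ℤ) : ℝ) / (((p * m : ℕ) : ℝ) * ((∏ j, x j : ℕ) : ℝ) * pr ν))) +
      ∑ k ∈ Hs H, cf g.N k M₀ * g.Ex (-k) (p * m) (pr ν) ι := by
    unfold Ex
    simp only [mul_sum]
    rw [sum_sub_distrib, sum_comm (s := Hs H), sub_add_cancel, Complex.ofReal_sum]
  rw [← Real.norm_eq_abs, ← Complex.norm_real, e]
  refine (norm_add_le _ _).trans (add_le_add ((norm_sum_le _ _).trans (sum_le_sum key)) ?_)
  rw [← A1_57_neg (fun k => (g.N : ℝ) ^ 2 / (p * g.U ι * pr ν) * ‖g.Ex k (p * m) (pr ν) ι‖)]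
  refine (norm_sum_le _ _).trans (sum_le_sum fun k _ => ?_)
  rw [norm_mul]
  refine mul_le_mul_of_nonneg_right ((cf_le g.N k h0).trans ?_) (norm_nonneg _)
  rw [hM₀]
  exact div_le_div_of_nonneg_left (by positivity) (by positivity)
    (le_mul_of_one_le_right (by positivity) hm1)

end AP

end Crest.Agent.R001
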