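import Crest.Agent.R001.Unc
import Crest.Agent.R001.Four
import Crest.Agent.R001.A1Aux57
import Crest.Agent.R001.A1Aux48

set_option autoImplicit false

namespace Crest.Agent.R001

open Finset Filter Crest.Agent.R008 Crest.Agent.R026

/-! # The sieve step and the bias -/

/-- Pairs with a given sum: at most `N`. -/
theorem Sw_le (X : ℕ) (b : ℤ) (w z : ℝ) :
    Sw (X / 2) b (primesIoc w z) ≤ ((X / 2 : ℕ) : ℝ) * surv X b w z := by
  exact A1a48_Sw_le X b w z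

/-- The number of pairs counted by the boundary node `(ν, p)`. -/
noncomputable def Sb (N : ℕ) (b : ℤ) (P ν : Finset ℕ) (p : ℕ) : ℝ :=
  ∑ i ∈ Icc 1 N ×ˢ Icc 1 N, ind (((pr ν * p : ℕ) : ℤ) ∣ (i.1 : ℤ) + i.2 - b ∧
    ∀ q ∈ P, q < p → ¬ (q : ℤ) ∣ (i.1 : ℤ) + i.2 - b)

/-- `ident 1` for `n = P.filter (· ∣ n₁ + n₂ - b)` summed over the pairs; `rm_le`, `valid_le`,
`card_pr_le`. -/
theorem sw_ge (N : ℕ) (b : ℤ) {w D z : ℝ} (hw : 0 ≤ w) (hD : 1 ≤ D) (hz : z ≤ D) :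
    (N : ℝ) ^ 2 * Main 1 w D z - D * N + ∑ p ∈ primesIoc w z, ∑ ν ∈ (primesIoc w z).powerset,
      ind (Bd 1 D ν p) * Sb N b (primesIoc w z) ν p ≤ Sw N b (primesIoc w z) := by
  rw [A1a48_Sw_eq N b D (P := primesIoc w z) fun q hq => (mem_filter.1 hq).2]
  exact add_le_add (A1a48_main N b hD hz) le_rfl

theorem a1_62_pr_dvd {s : Finset ℕ} (hs : ∀ q ∈ s, q.Prime) (m : ℤ) :
    ((pr s : ℕ) : ℤ) ∣ m ↔ ∀ q ∈ s, (q : ℤ) ∣ m := by
  simp only [Int.natCast_dvd]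
  exact ⟨fun h q hq => (dvd_prod_of_mem (fun p => p) hq).trans h,
    fun h => prod_primes_dvd _ (fun q hq => (hs q hq).prime) h⟩

theorem a1_62_dvd {P ν e : Finset ℕ} {p : ℕ} (hP : ∀ q ∈ P, q.Prime) (hp : p ∈ P)
    (hν : ν ⊆ P) (hlt : ∀ q ∈ ν, p < q) (he : e ⊆ P.filter (fun q => q < p)) (m : ℤ) :
    ((pr ν * p * pr e : ℕ) : ℤ) ∣ m ↔ ((pr ν * p : ℕ) : ℤ) ∣ m ∧
      e ⊆ (P.filter (fun q => q < p)).filter (fun q : ℕ => (q : ℤ) ∣ m) := by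
  have heP : ∀ q ∈ e, q.Prime := fun q hq => hP q (mem_filter.1 (he hq)).1
  have hcop : Nat.Coprime (pr ν * p) (pr e) := by
    refine Nat.Coprime.prod_right fun q hq => ?_
    have hqp : q < p := (mem_filter.1 (he hq)).2
    refine Nat.Coprime.mul_left (Nat.Coprime.prod_left fun r hr => ?_) ?_
    · exact (Nat.coprime_primes (hP r (hν hr)) (heP q hq)).2 (by have := hlt r hr; omega)
    · exact (Nat.coprime_primes (hP p hp) (heP q hq)).2 (by omega)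
  constructor
  · intro h
    rw [Nat.cast_mul] at h
    refine ⟨(Dvd.intro _ rfl).trans h, fun q hq => mem_filter.2 ⟨he hq, ?_⟩⟩
    exact (a1_62_pr_dvd heP m).1 ((Dvd.intro_left _ rfl).trans h) q hq
  · rintro ⟨h1, h2⟩
    rw [Nat.cast_mul]
    exact (Nat.isCoprime_iff_coprime.2 hcop).mul_dvd h1
      ((a1_62_pr_dvd heP m).2 fun q hq => (mem_filter.1 (h2 hq)).2)

/-- The lower bound sieve for one boundary node: `LW.low` with `n = Pp.filter (· ∣ n₁ + n₂ - b)`,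
`pr ν * p` is coprime to `pr e`. -/
theorem sb_ge (N : ℕ) (b : ℤ) {P ν : Finset ℕ} {p : ℕ} (hP : ∀ q ∈ P, q.Prime) (hp : p ∈ P)
    (hν : ν ⊆ P) (hlt : ∀ q ∈ ν, p < q) {E : ℝ} {c : Finset ℕ → ℝ}
    (hc : LW (P.filter (fun q => q < p)) E c) :
    (N : ℝ) ^ 2 / ((pr ν : ℝ) * p) * ∑ e ∈ (P.filter (fun q => q < p)).powerset, c e / pr e +
      ∑ e ∈ (P.filter (fun q => q < p)).powerset, c e * rm N b (pr ν * p * pr e) ≤
      Sb N b P ν p := by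
  have e1 : (N : ℝ) ^ 2 / ((pr ν : ℝ) * p) * ∑ e ∈ (P.filter (fun q => q < p)).powerset, c e / pr e +
      ∑ e ∈ (P.filter (fun q => q < p)).powerset, c e * rm N b (pr ν * p * pr e) =
      ∑ e ∈ (P.filter (fun q => q < p)).powerset, c e * Tm N b (pr ν * p * pr e) := by
    rw [mul_sum, ← sum_add_distrib]
    refine sum_congr rfl fun e _ => ?_
    unfold rm
    push_cast
    ring
  rw [e1]
  unfold Tm Sb
  simp only [mul_sum]
  rw [sum_comm]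
  refine sum_le_sum fun i _ => ?_
  obtain ⟨m, hm⟩ : ∃ m : ℤ, m = (i.1 : ℤ) + i.2 - b := ⟨_, rfl⟩
  rw [← hm]
  have h1 := hc.low _ (filter_subset (fun q : ℕ => (q : ℤ) ∣ m) _)
  have e2 : ∑ e ∈ (P.filter (fun q => q < p)).powerset,
      c e * ind (((pr ν * p * pr e : ℕ) : ℤ) ∣ m) = ind (((pr ν * p : ℕ) : ℤ) ∣ m) *
      ∑ e ∈ (P.filter (fun q => q < p)).powerset, c e *
        ind (e ⊆ (P.filter (fun q => q < p)).filter (fun q : ℕ => (q : ℤ) ∣ m)) := by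
    rw [mul_sum]
    refine sum_congr rfl fun e he => ?_
    rw [ind_congr (a1_62_dvd hP hp hν hlt (mem_powerset.1 he) m), ind_and]
    ring
  rw [e2, ind_and]
  refine mul_le_mul_of_nonneg_left (h1.trans (ind_mono fun h q hq hqp hd => ?_)) (ind_nonneg _)
  have : q ∈ (P.filter (fun q => q < p)).filter (fun q : ℕ => (q : ℤ) ∣ m) :=
    mem_filter.2 ⟨mem_filter.2 ⟨hq, hqp⟩, hd⟩
  rw [h] at this
  exact notMem_empty _ this

/-- Weights for all `p ≤ y`: `fl_low` with `g q = 1 / q`, `V_low`. -/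
theorem weights : ∃ (s : ℕ) (cV : ℝ), 0 < cV ∧ cV ≤ 1 ∧ ∀ (P : Finset ℕ) (y : ℝ), 1 ≤ y →
    (∀ q ∈ P, q.Prime ∧ 3 ≤ q) → ∃ c : ℕ → Finset ℕ → ℝ, ∀ p ∈ P, (p : ℝ) ≤ y →
      LW (P.filter (fun q => q < p)) (y ^ s) (c p) ∧
      cV / Real.log p ≤ ∑ e ∈ (P.filter (fun q => q < p)).powerset, c p e / pr e := by
  obtain ⟨s, -, hs⟩ := fl_low
  obtain ⟨c0, hc0, hc1, hV⟩ := V_low
  refine ⟨s, c0 / 2, by positivity, by linarith, fun P y hy hP => ?_⟩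
  have key : ∀ p : ℕ, ∃ c : Finset ℕ → ℝ, p ∈ P → (p : ℝ) ≤ y →
      LW (P.filter (fun q => q < p)) (y ^ s) c ∧
      c0 / 2 / Real.log p ≤ ∑ e ∈ (P.filter (fun q => q < p)).powerset, c e / pr e := by
    intro p
    by_cases hp : p ∈ P ∧ (p : ℝ) ≤ y
    · obtain ⟨hp, hpy⟩ := hp
      have hq : ∀ q ∈ P.filter (fun q => q < p), q.Prime ∧ (3 : ℝ) ≤ q ∧ (q : ℝ) ≤ p := by
        intro q hq
        obtain ⟨h1, h2⟩ := mem_filter.1 hq
        exact ⟨(hP q h1).1, by exact_mod_cast (hP q h1).2, by exact_mod_cast h2.le⟩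
      obtain ⟨c, h1, h2⟩ := hs y (P.filter (fun q => q < p)) (fun q => 1 / (q : ℝ)) hy (by
        intro q hq'
        obtain ⟨a1, a2, a3⟩ := hq q hq'
        have a4 : (0 : ℝ) < q := by linarith
        refine ⟨a1, a3.trans hpy, by positivity, ?_, ?_⟩
        · exact one_div_le_one_div_of_le (by norm_num) (by linarith)
        · exact div_le_div_of_nonneg_right (by norm_num) a4.le)
      refine ⟨c, fun _ _ => ⟨h1, ?_⟩⟩
      have h3 := hV p (P.filter (fun q => q < p)) (fun q => 1 / (q : ℝ))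
        (by have : (3 : ℝ) ≤ p := by exact_mod_cast (hP p hp).2
            linarith) (by
        intro q hq'
        obtain ⟨a1, a2, a3⟩ := hq q hq'
        exact ⟨a1, by exact_mod_cast a2, a3,
          one_div_le_one_div_of_le (by linarith) (by linarith)⟩)
      have e : ∑ e ∈ (P.filter (fun q => q < p)).powerset, c e / pr e =
          ∑ S ∈ (P.filter (fun q => q < p)).powerset, c S * ∏ p ∈ S, 1 / (p : ℝ) := by
        refine sum_congr rfl fun S _ => ?_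
        unfold pr
        rw [prod_div_distrib, prod_const_one, Nat.cast_prod, mul_one_div]
      rw [e, div_right_comm]
      linarith
    · exact ⟨fun _ => 0, fun h1 h2 => absurd ⟨h1, h2⟩ hp⟩
  choose c hc using key
  exact ⟨c, fun p hp hpy => hc p hp hpy⟩

namespace AP

variable {g : AP}

/-- The weights. -/
def Wt (g : AP) (cV : ℝ) (c : ℕ → Finset ℕ → ℝ) : Prop :=
  ∀ p ∈ g.P, (p : ℝ) ≤ g.y₂ → LW (g.Pp p) g.Z (c p) ∧
    cV / Real.log p ≤ ∑ e ∈ (g.Pp p).powerset, c p e / pr e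

/-- `sw_ge`, `csum_le` with `F = Sb`, `csum_mono`, `sb_ge`, `csum_add`, `csum_mul`. -/
theorem a1 (h : g.OK) {cV : ℝ} {c : ℕ → Finset ℕ → ℝ} (hc : g.Wt cV c) :
    (g.N : ℝ) ^ 2 * Main 1 g.w g.D g.z - g.D * g.N +
      (g.N : ℝ) ^ 2 * cV * g.csum (fun p ν => 1 / ((pr ν : ℝ) * p * Real.log p)) + g.Bias c ≤
      Sw g.N g.b g.P := by
  obtain ⟨-, -, hzD, hD, -, -⟩ := h.basic
  have hw : 0 ≤ g.w := by linarith [h.w10]
  have hz : 0 ≤ g.z := by linarith [h.basic.2.2.2.2.1]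
  have hP : ∀ q ∈ g.P, q.Prime := fun q hq => ((mem_primesIoc hw hz).1 hq).1
  have h1 := sw_ge g.N g.b hw hD hzD
  have hSb : ∀ p ν, 0 ≤ Sb g.N g.b g.P ν p := fun p ν => sum_nonneg fun _ _ => ind_nonneg _
  have h2 := csum_le h (fun p ν => Sb g.N g.b g.P ν p) hSb
  have h3 : ∑ p ∈ g.P, ∑ ν ∈ g.P.powerset, ind (g.Fam p ν) * Sb g.N g.b g.P ν p ≤
      ∑ p ∈ g.P, ∑ ν ∈ g.P.powerset, ind (Bd 1 g.D ν p) * Sb g.N g.b g.P ν p :=
    sum_le_sum fun p _ => sum_le_sum fun ν _ =>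
      mul_le_mul_of_nonneg_right (ind_mono fun hF => hF.1) (hSb p ν)
  have h4 : g.csum (fun p ν => (g.N : ℝ) ^ 2 * cV * (1 / ((pr ν : ℝ) * p * Real.log p)) +
      ∑ e ∈ (g.Pp p).powerset, c p e * rm g.N g.b (pr ν * p * pr e)) ≤
      g.csum (fun p ν => Sb g.N g.b g.P ν p) := by
    refine csum_mono fun p hp ι hι ν hν hcl x hx => ?_
    have hF := hcl.2 x hx
    obtain ⟨w1, w2⟩ := hc p hp hF.2.2.1
    have h5 := sb_ge g.N g.b hP hp (join_sub h hι hx hν) hF.1.1 w1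
    refine le_trans ?_ h5
    have h6 : (0 : ℝ) ≤ (g.N : ℝ) ^ 2 / ((pr (g.join ν x) : ℝ) * p) := by positivity
    have h7 := mul_le_mul_of_nonneg_left w2 h6
    have e : (g.N : ℝ) ^ 2 * cV * (1 / ((pr (g.join ν x) : ℝ) * p * Real.log p)) =
        (g.N : ℝ) ^ 2 / ((pr (g.join ν x) : ℝ) * p) * (cV / Real.log p) := by ring
    rw [e]
    exact add_le_add h7 le_rfl
  rw [csum_add, csum_mul] at h4
  unfold Bias
  unfold P at h2 h3 h4 ⊢
  linarith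

/-- One class, one `e` (with `m = pr e`).  For `x ∈ cells ι` the modulus is
`M x = p m (∏ x) v`, `v = pr ν` (`cls_pr`), `2 H < D / Z² < M x ≤ D Z` (`fam_le`); `four`; freeze
`cf N h (M x)` at `M₀ = p m U v` (`cf_lip` with `η = 2 (n+1) / J ≤ 1`, `prod_cells`,
`N / M₀ ≤ 2 Z³`, `1 / M₀ ≤ 2 / (pr (join ν x) p)`), `cf_le`; replace `h` by `-h`. -/
theorem a2_cls (h : g.OK) {H : ℕ} (hH : 1 ≤ H) (hHD : 2 * H * g.Z ^ 2 ≤ g.D) {p m : ℕ}
    {ι : Fin (g.n + 1) → ℕ} {ν : Finset ℕ} (hp : p ∈ g.P) (hι : ι ∈ g.Idx) (hν : ν ⊆ g.P)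
    (hc : g.Cls p ι ν) (hm : 1 ≤ m) (hmZ : (m : ℝ) ≤ g.Z) :
    |∑ x ∈ g.cells ι, rm g.N g.b (pr (g.join ν x) * p * m)| ≤
      ∑ x ∈ g.cells ι, (g.D * g.Z / H + (g.N : ℝ) ^ 2 * (4 * H *
        (2 * ((g.n : ℝ) + 1) / g.J * (1 + 26 * g.Z ^ 3 * H))) * (1 / ((pr (g.join ν x) : ℝ) * p))) +
      ∑ k ∈ Hs H, (g.N : ℝ) ^ 2 / (p * g.U ι * pr ν) * ‖g.Ex k (p * m) (pr ν) ι‖ :=
  A1_57_cls h hH hHD hp hι hν hc hm hmZ

/-- Unbiased classes: `‖Ex‖ < δ |cells|` and `|cells| / (p U v) ≤ ∑_x 2 / (pr (join ν x) p)`;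
biased ones: `‖Ex‖ ≤ |cells| ≤ U`. -/
theorem a2_ex (h : g.OK) {δ : ℝ} (hδ : 0 ≤ δ) {p m : ℕ} (k : ℤ) {ι : Fin (g.n + 1) → ℕ}
    {ν : Finset ℕ} (hp : p ∈ g.P) (hι : ι ∈ g.Idx) (hν : ν ⊆ g.P) (hc : g.Cls p ι ν) :
    1 / (p * g.U ι * pr ν) * ‖g.Ex k (p * m) (pr ν) ι‖ ≤
      ∑ x ∈ g.cells ι, 2 * δ * (1 / ((pr (g.join ν x) : ℝ) * p)) +
      ind (δ * (g.cells ι).card ≤ ‖g.Ex k (p * m) (pr ν) ι‖) * (1 / pr ν) := by
  obtain ⟨hZ1, hXt1, hzD, hD1, hwz, hJ1⟩ := h.basic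
  have hw0 : (0 : ℝ) ≤ g.w := by linarith [h.w10]
  have hz0 : (0 : ℝ) ≤ g.z := by linarith
  have hprime : ∀ q ∈ g.P, q.Prime := fun q hq => ((mem_primesIoc hw0 hz0).1 hq).1
  have hp1 : (1 : ℝ) ≤ p := by exact_mod_cast (hprime p hp).one_lt.le
  have hv : (1 : ℝ) ≤ pr ν := by exact_mod_cast pr_pos (fun q hq => hprime q (hν hq))
  have hU := (U_le h hι).1
  have hC := card_cells_le h hι
  have hEx : ‖g.Ex k (p * m) (pr ν) ι‖ ≤ (g.cells ι).card := by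
    unfold Ex
    refine (norm_sum_le _ _).trans ?_
    simp
  have hJ : 2 * ((g.n : ℝ) + 1) / g.J ≤ 1 := by
    have h1 : (8 : ℝ) * ((g.n : ℝ) + 4) ≤ g.J := by exact_mod_cast h.nJ
    have h2 : (0 : ℝ) ≤ g.n := Nat.cast_nonneg _
    rw [div_le_one (by linarith)]
    linarith
  have hpos : 0 < (p : ℝ) * g.U ι * pr ν := by positivity
  have hsum : δ * (g.cells ι).card * (1 / (p * g.U ι * pr ν)) ≤
      ∑ x ∈ g.cells ι, 2 * δ * (1 / ((pr (g.join ν x) : ℝ) * p)) := by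
    have : δ * (g.cells ι).card * (1 / (p * g.U ι * pr ν)) =
        ∑ _x ∈ g.cells ι, δ * (1 / (p * g.U ι * pr ν)) := by
      rw [sum_const, nsmul_eq_mul]; ring
    rw [this]
    refine sum_le_sum fun x hx => ?_
    have e := cls_pr h hι hx hc
    obtain ⟨l1, l2⟩ := prod_cells h hι hx
    have e' : (pr (g.join ν x) : ℝ) = pr ν * ((∏ j, x j : ℕ) : ℝ) := by rw [e, Nat.cast_mul]
    rw [e']
    set W : ℝ := ((∏ j, x j : ℕ) : ℝ)
    have hW : W ≤ 2 * g.U ι := by nlinarith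
    have hW0 : 0 < W := by linarith
    have key : 1 / (p * g.U ι * pr ν) ≤ 2 * (1 / (pr ν * W * p)) := by
      rw [mul_one_div, div_le_div_iff₀ hpos (by positivity)]
      have : (pr ν : ℝ) * W * p ≤ pr ν * (2 * g.U ι) * p := by gcongr
      linarith
    calc δ * (1 / (p * g.U ι * pr ν)) ≤ δ * (2 * (1 / (pr ν * W * p))) := by gcongr
      _ = 2 * δ * (1 / (pr ν * W * p)) := by ring
  by_cases hb : δ * (g.cells ι).card ≤ ‖g.Ex k (p * m) (pr ν) ι‖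
  · rw [ind_pos hb, one_mul]
    have h0 : 0 ≤ δ * (g.cells ι).card * (1 / (p * g.U ι * pr ν)) := by positivity
    have h1 : 1 / (p * g.U ι * pr ν) * ‖g.Ex k (p * m) (pr ν) ι‖ ≤ 1 / pr ν := by
      calc 1 / (p * g.U ι * pr ν) * ‖g.Ex k (p * m) (pr ν) ι‖
          ≤ 1 / (p * g.U ι * pr ν) * (p * g.U ι) := by
            gcongr
            nlinarith
        _ = 1 / pr ν := by field_simp
    linarith
  · rw [ind_neg hb, zero_mul, add_zero]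
    refine le_trans ?_ hsum
    rw [mul_comm]
    have := (not_le.1 hb).le
    gcongr

/-- `csum_le`, `card_pr_le`, `fam_le` (at most `y₂ ≤ Z` values of `p`), `sum_pow_div_pr`, `muZ`. -/
theorem csum_bounds (h : g.OK) : g.csum (fun _ _ => 1) ≤ g.Z * g.D ∧
    g.csum (fun p ν => 1 / ((pr ν : ℝ) * p)) ≤ g.Z := by
  obtain ⟨hZ1, hXt1, hzD, hD1, hwz, hJ1⟩ := h.basic
  have hw0 : (0 : ℝ) ≤ g.w := by linarith [h.w10]
  have hz0 : (0 : ℝ) ≤ g.z := by linarith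
  have hy0 : (0 : ℝ) ≤ g.y₂ := by linarith [h.y0]
  have hprime : ∀ q ∈ g.P, q.Prime := fun q hq => ((mem_primesIoc hw0 hz0).1 hq).1
  constructor
  · refine (csum_le h _ (fun _ _ => zero_le_one)).trans ?_
    have h1 : ∀ p ∈ g.P, ∑ ν ∈ g.P.powerset, ind (g.Fam p ν) * (1 : ℝ) ≤
        ind ((p : ℝ) ≤ g.y₂) * g.D := by
      intro p hp
      simp only [mul_one]
      by_cases hy : (p : ℝ) ≤ g.y₂
      · rw [ind_pos hy, one_mul]
        refine card_pr_le g.P hprime (by linarith) _ fun s hs hF => ?_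
        have h2 := (fam_le h hp hs hF).1
        have hp1 : (1 : ℝ) ≤ p := by exact_mod_cast (hprime p hp).one_lt.le
        have h3 : (0 : ℝ) ≤ pr s := Nat.cast_nonneg _
        nlinarith
      · rw [ind_neg hy, zero_mul]
        refine le_of_eq (sum_eq_zero fun ν _ => ind_neg fun hF => hy hF.2.2.1)
    refine (sum_le_sum h1).trans ?_
    rw [← sum_mul]
    have h2 : ∑ p ∈ g.P, ind ((p : ℝ) ≤ g.y₂) ≤ g.Z := by
      classical
      rw [sum_ind]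
      have h3 : g.P.filter (fun p : ℕ => (p : ℝ) ≤ g.y₂) ⊆ primesIoc 0 g.y₂ := by
        intro q hq
        rw [mem_filter] at hq
        have hq1 := hprime q hq.1
        exact (mem_primesIoc le_rfl hy0).2 ⟨hq1, by exact_mod_cast hq1.pos, hq.2⟩
      have h4 : ((g.P.filter (fun p : ℕ => (p : ℝ) ≤ g.y₂)).card : ℝ) ≤
          (primesIoc 0 g.y₂).card := by exact_mod_cast card_le_card h3
      linarith [card_primesIoc_le 0 hy0, h.yZ]
    gcongr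
  · refine (csum_le h _ (fun _ _ => by positivity)).trans ?_
    refine le_trans ?_ h.muZ
    have h0 := sum_pow_div_pr g.P (κ := 1) zero_le_one
    simp only [one_pow, one_mul] at h0
    conv_rhs => rw [mu, sum_mul]
    refine sum_le_sum fun p _ => ?_
    calc ∑ ν ∈ g.P.powerset, ind (g.Fam p ν) * (1 / ((pr ν : ℝ) * p))
        ≤ ∑ ν ∈ g.P.powerset, 1 / (p : ℝ) * (1 / (pr ν : ℝ)) := by
          refine sum_le_sum fun ν _ => ?_
          calc ind (g.Fam p ν) * (1 / ((pr ν : ℝ) * p)) ≤ 1 * (1 / ((pr ν : ℝ) * p)) := by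
                gcongr
                exact ind_le_one _
            _ = 1 / (p : ℝ) * (1 / (pr ν : ℝ)) := by
                rw [one_mul, one_div_mul_one_div, mul_comm]
      _ = 1 / (p : ℝ) * ∑ ν ∈ g.P.powerset, 1 / (pr ν : ℝ) := by rw [mul_sum]
      _ ≤ 1 / (p : ℝ) * Real.exp (mu g.P) := by gcongr

/-- Sum `a2_cls`, `a2_ex` over the at most `Z` sets `e` with `c p e ≠ 0` (`card_pr_le`), the `2 H`
frequencies, the classes (`csum_bounds`); for the biased classes there are at most `Z` values of `p`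
(a class with nonempty cells has `p ≤ y₂`) and `card_Idx_le`. -/
theorem a2 (h : g.OK) {cV : ℝ} {c : ℕ → Finset ℕ → ℝ} (hc : g.Wt cV c) {H : ℕ} {δ ω : ℝ}
    (hH : 1 ≤ H) (hHD : 2 * H * g.Z ^ 2 ≤ g.D) (hδ : 0 ≤ δ) (hω : 0 ≤ ω) (hNB : g.NB H δ ω) :
    |g.Bias c| ≤ g.Z ^ 3 * g.D ^ 2 / H + (g.N : ℝ) ^ 2 * (4 * H * g.Z ^ 2 *
      (2 * ((g.n : ℝ) + 1) / g.J * (1 + 26 * g.Z ^ 3 * H) + δ +
        ((g.J * g.t ^ (g.n + 2) : ℕ) : ℝ) ^ (g.n + 1) * ω)) := by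
  obtain ⟨hZ, hXt, hzD, hD, hwz, hJ⟩ := h.basic
  have hw : 0 ≤ g.w := by linarith [h.w10]
  have hP : ∀ p ∈ g.P, p.Prime := fun p hp => ((mem_primesIoc hw (hw.trans hwz)).1 hp).1
  have hH' : (0 : ℝ) < H := by exact_mod_cast hH
  set η : ℝ := 2 * ((g.n : ℝ) + 1) / g.J * (1 + 26 * g.Z ^ 3 * H) with hη
  have hη0 : 0 ≤ η := by positivity
  set A : ℝ := g.D * g.Z / H with hA
  have hA0 : 0 ≤ A := by positivity
  set K : ℝ := (g.N : ℝ) ^ 2 * (4 * H * (η + δ)) with hK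
  have hK0 : 0 ≤ K := by positivity
  set W : ℝ := (g.N : ℝ) ^ 2 * (g.Z * (2 * H * ω)) with hW
  have hW0 : 0 ≤ W := by positivity
  have key : ∀ p ∈ g.P, ∀ ι ∈ g.Idx,
      |∑ ν ∈ g.P.powerset, ind (g.Cls p ι ν) * ∑ x ∈ g.cells ι,
        ∑ e ∈ (g.Pp p).powerset, c p e * rm g.N g.b (pr (g.join ν x) * p * pr e)| ≤
      g.Z * ∑ ν ∈ g.P.powerset, ind (g.Cls p ι ν) * ∑ x ∈ g.cells ι,
        (A * 1 + K * (1 / ((pr (g.join ν x) : ℝ) * p))) + ind ((p : ℝ) ≤ g.y₂) * W := by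
    intro p hp ι hι
    by_cases hpy : (p : ℝ) ≤ g.y₂
    swap
    · have h0 : ∀ ν, ind (g.Cls p ι ν) = 0 := fun ν => ind_neg fun hcl => by
        obtain ⟨x, hx⟩ := h.ne ι hι
        exact hpy (hcl.2 x hx).2.2.1
      simp [h0, ind_neg hpy]
    have hL := (hc p hp hpy).1
    have hPp : ∀ q ∈ g.Pp p, q.Prime := fun q hq => hP q (mem_filter.1 hq).1
    have hcard : ∑ e ∈ (g.Pp p).powerset, ind (c p e ≠ 0) ≤ g.Z :=
      card_pr_le _ hPp (by linarith) _ hL.supp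
    have hm : ∀ e ∈ (g.Pp p).powerset, c p e ≠ 0 → 1 ≤ pr e ∧ (pr e : ℝ) ≤ g.Z := fun e he h0 =>
      ⟨pr_pos fun q hq => hPp q (mem_powerset.1 he hq), hL.supp e (mem_powerset.1 he) h0⟩
    have s1 : ∀ ν ∈ g.P.powerset, |ind (g.Cls p ι ν) * ∑ x ∈ g.cells ι,
        ∑ e ∈ (g.Pp p).powerset, c p e * rm g.N g.b (pr (g.join ν x) * p * pr e)| ≤
        g.Z * (ind (g.Cls p ι ν) * ∑ x ∈ g.cells ι,
          (A * 1 + K * (1 / ((pr (g.join ν x) : ℝ) * p)))) +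
        (g.N : ℝ) ^ 2 * ∑ e ∈ (g.Pp p).powerset, ind (c p e ≠ 0) * ∑ k ∈ Hs H,
          ind (g.Cls p ι ν ∧ δ * (g.cells ι).card ≤ ‖g.Ex k (p * pr e) (pr ν) ι‖) *
            (1 / pr ν) := by
      intro ν hν
      by_cases hcl : g.Cls p ι ν
      swap
      · simp [ind_and, ind_neg hcl]
      have hF0 : 0 ≤ ∑ x ∈ g.cells ι, (A * 1 + K * (1 / ((pr (g.join ν x) : ℝ) * p))) :=
        sum_nonneg fun x _ => by positivity
      simp only [ind_and, ind_pos hcl, one_mul]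
      rw [sum_comm]
      refine (abs_sum_le_sum_abs _ _).trans (le_trans ?_ (add_le_add
        (mul_le_mul_of_nonneg_right hcard hF0) le_rfl))
      rw [sum_mul, mul_sum, ← sum_add_distrib]
      refine sum_le_sum fun e he => ?_
      rw [← mul_sum]
      by_cases h0 : c p e = 0
      · simp [h0, ind_neg]
      obtain ⟨m1, m2⟩ := hm e he h0
      rw [ind_pos h0, one_mul, one_mul, abs_mul]
      refine (mul_le_of_le_one_left (abs_nonneg _) (hL.bdd e)).trans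
        ((a2_cls h hH hHD hp hι (mem_powerset.1 hν) hcl m1 m2).trans ?_)
      have s2 : ∑ k ∈ Hs H, (g.N : ℝ) ^ 2 / (p * g.U ι * pr ν) * ‖g.Ex k (p * pr e) (pr ν) ι‖ ≤
          ∑ k ∈ Hs H, (g.N : ℝ) ^ 2 *
            (∑ x ∈ g.cells ι, 2 * δ * (1 / ((pr (g.join ν x) : ℝ) * p)) +
              ind (δ * (g.cells ι).card ≤ ‖g.Ex k (p * pr e) (pr ν) ι‖) * (1 / pr ν)) := by
        refine sum_le_sum fun k _ => ?_
        rw [div_eq_mul_one_div, mul_assoc]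
        exact mul_le_mul_of_nonneg_left (a2_ex h hδ k hp hι (mem_powerset.1 hν) hcl) (sq_nonneg _)
      refine (add_le_add le_rfl s2).trans (le_of_eq ?_)
      rw [← mul_sum (Hs H), sum_add_distrib (s := Hs H), sum_const, card_Hs, nsmul_eq_mul,
        ← hA, ← hη]
      simp only [mul_one]
      simp only [sum_add_distrib, ← mul_sum, hK]
      generalize ∑ x ∈ g.cells ι, 1 / ((pr (g.join ν x) : ℝ) * p) = T1
      generalize ∑ k ∈ Hs H, ind (δ * (g.cells ι).card ≤ ‖g.Ex k (p * pr e) (pr ν) ι‖) *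
        (1 / (pr ν : ℝ)) = T2
      generalize ∑ x ∈ g.cells ι, A = T3
      push_cast
      ring
    refine (abs_sum_le_sum_abs _ _).trans ((sum_le_sum s1).trans ?_)
    rw [sum_add_distrib, ← mul_sum, ← mul_sum, ind_pos hpy, one_mul, sum_comm (s := g.P.powerset)
      (t := (g.Pp p).powerset)]
    refine add_le_add le_rfl (mul_le_mul_of_nonneg_left (le_trans ?_
      (mul_le_mul_of_nonneg_right hcard (by positivity))) (sq_nonneg _))
    rw [sum_mul]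
    refine sum_le_sum fun e he => ?_
    rw [← mul_sum]
    by_cases h0 : c p e = 0
    · simp [h0, ind_neg]
    obtain ⟨m1, m2⟩ := hm e he h0
    refine mul_le_mul_of_nonneg_left ?_ (ind_nonneg _)
    rw [sum_comm]
    refine (sum_le_card_nsmul _ _ ω fun k hk => hNB p hp _ m1 m2 k hk ι hι).trans (le_of_eq ?_)
    rw [card_Hs, nsmul_eq_mul]
    push_cast
    ring
  have hy : ∑ p ∈ g.P, ind ((p : ℝ) ≤ g.y₂) ≤ g.Z := by
    have hy0 : 0 ≤ g.y₂ := by linarith [h.y0]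
    rw [sum_ind]
    refine le_trans ?_ ((card_primesIoc_le g.w hy0).trans h.yZ)
    refine Nat.cast_le.2 (card_le_card fun p hp => ?_)
    obtain ⟨a1, a2⟩ := mem_filter.1 hp
    have := (mem_primesIoc hw (hw.trans hwz)).1 a1
    exact (mem_primesIoc hw hy0).2 ⟨this.1, this.2.1, a2⟩
  have hI : (g.Idx.card : ℝ) ≤ ((g.J * g.t ^ (g.n + 2) : ℕ) : ℝ) ^ (g.n + 1) := by
    exact_mod_cast card_Idx_le h
  have t1 : |g.Bias c| ≤ g.Z * g.csum (fun p ν => A * 1 + K * (1 / ((pr ν : ℝ) * p))) +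
      (∑ p ∈ g.P, ind ((p : ℝ) ≤ g.y₂)) * (g.Idx.card * W) := by
    rw [Bias, csum, csum, mul_sum, sum_mul, ← sum_add_distrib]
    refine (abs_sum_le_sum_abs _ _).trans (sum_le_sum fun p hp => ?_)
    refine (abs_sum_le_sum_abs _ _).trans ((sum_le_sum (key p hp)).trans (le_of_eq ?_))
    rw [sum_add_distrib, ← mul_sum, sum_const, nsmul_eq_mul]
    ring
  rw [csum_add (fun _ _ => A * 1), csum_mul A fun _ _ => 1,
    csum_mul K fun p ν => 1 / ((pr ν : ℝ) * p)] at t1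
  obtain ⟨c1, c2⟩ := csum_bounds h
  set I : ℝ := ((g.J * g.t ^ (g.n + 2) : ℕ) : ℝ) ^ (g.n + 1) with hIdef
  have hI0 : 0 ≤ I := by positivity
  have t2 := mul_le_mul_of_nonneg_left (add_le_add (mul_le_mul_of_nonneg_left c1 hA0)
    (mul_le_mul_of_nonneg_left c2 hK0)) (show 0 ≤ g.Z by linarith)
  have t3 := mul_le_mul hy (mul_le_mul_of_nonneg_right hI hW0) (by positivity)
    (show 0 ≤ g.Z by linarith)
  have t4 : 0 ≤ g.Z * (I * W) := by positivity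
  have e : g.Z ^ 3 * g.D ^ 2 / H + (g.N : ℝ) ^ 2 * (4 * H * g.Z ^ 2 * (η + δ + I * ω)) =
      g.Z * (A * (g.Z * g.D) + K * g.Z) + 2 * (g.Z * (I * W)) := by
    rw [hA, hK, hW]
    ring
  rw [e]
  linarith

/-- Counting multiples. -/
theorem A1_12_mult {V : ℝ} (hV : 0 ≤ V) (L Λ : Finset ℕ)
    (h : ∀ v ∈ Λ, 1 ≤ v ∧ (v : ℝ) ≤ V ∧ ∃ l ∈ L, l ∣ v) : (Λ.card : ℝ) ≤ V * mu L := by
  have h1 : Λ ⊆ L.biUnion (fun l => (Ioc 0 ⌊V⌋₊).filter (fun v => l ∣ v)) := by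
    intro v hv
    obtain ⟨h1, h2, l, hl, h3⟩ := h v hv
    exact mem_biUnion.2 ⟨l, hl, mem_filter.2 ⟨mem_Ioc.2 ⟨h1, Nat.le_floor h2⟩, h3⟩⟩
  have h2 : (Λ.card : ℝ) ≤ ((∑ l ∈ L, ⌊V⌋₊ / l : ℕ) : ℝ) := by
    refine Nat.cast_le.2 ((card_le_card h1).trans (card_biUnion_le.trans (le_of_eq ?_)))
    exact sum_congr rfl fun l _ => Nat.Ioc_filter_dvd_card_eq_div _ _
  refine h2.trans ?_
  rw [Nat.cast_sum, mu, mul_sum]
  refine sum_le_sum fun l _ => Nat.cast_div_le.trans ?_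
  rw [mul_one_div]
  exact div_le_div_of_nonneg_right (Nat.floor_le hV) (Nat.cast_nonneg _)

/-- No bias.  Suppose the sum exceeds `X^(-σ/2)`.  Let `Λ` be the image under `pr` (injective) of
the biased `ν`, `V = D / (p U)`.  Every `v ∈ Λ` has `V / (2 Z²) < v ≤ V` (`fam_le`, `cls_pr`,
`prod_cells`, the cells are nonempty), so `|Λ| ≥ V X^(-σ/2) / (2 Z²) ≥ V X^(-σ)`.  `InvB` gives
`a, q, Λ₀`.  Every `v = pr ν ∈ Λ₀` has `Unex (big Xt ν)` (`join_big`), so it has a prime factor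
`l ∈ primesIoc Xt z`, `l ∣ q b - a`; counting multiples, `|Λ₀| ≤ V ∑ 1 / l`, whence `Pop`; this
contradicts `Unex` for any `v ∈ Λ₀`. -/
theorem a3 (h : g.OK) {X σ δ : ℝ} {A A' H : ℕ} (hX : 1 < X) (hσ : 0 < σ)
    (hB : InvB X σ A A' g.n) (hXt : g.Xt = X ^ (10 * σ)) (hQ : g.Q = Unex X σ g.z g.b)
    (hC : ∀ ι ∈ g.Idx, Cells X A' (fun j => cell g.J (ι j)) (fun j => Real.exp ((ι j : ℝ) / g.J)))
    (hδ : 1 / Real.log X ^ A ≤ δ) (hδ1 : δ ≤ 1) (hD : g.D ≤ X)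
    (hV : X ^ (1 / 2 : ℝ) * (g.Z * Real.exp (((g.n : ℝ) + 1) * (g.t : ℝ) ^ (g.n + 2))) ≤ g.D)
    (hZ : 2 * g.Z ^ 2 ≤ X ^ (σ / 2)) (hH : 2 * (H : ℝ) ≤ X ^ σ) :
    g.NB H δ (X ^ (-(σ / 2))) := by
  classical
  intro p hp m hm hmZ k hk ι hι
  by_contra hlt
  rw [not_le, sum_ind_mul] at hlt
  set Bi := g.P.powerset.filter
    (fun ν => g.Cls p ι ν ∧ δ * (g.cells ι).card ≤ ‖g.Ex k (p * m) (pr ν) ι‖) with hBi
  have hX0 : 0 < X := by linarith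
  obtain ⟨hZ1, hXt1, hzD, hD1, hwz, hJ1⟩ := h.basic
  have hw0 : 0 ≤ g.w := by linarith [h.w10]
  have hP : ∀ q ∈ g.P, q.Prime ∧ g.w < q ∧ (q : ℝ) ≤ g.z := fun q hq =>
    (mem_primesIoc hw0 (hw0.trans hwz)).1 hq
  have hmem : ∀ ν ∈ Bi, ν ⊆ g.P ∧ g.Cls p ι ν ∧
      δ * (g.cells ι).card ≤ ‖g.Ex k (p * m) (pr ν) ι‖ := fun ν hν =>
    ⟨mem_powerset.1 (mem_filter.1 hν).1, (mem_filter.1 hν).2⟩
  have hprime : ∀ ν ∈ Bi, ∀ q ∈ ν, q.Prime := fun ν hν q hq => (hP q ((hmem ν hν).1 hq)).1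
  obtain ⟨x, hx⟩ := h.ne ι hι
  obtain ⟨ν₀, hν₀⟩ : Bi.Nonempty := by
    rw [nonempty_iff_ne_empty]
    intro he
    rw [he, sum_empty] at hlt
    exact absurd (Real.rpow_pos_of_pos hX0 _) (not_lt.2 hlt.le)
  have hpZ : (p : ℝ) ≤ g.Z := ((hmem ν₀ hν₀).2.1.2 x hx).2.2.1.trans h.yZ
  have hp1 : (1 : ℝ) ≤ p := by exact_mod_cast (hP p hp).1.one_le
  obtain ⟨hU1, hU2⟩ := U_le h hι
  obtain ⟨hx1, hx2⟩ := prod_cells h hι hx
  have hx3 : ((∏ j, x j : ℕ) : ℝ) ≤ g.U ι * 2 := by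
    refine hx2.trans (mul_le_mul_of_nonneg_left ?_ (by linarith))
    have h1 : (8 : ℝ) * (g.n + 4) ≤ g.J := by exact_mod_cast h.nJ
    have h2 : (0 : ℝ) ≤ g.n := Nat.cast_nonneg _
    have h3 : 2 * ((g.n : ℝ) + 1) / g.J ≤ 1 := by
      rw [div_le_one (by linarith)]; linarith
    linarith
  set V := g.D / (p * g.U ι) with hVdef
  have hpU : 0 < (p : ℝ) * g.U ι := by positivity
  have hV0 : 0 < V := div_pos (by linarith) hpU
  have hsz : ∀ ν ∈ Bi, (pr ν : ℝ) ≤ V ∧ V ≤ 2 * g.Z ^ 2 * pr ν := by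
    intro ν hν
    obtain ⟨h1, h2, -⟩ := hmem ν hν
    obtain ⟨h3, h4⟩ := fam_le h hp (join_sub h hι hx h1) (h2.2 x hx)
    rw [cls_pr h hι hx h2, Nat.cast_mul] at h3 h4
    have h5 : (0 : ℝ) ≤ pr ν := Nat.cast_nonneg _
    constructor
    · rw [le_div_iff₀ hpU]
      refine le_trans ?_ h3
      calc (pr ν : ℝ) * (p * g.U ι) = pr ν * g.U ι * p := by ring
        _ ≤ _ := by gcongr
    · rw [div_le_iff₀ hpU]
      refine h4.le.trans ?_
      calc (pr ν : ℝ) * ((∏ j, x j : ℕ) : ℝ) * p * g.Z ^ 2 ≤ pr ν * (g.U ι * 2) * p * g.Z ^ 2 := by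
            gcongr
        _ = _ := by ring
  have hcard : V * X ^ (-σ) ≤ (Bi.image pr).card := by
    rw [card_image_of_injOn fun s hs t ht e => pr_inj (hprime s hs) (hprime t ht) e]
    have h1 : ∑ ν ∈ Bi, (1 : ℝ) / pr ν ≤ Bi.card * (X ^ (σ / 2) / V) := by
      rw [← nsmul_eq_mul]
      refine sum_le_card_nsmul _ _ _ fun ν hν => ?_
      have h2 : (0 : ℝ) < pr ν := by exact_mod_cast pr_pos (hprime ν hν)
      rw [div_le_div_iff₀ h2 hV0, one_mul]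
      exact (hsz ν hν).2.trans (mul_le_mul_of_nonneg_right hZ h2.le)
    have h2 := hlt.le.trans h1
    have h3 : 0 < X ^ (σ / 2) := Real.rpow_pos_of_pos hX0 _
    have h4 : X ^ (-σ) = X ^ (-(σ / 2)) / X ^ (σ / 2) := by
      rw [← Real.rpow_sub hX0]; congr 1; ring
    rw [← mul_div_assoc, le_div_iff₀ hV0] at h2
    rw [h4, ← mul_div_assoc, div_le_iff₀ h3, mul_comm V]
    exact h2
  have hXσ : X ^ (σ / 2) ≤ X ^ σ := Real.rpow_le_rpow_of_exponent_le hX.le (by linarith)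
  obtain ⟨hk0, hkH⟩ := mem_Hs.1 hk
  obtain ⟨a, q, hq1, hq2, ha, hcop, Λ₀, hΛ, hΛc, hdvd⟩ := hB _ _ δ V (Bi.image pr) g.b k (p * m)
    (hC ι hι) hδ hδ1
    (fun v hv => by
      obtain ⟨ν, hν, rfl⟩ := mem_image.1 hv
      exact ⟨pr_pos (hprime ν hν), (hsz ν hν).1⟩)
    (by
      rw [le_div_iff₀ hpU]
      refine le_trans (mul_le_mul_of_nonneg_left ?_ (Real.rpow_nonneg hX0.le _)) hV
      exact mul_le_mul hpZ hU2 (by linarith) (by linarith))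
    ((div_le_self (by linarith) (one_le_mul_of_one_le_of_one_le hp1 hU1)).trans hD) hcard hk0
    (by
      have : |(k : ℝ)| ≤ H := by exact_mod_cast hkH
      linarith)
    (Nat.mul_pos (hP p hp).1.pos hm)
    (by
      rw [Nat.cast_mul]
      have h1 : (p : ℝ) * m ≤ g.Z * g.Z := mul_le_mul hpZ hmZ (Nat.cast_nonneg _) (by linarith)
      nlinarith [sq_nonneg g.Z])
    (fun v hv => by
      obtain ⟨ν, hν, rfl⟩ := mem_image.1 hv
      exact (hmem ν hν).2.2)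
  have hun : ∀ ν ∈ Bi, Unex X σ g.z g.b (big g.Xt ν) := fun ν hν => by
    have := ((hmem ν hν).2.1.2 x hx).2.2.2
    rwa [join_big h ν hι hx, hQ] at this
  have hbig : ∀ ν ∈ Bi, pr ν ∈ Λ₀ → ∀ l ∈ big g.Xt ν, l ∣ pr ν ∧
      l ∈ (primesIoc (X ^ (10 * σ)) g.z).filter (fun l : ℕ => (l : ℤ) ∣ q * g.b - a) := by
    intro ν hν hv l hl
    obtain ⟨h1, h2⟩ := mem_filter.1 hl
    have h3 : l ∣ pr ν := dvd_prod_of_mem _ h1
    rw [hXt] at h2
    refine ⟨h3, mem_filter.2 ⟨(mem_primesIoc (Real.rpow_nonneg hX0.le _) (hw0.trans hwz)).2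
      ⟨hprime ν hν l h1, h2, (hP l ((hmem ν hν).1 h1)).2.2⟩, hdvd _ hv l (hprime ν hν l h1) h3 ?_⟩⟩
    exact (Real.rpow_le_rpow_of_exponent_le hX.le (by linarith)).trans_lt h2
  have hpop : Pop X σ g.z g.b a q := by
    refine ⟨hq1, hq2, ha, hcop, le_of_mul_le_mul_left (hΛc.trans ?_) hV0⟩
    refine A1_12_mult hV0.le _ _ fun v hv => ?_
    obtain ⟨ν, hν, rfl⟩ := mem_image.1 (hΛ hv)
    obtain ⟨l, hl⟩ := (hun ν hν).1
    exact ⟨pr_pos (hprime ν hν), (hsz ν hν).1, l, (hbig ν hν hv l hl).2, (hbig ν hν hv l hl).1⟩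
  obtain ⟨v, hv⟩ : Λ₀.Nonempty := by
    rw [← card_pos, ← Nat.cast_pos (α := ℝ)]
    exact (mul_pos hV0 (Real.rpow_pos_of_pos hX0 _)).trans_le hΛc
  obtain ⟨ν, hν, rfl⟩ := mem_image.1 (hΛ hv)
  obtain ⟨l, hl, hnd⟩ := (hun ν hν).2 a q hpop
  exact hnd (mem_filter.1 (hbig ν hν hv l hl).2).2

end AP

end Crest.Agent.R001
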