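import Mathlib

set_option autoImplicit false

namespace Crest.Agent.R001

/-! # The numerical core of `inv_num` -/

theorem inv2_88_core {σ : ℝ} (hσ : 0 < σ) (hσ1 : σ ≤ 1) (A A' n : ℕ)
    (hn : 144 * ((A : ℝ) + 1) ≤ σ * n) {l : ℝ} (h1 : 16 ≤ l) (h2 : (A : ℝ) + A' + 1 ≤ l)
    (h3 : 36 * (3 * (A : ℝ) + A' + 5) ≤ σ * l)
    (h4 : 40 * n * (l ^ A') ^ 3 ≤ σ * Real.exp (l / 2)) {L c δ : ℝ} (hL1 : l ^ 2 ≤ L)
    (hL2 : L ≤ l ^ A') (hc : Real.exp L / Real.exp l ^ A' ≤ c) (hδ : 1 / Real.exp l ^ A ≤ δ) :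
    ∃ (m k n₀ Ω : ℕ) (κ : ℝ), 1 ≤ k ∧ k ≤ m ∧ (m : ℝ) ≤ Real.exp l ∧
      k * (2 * Real.exp (l ^ A')) ^ (n * m) < 2 ^ Ω ∧
      16 * (n₀ : ℝ) ≤ δ * c ∧
      2 * Real.exp L * (4 / δ) ^ (2 * k) * (8 / δ) * (((k : ℝ) ^ 2 / m) ^ (k * n) + Ω / c) ≤ κ ∧
      Real.exp (Real.exp l) ^ 5 ≤ Real.exp L ^ n₀ ∧
      Real.exp (-σ * Real.exp l) * ((2 * Real.exp (l ^ A')) ^ (n * m) * κ ^ n₀) ≤
        δ / 2 * (δ / 16) ^ n₀ := by
  obtain ⟨E, hE⟩ : ∃ E : ℝ, E = Real.exp l := ⟨_, rfl⟩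
  obtain ⟨s, hs⟩ : ∃ s : ℝ, s = Real.exp (l / 2) := ⟨_, rfl⟩
  obtain ⟨B, hB⟩ : ∃ B : ℝ, B = l ^ A' := ⟨_, rfl⟩
  obtain ⟨ρ, hρ⟩ : ∃ ρ : ℝ, ρ = Real.log 2 + B := ⟨_, rfl⟩
  have hA0 : (0 : ℝ) ≤ A := Nat.cast_nonneg _
  have hA'0 : (0 : ℝ) ≤ A' := Nat.cast_nonneg _
  have hl0 : 0 < l := by linarith
  have hss : s * s = E := by rw [hs, hE, ← Real.exp_add, add_halves]
  have hs1 : 1 ≤ s := by rw [hs]; exact Real.one_le_exp (by positivity)
  have hE16 : 16 ≤ E := by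
    have := Real.add_one_le_exp l
    rw [hE]; linarith
  have hE0 : 0 < E := by linarith
  have hpow : ∀ j : ℕ, E ^ j = Real.exp (j * l) := fun j => by rw [hE, Real.exp_nat_mul]
  have hR : 2 * Real.exp (l ^ A') = Real.exp ρ := by
    rw [hρ, Real.exp_add, Real.exp_log two_pos, hB]
  rw [← hE] at hc hδ ⊢
  rw [← hB] at h4 hL2
  rw [← hs] at h4
  rw [hR]
  have hL256 : 256 ≤ L := by nlinarith only [h1, hL1]
  have hL0 : 0 < L := by linarith
  have hB1 : 1 ≤ B := by linarith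
  have hlog2 : Real.log 2 ≤ 1 := by
    have := Real.log_le_sub_one_of_pos (show (0 : ℝ) < 2 by norm_num); linarith
  have hlog2' : 1 / 2 ≤ Real.log 2 := by
    have := Real.log_two_gt_d9; linarith
  have hρ1 : B ≤ ρ := by rw [hρ]; linarith
  have hρ2 : ρ ≤ 2 * B := by rw [hρ]; linarith
  have hρ0 : 0 < ρ := by linarith
  have hn0 : (0 : ℝ) ≤ n := Nat.cast_nonneg _
  have hn1 : (1 : ℝ) ≤ n := by
    linarith only [hn, hA0, mul_le_mul_of_nonneg_right hσ1 hn0]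
  have hδ0 : 0 < δ := lt_of_lt_of_le (by positivity) hδ
  have hc0 : 0 < c := lt_of_lt_of_le (by positivity) hc
  have hB3 : B ≤ B ^ 3 := le_self_pow₀ hB1 (by norm_num)
  have hBs : B ≤ s := by
    have e1 : 1 * B ^ 3 ≤ n * B ^ 3 := mul_le_mul_of_nonneg_right hn1 (by positivity)
    have e2 : σ * s ≤ 1 * s := mul_le_mul_of_nonneg_right hσ1 (by positivity)
    linarith only [e1, e2, h4, hB3, hB1]
  have hLE : L ≤ E := by nlinarith only [hL2, hBs, hss, hs1]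
  -- the parameters
  obtain ⟨m, hm⟩ : ∃ m : ℕ, m = ⌊σ * E / (4 * n * ρ)⌋₊ := ⟨_, rfl⟩
  obtain ⟨k, hk⟩ : ∃ k : ℕ, k = ⌈2 * L / (n * l)⌉₊ := ⟨_, rfl⟩
  obtain ⟨n₀, hn₀⟩ : ∃ n₀ : ℕ, n₀ = ⌈5 * E / L⌉₊ := ⟨_, rfl⟩
  obtain ⟨Ω, hΩ⟩ : ∃ Ω : ℕ, Ω = ⌈2 * E⌉₊ := ⟨_, rfl⟩
  have hden : 0 < 4 * (n : ℝ) * ρ := by positivity
  have hnl : 0 < (n : ℝ) * l := by positivity
  have hm1 : (m : ℝ) * (4 * n * ρ) ≤ σ * E := by
    rw [← le_div_iff₀ hden, hm]; exact Nat.floor_le (by positivity)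
  have hm2 : σ * E / (4 * n * ρ) < m + 1 := by rw [hm]; exact Nat.lt_floor_add_one _
  have hk1 : 2 * L ≤ k * (n * l) := by
    rw [← div_le_iff₀ hnl, hk]; exact Nat.le_ceil _
  have hk2 : (k : ℝ) < 2 * L / (n * l) + 1 := by rw [hk]; exact Nat.ceil_lt_add_one (by positivity)
  have hk0 : 1 ≤ k := by rw [hk]; exact Nat.ceil_pos.2 (by positivity)
  have hk0' : (1 : ℝ) ≤ k := by exact_mod_cast hk0
  have hk3 : (k : ℝ) * (n * l) ≤ 2 * L + n * l := by
    have := mul_le_mul_of_nonneg_right hk2.le hnl.le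
    rwa [add_mul, div_mul_cancel₀ _ hnl.ne', one_mul] at this
  have hkB : (k : ℝ) ≤ 2 * B := by
    have : 2 * L / (n * l) ≤ L := by
      rw [div_le_iff₀ hnl]
      have : 2 ≤ (n : ℝ) * l := by nlinarith only [hn1, h1]
      nlinarith only [this, hL0]
    linarith
  have hn₀1 : 5 * E ≤ n₀ * L := by
    rw [← div_le_iff₀ hL0, hn₀]; exact Nat.le_ceil _
  have hn₀2 : (n₀ : ℝ) * L ≤ 6 * E := by
    have h : (n₀ : ℝ) < 5 * E / L + 1 := by rw [hn₀]; exact Nat.ceil_lt_add_one (by positivity)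
    have := mul_le_mul_of_nonneg_right h.le hL0.le
    rw [add_mul, div_mul_cancel₀ _ hL0.ne', one_mul] at this
    linarith
  have hn₀0 : (1 : ℝ) ≤ n₀ := by
    have : 1 ≤ n₀ := by rw [hn₀]; exact Nat.ceil_pos.2 (by positivity)
    exact_mod_cast this
  have hΩ1 : 2 * E ≤ Ω := by rw [hΩ]; exact Nat.le_ceil _
  have hΩ2 : (Ω : ℝ) ≤ 3 * E := by
    have : (Ω : ℝ) < 2 * E + 1 := by rw [hΩ]; exact Nat.ceil_lt_add_one (by positivity)
    linarith
  have hmk : (k : ℝ) ^ 2 * s ≤ m := by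
    have e1 : 5 * B ^ 2 * s ≤ σ * E / (4 * n * ρ) := by
      rw [le_div_iff₀ hden]
      calc 5 * B ^ 2 * s * (4 * n * ρ) ≤ 5 * B ^ 2 * s * (4 * n * (2 * B)) := by gcongr
        _ = 40 * n * B ^ 3 * s := by ring
        _ ≤ σ * s * s := by gcongr
        _ = σ * E := by rw [← hss]; ring
    have e2 : (k : ℝ) ^ 2 ≤ (2 * B) ^ 2 := by gcongr
    have e3 : 1 ≤ B ^ 2 * s := one_le_mul_of_one_le_of_one_le (one_le_pow₀ hB1) hs1
    have e4 : (k : ℝ) ^ 2 * s ≤ (2 * B) ^ 2 * s := by gcongr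
    linarith only [e1, e3, e4, hm2]
  have hkm : (k : ℝ) ≤ m := by
    have e1 : (k : ℝ) ≤ k ^ 2 := le_self_pow₀ hk0' (by norm_num)
    have e2 : (k : ℝ) ^ 2 ≤ k ^ 2 * s := le_mul_of_one_le_right (by positivity) hs1
    linarith
  have hm0 : (0 : ℝ) < m := by linarith
  have hmE : (m : ℝ) ≤ E := by
    have e1 : 1 ≤ 4 * (n : ℝ) * ρ := by nlinarith only [hn1, hρ1, hB1]
    have e2 : (m : ℝ) ≤ m * (4 * n * ρ) := le_mul_of_one_le_right hm0.le e1
    linarith only [e2, hm1, mul_le_mul_of_nonneg_right hσ1 hE0.le]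
  have hRnm : Real.exp ρ ^ (n * m) ≤ Real.exp (σ * E / 4) := by
    rw [← Real.exp_nat_mul]
    refine Real.exp_le_exp.2 ?_
    push_cast
    linarith only [hm1]
  have hδinv : 16 / δ ≤ Real.exp ((A + 1) * l) := by
    have e : Real.exp ((A + 1) * l) = E ^ A * E := by
      rw [← pow_succ, hpow]; push_cast; rfl
    rw [e, div_le_iff₀ hδ0]
    rw [div_le_iff₀ (by positivity)] at hδ
    nlinarith only [hδ, hE16]
  refine ⟨m, k, n₀, Ω, Real.exp (σ / 18 * L), hk0, by exact_mod_cast hkm, hmE, ?_, ?_, ?_, ?_, ?_⟩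
  · have e1 : E ≤ Real.exp (E / 2) := by
      have := Real.add_one_le_exp (E / 4)
      have e : Real.exp (E / 2) = Real.exp (E / 4) * Real.exp (E / 4) := by
        rw [← Real.exp_add]; ring_nf
      rw [e]
      nlinarith only [sq_nonneg (1 - E / 4), this, hE0]
    have e2 : (2 : ℝ) ^ Ω = Real.exp (Ω * Real.log 2) := by
      rw [Real.exp_nat_mul, Real.exp_log two_pos]
    calc k * Real.exp ρ ^ (n * m) ≤ Real.exp (E / 2) * Real.exp (σ * E / 4) := by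
          gcongr; linarith
      _ = Real.exp (E / 2 + σ * E / 4) := by rw [Real.exp_add]
      _ < 2 ^ Ω := by
          rw [e2]
          refine Real.exp_lt_exp.2 ?_
          linarith only [mul_le_mul_of_nonneg_right hσ1 hE0.le, hE0, hΩ1,
            mul_le_mul_of_nonneg_left hlog2' (Nat.cast_nonneg (α := ℝ) Ω)]
  · have e1 : 16 * (n₀ : ℝ) ≤ E := by
      linarith only [hn₀2, hE0, mul_le_mul_of_nonneg_left hL256 (Nat.cast_nonneg (α := ℝ) n₀)]
    have e2 : E ≤ 1 / E ^ A * (Real.exp L / E ^ A') := by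
      rw [hpow, hpow, one_div, ← Real.exp_neg, ← Real.exp_sub, ← Real.exp_add, hE]
      refine Real.exp_le_exp.2 ?_
      linarith only [hL1, mul_le_mul_of_nonneg_right h2 hl0.le]
    calc 16 * (n₀ : ℝ) ≤ 1 / E ^ A * (Real.exp L / E ^ A') := e1.trans e2
      _ ≤ δ * c := by gcongr
  · have e1 : ((k : ℝ) ^ 2 / m) ^ (k * n) ≤ Real.exp (-L) := by
      have e : (k : ℝ) ^ 2 / m ≤ Real.exp (-(l / 2)) := by
        rw [Real.exp_neg, ← hs, div_le_iff₀ hm0, ← div_eq_inv_mul, le_div_iff₀ (by linarith)]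
        exact hmk
      refine (pow_le_pow_left₀ (by positivity) e _).trans ?_
      rw [← Real.exp_nat_mul]
      refine Real.exp_le_exp.2 ?_
      push_cast
      linarith only [hk1]
    have e2 : Ω / c ≤ 3 * E * E ^ A' * Real.exp (-L) := by
      rw [div_le_iff₀ hc0]
      calc (Ω : ℝ) ≤ 3 * E := hΩ2
        _ = 3 * E * E ^ A' * Real.exp (-L) * (Real.exp L / E ^ A') := by
          rw [Real.exp_neg]; field_simp
        _ ≤ _ := by gcongr
    have e3 : 1 ≤ E * E ^ A' := one_le_mul_of_one_le_of_one_le (by linarith)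
      (one_le_pow₀ (by linarith))
    have e4 : ((k : ℝ) ^ 2 / m) ^ (k * n) + Ω / c ≤ 4 * E * E ^ A' * Real.exp (-L) := by
      linarith only [e1, e2, mul_le_mul_of_nonneg_right e3 (Real.exp_pos (-L)).le]
    have e5 : 4 / δ ≤ Real.exp ((A + 1) * l) := le_trans (by gcongr; norm_num) hδinv
    have e6 : 8 / δ ≤ Real.exp ((A + 1) * l) := le_trans (by gcongr; norm_num) hδinv
    have e7 : 8 * E * E ^ A' ≤ Real.exp ((A' + 2) * l) := by
      have e : Real.exp ((A' + 2) * l) = E * E * E ^ A' := by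
        rw [← sq, ← pow_add, hpow]; push_cast; ring_nf
      rw [e]; gcongr; linarith
    calc 2 * Real.exp L * (4 / δ) ^ (2 * k) * (8 / δ) * (((k : ℝ) ^ 2 / m) ^ (k * n) + Ω / c)
        ≤ 2 * Real.exp L * Real.exp ((A + 1) * l) ^ (2 * k) * Real.exp ((A + 1) * l) *
          (4 * E * E ^ A' * Real.exp (-L)) := by gcongr
      _ = Real.exp ((A + 1) * l) ^ (2 * k + 1) * (8 * E * E ^ A') := by
          rw [Real.exp_neg, pow_succ]; field_simp; norm_num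
      _ ≤ Real.exp ((A + 1) * l) ^ (2 * k + 1) * Real.exp ((A' + 2) * l) := by gcongr
      _ ≤ _ := by
          rw [← Real.exp_nat_mul, ← Real.exp_add]
          refine Real.exp_le_exp.2 ?_
          push_cast
          -- `(A+1) l k ≤ σ L / 72 + (A+1) l`
          have f1 : 144 * ((A : ℝ) + 1) * (l * (k - 1)) ≤ σ * n * (l * (k - 1)) :=
            mul_le_mul_of_nonneg_right hn (mul_nonneg hl0.le (by linarith))
          have f2 : σ * (n * (l * (k - 1))) ≤ σ * (2 * L) :=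
            mul_le_mul_of_nonneg_left (by linarith only [hk3]) hσ.le
          have f3 : 36 * (3 * (A : ℝ) + A' + 5) * l ≤ σ * l * l :=
            mul_le_mul_of_nonneg_right h3 hl0.le
          have f4 : σ * l ^ 2 ≤ σ * L := mul_le_mul_of_nonneg_left hL1 hσ.le
          linarith only [f1, f2, f3, f4]
  · rw [← Real.exp_nat_mul, ← Real.exp_nat_mul]
    refine Real.exp_le_exp.2 ?_
    push_cast
    linarith
  · have e1 : Real.exp (-((A + 1) * l)) ≤ δ / 16 := by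
      rw [Real.exp_neg, ← inv_div 16 δ]
      exact inv_anti₀ (by positivity) hδinv
    have e2 : Real.exp (-((A + 1) * l)) ≤ δ / 2 := e1.trans (by linarith)
    calc Real.exp (-σ * E) * (Real.exp ρ ^ (n * m) * Real.exp (σ / 18 * L) ^ n₀)
        ≤ Real.exp (-σ * E) * (Real.exp (σ * E / 4) * Real.exp (σ / 18 * L) ^ n₀) := by gcongr
      _ ≤ Real.exp (-((A + 1) * l)) * Real.exp (-((A + 1) * l)) ^ n₀ := by
          rw [← Real.exp_nat_mul, ← Real.exp_nat_mul, ← Real.exp_add, ← Real.exp_add,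
            ← Real.exp_add]
          refine Real.exp_le_exp.2 ?_
          have f1 : σ * (n₀ * L) ≤ σ * (6 * E) := mul_le_mul_of_nonneg_left hn₀2 hσ.le
          have f2 : 36 * ((A : ℝ) + 1) * (l * n₀) ≤ σ * l * (l * n₀) :=
            mul_le_mul_of_nonneg_right (by linarith) (by positivity)
          have f3 : σ * n₀ * l ^ 2 ≤ σ * n₀ * L := mul_le_mul_of_nonneg_left hL1 (by positivity)
          have f4 : ((A : ℝ) + 1) * l * 1 ≤ (A + 1) * l * n₀ :=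
            mul_le_mul_of_nonneg_left hn₀0 (by positivity)
          have f5 : 0 ≤ σ * E := by positivity
          linarith only [f1, f2, f3, f4, f5]
      _ ≤ _ := by gcongr

end Crest.Agent.R001
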