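import Crest.Agent.R001.Inv1
import Crest.Agent.R001.Inv2AuxH88

set_option autoImplicit false

namespace Crest.Agent.R001

open Finset Filter Crest.Agent.R008 Crest.Agent.R026

/-! # The inverse theorem -/

theorem inv2_97_pop {α : Type} (s : Finset α) (f : α → ℝ) {a b : ℝ} (ha : 0 ≤ a)
    (hb : ∀ i ∈ s, f i ≤ b) :
    ∑ i ∈ s, f i ≤ ((s.filter fun i => a ≤ f i).card : ℝ) * b + s.card * a := by
  rw [← sum_filter_add_sum_filter_not s fun i => a ≤ f i]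
  refine add_le_add ?_ ?_
  · rw [← nsmul_eq_mul]
    exact sum_le_card_nsmul _ _ _ fun i hi => hb i (mem_filter.1 hi).1
  · refine (sum_le_card_nsmul _ _ a fun i hi => (not_le.1 (mem_filter.1 hi).2).le).trans ?_
    rw [nsmul_eq_mul]
    exact mul_le_mul_of_nonneg_right (by exact_mod_cast card_filter_le _ _) ha

theorem inv2_97_norm {α : Type} (s : Finset α) (f : α → ℝ) : ‖∑ i ∈ s, ee (f i)‖ ≤ s.card := by
  refine (norm_sum_le _ _).trans (le_of_eq ?_)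
  simp only [norm_ee, sum_const, nsmul_eq_mul, mul_one]

/-- The structure theorem with explicit parameters.  `sparsify` with `F v x = ∑_p e(β v / (p ∏ x))`
gives `Q`; `N = m^n`, `W = ∏ pr (Q j) ≤ R^(n m)`.  At least `δ |Λ| / 2` elements `v` have
`∑_p ‖∑_x‖ ≥ δ |P₀| N / 2`, and for them at least `δ |P₀| / 4` primes `p` have `‖∑_x‖ ≥ δ N / 4`.
Call `p` nice if `Zc p ≤ (8/δ) N^(2k) ((k²/m)^(k n) + Ω / |P₀|)`; at most `δ |P₀| / 8` primes are not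
nice (`sum_Zc_le`, `Zc_zero_le`).  `choose_D` with `g = δ |P₀| / 8`; `signature` with
`Γ p c = {t < p : δ N / 4 ≤ ‖∑_x e(c / (p ∏ x)) e(t (W / ∏ x) / p)‖}` (`ee_split`, `moment`). -/
theorem inv_core {ι : Type} (Λ : Finset ι) (β : ι → ℤ) {n : ℕ} (P₀ : Finset ℕ)
    (P : Fin n → Finset ℕ) {m k n₀ Ω : ℕ} {δ R U κ : ℝ} (hδ : 0 < δ) (hδ1 : δ ≤ 1)
    (hp0 : ∀ p ∈ P₀, p.Prime ∧ (p : ℝ) ≤ U) (hne : P₀.Nonempty)
    (hp : ∀ j, ∀ q ∈ P j, q.Prime ∧ (q : ℝ) ≤ R) (hR : 1 ≤ R)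
    (hd : ∀ i j, i ≠ j → Disjoint (P i) (P j)) (hk : 1 ≤ k) (hkm : k ≤ m)
    (hm : ∀ j, m ≤ (P j).card) (hΩ : k * R ^ (n * m) < 2 ^ Ω)
    (hn₀ : 16 * (n₀ : ℝ) ≤ δ * P₀.card)
    (hκ : U * (4 / δ) ^ (2 * k) * (8 / δ) * (((k : ℝ) ^ 2 / m) ^ (k * n) + Ω / P₀.card) ≤ κ)
    (hb : ∀ v ∈ Λ, δ * (P₀.card * (Fintype.piFinset P).card) ≤
      ‖∑ p ∈ P₀, ∑ x ∈ Fintype.piFinset P, ee ((β v : ℝ) / ((p * ∏ j, x j : ℕ) : ℝ))‖) :
    ∃ D ⊆ P₀, D.card = n₀ ∧ ∃ Λ₀ ⊆ Λ,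
      (Λ.card : ℝ) * (δ / 2 * (δ / 16) ^ n₀) ≤ R ^ (n * m) * κ ^ n₀ * Λ₀.card ∧
      ∀ v ∈ Λ₀, ∀ v' ∈ Λ₀, ((pr D : ℕ) : ℤ) ∣ β v - β v' := by
  classical
  obtain ⟨Q, hQ, hs⟩ := sparsify Λ P hm
    fun v x => ∑ p ∈ P₀, ee ((β v : ℝ) / ((p * ∏ j, x j : ℕ) : ℝ))
  have hm1 : 1 ≤ m := hk.trans hkm
  have hm0 : (0 : ℝ) < m := by exact_mod_cast hm1
  have hk0 : (0 : ℝ) < k := by exact_mod_cast hk
  have hc : (0 : ℝ) < P₀.card := by exact_mod_cast hne.card_pos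
  have hPi : (0 : ℝ) < (Fintype.piFinset P).card := by
    rw [Fintype.card_piFinset]
    exact_mod_cast prod_pos fun j _ => hm1.trans (hm j)
  have hQp : ∀ j, ∀ q ∈ Q j, q.Prime := fun j q hq => (hp j q ((hQ j).1 hq)).1
  have hN : ((Fintype.piFinset Q).card : ℝ) = (m : ℝ) ^ n := by
    simp [Fintype.card_piFinset, fun j => (hQ j).2]
  set N : ℝ := (m : ℝ) ^ n with hNdef
  have hN0 : 0 < N := by positivity
  set c : ℝ := (P₀.card : ℝ) with hcdef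
  set W : ℕ := ∏ j, pr (Q j) with hW
  have hW1 : 1 ≤ W := prod_pos fun j _ => pr_pos (hQp j)
  have hWR : (W : ℝ) ≤ R ^ (n * m) := by
    rw [hW, Nat.cast_prod, mul_comm, pow_mul]
    refine (prod_le_prod (g := fun _ => R ^ m) (fun j _ => Nat.cast_nonneg _)
      (fun j _ => ?_)).trans (by simp)
    rw [pr, Nat.cast_prod, ← (hQ j).2, ← prod_const]
    exact prod_le_prod (fun j _ => Nat.cast_nonneg _) fun q hq => (hp j q ((hQ j).1 hq)).2
  set A : ι → ℕ → ℝ := fun v p =>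
    ‖∑ x ∈ Fintype.piFinset Q, ee ((β v : ℝ) / ((p * ∏ j, x j : ℕ) : ℝ))‖ with hA
  have hAN : ∀ v p, A v p ≤ N := fun v p => hN ▸ inv2_97_norm _ _
  -- popular `v`
  set Λ₁ := Λ.filter fun v => δ * c * N / 2 ≤ ∑ p ∈ P₀, A v p with hΛ₁
  have h1 : (Λ.card : ℝ) * (δ / 2) ≤ Λ₁.card := by
    have a1 : (Λ.card : ℝ) * (δ * (c * (Fintype.piFinset P).card)) ≤ ∑ v ∈ Λ,
        ‖∑ x ∈ Fintype.piFinset P, ∑ p ∈ P₀, ee ((β v : ℝ) / ((p * ∏ j, x j : ℕ) : ℝ))‖ := by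
      rw [← nsmul_eq_mul]
      exact card_nsmul_le_sum _ _ _ fun v hv => by rw [sum_comm]; exact hb v hv
    have a2 : ∑ v ∈ Λ, ‖∑ x ∈ Fintype.piFinset Q, ∑ p ∈ P₀,
        ee ((β v : ℝ) / ((p * ∏ j, x j : ℕ) : ℝ))‖ ≤ ∑ v ∈ Λ, ∑ p ∈ P₀, A v p :=
      sum_le_sum fun v _ => by rw [sum_comm]; exact norm_sum_le _ _
    have a3 := inv2_97_pop Λ (fun v => ∑ p ∈ P₀, A v p) (a := δ * c * N / 2) (b := c * N)
      (by positivity) fun v _ => by
        rw [hcdef, ← nsmul_eq_mul]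
        exact sum_le_card_nsmul _ _ _ fun p _ => hAN v p
    have a4 := ((mul_le_mul_of_nonneg_left a1 hN0.le).trans hs).trans
      (mul_le_mul_of_nonneg_left (a2.trans a3) hPi.le)
    refine le_of_mul_le_mul_left ?_ (mul_pos hPi (mul_pos hc hN0))
    rw [← hΛ₁] at a4
    linarith
  -- nice primes
  set E : ℝ := ((k : ℝ) ^ 2 / m) ^ (k * n) + Ω / c with hE
  have hE0 : 0 < E := by positivity
  set Z : ℕ → ℝ := fun p => Zc (Fintype.piFinset Q) (fun x => W / ∏ j, x j) k p with hZ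
  set Bad := P₀.filter fun p => 8 / δ * N ^ (2 * k) * E < Z p with hBad
  have h2 : (Bad.card : ℝ) ≤ δ * c / 8 := by
    have a1 := sum_Zc_le (Fintype.piFinset Q) (fun x => W / ∏ j, x j) k W Ω P₀
      (fun p hp => (hp0 p hp).1) (fun x _ => Nat.div_le_self _ _) (by
        have : (k : ℝ) * W < 2 ^ Ω := lt_of_le_of_lt (mul_le_mul_of_nonneg_left hWR hk0.le) hΩ
        exact_mod_cast this)
    have a2 := Zc_zero_le Q hkm (fun j => (hQ j).2) hQp fun i j hij =>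
      (hd i j hij).mono (hQ i).1 (hQ j).1
    have a3 : ((m : ℝ) ^ k * (k : ℝ) ^ (2 * k)) ^ n = N ^ (2 * k) * ((k : ℝ) ^ 2 / m) ^ (k * n) := by
      rw [hNdef, div_pow]
      field_simp
      ring
    have a4 : (Bad.card : ℝ) * (8 / δ * N ^ (2 * k) * E) ≤ ∑ p ∈ P₀, Z p := by
      rw [← nsmul_eq_mul]
      exact (card_nsmul_le_sum _ _ _ fun p hp => (mem_filter.1 hp).2.le).trans
        (sum_le_sum_of_subset_of_nonneg (filter_subset _ _) fun p _ _ => Zc_nonneg _ _ _ _)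
    have a5 : ∑ p ∈ P₀, Z p ≤ δ * c / 8 * (8 / δ * N ^ (2 * k) * E) := by
      rw [hN] at a1
      refine (a1.trans (add_le_add (mul_le_mul_of_nonneg_left (a2.trans a3.le) hc.le) le_rfl)).trans
        (le_of_eq ?_)
      rw [hE, ← hcdef]
      field_simp
    exact le_of_mul_le_mul_right (a4.trans a5) (by positivity)
  set G : ι → Finset ℕ := fun v => (P₀.filter fun p => δ * N / 4 ≤ A v p) \ Bad with hG
  have h3 : ∀ v ∈ Λ₁, G v ⊆ P₀ ∧ δ * c / 8 ≤ (G v).card := fun v hv => by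
    refine ⟨sdiff_subset.trans (filter_subset _ _), ?_⟩
    have a1 := (mem_filter.1 hv).2.trans (inv2_97_pop P₀ (A v) (a := δ * N / 4) (b := N)
      (by positivity) fun p _ => hAN v p)
    have a2 : δ * c / 4 ≤ ((P₀.filter fun p => δ * N / 4 ≤ A v p).card : ℝ) :=
      le_of_mul_le_mul_right (by linarith) hN0
    have a3 : ((P₀.filter fun p => δ * N / 4 ≤ A v p).card : ℝ) ≤ (G v).card + Bad.card := by
      exact_mod_cast card_le_card_sdiff_add_card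
    linarith
  have hn0 : (0 : ℝ) ≤ n₀ := Nat.cast_nonneg _
  have hδc : δ * c ≤ c := mul_le_of_le_one_left hc.le hδ1
  obtain ⟨D, hD, hDc, h4⟩ := choose_D Λ₁ P₀ G (n₀ := n₀) (g := δ * c / 8) (by linarith)
    (by exact_mod_cast (show (n₀ : ℝ) ≤ P₀.card by linarith)) h3
  rw [sum_ind] at h4
  have hU : 0 ≤ U := by
    obtain ⟨p, hp⟩ := hne
    exact (Nat.cast_nonneg p).trans (hp0 p hp).2
  have hκ0 : 0 ≤ κ := le_trans (by positivity) hκ
  have key := signature (Λ₁.filter fun v => D ⊆ G v) β hW1 D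
    (fun p hp => (hp0 p (hD hp)).1)
    (fun p c => (range p).filter fun t => p ∉ Bad ∧ δ * N / 4 ≤ ‖∑ x ∈ Fintype.piFinset Q,
      ee ((c : ℝ) / ((p * ∏ j, x j : ℕ) : ℝ)) * ee ((t : ℝ) * ((W / ∏ j, x j : ℕ) : ℝ) / p)‖)
    hκ0 (fun p hp c => ?_) fun v hv p hp => ?_
  · obtain ⟨Λ₀, hΛ₀, h5, h6⟩ := key
    refine ⟨D, hD, hDc, Λ₀, hΛ₀.trans ((filter_subset _ _).trans (filter_subset _ _)), ?_, h6⟩
    have a1 : δ / 16 ≤ (δ * c / 8 - n₀) / c := by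
      rw [le_div_iff₀ hc]
      linarith
    rw [hDc] at h5
    calc _ = (Λ.card : ℝ) * (δ / 2) * (δ / 16) ^ n₀ := by ring
      _ ≤ Λ₁.card * ((δ * c / 8 - n₀) / c) ^ n₀ := by gcongr
      _ ≤ W * κ ^ n₀ * Λ₀.card := h4.trans h5
      _ ≤ _ := by gcongr
  · by_cases hb : p ∈ Bad
    · simpa [hb] using hκ0
    have a1 := moment (Fintype.piFinset Q) (fun x => W / ∏ j, x j)
      (fun x => ee ((c : ℝ) / ((p * ∏ j, x j : ℕ) : ℝ))) (fun x => (norm_ee _).le) k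
      (hp0 p (hD hp)).1.pos (θ := δ * N / 4) (by positivity)
    have a2 : Z p ≤ 8 / δ * N ^ (2 * k) * E := not_lt.1 fun h => hb (mem_filter.2 ⟨hD hp, h⟩)
    rw [sum_ind] at a1
    simp only [hb, not_false_eq_true, true_and]
    refine le_trans (le_of_mul_le_mul_right (a1.trans ((mul_le_mul (hp0 p (hD hp)).2 a2
      (Zc_nonneg _ _ _ _) hU).trans (le_of_eq ?_))) (by positivity)) hκ
    rw [div_pow, div_pow, mul_pow]
    field_simp
  · have a1 := mem_sdiff.1 ((mem_filter.1 hv).2 hp)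
    have a2 := (hp0 p (hD hp)).1.pos
    refine mem_filter.2 ⟨mem_range.2 ?_, a1.2, (mem_filter.1 a1.1).2.trans (le_of_eq ?_)⟩
    · have := Int.emod_lt_of_pos (β v / W) (show (0 : ℤ) < p by exact_mod_cast a2)
      omega
    · simp only [hA]
      congr 1
      refine sum_congr rfl fun x hx => ee_split (β v) hW1 ?_ a2
      exact prod_dvd_prod_of_dvd _ _ fun j _ => dvd_prod_of_mem _ (Fintype.mem_piFinset.1 hx j)

/-- The choice of the parameters.  `ℒ = log X`, `λ = log ℒ`, `L₀ = log P₀ ∈ [λ², λ^A']`,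
`η = σ / 18`, `n ≥ 100 (A + 2) / σ`, `R = 2 exp (λ^A')`, `m = ⌊σ ℒ / (4 n log R)⌋₊ ≤ ℒ`,
`k = ⌈L₀ / (0.8 n λ)⌉₊ ≤ L₀`, so `m / k² ≥ ℒ^0.8` and `(k²/m)^(k n) ≤ 1 / P₀`; `Ω = ⌈2 ℒ⌉₊`,
`n₀ = ⌈5 ℒ / L₀⌉₊` (`5 ℒ ≤ n₀ L₀ ≤ 6 ℒ`), `κ = exp (η L₀)`;
`(4/δ)^(2k) (8/δ) ≤ exp ((A + 1) λ (2k + 1))`; the three losses are `X^(σ/4)`, `X^(σ/3)`,
`X^(σ/4)`. -/
theorem inv_num {σ : ℝ} (hσ : 0 < σ) (hσ1 : σ ≤ 1) (A : ℕ) : ∃ n : ℕ, ∀ A' : ℕ,
    ∀ᶠ X : ℝ in atTop, ∀ P₀ c δ : ℝ, 0 < P₀ → Real.log (Real.log X) ^ 2 ≤ Real.log P₀ →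
      Real.log P₀ ≤ Real.log (Real.log X) ^ A' → P₀ / Real.log X ^ A' ≤ c →
      1 / Real.log X ^ A ≤ δ → δ ≤ 1 →
      ∃ (m k n₀ Ω : ℕ) (κ : ℝ), 1 ≤ k ∧ k ≤ m ∧ (m : ℝ) ≤ Real.log X ∧
        k * (2 * Real.exp (Real.log (Real.log X) ^ A')) ^ (n * m) < 2 ^ Ω ∧
        16 * (n₀ : ℝ) ≤ δ * c ∧
        2 * P₀ * (4 / δ) ^ (2 * k) * (8 / δ) * (((k : ℝ) ^ 2 / m) ^ (k * n) + Ω / c) ≤ κ ∧
        X ^ 5 ≤ P₀ ^ n₀ ∧
        X ^ (-σ) * ((2 * Real.exp (Real.log (Real.log X) ^ A')) ^ (n * m) * κ ^ n₀) ≤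
          δ / 2 * (δ / 16) ^ n₀ := by
  obtain ⟨n, hn⟩ : ∃ n : ℕ, 144 * ((A : ℝ) + 1) ≤ σ * n := by
    refine ⟨⌈144 * ((A : ℝ) + 1) / σ⌉₊, ?_⟩
    rw [mul_comm σ, ← div_le_iff₀ hσ]
    exact Nat.le_ceil _
  have hn0 : (0 : ℝ) < n := by
    have : 0 < σ * n := lt_of_lt_of_le (by positivity) hn
    exact (mul_pos_iff_of_pos_left hσ).1 this
  refine ⟨n, fun A' => ?_⟩
  have hll : Tendsto (fun X : ℝ => Real.log (Real.log X)) atTop atTop :=
    Real.tendsto_log_atTop.comp Real.tendsto_log_atTop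
  have hev : ∀ᶠ l : ℝ in atTop, 40 * n * (l ^ A') ^ 3 ≤ σ * Real.exp (l / 2) := by
    have h := (isLittleO_pow_exp_pos_mul_atTop (A' * 3) (b := 1 / 2) (by norm_num)).def
      (c := σ / (40 * n)) (by positivity)
    filter_upwards [h] with l hl
    rw [Real.norm_eq_abs, Real.norm_eq_abs, abs_of_pos (Real.exp_pos _), div_mul_eq_mul_div,
      le_div_iff₀ (by positivity), show 1 / 2 * l = l / 2 by ring] at hl
    rw [← pow_mul, mul_comm]
    exact le_trans (mul_le_mul_of_nonneg_right (le_abs_self _) (by positivity)) hl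
  filter_upwards [hll.eventually hev, hll.eventually_ge_atTop 16,
    hll.eventually_ge_atTop ((A : ℝ) + A' + 1),
    hll.eventually_ge_atTop (36 * (3 * (A : ℝ) + A' + 5) / σ), eventually_gt_atTop 1]
    with X h4 h1 h2 h3 hX P₀ c δ hP hL1 hL2 hc hδ _
  have hX0 : 0 < X := by linarith
  have e1 : Real.exp (Real.log (Real.log X)) = Real.log X := Real.exp_log (Real.log_pos hX)
  have e2 : Real.exp (Real.log X) = X := Real.exp_log hX0
  have e3 : Real.exp (Real.log P₀) = P₀ := Real.exp_log hP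
  rw [div_le_iff₀ hσ, mul_comm _ σ] at h3
  have := inv2_88_core hσ hσ1 A A' n hn h1 h2 h3 h4 (c := c) (δ := δ) hL1 hL2
    (by rwa [e1, e3]) (by rwa [e1])
  rw [e1, e2, e3] at this
  rw [Real.rpow_def_of_pos hX0, mul_comm (Real.log X)]
  exact this

/-- `inv_core`, `inv_num`, `sum_piFinset_succ`; every `S j` has at least
`exp (λ²) / ℒ^A' ≥ ℒ` elements. -/
theorem inv_zero {σ : ℝ} (hσ : 0 < σ) (hσ1 : σ ≤ 1) (A : ℕ) : ∃ n : ℕ, ∀ A' : ℕ,
    ∀ᶠ X : ℝ in atTop, ∀ (S : Fin (n + 1) → Finset ℕ) (P : Fin (n + 1) → ℝ) (δ : ℝ)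
      (Λ : Finset ℕ) (β : ℕ → ℤ), Cells X A' S P → 1 / Real.log X ^ A ≤ δ → δ ≤ 1 →
      (∀ v ∈ Λ, δ * (Fintype.piFinset S).card ≤
        ‖∑ x ∈ Fintype.piFinset S, ee ((β v : ℝ) / ((∏ j, x j : ℕ) : ℝ))‖) →
      ∃ M : ℕ, X ^ 5 ≤ M ∧ ∃ Λ₀ ⊆ Λ, (Λ.card : ℝ) * X ^ (-σ) ≤ Λ₀.card ∧
        ∀ v ∈ Λ₀, ∀ v' ∈ Λ₀, (M : ℤ) ∣ β v - β v' := by
  obtain ⟨n, hn⟩ := inv_num hσ hσ1 A
  refine ⟨n, fun A' => ?_⟩
  have t1 := Real.tendsto_log_atTop
  filter_upwards [hn A', eventually_gt_atTop 0, t1.eventually_ge_atTop 1,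
    (t1.comp t1).eventually_ge_atTop (A' + 1)] with X hX hX0 hL hl
  intro S P δ Λ β hC hδ hδ1 hb
  replace hl : (A' : ℝ) + 1 ≤ Real.log (Real.log X) := hl
  have hL0 : 0 < Real.log X := by linarith
  have hδ0 : 0 < δ := lt_of_lt_of_le (by positivity) hδ
  have hcard : ∀ j, Real.log X ≤ (S j).card := by
    intro j
    refine le_trans ?_ (hC.card j)
    rw [le_div_iff₀ (by positivity), ← pow_succ',
      ← Real.log_le_log_iff (by positivity) (hC.pos j), Real.log_pow]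
    refine le_trans ?_ (hC.lo j)
    push_cast
    nlinarith [Nat.cast_nonneg (α := ℝ) A']
  obtain ⟨m, k, n₀, Ω, κ, hk, hkm, hm, hΩ, hn₀, hκ, h5, h6⟩ :=
    hX (P 0) (S 0).card δ (hC.pos 0) (hC.lo 0) (hC.hi 0) (hC.card 0) hδ hδ1
  have hc0 : (0 : ℝ) < (S 0).card := lt_of_lt_of_le hL0 (hcard 0)
  have hR : 1 ≤ 2 * Real.exp (Real.log (Real.log X) ^ A') := by
    have : 1 ≤ Real.exp (Real.log (Real.log X) ^ A') :=
      Real.one_le_exp (pow_nonneg (by linarith [Nat.cast_nonneg (α := ℝ) A']) _)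
    linarith
  obtain ⟨D, hD, hDc, Λ₀, hΛ₀, h7, h8⟩ := inv_core Λ β (S 0) (fun j : Fin n => S j.succ) hδ0 hδ1
    (fun p hp => ⟨(hC.mem 0 p hp).1, (hC.mem 0 p hp).2.2⟩) (card_pos.1 (by exact_mod_cast hc0))
    (fun j q hq => ⟨(hC.mem _ q hq).1, (hC.mem _ q hq).2.2.trans (by
      have := (Real.log_le_iff_le_exp (hC.pos j.succ)).1 (hC.hi j.succ)
      linarith)⟩) hR
    (fun i j hij => hC.disj _ _ fun h => hij (Fin.succ_injective _ h)) hk hkm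
    (fun j => by exact_mod_cast hm.trans (hcard j.succ)) hΩ hn₀ hκ (fun v hv => by
      have h1 := hb v hv
      rw [sum_piFinset_succ, Fintype.card_piFinset, Fin.prod_univ_succ] at h1
      simp only [Fin.prod_univ_succ, Fin.cons_zero, Fin.cons_succ] at h1
      rw [Fintype.card_piFinset, ← Nat.cast_mul]
      exact h1)
  refine ⟨pr D, h5.trans ?_, Λ₀, hΛ₀, ?_, h8⟩
  · rw [pr, Nat.cast_prod, ← hDc, ← prod_const]
    exact prod_le_prod (fun _ _ => (hC.pos 0).le) fun q hq => (hC.mem 0 q (hD hq)).2.1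
  · have hm0 : (0 : ℝ) < m := by exact_mod_cast hk.trans hkm
    have hk0 : (0 : ℝ) < k := by exact_mod_cast hk
    have hκ0 : 0 < κ := lt_of_lt_of_le (by have := hC.pos 0; positivity) hκ
    have hpos : 0 < (2 * Real.exp (Real.log (Real.log X) ^ A')) ^ (n * m) * κ ^ n₀ := by positivity
    refine le_of_mul_le_mul_left ?_ hpos
    refine le_trans ?_ h7
    have := mul_le_mul_of_nonneg_left h6 (Nat.cast_nonneg (α := ℝ) Λ.card)
    linarith

theorem Inv2_49_ee (a b : ℝ) : ‖ee a - ee b‖ ≤ 2 * Real.pi * |a - b| := by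
  have e : ee a - ee b = ee b * (ee (a - b) - 1) := by
    rw [mul_sub, ← ee_add, mul_one, add_sub_cancel]
  rw [e, norm_mul, norm_ee, one_mul]
  refine Real.norm_exp_I_mul_ofReal_sub_one_le.trans (le_of_eq ?_)
  rw [Real.norm_eq_abs, abs_mul, abs_of_pos (by positivity)]

theorem Inv2_49_phase (g : ℤ) {f v : ℕ} {u : ℝ} (hf : 1 ≤ f) (hv : 1 ≤ v) (hu : 0 < u) :
    ‖ee ((g : ℝ) / (f * u * v)) - ee (((g / ((f * v : ℕ) : ℤ) : ℤ) : ℝ) / u)‖ ≤ 2 * Real.pi / u := by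
  refine (Inv2_49_ee _ _).trans ?_
  have p : (0 : ℤ) < ((f * v : ℕ) : ℤ) := by positivity
  have a0 := Int.mul_ediv_add_emod g ((f * v : ℕ) : ℤ)
  have a1 := Int.emod_nonneg g p.ne'
  have a2 := (Int.emod_lt_of_pos g p).le
  generalize g / ((f * v : ℕ) : ℤ) = c at *
  generalize g % ((f * v : ℕ) : ℤ) = r at *
  have b0 : (g : ℝ) = f * v * c + r := by exact_mod_cast a0.symm
  have b1 : (0 : ℝ) ≤ r := by exact_mod_cast a1
  have b2 : (r : ℝ) ≤ f * v := by exact_mod_cast a2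
  have b3 : (0 : ℝ) < f * v := by exact_mod_cast p
  have b4 : (0 : ℝ) < f := by positivity
  have b5 : (0 : ℝ) < v := by positivity
  have e : (g : ℝ) / (f * u * v) - c / u = r / (f * v) / u := by
    rw [b0]
    field_simp
    ring
  rw [e, abs_of_nonneg (by positivity), ← mul_div_assoc]
  exact div_le_div_of_nonneg_right (mul_le_of_le_one_right (by positivity) ((div_le_one b3).2 b2))
    hu.le

/-- `β v = h b / (f v)`; `‖e(h b / (f u v)) - e(β v / u)‖ ≤ 2 π / u ≤ δ / 2` as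
`u ≥ exp ((log log X)²)`; `inv_zero` with `A + 1` and `δ / 2`; `glue`. -/
theorem thmB {σ : ℝ} (hσ : 0 < σ) (hσ1 : σ ≤ 1 / 10) (A : ℕ) : ∃ n : ℕ, ∀ A' : ℕ,
    ∀ᶠ X : ℝ in atTop, InvB X σ A A' n := by
  obtain ⟨n, hn⟩ := inv_zero hσ (by linarith) (A + 1)
  refine ⟨n, fun A' => ?_⟩
  have t1 := Real.tendsto_log_atTop
  filter_upwards [hn A', eventually_gt_atTop 2, t1.eventually_ge_atTop 16,
    (t1.comp t1).eventually_ge_atTop (A + 1), (tendsto_rpow_atTop hσ).eventually_ge_atTop 2]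
    with X hX hX2 hL hl hXσ
  intro S P δ V Λ b h f hC hδ hδ1 hΛ hV hVX hc hh hhX hf hfX hb
  replace hl : (A : ℝ) + 1 ≤ Real.log (Real.log X) := hl
  have hX0 : 0 < X := by linarith
  have hX1 : 1 ≤ X := by linarith
  have hL0 : 0 < Real.log X := by linarith
  have hP : Real.log X ^ (A + 1) ≤ P 0 := by
    rw [← Real.log_le_log_iff (by positivity) (hC.pos 0), Real.log_pow]
    refine le_trans ?_ (hC.lo 0)
    push_cast
    nlinarith [Nat.cast_nonneg (α := ℝ) A]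
  have hδ' : ∀ c : ℝ, 0 ≤ c → c ≤ 8 → c / Real.log X ^ (A + 1) ≤ δ / 2 := by
    intro c c0 c8
    refine le_trans ?_ (div_le_div_of_nonneg_right hδ zero_le_two)
    rw [div_div, div_le_div_iff₀ (by positivity) (by positivity), pow_succ]
    nlinarith [pow_pos hL0 A]
  obtain ⟨M, hM, Λ₀, hs, hc₀, hd⟩ := hX S P (δ / 2) Λ (fun v => h * b / ((f * v : ℕ) : ℤ)) hC
    (hδ' 1 zero_le_one (by norm_num)) (by linarith) (fun v hv => by
      have a1 : ∀ x ∈ Fintype.piFinset S,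
          ‖ee (((h * b : ℤ) : ℝ) / ((f : ℝ) * ((∏ j, x j : ℕ) : ℝ) * v)) -
            ee (((h * b / ((f * v : ℕ) : ℤ) : ℤ) : ℝ) / ((∏ j, x j : ℕ) : ℝ))‖ ≤ δ / 2 := by
        intro x hx
        have m := fun j => hC.mem j (x j) (Fintype.mem_piFinset.1 hx j)
        have b1 : x 0 ≤ ∏ j, x j :=
          single_le_prod' (f := x) (fun j _ => (m j).1.one_le) (mem_univ 0)
        have b2 : Real.log X ^ (A + 1) ≤ ((∏ j, x j : ℕ) : ℝ) :=
          (hP.trans (m 0).2.1).trans (by exact_mod_cast b1)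
        refine (Inv2_49_phase _ hf (hΛ v hv).1 (lt_of_lt_of_le (by positivity) b2)).trans ?_
        refine le_trans ?_ (hδ' (2 * Real.pi) (by positivity) (by linarith [Real.pi_le_four]))
        gcongr
      have a2 := (norm_sum_le _ _).trans (sum_le_card_nsmul _ _ _ a1)
      rw [sum_sub_distrib, nsmul_eq_mul] at a2
      have a3 := (norm_sub_norm_le _ _).trans a2
      linarith [hb v hv])
  have hV0 : 0 ≤ V := le_trans (by positivity) hV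
  have r1 : X ^ (-(2 * σ)) = X ^ (-σ) * X ^ (-σ) := by
    rw [← Real.rpow_add hX0]
    ring_nf
  have c1 : V * X ^ (-(2 * σ)) ≤ Λ₀.card := by
    rw [r1, ← mul_assoc]
    exact le_trans (mul_le_mul_of_nonneg_right hc (by positivity)) hc₀
  have c2 : (2 : ℝ) ≤ Λ₀.card := by
    refine le_trans ?_ ((mul_le_mul_of_nonneg_right hV (by positivity)).trans c1)
    rw [← Real.rpow_add hX0]
    exact hXσ.trans (Real.rpow_le_rpow_of_exponent_le hX1 (by linarith))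
  have c0 : (0 : ℝ) < Λ₀.card := by linarith
  have c3 : V / Λ₀.card ≤ X ^ (2 * σ) := by
    rw [Real.rpow_neg hX0.le, ← div_eq_mul_inv, div_le_iff₀ (by positivity)] at c1
    rwa [div_le_iff₀' c0]
  have c4 : |(h : ℝ)| * (2 * V / Λ₀.card) ≤ X ^ (3 * σ) := by
    calc _ = 2 * |(h : ℝ)| * (V / Λ₀.card) := by ring
      _ ≤ X ^ σ * X ^ (2 * σ) := by gcongr
      _ = _ := by
        rw [← Real.rpow_add hX0]
        ring_nf
  have c5 : 2 * f * V ^ 2 / Λ₀.card ≤ X ^ (1 + 4 * σ) := by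
    calc _ = 2 * f * V * (V / Λ₀.card) := by ring
      _ ≤ X ^ σ * X ^ σ * X ^ (1 : ℝ) * X ^ (2 * σ) := by
        rw [Real.rpow_one]
        gcongr
      _ = _ := by
        simp only [← Real.rpow_add hX0]
        ring_nf
  have c6 : 2 * (f : ℝ) * V ^ 3 < M := by
    have : X ^ σ ≤ X := by
      simpa using Real.rpow_le_rpow_of_exponent_le hX1 (show σ ≤ 1 by linarith)
    calc _ ≤ 2 * X * X ^ 3 := by
          gcongr
          exact hfX.trans this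
      _ < X * X * X ^ 3 := by gcongr
      _ = X ^ 5 := by ring
      _ ≤ M := hM
  obtain ⟨a, q, g1, g2, g3, g4, g5⟩ := glue Λ₀ h b (fun v hv => hΛ v (hs hv))
    (by exact_mod_cast c2) hf hh c6 hd
  refine ⟨a, q, g1, g2.trans c4, g3.trans (by gcongr), g4, Λ₀, hs, c1, fun v hv l hl hlv h3 =>
    g5 v hv l hl hlv ?_ (c4.trans_lt h3)⟩
  rw [← div_lt_iff₀ c0]
  exact (c3.trans (Real.rpow_le_rpow_of_exponent_le hX1 (by linarith))).trans_lt h3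

end Crest.Agent.R001
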