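import Crest.Agent.R001.A1
import Crest.Agent.R001.Inv2

set_option autoImplicit false

namespace Crest.Agent.R001

open Finset Filter Crest.Agent.R008 Crest.Agent.R026

/-! # Part (A): the boundary terms have the expected size -/

/-- The parameters for given `X`. -/
noncomputable def par (X : ℕ) (b : ℤ) (w σ y₁ y₂ : ℝ) (A n : ℕ) : AP where
  N := X / 2
  b := b
  w := w
  D := DX X
  z := zX X
  y₁ := y₁
  y₂ := y₂
  Xt := (X : ℝ) ^ (10 * σ)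
  Z := Real.log X ^ A
  n := n
  J := ⌈Real.log X ^ (13 * A)⌉₊
  t := ⌈Real.log (Real.log X) ^ 2⌉₊
  Q := Unex X σ (zX X) b

/-- `card_cell_ge`, `mem_cell`, `ci_eq_iff`: `ι j / J ∈ [t, t^(n+2)]`, `t ≤ 2 λ²` (`λ = log log X`),
`8 ι j ≤ 8 J t^(n+2) ≤ ℒ^(13 A + 1)`, `J ≤ exp (c λ²)`. -/
theorem par_cells (hP : HP) {A : ℕ} (hA : 10 ≤ A) (n : ℕ) : ∃ A' : ℕ, ∀ᶠ X : ℕ in atTop,
    ∀ (b : ℤ) (w σ y₁ y₂ : ℝ), ∀ ι ∈ (par X b w σ y₁ y₂ A n).Idx,
      Cells X A' (fun j => cell (par X b w σ y₁ y₂ A n).J (ι j))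
        (fun j => Real.exp ((ι j : ℝ) / (par X b w σ y₁ y₂ A n).J)) := by
  obtain ⟨c, P₀, hc, hcard⟩ := card_cell_ge hP
  refine ⟨13 * A + 4 + 3 * (n + 2), ?_⟩
  have hL : Tendsto (fun X : ℕ => Real.log X) atTop atTop :=
    Real.tendsto_log_atTop.comp tendsto_natCast_atTop_atTop
  have hl : Tendsto (fun X : ℕ => Real.log (Real.log X)) atTop atTop :=
    Real.tendsto_log_atTop.comp hL
  filter_upwards [hL.eventually_ge_atTop 2, hL.eventually_ge_atTop P₀, hl.eventually_ge_atTop 2,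
    (hl.const_mul_atTop hc).eventually_ge_atTop ((13 * A + 1 : ℕ) : ℝ)]
    with X h1 h2 h3 h4 b w σ y₁ y₂ ι hι
  have hmem : ∀ j : Fin (n + 1),
      ⌈Real.log X ^ (13 * A)⌉₊ * ⌈Real.log (Real.log X) ^ 2⌉₊ ^ ((j : ℕ) + 1) ≤ ι j ∧
      ι j < ⌈Real.log X ^ (13 * A)⌉₊ * ⌈Real.log (Real.log X) ^ 2⌉₊ ^ ((j : ℕ) + 1 + 1) :=
    fun j => mem_Ico.1 (Fintype.mem_piFinset.1 hι j)
  change Cells X _ (fun j : Fin (n + 1) => cell ⌈Real.log X ^ (13 * A)⌉₊ (ι j))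
    (fun j : Fin (n + 1) => Real.exp ((ι j : ℝ) / (⌈Real.log X ^ (13 * A)⌉₊ : ℕ)))
  have hJ1 : Real.log X ^ (13 * A) ≤ (⌈Real.log X ^ (13 * A)⌉₊ : ℝ) := Nat.le_ceil _
  have hJ2 : (⌈Real.log X ^ (13 * A)⌉₊ : ℝ) < Real.log X ^ (13 * A) + 1 :=
    Nat.ceil_lt_add_one (by positivity)
  have ht1 : Real.log (Real.log X) ^ 2 ≤ (⌈Real.log (Real.log X) ^ 2⌉₊ : ℝ) := Nat.le_ceil _
  have ht2 : (⌈Real.log (Real.log X) ^ 2⌉₊ : ℝ) < Real.log (Real.log X) ^ 2 + 1 :=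
    Nat.ceil_lt_add_one (by positivity)
  generalize ⌈Real.log X ^ (13 * A)⌉₊ = J at hmem hJ1 hJ2 ⊢
  generalize ⌈Real.log (Real.log X) ^ 2⌉₊ = t at hmem ht1 ht2
  have hexp : Real.exp (Real.log (Real.log X)) = Real.log X := Real.exp_log (by linarith)
  have hlL : Real.log (Real.log X) ≤ Real.log X :=
    (Real.log_le_sub_one_of_pos (by linarith)).trans (by linarith)
  have hCells : ∀ L l : ℝ, L = Real.log X → l = Real.log (Real.log X) →
      Cells X (13 * A + 4 + 3 * (n + 2)) (fun j : Fin (n + 1) => cell J (ι j))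
        (fun j : Fin (n + 1) => Real.exp ((ι j : ℝ) / J)) := by
    intro L l hLe hle
    rw [← hle] at h3 h4 ht1 ht2 hexp hlL
    rw [← hLe] at h1 h2 hJ1 hJ2 hexp hlL
    have hp1 : L ≤ L ^ (13 * A) := le_self_pow₀ (by linarith) (by omega)
    have hJ2' : (2 : ℝ) ≤ J := by linarith
    have hJ0 : (0 : ℝ) < J := by linarith
    have hJn : 1 ≤ J := by
      have : (1 : ℝ) ≤ J := by linarith
      exact_mod_cast this
    have hJ3 : (J : ℝ) ≤ L ^ (13 * A + 1) := by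
      rw [pow_succ]
      nlinarith
    have ht3 : (t : ℝ) ≤ l ^ 3 := by nlinarith
    have ht4 : (1 : ℝ) ≤ t := by nlinarith
    have htn : 1 ≤ t := by exact_mod_cast ht4
    have hlo : ∀ j : Fin (n + 1), l ^ 2 ≤ (ι j : ℝ) / J := fun j => by
      rw [le_div_iff₀ hJ0]
      have a1 : J * t ≤ ι j :=
        (Nat.mul_le_mul_left J (Nat.le_self_pow (by omega) t)).trans (hmem j).1
      have a2 : (J : ℝ) * t ≤ ι j := by exact_mod_cast a1
      nlinarith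
    have hhi : ∀ j : Fin (n + 1), (ι j : ℝ) ≤ J * l ^ (3 * (n + 2)) := fun j => by
      have a1 : ι j ≤ J * t ^ (n + 2) := (hmem j).2.le.trans
        (Nat.mul_le_mul_left J (Nat.pow_le_pow_right htn (by have := j.isLt; omega)))
      have a2 : (ι j : ℝ) ≤ J * (t : ℝ) ^ (n + 2) := by exact_mod_cast a1
      refine a2.trans (mul_le_mul_of_nonneg_left ?_ hJ0.le)
      rw [pow_mul]
      exact pow_le_pow_left₀ (by linarith) ht3 _
    refine ⟨fun j => Real.exp_pos _, fun j q hq => ?_, fun i j hij => ?_, fun j => ?_,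
      fun j => ?_, fun j => ?_⟩
    · obtain ⟨a1, a2⟩ := (mem_cell hJn).1 hq
      obtain ⟨a3, a4⟩ := (ci_eq_iff hJn a1.one_le).1 a2
      have hq0 : (0 : ℝ) < q := by exact_mod_cast a1.pos
      refine ⟨a1, (Real.le_log_iff_exp_le hq0).1 a3, ?_⟩
      have a5 : (1 : ℝ) / J ≤ Real.log 2 :=
        (one_div_le_one_div_of_le (by norm_num) hJ2').trans (by linarith [Real.log_two_gt_d9])
      have a6 : Real.log q ≤ Real.log 2 + (ι j : ℝ) / J := by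
        rw [add_div] at a4
        linarith
      have a7 := (Real.log_le_iff_le_exp hq0).1 a6
      rwa [Real.exp_add, Real.exp_log (by norm_num)] at a7
    · have hlt : ∀ i j : Fin (n + 1), i < j → ι i < ι j := fun i j hij =>
        (hmem i).2.trans_le ((Nat.mul_le_mul_left J (Nat.pow_le_pow_right htn
          (by have : (i : ℕ) < j := hij; omega))).trans (hmem j).1)
      refine Finset.disjoint_left.2 fun q h1 h2 => ?_
      have a1 := ((mem_cell hJn).1 h1).2.symm.trans ((mem_cell hJn).1 h2).2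
      rcases lt_or_gt_of_ne hij with h | h
      · exact (hlt i j h).ne a1
      · exact (hlt j i h).ne a1.symm
    · have a0 := hlo j
      have a1 : P₀ ≤ Real.exp ((ι j : ℝ) / J) :=
        h2.trans (hexp.symm.le.trans (Real.exp_le_exp.2 (by nlinarith)))
      have a2 : (J : ℝ) ≤ Real.exp ((ι j : ℝ) / J) ^ c := by
        rw [← Real.exp_mul]
        refine hJ3.trans ?_
        rw [← hexp, ← Real.exp_nat_mul, Real.exp_le_exp]
        have := mul_le_mul_of_nonneg_right h4 (by linarith : 0 ≤ l)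
        have := mul_le_mul_of_nonneg_right a0 hc.le
        nlinarith
      refine le_trans ?_ (hcard J (ι j) hJn a1 a2)
      have a3 : (0 : ℝ) < ι j := by
        have : 0 < (ι j : ℝ) / J := lt_of_lt_of_le (by positivity) a0
        exact (div_pos_iff_of_pos_right hJ0).1 this
      rw [← hLe]
      refine div_le_div_of_nonneg_left (Real.exp_pos _).le (by positivity) ?_
      have a4 : (8 : ℝ) ≤ L ^ 3 := by
        have := pow_le_pow_left₀ (by norm_num) h1 3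
        linarith
      have a5 : l ^ (3 * (n + 2)) ≤ L ^ (3 * (n + 2)) := pow_le_pow_left₀ (by linarith) hlL _
      calc 8 * (ι j : ℝ) ≤ L ^ 3 * (L ^ (13 * A + 1) * L ^ (3 * (n + 2))) :=
            mul_le_mul a4 ((hhi j).trans (mul_le_mul hJ3 a5 (by positivity) (by positivity)))
              a3.le (by positivity)
        _ = _ := by ring
    · rw [Real.log_exp, ← hle]
      exact hlo j
    · rw [Real.log_exp, ← hle, div_le_iff₀' hJ0]
      exact (hhi j).trans (mul_le_mul_of_nonneg_left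
        (pow_le_pow_right₀ (by linarith) (by omega)) hJ0.le)
  exact hCells _ _ rfl rfl

theorem ab17_ev (K : ℝ) {c : ℝ} (hc : 0 < c) (k : ℕ) : ∀ᶠ X : ℕ in atTop,
    K ≤ Real.log (Real.log X) ∧ Real.log (Real.log X) ^ k ≤ c * Real.log X := by
  have h1 : Tendsto (fun X : ℕ => Real.log X) atTop atTop :=
    Real.tendsto_log_atTop.comp tendsto_natCast_atTop_atTop
  have h2 := (Real.isLittleO_pow_log_id_atTop (n := k)).bound hc
  filter_upwards [(Real.tendsto_log_atTop.comp h1).eventually_ge_atTop K, h1.eventually h2,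
    h1.eventually_ge_atTop 0] with X a b d
  refine ⟨a, ?_⟩
  simp only [id, Real.norm_eq_abs, abs_of_nonneg d] at b
  exact (le_abs_self _).trans b

/-- Facts used by both `par_ok` and `par_loss`. -/
theorem ab17_basic : ∀ᶠ X : ℕ in atTop, 0 < Real.log X ∧ 0 < DX X ∧ DX X ≤ X ∧
    zX X * Real.exp (Real.log X / 200) ≤ DX X ∧
    ∀ w : ℝ, Real.exp (mu (primesIoc w (zX X))) ≤ Real.log X ^ 2 := by
  obtain ⟨C, hC, hmu⟩ := mu_le
  filter_upwards [ab17_ev (C + 2) (c := 1 / 24) (by norm_num) 1, eventually_ge_atTop 3] with X h h3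
  obtain ⟨h1, h2⟩ := h
  have hX3 : (3 : ℝ) ≤ X := by exact_mod_cast h3
  have hX0 : (0 : ℝ) < X := by linarith
  have hL : 0 < Real.log X := Real.log_pos (by linarith)
  have hLl : Real.log (Real.log X) + 1 ≤ Real.log X := by
    have := Real.add_one_le_exp (Real.log (Real.log X))
    rwa [Real.exp_log hL] at this
  have hN1 : (X : ℝ) / 4 ≤ ((X / 2 : ℕ) : ℝ) := by
    have e1 : X ≤ 4 * (X / 2) := by omega
    have e2 : (X : ℝ) ≤ 4 * ((X / 2 : ℕ) : ℝ) := by exact_mod_cast e1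
    linarith
  have hN2 : ((X / 2 : ℕ) : ℝ) ≤ X := by exact_mod_cast Nat.div_le_self X 2
  have hL2 : 1 ≤ Real.log X ^ 2 := one_le_pow₀ (by linarith)
  have hD0 : 0 < DX X := div_pos (by linarith) (by positivity)
  have hDX : DX X ≤ X := (div_le_self (by positivity) hL2).trans hN2
  have hz : zX X * Real.exp (Real.log X / 200) ≤ DX X := by
    unfold zX DX
    rw [le_div_iff₀ (by positivity)]
    refine le_trans ?_ hN1
    rw [le_div_iff₀ (by norm_num)]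
    have e1 : Real.sqrt X = Real.exp (Real.log X / 2) := by
      rw [Real.exp_half, Real.exp_log hX0]
    have e2 : Real.log X ^ 6 = Real.exp (6 * Real.log (Real.log X)) := by
      rw [show (6 : ℝ) = ((6 : ℕ) : ℝ) by norm_num, Real.exp_nat_mul, Real.exp_log hL]
    have e3 : Real.exp (Real.log X / 2) * Real.exp (Real.log X / 200) *
        Real.exp (6 * Real.log (Real.log X)) ≤ X := by
      rw [← Real.exp_add, ← Real.exp_add]
      refine le_trans (Real.exp_le_exp.2 ?_) (Real.exp_log hX0).le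
      rw [pow_one] at h2
      linarith
    rw [← e2] at e3
    rw [e1]
    refine le_trans ?_ e3
    have e4 : 0 ≤ Real.exp (Real.log X / 2) * Real.exp (Real.log X / 200) * Real.log X ^ 5 := by
      positivity
    have e5 : 4 ≤ Real.log X := by
      have e6 := Real.add_one_le_exp (Real.log (Real.log X) / 2)
      have e7 : Real.exp (Real.log (Real.log X) / 2) ^ 2 = Real.log X := by
        rw [← Real.exp_nat_mul, show ((2 : ℕ) : ℝ) * (Real.log (Real.log X) / 2) =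
          Real.log (Real.log X) by push_cast; ring, Real.exp_log hL]
      nlinarith
    nlinarith [mul_le_mul_of_nonneg_left e5 e4]
  refine ⟨hL, hD0, hDX, hz, fun w => ?_⟩
  have hz0 : 0 ≤ zX X := by unfold zX; positivity
  have hzX : zX X ≤ X :=
    (le_mul_of_one_le_right hz0 (Real.one_le_exp (by positivity))).trans (hz.trans hDX)
  have h4 := (hmu X (primesIoc w (zX X)) hX3 (fun p hp => by
    have e1 := mem_filter.1 hp
    have e2 : (p : ℝ) ≤ ⌊zX X⌋₊ := by exact_mod_cast (mem_Ioc.1 e1.1).2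
    exact ⟨e1.2, e2.trans ((Nat.floor_le hz0).trans hzX)⟩)).2
  refine h4.trans ?_
  rw [sq]
  exact mul_le_mul_of_nonneg_right (by linarith) hL.le

/-- Elementary estimates; `mu_le` for `muZ` (`log z ≤ ℒ`); `par_cells` for `ne`. -/
theorem par_ok (hP : HP) {w σ : ℝ} (hw : 10 ≤ w) (hσ : 0 < σ) (hσ1 : σ ≤ 1 / 200) {A : ℕ}
    (hA : 10 ≤ A) (n : ℕ) : ∀ᶠ X : ℕ in atTop, ∀ (b : ℤ) (y₁ y₂ : ℝ), 1 ≤ y₂ →
      y₂ ≤ Real.log X ^ A → (par X b w σ y₁ y₂ A n).OK := by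
  obtain ⟨A', hcell⟩ := par_cells hP hA n
  filter_upwards [hcell, ab17_basic, ab17_ev (w + 3 * A + 8 * (n + 4)) hσ (3 * (n + 2)),
    eventually_ge_atTop 3] with X hc hb h h3 b y₁ y₂ hy1 hy2
  obtain ⟨hL, hD0, hDX, hz, hmu⟩ := hb
  obtain ⟨h1, h2⟩ := h
  have hX3 : (3 : ℝ) ≤ X := by exact_mod_cast h3
  have hX0 : (0 : ℝ) < X := by linarith
  have hLl : Real.log (Real.log X) + 1 ≤ Real.log X := by
    have := Real.add_one_le_exp (Real.log (Real.log X))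
    rwa [Real.exp_log hL] at this
  have hA0 : (0 : ℝ) ≤ A := by positivity
  have hn0 : (0 : ℝ) ≤ n := by positivity
  have hL1 : 1 ≤ Real.log X := by linarith
  have ht1 : Real.log (Real.log X) ^ 2 ≤ (⌈Real.log (Real.log X) ^ 2⌉₊ : ℝ) := Nat.le_ceil _
  have ht2 : (⌈Real.log (Real.log X) ^ 2⌉₊ : ℝ) ≤ Real.log (Real.log X) ^ 3 := by
    have e1 := (Nat.ceil_lt_add_one (sq_nonneg (Real.log (Real.log X)))).le
    have e2 : 2 ≤ Real.log (Real.log X) := by linarith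
    nlinarith
  have ht3 : (⌈Real.log (Real.log X) ^ 2⌉₊ : ℝ) ^ (n + 2) ≤ σ * Real.log X := by
    refine le_trans ?_ h2
    rw [pow_mul]
    exact pow_le_pow_left₀ (by positivity) ht2 _
  have hl2 : Real.log (Real.log X) ≤ Real.log (Real.log X) ^ 2 := by nlinarith
  refine ⟨hw, ?_, ?_, ?_, hy1, ?_, ?_, ?_, ?_, fun s hs => hs.1, hy2, ?_, ?_, fun ι hι => ?_⟩
  · show 2 ≤ ⌈Real.log (Real.log X) ^ 2⌉₊
    have : ((2 : ℕ) : ℝ) ≤ (⌈Real.log (Real.log X) ^ 2⌉₊ : ℝ) := by push_cast; linarith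
    exact_mod_cast this
  · show 8 * (n + 4) ≤ ⌈Real.log X ^ (13 * A)⌉₊
    have e1 : Real.log X ≤ Real.log X ^ (13 * A) := le_self_pow₀ hL1 (by omega)
    have e2 := Nat.le_ceil (Real.log X ^ (13 * A))
    have : ((8 * (n + 4) : ℕ) : ℝ) ≤ (⌈Real.log X ^ (13 * A)⌉₊ : ℝ) := by push_cast; linarith
    exact_mod_cast this
  · show w < Real.exp (⌈Real.log (Real.log X) ^ 2⌉₊ : ℝ)
    have := Real.add_one_le_exp (⌈Real.log (Real.log X) ^ 2⌉₊ : ℝ)
    linarith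
  · show y₂ ^ 3 ≤ Real.exp (⌈Real.log (Real.log X) ^ 2⌉₊ : ℝ)
    refine (pow_le_pow_left₀ (by linarith) hy2 3).trans ?_
    have e2 : (Real.log X ^ A) ^ 3 = Real.exp (((A * 3 : ℕ) : ℝ) * Real.log (Real.log X)) := by
      rw [Real.exp_nat_mul, Real.exp_log hL, pow_mul]
    rw [e2]
    refine Real.exp_le_exp.2 (le_trans ?_ ht1)
    push_cast
    nlinarith
  · show Real.exp ((⌈Real.log (Real.log X) ^ 2⌉₊ : ℝ) ^ (n + 2)) ≤ (X : ℝ) ^ (10 * σ)
    rw [Real.rpow_def_of_pos hX0]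
    refine Real.exp_le_exp.2 (ht3.trans ?_)
    nlinarith [mul_pos hσ hL]
  · show (X : ℝ) ^ (10 * σ) ≤ zX X
    unfold zX
    rw [Real.sqrt_eq_rpow]
    exact (Real.rpow_le_rpow_of_exponent_le (by linarith) (by linarith)).trans
      (le_mul_of_one_le_right (by positivity) (one_le_pow₀ hL1))
  · show zX X * Real.exp ((⌈Real.log (Real.log X) ^ 2⌉₊ : ℝ) ^ (n + 2)) ≤ DX X
    refine le_trans (mul_le_mul_of_nonneg_left (Real.exp_le_exp.2 (ht3.trans ?_)) ?_) hz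
    · nlinarith
    · unfold zX; positivity
  · show mu (primesIoc w (zX X)) * Real.exp (mu (primesIoc w (zX X))) ≤ Real.log X ^ A
    have e1 := hmu w
    have e2 := Real.add_one_le_exp (mu (primesIoc w (zX X)))
    calc _ ≤ Real.log X ^ 2 * Real.log X ^ 2 :=
          mul_le_mul (by linarith) e1 (Real.exp_pos _).le (by positivity)
      _ = Real.log X ^ 4 := by ring
      _ ≤ _ := pow_le_pow_right₀ hL1 (by omega)
  · show ((X / 2 : ℕ) : ℝ) ≤ Real.log X ^ A * DX X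
    unfold DX
    rw [mul_div_assoc', le_div_iff₀ (by positivity), mul_comm]
    exact mul_le_mul_of_nonneg_right (pow_le_pow_right₀ hL1 (by omega)) (by positivity)
  · have e1 := hc b w σ y₁ y₂ ι hι
    refine Fintype.piFinset_nonempty.2 fun j => Finset.card_pos.1 ?_
    have e2 := e1.card j
    have e3 := e1.pos j
    have e4 : (0 : ℝ) < ((cell (par X b w σ y₁ y₂ A n).J (ι j)).card : ℝ) :=
      lt_of_lt_of_le (div_pos e3 (by positivity)) e2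
    exact_mod_cast e4

/-- `mu P ≤ λ + C`, `exp (mu P) ≤ C ℒ`, `t ≥ λ²`, `J ≥ ℒ^130`. -/
theorem par_loss (w : ℝ) {σ : ℝ} (hσ : 0 < σ) {A : ℕ} (hA : 10 ≤ A) (n : ℕ) :
    ∀ᶠ X : ℕ in atTop, ∀ (b : ℤ) (y₁ y₂ : ℝ),
      (par X b w σ y₁ y₂ A n).loss ≤ 1 / Real.log X ^ 2 := by
  filter_upwards [ab17_basic, ab17_ev (20 + n + 4) (c := σ / 2) (by positivity) 1,
    eventually_ge_atTop 3] with X hb h h3 b y₁ y₂
  obtain ⟨hL, hD0, hDX, -, hmu⟩ := hb
  obtain ⟨h1, h2⟩ := h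
  have hX3 : (3 : ℝ) ≤ X := by exact_mod_cast h3
  have hX0 : (0 : ℝ) < X := by linarith
  have hLl : Real.log (Real.log X) + 1 ≤ Real.log X := by
    have := Real.add_one_le_exp (Real.log (Real.log X))
    rwa [Real.exp_log hL] at this
  have hn0 : (0 : ℝ) ≤ n := by positivity
  have hL1 : 1 ≤ Real.log X := by linarith
  have ht1 : Real.log (Real.log X) ^ 2 ≤ (⌈Real.log (Real.log X) ^ 2⌉₊ : ℝ) := Nat.le_ceil _
  have hε : Real.exp (-(20 * Real.log (Real.log X))) = 1 / Real.log X ^ 20 := by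
    rw [Real.exp_neg, show (20 : ℝ) = ((20 : ℕ) : ℝ) by norm_num, Real.exp_nat_mul, Real.exp_log hL,
      one_div]
  have a1 : Real.exp (-(⌈Real.log (Real.log X) ^ 2⌉₊ : ℝ)) ≤ 1 / Real.log X ^ 20 := by
    rw [← hε]
    refine Real.exp_le_exp.2 (neg_le_neg (le_trans ?_ ht1))
    nlinarith
  have a2 : Real.exp (1 - (⌈Real.log (Real.log X) ^ 2⌉₊ : ℝ)) ≤ Real.log X * (1 / Real.log X ^ 20) := by
    rw [sub_eq_add_neg, Real.exp_add]
    refine mul_le_mul ?_ a1 (Real.exp_pos _).le hL.le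
    have := Real.exp_one_lt_d9
    linarith
  have hJ : Real.log X * Real.log X ^ 20 ≤ (⌈Real.log X ^ (13 * A)⌉₊ : ℝ) := by
    rw [← pow_succ']
    exact (pow_le_pow_right₀ hL1 (by omega)).trans (Nat.le_ceil _)
  have hp20 : 0 < Real.log X ^ 20 := by positivity
  have hJ0 : (0 : ℝ) < (⌈Real.log X ^ (13 * A)⌉₊ : ℝ) := lt_of_lt_of_le (by positivity) hJ
  have a3 : ((n : ℝ) + 4) / (⌈Real.log X ^ (13 * A)⌉₊ : ℝ) ≤ 1 / Real.log X ^ 20 := by
    rw [div_le_div_iff₀ hJ0 hp20, one_mul]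
    exact (mul_le_mul_of_nonneg_right (by linarith) hp20.le).trans hJ
  have a4 : 1 / (⌈Real.log X ^ (13 * A)⌉₊ : ℝ) ≤ 1 / Real.log X ^ 20 :=
    (div_le_div_of_nonneg_right (by linarith) hJ0.le).trans a3
  have a5 : 1 / (X : ℝ) ^ (10 * σ) ≤ 1 / Real.log X ^ 20 := by
    rw [← hε, Real.rpow_def_of_pos hX0, one_div, ← Real.exp_neg]
    refine Real.exp_le_exp.2 (neg_le_neg ?_)
    rw [pow_one] at h2
    linarith
  have a6 : 2 * Real.log (DX X) + 2 ≤ 4 * Real.log X := by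
    have := Real.log_le_log hD0 hDX
    linarith
  have m0 := mu_nonneg (primesIoc w (zX X))
  have m1 := hmu w
  have m2 : mu (primesIoc w (zX X)) ≤ Real.log X ^ 2 := by
    have := Real.add_one_le_exp (mu (primesIoc w (zX X)))
    linarith
  have m3 : Real.exp (3 * mu (primesIoc w (zX X))) ≤ (Real.log X ^ 2) ^ 3 := by
    rw [show (3 : ℝ) = ((3 : ℕ) : ℝ) by norm_num, Real.exp_nat_mul]
    exact pow_le_pow_left₀ (Real.exp_pos _).le m1 3
  show mu (primesIoc w (zX X)) * (Real.exp (1 - (⌈Real.log (Real.log X) ^ 2⌉₊ : ℝ)) *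
      Real.exp (3 * mu (primesIoc w (zX X)))) +
    mu (primesIoc w (zX X)) * (mu (primesIoc w (zX X)) *
      (Real.exp (-(⌈Real.log (Real.log X) ^ 2⌉₊ : ℝ)) + 1 / (⌈Real.log X ^ (13 * A)⌉₊ : ℝ)) *
        Real.exp (mu (primesIoc w (zX X)))) +
    mu (primesIoc w (zX X)) * (Real.exp (mu (primesIoc w (zX X))) * ((2 * Real.log (DX X) + 2) *
      (1 / (X : ℝ) ^ (10 * σ) + 2 * (((n : ℝ) + 4) / (⌈Real.log X ^ (13 * A)⌉₊ : ℝ))))) ≤ _
  have b1 : mu (primesIoc w (zX X)) * (Real.exp (1 - (⌈Real.log (Real.log X) ^ 2⌉₊ : ℝ)) *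
      Real.exp (3 * mu (primesIoc w (zX X)))) ≤
      Real.log X ^ 2 * (Real.log X * (1 / Real.log X ^ 20) * (Real.log X ^ 2) ^ 3) := by
    gcongr
  have b2 : mu (primesIoc w (zX X)) * (mu (primesIoc w (zX X)) *
      (Real.exp (-(⌈Real.log (Real.log X) ^ 2⌉₊ : ℝ)) + 1 / (⌈Real.log X ^ (13 * A)⌉₊ : ℝ)) *
        Real.exp (mu (primesIoc w (zX X)))) ≤
      Real.log X ^ 2 * (Real.log X ^ 2 * (1 / Real.log X ^ 20 + 1 / Real.log X ^ 20) *
        Real.log X ^ 2) := by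
    gcongr
  have b3 : mu (primesIoc w (zX X)) * (Real.exp (mu (primesIoc w (zX X))) * ((2 * Real.log (DX X) + 2) *
      (1 / (X : ℝ) ^ (10 * σ) + 2 * (((n : ℝ) + 4) / (⌈Real.log X ^ (13 * A)⌉₊ : ℝ))))) ≤
      Real.log X ^ 2 * (Real.log X ^ 2 * (4 * Real.log X *
        (1 / Real.log X ^ 20 + 2 * (1 / Real.log X ^ 20)))) := by
    have q1 : (2 * Real.log (DX X) + 2) *
        (1 / (X : ℝ) ^ (10 * σ) + 2 * (((n : ℝ) + 4) / (⌈Real.log X ^ (13 * A)⌉₊ : ℝ))) ≤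
        4 * Real.log X * (1 / Real.log X ^ 20 + 2 * (1 / Real.log X ^ 20)) :=
      (mul_le_mul_of_nonneg_right a6 (by positivity)).trans
        (mul_le_mul_of_nonneg_left (by linarith) (by positivity))
    refine (mul_le_mul_of_nonneg_left (mul_le_mul_of_nonneg_left q1 (Real.exp_pos _).le) m0).trans ?_
    gcongr
  refine (add_le_add (add_le_add b1 b2) b3).trans ?_
  have hL15 : 15 ≤ Real.log X := by linarith
  generalize Real.log X = L at hL hL1 hL15 ⊢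
  have c1 : L ^ 2 * (L * (1 / L ^ 20) * (L ^ 2) ^ 3) + L ^ 2 * (L ^ 2 * (1 / L ^ 20 + 1 / L ^ 20) * L ^ 2) +
      L ^ 2 * (L ^ 2 * (4 * L * (1 / L ^ 20 + 2 * (1 / L ^ 20)))) =
      (L ^ 9 + 2 * L ^ 6 + 12 * L ^ 5) / L ^ 20 := by ring
  rw [c1, div_le_div_iff₀ (by positivity) (by positivity), one_mul]
  have c2 : L ^ 6 ≤ L ^ 9 := pow_le_pow_right₀ hL1 (by norm_num)
  have c3 : L ^ 5 ≤ L ^ 9 := pow_le_pow_right₀ hL1 (by norm_num)
  have c4 : L * L ^ 9 * L ^ 2 ≤ L ^ 20 := by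
    rw [← pow_succ', ← pow_add]
    exact pow_le_pow_right₀ hL1 (by norm_num)
  have c5 : 15 * L ^ 9 ≤ L * L ^ 9 := mul_le_mul_of_nonneg_right hL15 (by positivity)
  exact (mul_le_mul_of_nonneg_right (by linarith) (by positivity)).trans c4

theorem AB90_master {c : ℝ} (hc : 0 < c) (k n : ℕ) : ∀ᶠ L : ℝ in atTop, ∀ t : ℕ,
    t = ⌈Real.log L ^ 2⌉₊ →
      L ^ k * Real.exp (((n : ℝ) + 1) * (t : ℝ) ^ (n + 2)) ≤ Real.exp (c * L) := by
  have hK : (0 : ℝ) < k + ((n : ℝ) + 1) * 2 ^ (n + 2) := by positivity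
  filter_upwards [(Real.isLittleO_pow_log_id_atTop (n := 2 * (n + 2))).bound (div_pos hc hK),
    Real.tendsto_log_atTop.eventually_ge_atTop 1, eventually_gt_atTop 0] with L h1 h2 h3 t ht
  rw [id, Real.norm_of_nonneg (by positivity), Real.norm_of_nonneg h3.le, div_mul_eq_mul_div,
    le_div_iff₀ hK] at h1
  have h4 : (t : ℝ) ≤ 2 * Real.log L ^ 2 := by
    have := Nat.ceil_lt_add_one (sq_nonneg (Real.log L))
    rw [← ht] at this
    nlinarith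
  have h5 : (t : ℝ) ^ (n + 2) ≤ 2 ^ (n + 2) * Real.log L ^ (2 * (n + 2)) := by
    rw [pow_mul, ← mul_pow]
    exact pow_le_pow_left₀ t.cast_nonneg h4 _
  have h6 : Real.log L ≤ Real.log L ^ (2 * (n + 2)) := le_self_pow₀ h2 (by omega)
  have h7 : L ^ k = Real.exp (k * Real.log L) := by rw [Real.exp_nat_mul, Real.exp_log h3]
  rw [h7, ← Real.exp_add]
  refine Real.exp_le_exp.2 (le_trans ?_ h1)
  have := mul_le_mul_of_nonneg_left h5 (show (0 : ℝ) ≤ n + 1 by positivity)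
  have := mul_le_mul_of_nonneg_left h6 (show (0 : ℝ) ≤ k by positivity)
  linarith

/-- The numerical conditions of `a2`, `a3` with `H = ⌈Z³⌉₊`, `δ = Z^(-6)`, `ω = X^(-σ/2)`. -/
theorem par_num {σ : ℝ} (hσ : 0 < σ) {A : ℕ} (hA : 10 ≤ A) (n : ℕ) : ∀ᶠ X : ℕ in atTop,
    ∀ (Z : ℝ) (H J t : ℕ), Z = Real.log X ^ A → H = ⌈Z ^ 3⌉₊ → J = ⌈Real.log X ^ (13 * A)⌉₊ →
      t = ⌈Real.log (Real.log X) ^ 2⌉₊ →
      1 ≤ H ∧ 2 * H * Z ^ 2 ≤ DX X ∧ DX X ≤ X ∧ 1 / Z ^ 6 ≤ 1 ∧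
      (X : ℝ) ^ (1 / 2 : ℝ) * (Z * Real.exp (((n : ℝ) + 1) * (t : ℝ) ^ (n + 2))) ≤ DX X ∧
      2 * Z ^ 2 ≤ (X : ℝ) ^ (σ / 2) ∧ 2 * (H : ℝ) ≤ (X : ℝ) ^ σ ∧
      Z ^ 3 * DX X ^ 2 / H + ((X / 2 : ℕ) : ℝ) ^ 2 * (4 * H * Z ^ 2 *
        (2 * ((n : ℝ) + 1) / J * (1 + 26 * Z ^ 3 * H) + 1 / Z ^ 6 +
          ((J * t ^ (n + 2) : ℕ) : ℝ) ^ (n + 1) * (X : ℝ) ^ (-(σ / 2)))) ≤
        ((X / 2 : ℕ) : ℝ) ^ 2 / Real.log X ^ 2 := by
  obtain ⟨c, hc0, hc1, hc2⟩ : ∃ c : ℝ, 0 < c ∧ c ≤ σ / 2 ∧ c ≤ 1 / 2 :=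
    ⟨min (σ / 2) (1 / 2), by positivity, min_le_left _ _, min_le_right _ _⟩
  have hT : Tendsto (fun X : ℕ => Real.log X) atTop atTop :=
    Real.tendsto_log_atTop.comp tendsto_natCast_atTop_atTop
  filter_upwards [hT.eventually (AB90_master hc0 (A * (14 * n + 20)) n),
    hT.eventually_ge_atTop (4000 * ((n : ℝ) + 1)), eventually_ge_atTop 2]
    with X h1 h2 h3 Z H J t hZ hH hJ ht
  have hn : (0 : ℝ) ≤ n := n.cast_nonneg
  have hX2 : (2 : ℝ) ≤ X := by exact_mod_cast h3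
  have hX0 : (0 : ℝ) < X := by linarith
  have hW := h1 t ht
  rw [mul_comm c, ← Real.rpow_def_of_pos hX0, pow_mul, ← hZ] at hW
  rw [mul_comm 13, pow_mul, ← hZ] at hJ
  have hN1 : ((X / 2 : ℕ) : ℝ) ≤ X := by exact_mod_cast Nat.div_le_self X 2
  have hN2 : (X : ℝ) ≤ 3 * ((X / 2 : ℕ) : ℝ) := by exact_mod_cast (by omega : X ≤ 3 * (X / 2))
  have hs : (X : ℝ) ^ (1 / 2 : ℝ) * (X : ℝ) ^ (1 / 2 : ℝ) = X := by
    rw [← Real.rpow_add hX0]
    norm_num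
  have hp : ∀ {a b : ℝ}, a ≤ b → (X : ℝ) ^ a ≤ (X : ℝ) ^ b := fun h =>
    Real.rpow_le_rpow_of_exponent_le (by linarith) h
  have p1 := hp hc1
  have p2 := hp hc2
  have p3 := hp (show σ / 2 ≤ σ by linarith)
  have p4 := (hp (show (1 / 2 : ℝ) ≤ 1 by norm_num)).trans_eq (Real.rpow_one _)
  have p5 := Real.rpow_pos_of_pos hX0 (σ / 2)
  have p6 := Real.rpow_pos_of_pos hX0 (1 / 2)
  rw [Real.rpow_neg hX0.le]
  unfold DX
  generalize ((X / 2 : ℕ) : ℝ) = N at hN1 hN2 ⊢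
  generalize Real.log X = L at h2 hZ ⊢
  have hL : 4000 ≤ L := by linarith
  have hN0 : 0 < N := by linarith
  have hL2 : 4 ≤ L ^ 2 := by nlinarith
  have hZL : 4000 * ((n : ℝ) + 1) * L ^ 2 ≤ Z := by
    rw [hZ]
    refine le_trans ?_ (pow_le_pow_right₀ (by linarith) (show 3 ≤ A by omega))
    rw [pow_succ' L 2]
    exact mul_le_mul_of_nonneg_right h2 (sq_nonneg L)
  have hZL' : 4000 * L ^ 2 ≤ Z := by nlinarith
  have hZ4 : 4 ≤ Z := by linarith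
  have hZ1 : 1 ≤ Z := by linarith
  have hH1 : Z ^ 3 ≤ H := hH ▸ Nat.le_ceil _
  have hZ3 : 1 ≤ Z ^ 3 := one_le_pow₀ hZ1
  have hH2 : (H : ℝ) ≤ 2 * Z ^ 3 := by
    have := Nat.ceil_lt_add_one (show 0 ≤ Z ^ 3 by positivity)
    rw [← hH] at this
    linarith
  have hJ1 : Z ^ 13 ≤ J := hJ ▸ Nat.le_ceil _
  have hJ2 : (J : ℝ) ≤ Z ^ 14 := by
    have h4 := Nat.ceil_lt_add_one (show 0 ≤ Z ^ 13 by positivity)
    have h5 : 1 ≤ Z ^ 13 := one_le_pow₀ hZ1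
    rw [← hJ] at h4
    rw [pow_succ Z 13]
    nlinarith
  have hE1 : 1 ≤ Real.exp (((n : ℝ) + 1) * (t : ℝ) ^ (n + 2)) := Real.one_le_exp (by positivity)
  have hE2 : ((t : ℝ) ^ (n + 2)) ^ (n + 1) ≤ Real.exp (((n : ℝ) + 1) * (t : ℝ) ^ (n + 2)) := by
    rw [← Nat.cast_succ, Real.exp_nat_mul]
    exact pow_le_pow_left₀ (by positivity) (by linarith [Real.add_one_le_exp ((t : ℝ) ^ (n + 2))]) _
  generalize Real.exp (((n : ℝ) + 1) * (t : ℝ) ^ (n + 2)) = E at hW hE1 hE2 ⊢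
  have hk : ∀ k, k ≤ 14 * n + 20 → Z ^ k * E ≤ (X : ℝ) ^ c := fun k hk =>
    (mul_le_mul_of_nonneg_right (pow_le_pow_right₀ hZ1 hk) (by linarith)).trans hW
  have hk' : ∀ k, k ≤ 14 * n + 20 → Z ^ k ≤ (X : ℝ) ^ c := fun k h =>
    (le_mul_of_one_le_right (by positivity) hE1).trans (hk k h)
  have hD : ∀ y : ℝ, 0 ≤ y → y * Z ≤ X → y ≤ N / L ^ 2 := fun y hy h => by
    rw [le_div_iff₀ (by positivity)]
    nlinarith [mul_le_mul_of_nonneg_left hZL' hy]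
  have hu : ∀ y : ℝ, 0 ≤ y → y * (4 * L ^ 2) ≤ 1 → y ≤ 1 / L ^ 2 / 4 := fun y hy h => by
    rw [div_div, le_div_iff₀ (by positivity)]
    linarith
  refine ⟨by exact_mod_cast hZ3.trans hH1, hD _ (by positivity) ?_,
    (div_le_self hN0.le (by linarith)).trans hN1, div_le_one_of_le₀ (one_le_pow₀ hZ1) (by positivity),
    hD _ (by positivity) ?_, ?_, ?_, ?_⟩
  · calc _ ≤ 2 * (2 * Z ^ 3) * Z ^ 2 * Z := by gcongr
      _ = 4 * Z ^ 6 := by ring
      _ ≤ Z * Z ^ 6 := by gcongr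
      _ = Z ^ 7 := by ring
      _ ≤ _ := (hk' 7 (by omega)).trans (p2.trans p4)
  · calc _ = (X : ℝ) ^ (1 / 2 : ℝ) * (Z ^ 2 * E) := by ring
      _ ≤ (X : ℝ) ^ (1 / 2 : ℝ) * (X : ℝ) ^ (1 / 2 : ℝ) :=
        mul_le_mul_of_nonneg_left ((hk 2 (by omega)).trans p2) p6.le
      _ = _ := hs
  · calc _ ≤ Z * Z ^ 2 := by gcongr; linarith
      _ = Z ^ 3 := by ring
      _ ≤ _ := (hk' 3 (by omega)).trans p1
  · calc _ ≤ 4 * Z ^ 3 := by linarith
      _ ≤ Z * Z ^ 3 := by gcongr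
      _ = Z ^ 4 := by ring
      _ ≤ _ := (hk' 4 (by omega)).trans (p1.trans p3)
  have hJ0 : (0 : ℝ) < J := lt_of_lt_of_le (by positivity) hJ1
  have a1 : Z ^ 3 * (N / L ^ 2) ^ 2 / H ≤ N ^ 2 * (1 / L ^ 2 / 4) := by
    calc _ = Z ^ 3 / H * (N ^ 2 * (1 / L ^ 2 / L ^ 2)) := by ring
      _ ≤ 1 * (N ^ 2 * (1 / L ^ 2 / 4)) := by
        gcongr
        exact div_le_one_of_le₀ hH1 (by positivity)
      _ = _ := one_mul _
  have a2 : 4 * H * Z ^ 2 * (2 * ((n : ℝ) + 1) / J * (1 + 26 * Z ^ 3 * H)) ≤ 1 / L ^ 2 / 4 := by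
    refine hu _ (by positivity) ?_
    calc _ ≤ 4 * (2 * Z ^ 3) * Z ^ 2 * (2 * ((n : ℝ) + 1) / Z ^ 13 *
          (Z ^ 6 + 26 * Z ^ 3 * (2 * Z ^ 3))) * (4 * L ^ 2) := by
          gcongr
          exact one_le_pow₀ hZ1
      _ = 3392 * ((n : ℝ) + 1) * L ^ 2 / Z ^ 2 := by
          field_simp
          ring
      _ ≤ 1 := div_le_one_of_le₀ (by nlinarith) (by positivity)
  have a3 : 4 * H * Z ^ 2 * (1 / Z ^ 6) ≤ 1 / L ^ 2 / 4 := by
    refine hu _ (by positivity) ?_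
    calc _ ≤ 4 * (2 * Z ^ 3) * Z ^ 2 * (1 / Z ^ 6) * (4 * L ^ 2) := by gcongr
      _ = 32 * L ^ 2 / Z := by
          field_simp
          ring
      _ ≤ 1 := div_le_one_of_le₀ (by linarith) (by positivity)
  have a4 : 4 * H * Z ^ 2 * (((J * t ^ (n + 2) : ℕ) : ℝ) ^ (n + 1) * ((X : ℝ) ^ (σ / 2))⁻¹) ≤
      1 / L ^ 2 / 4 := by
    refine hu _ (by positivity) ?_
    push_cast
    rw [mul_pow]
    calc _ ≤ 4 * (2 * Z ^ 3) * Z ^ 2 * ((Z ^ 14) ^ (n + 1) * E * ((X : ℝ) ^ (σ / 2))⁻¹) *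
          (4 * L ^ 2) := by gcongr
      _ = 32 * L ^ 2 * (Z ^ (14 * n + 19) * E) / (X : ℝ) ^ (σ / 2) := by ring
      _ ≤ Z * (Z ^ (14 * n + 19) * E) / (X : ℝ) ^ (σ / 2) := by gcongr; linarith
      _ = Z ^ (14 * n + 20) * E / (X : ℝ) ^ (σ / 2) := by ring
      _ ≤ 1 := div_le_one_of_le₀ (hW.trans p1) p5.le
  have a5 := mul_le_mul_of_nonneg_left (add_le_add (add_le_add a2 a3) a4) (sq_nonneg N)
  rw [← mul_add, ← mul_add] at a5
  refine (add_le_add a1 a5).trans (le_of_eq ?_)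
  ring

/-- Take `s, cV` from `weights`, `A = A₀ (s + 1) + 10`, `n` from `thmB σ (6 A)`, `A'` from
`par_cells`; `a1`, `a2`, `a3`, `mass_le`, `Sw_le`, `par_ok`, `par_loss`, `par_num`;
`D N = N² / ℒ²`. -/
theorem thmAB (hP : HP) : ∃ cV : ℝ, 0 < cV ∧ ∀ w σ : ℝ, 10 ≤ w → 0 < σ → σ ≤ 1 / 200 →
    ∀ A₀ : ℕ, ∀ᶠ X : ℕ in atTop, ∀ (b : ℤ) (y₁ y₂ : ℝ), 1 ≤ y₂ → y₂ ≤ Real.log X ^ A₀ →
      ((X / 2 : ℕ) : ℝ) * (Main 1 w (DX X) (zX X) +
        cV * BmQ 1 w (DX X) (zX X) ((X : ℝ) ^ (10 * σ)) (Unex X σ (zX X) b) (phi y₁ y₂) -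
        3 / Real.log X ^ 2) ≤ surv X b w (zX X) := by
  obtain ⟨s, cV, hcV, hcV1, hW⟩ := weights
  refine ⟨cV, hcV, fun w σ hw hσ hσ1 A₀ => ?_⟩
  obtain ⟨A, hA⟩ : ∃ A : ℕ, A = A₀ * (s + 1) + 10 := ⟨_, rfl⟩
  have hA10 : 10 ≤ A := by omega
  have hA1 : A₀ ≤ A := by rw [hA, Nat.mul_add]; omega
  have hA2 : A₀ * s ≤ A := by rw [hA, Nat.mul_add]; omega
  obtain ⟨n, hn⟩ := thmB hσ (by linarith) (6 * A)
  obtain ⟨A', hcell⟩ := par_cells hP hA10 n
  filter_upwards [hcell, par_ok hP hw hσ hσ1 hA10 n, par_loss w hσ hA10 n, par_num hσ hA10 n,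
    (tendsto_natCast_atTop_atTop (R := ℝ)).eventually (hn A'), eventually_ge_atTop 3]
    with X h1 h2 h3 h4 h5 h6 b y₁ y₂ hy1 hy2
  have hX3 : (3 : ℝ) ≤ X := by exact_mod_cast h6
  have hL1 : 1 ≤ Real.log X := by
    rw [Real.le_log_iff_exp_le (by linarith)]
    linarith [Real.exp_one_lt_d9]
  have hyA : y₂ ≤ Real.log X ^ A := hy2.trans (pow_le_pow_right₀ hL1 hA1)
  have hys : y₂ ^ s ≤ Real.log X ^ A := by
    refine (pow_le_pow_left₀ (by linarith) hy2 s).trans ?_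
    rw [← pow_mul]
    exact pow_le_pow_right₀ hL1 hA2
  have hok := h2 b y₁ y₂ hy1 hyA
  have hloss := h3 b y₁ y₂
  have hcells := h1 b w σ y₁ y₂
  obtain ⟨n1, n2, n3, n4, n5, n6, n7, n8⟩ := h4 _ _ _ _ rfl rfl rfl rfl
  obtain ⟨c, hc⟩ := hW (par X b w σ y₁ y₂ A n).P y₂ hy1 (fun q hq => by
    have h7 := mem_filter.1 hq
    have h8 : ⌊w⌋₊ < q := (mem_Ioc.1 h7.1).1
    have h9 : 10 ≤ ⌊w⌋₊ := Nat.le_floor (by exact_mod_cast hw)
    exact ⟨h7.2, by omega⟩)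
  have hWt : (par X b w σ y₁ y₂ A n).Wt cV c := fun p hp hpy =>
    ⟨⟨(hc p hp hpy).1.bdd, fun S hS h0 => ((hc p hp hpy).1.supp S hS h0).trans hys,
      (hc p hp hpy).1.low⟩, (hc p hp hpy).2⟩
  have hNB := AP.a3 hok (X := X) (σ := σ) (δ := 1 / (Real.log X ^ A) ^ 6) (A := 6 * A) (A' := A')
    (H := ⌈(Real.log X ^ A) ^ 3⌉₊) (by linarith) hσ h5 rfl rfl hcells
    (by rw [← pow_mul, mul_comm]) n4 n3 n5 n6 n7
  have hb := (abs_le.1 ((AP.a2 hok hWt n1 n2 (by positivity) (by positivity) hNB).trans n8)).1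
  have ha := (AP.a1 hok hWt).trans (Sw_le X b w (zX X))
  have hm := AP.mass_le hok
  have hN : (0 : ℝ) < ((X / 2 : ℕ) : ℝ) := by
    have : 0 < X / 2 := by omega
    exact_mod_cast this
  change ((X / 2 : ℕ) : ℝ) ^ 2 * Main 1 w (DX X) (zX X) - DX X * ((X / 2 : ℕ) : ℝ) +
    ((X / 2 : ℕ) : ℝ) ^ 2 * cV * _ + _ ≤ _ at ha
  change BmQ 1 w (DX X) (zX X) ((X : ℝ) ^ (10 * σ)) (Unex X σ (zX X) b) (phi y₁ y₂) ≤ _ at hm
  generalize (par X b w σ y₁ y₂ A n).csum (fun p ν => 1 / ((pr ν : ℝ) * p * Real.log p)) = m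
    at ha hm
  generalize (par X b w σ y₁ y₂ A n).Bias c = β at ha hb
  generalize (par X b w σ y₁ y₂ A n).loss = lo at hm hloss
  generalize BmQ 1 w (DX X) (zX X) ((X : ℝ) ^ (10 * σ)) (Unex X σ (zX X) b) (phi y₁ y₂) = B
    at hm ⊢
  generalize Main 1 w (DX X) (zX X) = Mn at ha ⊢
  generalize surv X b w (zX X) = S at ha ⊢
  unfold DX at ha
  generalize ((X / 2 : ℕ) : ℝ) = N at ha hb hN ⊢
  obtain ⟨u, hu⟩ : ∃ u : ℝ, u = 1 / Real.log X ^ 2 := ⟨_, rfl⟩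
  have hu0 : 0 < u := by rw [hu]; positivity
  have e1 : N / Real.log X ^ 2 = N * u := by rw [hu]; ring
  have e2 : N ^ 2 / Real.log X ^ 2 = N ^ 2 * u := by rw [hu]; ring
  have e3 : 3 / Real.log X ^ 2 = 3 * u := by rw [hu]; ring
  rw [e1] at ha
  rw [e2] at hb
  rw [e3]
  rw [← hu] at hloss
  have k1 : cV * B ≤ cV * m + u := by
    have := mul_le_mul_of_nonneg_left (hm.trans (add_le_add le_rfl hloss)) hcV.le
    nlinarith
  have k2 := mul_le_mul_of_nonneg_left k1 (sq_nonneg N)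
  refine le_of_mul_le_mul_left ?_ hN
  nlinarith

end Crest.Agent.R001
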