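import Crest.Agent.R001.Gb

set_option autoImplicit false

namespace Crest.Agent.R001

open Finset Filter Crest.Agent.R008 Crest.Agent.R026

theorem bootH2_sqrt {M : ℝ} (hM : 1 < M) : √M / M ≤ 16 / Real.log M ^ 2 := by
  have hM0 : 0 < M := by linarith
  have ha : 0 < Real.log M := Real.log_pos hM
  have hs : 0 < √M := Real.sqrt_pos.2 hM0
  have hss : 0 < √√M := Real.sqrt_pos.2 hs
  have h1 : Real.log √√M ≤ √√M := (Real.log_le_sub_one_of_pos hss).trans (by linarith)
  rw [Real.log_sqrt hs.le, Real.log_sqrt hM0.le] at h1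
  have h2 : Real.log M ^ 2 ≤ 16 * √M := by
    have h3 : √√M ^ 2 = √M := Real.sq_sqrt hs.le
    nlinarith
  rw [div_le_div_iff₀ hM0 (by positivity)]
  have h4 : √M * √M = M := Real.mul_self_sqrt hM0.le
  nlinarith

theorem bootH2_tight (h : HP) {θ w : ℝ} (hw : 1 ≤ w) (hs : SeqH θ w) (R : ℝ) :
    ∃ C L₁ M₀ : ℝ, 0 < C ∧ 1 ≤ L₁ ∧ ∀ M L : ℝ, 1 < M → M₀ ≤ M → L₁ ≤ L → 40 * L ≤ Real.log M →
      Tight R M √M L ≤ C * L * (L / Real.log M ^ 2 + (Err θ 0 w M √M + N0 w M √M / M)) := by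
  obtain ⟨c₂, θ₂, L₂, hc₂, hθ₂, hL₂, H₂⟩ := tight_le R
  obtain ⟨c₃, L₃, hc₃, H₃⟩ := low_bd h
  obtain ⟨C₄, M₄, hC₄, H₄⟩ := delta h hs
  refine ⟨(42 + C₄) / (c₂ * c₃), max (max L₂ L₃) (Real.log w / θ₂), M₄, by positivity,
    hL₂.trans ((le_max_left _ _).trans (le_max_left _ _)), fun M L hM hM₄ hL ha => ?_⟩
  have hLL₂ : L₂ ≤ L := ((le_max_left _ _).trans (le_max_left _ _)).trans hL
  have hLL₃ : L₃ ≤ L := ((le_max_right _ _).trans (le_max_left _ _)).trans hL
  have hLw : Real.log w / θ₂ ≤ L := (le_max_right _ _).trans hL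
  have hL1 : 1 ≤ L := hL₂.trans hLL₂
  have hM0 : 0 < M := by linarith
  have ha0 : 0 < Real.log M := Real.log_pos hM
  have hs0 : 0 < √M := Real.sqrt_pos.2 hM0
  have hls : Real.log √M = Real.log M / 2 := Real.log_sqrt hM0.le
  have hw' : w ≤ Real.exp (θ₂ * L) := by
    rw [← Real.log_le_iff_le_exp (by linarith)]
    rw [div_le_iff₀ hθ₂] at hLw
    linarith
  have h2 := H₂ w M √M L (by linarith) hLL₂ hw' hM0 (by linarith)
    (by rw [← Real.le_log_iff_exp_le hs0, hls]; linarith)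
  have h3 := H₃ w M √M L (by linarith) hLL₃ hM0 (by linarith)
  have h4 := (abs_le.1 (H₄ M √M (4 * L) hM₄ hs0 (by rw [hls]; linarith) (by rw [hls]; linarith)
    (by linarith) (by linarith))).2
  have h5 : BS 0 w M √M M / M ≤ 2 * (N0 w M √M / M + 16 / Real.log M ^ 2) := by
    have := div_le_div_of_nonneg_right (BS_zero_le w M hs0.le) hM0.le
    have h6 := bootH2_sqrt hM
    rw [mul_div_assoc, add_div] at this
    linarith
  have h6 : 2 / Real.log M - 2 / (Real.log M + 4 * L) ≤ 8 * (L / Real.log M ^ 2) := by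
    rw [div_sub_div _ _ ha0.ne' (by positivity), ← mul_div_assoc,
      div_le_div_iff₀ (by positivity) (by positivity)]
    have : 0 ≤ L * L * Real.log M := by positivity
    nlinarith
  have hE := Err_nonneg θ 0 w M √M
  have hN : 0 ≤ N0 w M √M / M := div_nonneg (N0_nonneg _ _ _) hM0.le
  have h7 : 1 / Real.log M ^ 2 ≤ L / Real.log M ^ 2 := by gcongr
  have h8 : 16 / Real.log M ^ 2 = 16 * (1 / Real.log M ^ 2) := by ring
  have h70 : 0 ≤ 1 / Real.log M ^ 2 := by positivity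
  set u := L / Real.log M ^ 2
  set E := Err θ 0 w M √M
  set n := N0 w M √M / M
  set B := Bm 0 w M √M fun p => ind (Real.log p ≤ L)
  have h9 : c₃ / L * B ≤ (42 + C₄) * (u + (E + n)) := by
    have : C₄ * (1 / Real.log M ^ 2 + E) ≤ C₄ * (u + (E + n)) :=
      mul_le_mul_of_nonneg_left (by linarith) hC₄.le
    nlinarith
  have hL0 : 0 < L := by linarith
  have h10 : c₃ * B ≤ (42 + C₄) * L * (u + (E + n)) := by
    have := mul_le_mul_of_nonneg_left h9 hL0.le
    calc c₃ * B = L * (c₃ / L * B) := by field_simp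
      _ ≤ L * ((42 + C₄) * (u + (E + n))) := this
      _ = _ := by ring
  have h11 := mul_le_mul_of_nonneg_left h2 hc₃.le
  rw [div_mul_eq_mul_div, div_mul_eq_mul_div, le_div_iff₀ (by positivity)]
  nlinarith

theorem bootH2_g1 (h : HP) {θ w : ℝ} (hw : 1 ≤ w) (hs : SeqH θ w) : ∃ C L₁ M₀ : ℝ, 0 < C ∧
    ∀ M L : ℝ, M₀ ≤ M → L₁ ≤ L → Gs 1 M √M L ≤
      C * L * (L / Real.log M ^ 2 + (Err θ 0 w M √M + N0 w M √M / M)) := by
  obtain ⟨C₀, hC₀, H₀⟩ := Gs_triv
  obtain ⟨C₁, hC₁, H₁⟩ := Gs_iter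
  obtain ⟨C', L₁, M₀, hC', hL₁, H⟩ := bootH2_tight h hw hs (2 * Real.log (8 * C₁))
  have hR : C₁ * Real.exp (-(2 * Real.log (8 * C₁) / 2)) = 1 / 8 := by
    rw [mul_div_cancel_left₀ _ two_ne_zero, Real.exp_neg, Real.exp_log (by positivity)]
    field_simp
  refine ⟨2 * C' + 1600 * C₀, L₁, max M₀ 2, by positivity, fun M L hM hL => ?_⟩
  have hM1 : 1 < M := lt_of_lt_of_le one_lt_two ((le_max_right _ _).trans hM)
  have hMM : M₀ ≤ M := (le_max_left _ _).trans hM
  have ha0 : 0 < Real.log M := Real.log_pos hM1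
  have hΓ : 0 ≤ Err θ 0 w M √M + N0 w M √M / M :=
    add_nonneg (Err_nonneg _ _ _ _ _) (div_nonneg (N0_nonneg _ _ _) (by linarith))
  set Γ := Err θ 0 w M √M + N0 w M √M / M
  have base : ∀ L, L₁ ≤ L → Real.log M ≤ 40 * L →
      Gs 1 M √M L ≤ (2 * C' + 1600 * C₀) * L * (L / Real.log M ^ 2 + Γ) := by
    intro L hL ha
    have hL1 : 1 ≤ L := hL₁.trans hL
    have h1 := H₀ 1 M √M L zero_le_one hM1.le hL1 ha
    have h2 : 1 ≤ 1600 * (L * (L / Real.log M ^ 2)) := by
      rw [← mul_div_assoc, ← mul_div_assoc, le_div_iff₀ (by positivity)]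
      nlinarith
    have h3 : 0 ≤ L * (L / Real.log M ^ 2) := by positivity
    have h4 : 0 ≤ L * Γ := by positivity
    have h5 := mul_le_mul_of_nonneg_left h2 hC₀.le
    have h6 := mul_nonneg hC'.le h3
    have h7 := mul_nonneg hC'.le h4
    have h8 := mul_nonneg hC₀.le h4
    nlinarith
  have key : ∀ (k : ℕ) (L : ℝ), L₁ ≤ L → Real.log M ≤ 40 * (2 ^ k * L) →
      Gs 1 M √M L ≤ (2 * C' + 1600 * C₀) * L * (L / Real.log M ^ 2 + Γ) := by
    intro k
    induction k with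
    | zero => intro L hL ha; exact base L hL (by simpa using ha)
    | succ k ih =>
      intro L hL ha
      have hL1 : 1 ≤ L := hL₁.trans hL
      rcases le_total (Real.log M) (40 * L) with h40 | h40
      · exact base L hL h40
      have h1 := H₁ (2 * Real.log (8 * C₁)) M √M L hM1.le hL1
      rw [hR] at h1
      have h2 := H M L hM1 hMM hL h40
      have h3 := ih (2 * L) (by linarith) (by rw [pow_succ] at ha; linarith)
      rw [mul_div_assoc] at h3
      have h4 : 0 ≤ L * (L / Real.log M ^ 2) := by positivity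
      have h5 : 0 ≤ L * Γ := by positivity
      have h6 := mul_nonneg hC'.le h4
      have h7 := mul_nonneg hC'.le h5
      have h8 := mul_nonneg hC₀.le h5
      have h9 := mul_nonneg hC₀.le h4
      nlinarith
  have hL1 : 1 ≤ L := hL₁.trans hL
  obtain ⟨k, hk⟩ := pow_unbounded_of_one_lt (Real.log M) (one_lt_two (α := ℝ))
  refine key k L hL ?_
  have : (0 : ℝ) < 2 ^ k := by positivity
  nlinarith

end Crest.Agent.R001
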