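import Crest.Agent.R001.Tree

set_option autoImplicit false

namespace Crest.Agent.R001

open Finset Filter Crest.Agent.R008 Crest.Agent.R026

theorem decH2_filter {a N : ℕ} (h : a ≤ N) (hp : (N + 1).Prime) :
    (Ioc a (N + 1)).filter Nat.Prime = insert (N + 1) ((Ioc a N).filter Nat.Prime) := by
  ext q
  simp only [mem_filter, mem_Ioc, mem_insert]
  constructor
  · rintro ⟨⟨h1, h2⟩, h3⟩
    rcases h2.eq_or_lt with h4 | h4
    · exact Or.inl h4
    · exact Or.inr ⟨⟨h1, by omega⟩, h3⟩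
  · rintro (rfl | ⟨⟨h1, h2⟩, h3⟩)
    · exact ⟨⟨by omega, le_rfl⟩, hp⟩
    · exact ⟨⟨h1, by omega⟩, h3⟩

theorem decH2_filter' {a N : ℕ} (hp : ¬ (N + 1).Prime) :
    (Ioc a (N + 1)).filter Nat.Prime = (Ioc a N).filter Nat.Prime := by
  ext q
  simp only [mem_filter, mem_Ioc]
  constructor
  · rintro ⟨⟨h1, h2⟩, h3⟩
    rcases h2.eq_or_lt with h4 | h4
    · exact absurd (h4 ▸ h3) hp
    · exact ⟨⟨h1, by omega⟩, h3⟩
  · rintro ⟨⟨h1, h2⟩, h3⟩
    exact ⟨⟨h1, by omega⟩, h3⟩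

theorem decH2_low {t N : ℕ} (h : N + 1 ≤ t) (hp : (N + 1).Prime) :
    (Ioc N t).filter Nat.Prime = insert (N + 1) ((Ioc (N + 1) t).filter Nat.Prime) := by
  ext q
  simp only [mem_filter, mem_Ioc, mem_insert]
  constructor
  · rintro ⟨⟨h1, h2⟩, h3⟩
    rcases (Nat.succ_le_of_lt h1).eq_or_lt with h4 | h4
    · exact Or.inl h4.symm
    · exact Or.inr ⟨⟨h4, h2⟩, h3⟩
  · rintro (rfl | ⟨⟨h1, h2⟩, h3⟩)
    · exact ⟨⟨by omega, h⟩, hp⟩
    · exact ⟨⟨by omega, h2⟩, h3⟩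

theorem decH2_low' {t N : ℕ} (h : ¬ (N + 1).Prime ∨ t < N + 1) :
    (Ioc N t).filter Nat.Prime = (Ioc (N + 1) t).filter Nat.Prime := by
  ext q
  simp only [mem_filter, mem_Ioc]
  constructor
  · rintro ⟨⟨h1, h2⟩, h3⟩
    rcases (Nat.succ_le_of_lt h1).eq_or_lt with h4 | h4
    · rcases h with h | h
      · subst h4; exact absurd h3 h
      · omega
    · exact ⟨⟨h4, h2⟩, h3⟩
  · rintro ⟨⟨h1, h2⟩, h3⟩
    exact ⟨⟨by omega, h2⟩, h3⟩

theorem decH2_clk {L : ℝ} {N : ℕ} (hN : ⌊Real.exp L⌋₊ ≤ N) (hp : (N + 1).Prime) :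
    clk L (N + 1) = clk L N * (1 + 1 / ((N + 1 : ℕ) : ℝ)) := by
  rw [clk, clk, decH2_filter hN hp, prod_insert (by simp)]
  ring

theorem decH2_clk' {L : ℝ} {N : ℕ} (hp : ¬ (N + 1).Prime) : clk L (N + 1) = clk L N := by
  rw [clk, clk, decH2_filter' hp]

theorem decH2_bud {M : ℝ} {ν : Finset ℕ} {p : ℕ} (hν : 0 < pr ν) (hp : 0 < p) (h : p ∉ ν) :
    bud M (insert p ν) = bud M ν - Real.log p := by
  have : (pr (insert p ν) : ℝ) = p * pr ν := by rw [pr, prod_insert h, pr]; push_cast; rfl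
  rw [bud, bud, this, Real.log_mul (by positivity) (by positivity)]
  ring

theorem decH2_budge {M : ℝ} {ν : Finset ℕ} {p : ℕ} (k : ℕ) (hν : 0 < pr ν) (hp : 0 < p)
    (h : (pr ν : ℝ) * (p : ℝ) ^ k ≤ M) : k * Real.log p ≤ bud M ν := by
  have := Real.log_le_log (by positivity) h
  rw [Real.log_mul (by positivity) (by positivity), Real.log_pow] at this
  rw [bud]
  linarith

/-- the algebra of one step -/
theorem decH2_alg {a t τ p P γ x y z : ℝ} (ht : 0 < t) (hta : t < a) (hτ : 0 < τ) (hp : 0 < p)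
    (hP : 0 < P) (h : x + 1 / p * ((a / τ / (a / τ - t / τ)) ^ γ * y) ≤ z) :
    a ^ (-γ) * x / P + (a - t) ^ (-γ) * y / (p * P) ≤ a ^ (-γ) * z / P := by
  have ha : 0 < a := ht.trans hta
  have hb : 0 < a - t := sub_pos.2 hta
  have e1 : a / τ / (a / τ - t / τ) = a / (a - t) := by field_simp
  have e2 : (a - t) ^ (-γ) = a ^ (-γ) * (a / (a - t)) ^ γ := by
    rw [Real.div_rpow ha.le hb.le, Real.rpow_neg ha.le, Real.rpow_neg hb.le]
    have := (Real.rpow_pos_of_pos ha γ).ne'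
    field_simp
  rw [e1] at h
  have h0 : 0 ≤ a ^ (-γ) / P := by positivity
  have := mul_le_mul_of_nonneg_left h h0
  rw [e2]
  calc a ^ (-γ) * x / P + a ^ (-γ) * (a / (a - t)) ^ γ * y / (p * P)
      = a ^ (-γ) / P * (x + 1 / p * ((a / (a - t)) ^ γ * y)) := by field_simp
    _ ≤ a ^ (-γ) / P * z := this
    _ = a ^ (-γ) * z / P := by ring

end Crest.Agent.R001
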