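import Crest.Agent.R001.Defs

set_option autoImplicit false

namespace Crest.Agent.R001

open Finset Filter Crest.Agent.R008 Crest.Agent.R026

theorem prim82_pi_le : ∃ C : ℝ, 0 < C ∧ ∀ (x : ℝ) (S : Finset ℕ), 2 ≤ x →
    (∀ p ∈ S, p.Prime ∧ (p : ℝ) ≤ x) → (S.card : ℝ) ≤ C * x / Real.log x := by
  refine ⟨2 * Real.log 4 + 2, by positivity, fun x S hx hS => ?_⟩
  have hx1 : 1 < x := by linarith
  have hx0 : 0 < x := by linarith
  have hl : 0 < Real.log x := Real.log_pos hx1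
  have h1 : (S.card : ℝ) ≤ Nat.primeCounting ⌊x⌋₊ := by
    rw [← Nat.primesLE_card_eq_primeCounting]
    exact_mod_cast Finset.card_le_card fun p hp =>
      Nat.mem_primesLE.2 ⟨Nat.le_floor (hS p hp).2, (hS p hp).1⟩
  have h2 := Chebyshev.pi_le_log4_mul_div hx1
  have hs : Real.log √x = Real.log x / 2 := Real.log_sqrt hx0.le
  have hs0 : 0 < √x := Real.sqrt_pos.2 hx0
  have h3 : Real.log √x ≤ √x := (Real.log_le_sub_one_of_pos hs0).trans (by linarith)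
  have h4 : √x ≤ 2 * x / Real.log x := by
    rw [le_div_iff₀ hl]
    have := Real.mul_self_sqrt hx0.le
    nlinarith
  rw [hs] at h2
  have h5 : Real.log 4 * x / (Real.log x / 2) + 2 * x / Real.log x =
      (2 * Real.log 4 + 2) * x / Real.log x := by field_simp
  linarith

theorem prim82_card (w : ℝ) {T : ℝ} (hT : 0 ≤ T) : ((primesIoc w T).card : ℝ) ≤ T := by
  have h : (primesIoc w T).card ≤ ⌊T⌋₊ := by
    unfold primesIoc
    refine (Finset.card_filter_le _ _).trans ?_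
    simp
  exact (Nat.cast_le.2 h).trans (Nat.floor_le hT)

theorem prim82_factor {q g : ℝ} (hq : 3 ≤ q) (hg : g ≤ 1 / (q - 1)) :
    Real.exp (-(1 / q + 6 * (q ^ 2)⁻¹)) ≤ 1 - g := by
  have hq0 : 0 < q := by linarith
  have h1 : 0 < q - 1 := by linarith
  have h2 : 0 < q - 2 := by linarith
  have hv : 1 / (q - 2) ≤ 1 / q + 6 * (q ^ 2)⁻¹ := by
    have : 1 / q + 6 * (q ^ 2)⁻¹ = (q + 6) / q ^ 2 := by field_simp
    rw [this, div_le_div_iff₀ h2 (by positivity)]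
    nlinarith
  have h3 : (q - 1) / (q - 2) ≤ Real.exp (1 / q + 6 * (q ^ 2)⁻¹) := by
    have := Real.add_one_le_exp (1 / q + 6 * (q ^ 2)⁻¹)
    have h4 : (q - 1) / (q - 2) = 1 / (q - 2) + 1 := by field_simp; ring
    linarith
  rw [Real.exp_neg]
  have h5 : (Real.exp (1 / q + 6 * (q ^ 2)⁻¹))⁻¹ ≤ ((q - 1) / (q - 2))⁻¹ :=
    inv_anti₀ (by positivity) h3
  have h6 : ((q - 1) / (q - 2))⁻¹ = 1 - 1 / (q - 1) := by field_simp; ring
  linarith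

theorem prim82_V_low
    (hmu : ∃ C : ℝ, 0 < C ∧ ∀ (x : ℝ) (S : Finset ℕ), 3 ≤ x →
      (∀ p ∈ S, p.Prime ∧ (p : ℝ) ≤ x) →
      mu S ≤ Real.log (Real.log x) + C ∧ Real.exp (mu S) ≤ C * Real.log x) :
    ∃ c : ℝ, 0 < c ∧ c ≤ 1 ∧ ∀ (x : ℝ) (S : Finset ℕ) (g : ℕ → ℝ), 2 ≤ x →
    (∀ q ∈ S, q.Prime ∧ 3 ≤ q ∧ (q : ℝ) ≤ x ∧ g q ≤ 1 / ((q : ℝ) - 1)) →
    c / Real.log x ≤ ∏ q ∈ S, (1 - g q) := by
  obtain ⟨C, hC, h⟩ := hmu
  refine ⟨min (1 / 2) (Real.exp (-12) / C), by positivity,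
    (min_le_left _ _).trans (by norm_num), fun x S g hx hS => ?_⟩
  have hl : 0 < Real.log x := Real.log_pos (by linarith)
  rcases S.eq_empty_or_nonempty with rfl | ⟨q0, hq0⟩
  · rw [Finset.prod_empty, div_le_one hl]
    have h1 : Real.log 2 ≤ Real.log x := Real.log_le_log (by norm_num) hx
    have h2 := Real.log_two_gt_d9
    exact (min_le_left _ _).trans (by linarith)
  have hx3 : 3 ≤ x := le_trans (by exact_mod_cast (hS q0 hq0).2.1) (hS q0 hq0).2.2.1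
  have h1 := (h x S hx3 fun p hp => ⟨(hS p hp).1, (hS p hp).2.2.1⟩).2
  have h2 : ∏ q ∈ S, Real.exp (-(1 / (q : ℝ) + 6 * ((q : ℝ) ^ 2)⁻¹)) ≤ ∏ q ∈ S, (1 - g q) :=
    Finset.prod_le_prod (fun q _ => (Real.exp_pos _).le) fun q hq =>
      prim82_factor (by exact_mod_cast (hS q hq).2.1) (hS q hq).2.2.2
  rw [← Real.exp_sum] at h2
  have h3 : ∑ q ∈ S, ((q : ℝ) ^ 2)⁻¹ ≤ 2 := by
    have h4 := sum_Ioo_inv_sq_le (α := ℝ) 0 (⌊x⌋₊ + 1)
    have h5 : ∑ q ∈ S, ((q : ℝ) ^ 2)⁻¹ ≤ ∑ i ∈ Ioo 0 (⌊x⌋₊ + 1), ((i : ℝ) ^ 2)⁻¹ :=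
      Finset.sum_le_sum_of_subset_of_nonneg (fun q hq => Finset.mem_Ioo.2
        ⟨(hS q hq).1.pos, Nat.lt_succ_of_le (Nat.le_floor (hS q hq).2.2.1)⟩)
        (fun _ _ _ => by positivity)
    simpa using h5.trans h4
  have h6 : ∑ q ∈ S, -(1 / (q : ℝ) + 6 * ((q : ℝ) ^ 2)⁻¹) =
      -mu S - 6 * ∑ q ∈ S, ((q : ℝ) ^ 2)⁻¹ := by
    unfold mu
    rw [Finset.sum_neg_distrib, Finset.sum_add_distrib, Finset.mul_sum]; ring
  rw [h6] at h2
  refine le_trans ?_ h2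
  have h7 : Real.exp (-12) / Real.exp (mu S) ≤
      Real.exp (-mu S - 6 * ∑ q ∈ S, ((q : ℝ) ^ 2)⁻¹) := by
    rw [← Real.exp_sub]; exact Real.exp_le_exp.2 (by linarith)
  refine le_trans ?_ h7
  calc min (1 / 2) (Real.exp (-12) / C) / Real.log x ≤ Real.exp (-12) / C / Real.log x := by
        gcongr; exact min_le_right _ _
    _ = Real.exp (-12) / (C * Real.log x) := by rw [div_div]
    _ ≤ _ := div_le_div_of_nonneg_left (Real.exp_pos _).le (Real.exp_pos _) h1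

end Crest.Agent.R001
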