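import Crest.Agent.R001.Defs

set_option autoImplicit false

namespace Crest.Agent.R001

open Finset Filter Crest.Agent.R008 Crest.Agent.R026

theorem prim82_theta {c C : ℝ} (h : HPc c C) {x : ℝ} (hx : 1 ≤ x) :
    |∑ p ∈ primesIoc 0 x, Real.log p - x| ≤ C * x ^ (1 - c) := by
  have := h x 1 0 le_rfl (by simpa using hx) (by simpa using isCoprime_one_right)
  simpa [ind_pos] using this

theorem prim82_theta_eq (x : ℝ) : ∑ p ∈ primesIoc 0 x, Real.log p = Chebyshev.theta x := by
  unfold primesIoc Chebyshev.theta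
  simp

theorem prim82_card_eq (x : ℝ) : (primesIoc 0 x).card = Nat.primeCounting ⌊x⌋₊ := by
  rw [← Nat.primesLE_card_eq_primeCounting]
  congr 1
  ext p
  unfold primesIoc
  simp only [Nat.floor_zero, Finset.mem_filter, Finset.mem_Ioc, Nat.mem_primesLE]
  exact ⟨fun h => ⟨h.1.2, h.2⟩, fun h => ⟨⟨h.2.pos, h.1⟩, h.2⟩⟩

theorem prim82_pi_asymp (h : HP) : ∃ C : ℝ, 0 < C ∧ ∀ x : ℝ, 2 ≤ x →
    |((primesIoc 0 x).card : ℝ) - x / Real.log x| ≤ C * x / Real.log x ^ 2 := by
  obtain ⟨c, C, hc0, -, hC, h⟩ := h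
  obtain ⟨C1, hC1, h1⟩ := Chebyshev.primeCounting_sub_theta_div_log_isBigO.exists_pos
  obtain ⟨x0, hx0⟩ := Filter.eventually_atTop.1 h1.bound
  set L := Real.log (max x0 2) with hL
  have hL0 : 0 < L := Real.log_pos (lt_of_lt_of_le (by norm_num) (le_max_right _ _))
  refine ⟨C1 + C / c + (L ^ 2 + L), by positivity, fun x hx => ?_⟩
  have hx0' : 0 < x := by linarith
  have hl : 0 < Real.log x := Real.log_pos (by linarith)
  have hq : 0 < x / Real.log x ^ 2 := by positivity
  rw [mul_div_assoc]
  rcases le_total x0 x with h2 | h2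
  · have h3 := hx0 x h2
    rw [Real.norm_eq_abs, Real.norm_eq_abs, abs_of_pos hq, ← prim82_card_eq,
      ← prim82_theta_eq] at h3
    have h4 := prim82_theta h (by linarith : 1 ≤ x)
    have h5 : Real.log x ≤ x ^ c / c := Real.log_le_rpow_div hx0'.le hc0
    have hxc : 0 < x ^ c := Real.rpow_pos_of_pos hx0' c
    have h6 : C * x ^ (1 - c) / Real.log x ≤ C / c * (x / Real.log x ^ 2) := by
      rw [Real.rpow_sub hx0', Real.rpow_one]
      have h7 : Real.log x * c ≤ x ^ c := (le_div_iff₀ hc0).1 h5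
      have e1 : C * (x / x ^ c) / Real.log x = C * x / Real.log x * (1 / x ^ c) := by field_simp
      have e2 : C / c * (x / Real.log x ^ 2) = C * x / Real.log x * (1 / (Real.log x * c)) := by
        field_simp
      rw [e1, e2]
      exact mul_le_mul_of_nonneg_left (one_div_le_one_div_of_le (by positivity) h7) (by positivity)
    have h8 : |(∑ p ∈ primesIoc 0 x, Real.log p) / Real.log x - x / Real.log x| ≤
        C * x ^ (1 - c) / Real.log x := by
      rw [← sub_div, abs_div, abs_of_pos hl]
      exact div_le_div_of_nonneg_right h4 hl.le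
    have h9 := abs_sub_le ((primesIoc 0 x).card : ℝ)
      ((∑ p ∈ primesIoc 0 x, Real.log p) / Real.log x) (x / Real.log x)
    have h10 : 0 ≤ (L ^ 2 + L) * (x / Real.log x ^ 2) := by positivity
    nlinarith
  · have h3 : Real.log x ≤ L := Real.log_le_log hx0' (h2.trans (le_max_left _ _))
    have h4 : ((primesIoc 0 x).card : ℝ) ≤ x := by
      have h : (primesIoc 0 x).card ≤ ⌊x⌋₊ := by
        unfold primesIoc
        refine (Finset.card_filter_le _ _).trans ?_
        simp
      exact (Nat.cast_le.2 h).trans (Nat.floor_le hx0'.le)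
    have h5 : x ≤ L ^ 2 * (x / Real.log x ^ 2) := by
      rw [← mul_div_assoc, le_div_iff₀ (by positivity)]
      have : Real.log x ^ 2 ≤ L ^ 2 := by gcongr
      nlinarith
    have h6 : x / Real.log x ≤ L * (x / Real.log x ^ 2) := by
      have e : x / Real.log x = Real.log x * (x / Real.log x ^ 2) := by field_simp
      rw [e]; gcongr
    have h7 : 0 ≤ (C1 + C / c) * (x / Real.log x ^ 2) := by positivity
    have h8 : 0 ≤ x / Real.log x := by positivity
    have h9 : (0 : ℝ) ≤ (primesIoc 0 x).card := Nat.cast_nonneg _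
    rw [abs_le]
    constructor <;> nlinarith

end Crest.Agent.R001
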