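import Crest.Agent.R001.Tree
import Crest.Agent.R005.Dickman
import Crest.Agent.R020.SvAuxA
import Crest.Agent.R001.PrimAux82
import Crest.Agent.R001.PrimAux82b

set_option autoImplicit false

namespace Crest.Agent.R001

open Finset Filter Crest.Agent.R008 Crest.Agent.R026

/-! # Facts about primes -/

theorem mu_nonneg (S : Finset ℕ) : 0 ≤ mu S := by
  exact sum_nonneg fun p _ => by positivity

theorem mu_mono {S T : Finset ℕ} (h : S ⊆ T) : mu S ≤ mu T := by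
  exact sum_le_sum_of_subset_of_nonneg h fun p _ _ => by positivity

/-- `R005.dk_mertens` on the logarithmic scale. -/
theorem win : ∃ C : ℝ, 0 < C ∧ ∀ a b : ℝ, 1 ≤ a → a ≤ b →
    |mu (primesIoc (Real.exp a) (Real.exp b)) - Real.log (b / a)| ≤ C / a := by
  obtain ⟨C, hC, h⟩ := R005.dk_mertens
  refine ⟨C, hC, fun a b ha hab => ?_⟩
  have h2 : (2 : ℝ) ≤ Real.exp a := by linarith [Real.add_one_le_exp a]
  have h3 := h (Real.exp a) (Real.exp b) h2 (Real.exp_le_exp.2 hab)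
  rw [Real.log_exp, Real.log_exp] at h3
  rw [Real.log_div (by linarith) (by linarith)]
  exact h3

/-- A window of length `l` on the logarithmic scale above `L` (`win`, `log (1 + x) ≤ x`). -/
theorem win_le : ∃ C : ℝ, 0 < C ∧ ∀ (L a l : ℝ) (S : Finset ℕ), 1 ≤ L → 0 ≤ l →
    (∀ p ∈ S, p.Prime ∧ L < Real.log p ∧ a < Real.log p ∧ Real.log p ≤ a + l) →
    mu S ≤ (l + C) / L := by
  obtain ⟨C, hC, h⟩ := win
  refine ⟨C, hC, fun L a l S hL hl hS => ?_⟩
  obtain ⟨a', ha'⟩ : ∃ a', a' = max L a := ⟨_, rfl⟩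
  have h1 : L ≤ a' := ha' ▸ le_max_left _ _
  have h2 : a ≤ a' := ha' ▸ le_max_right _ _
  have h3 : S ⊆ primesIoc (Real.exp a') (Real.exp (a' + l)) := by
    intro p hp
    obtain ⟨b1, b2, b3, b4⟩ := hS p hp
    have hp0 : (0 : ℝ) < p := by exact_mod_cast b1.pos
    refine (mem_primesIoc (Real.exp_pos _).le (Real.exp_pos _).le).2 ⟨b1, ?_, ?_⟩
    · rw [← Real.lt_log_iff_exp_lt hp0, ha']
      exact max_lt b2 b3
    · rw [← Real.log_le_iff_le_exp hp0]
      linarith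
  have h4 := (abs_le.1 (h a' (a' + l) (by linarith) (by linarith))).2
  have ha0 : 0 < a' := by linarith
  have h5 : Real.log ((a' + l) / a') ≤ l / a' := by
    have := Real.log_le_sub_one_of_pos (show 0 < (a' + l) / a' by positivity)
    have e : (a' + l) / a' - 1 = l / a' := by field_simp; ring
    linarith
  have h6 : (l + C) / a' ≤ (l + C) / L := by gcongr
  have h7 : (l + C) / a' = l / a' + C / a' := add_div _ _ _
  linarith [mu_mono h3]

/-- `mertens2`. -/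
theorem mu_le : ∃ C : ℝ, 0 < C ∧ ∀ (x : ℝ) (S : Finset ℕ), 3 ≤ x →
    (∀ p ∈ S, p.Prime ∧ (p : ℝ) ≤ x) →
    mu S ≤ Real.log (Real.log x) + C ∧ Real.exp (mu S) ≤ C * Real.log x := by
  obtain ⟨C, hC, h⟩ := mertens2
  obtain ⟨K, hK⟩ : ∃ K, K = C + 1 / 2 - Real.log (Real.log 2) := ⟨_, rfl⟩
  refine ⟨Real.exp K, Real.exp_pos _, fun x S hx hS => ?_⟩
  have h1 : S ⊆ insert 2 (primesIoc 2 x) := by
    intro p hp
    obtain ⟨b1, b2⟩ := hS p hp
    rcases eq_or_lt_of_le b1.two_le with e | e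
    · exact mem_insert.2 (Or.inl e.symm)
    · exact mem_insert_of_mem ((mem_primesIoc (by norm_num) (by linarith)).2
        ⟨b1, by exact_mod_cast e, b2⟩)
  have h2 : mu (insert 2 (primesIoc 2 x)) = 1 / 2 + mu (primesIoc 2 x) := by
    unfold mu
    rw [sum_insert]
    · norm_num
    · intro hh
      have := ((mem_primesIoc (by norm_num) (by linarith : (0 : ℝ) ≤ x)).1 hh).2.1
      norm_num at this
  have h3 := (abs_le.1 (h 2 x le_rfl (by linarith))).2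
  have h4 : mu S ≤ Real.log (Real.log x) + K := by
    have := mu_mono h1
    rw [h2] at this
    unfold mu at this ⊢
    linarith
  have h5 : 0 < Real.log x := Real.log_pos (by linarith)
  refine ⟨by linarith [Real.add_one_le_exp K], ?_⟩
  calc Real.exp (mu S) ≤ Real.exp (Real.log (Real.log x) + K) := Real.exp_le_exp.2 h4
    _ = Real.exp K * Real.log x := by rw [Real.exp_add, Real.exp_log h5, mul_comm]

/-- Integers in a window on the logarithmic scale (`mer_Icc`). -/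
theorem mu_window {y a l : ℝ} (hy : 0 < y) (hl : 0 ≤ l) (S : Finset ℕ)
    (hS : ∀ n ∈ S, y ≤ n ∧ a ≤ Real.log n ∧ Real.log n ≤ a + l) : mu S ≤ 1 / y + l := by
  rcases S.eq_empty_or_nonempty with rfl | hne
  · simp only [mu, sum_empty]
    positivity
  obtain ⟨a1, a2, -⟩ := hS _ (S.min'_mem hne)
  obtain ⟨-, -, a3⟩ := hS _ (S.max'_mem hne)
  have h0 : (0 : ℝ) < (S.min' hne : ℕ) := hy.trans_le a1
  have h1 : 1 ≤ S.min' hne := by exact_mod_cast h0
  have h2 : S ⊆ Icc (S.min' hne) (S.max' hne) := fun n hn =>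
    mem_Icc.2 ⟨S.min'_le n hn, S.le_max' n hn⟩
  have h3 := mer_Icc h1 (S.min'_le_max' hne)
  have h4 := mu_mono h2
  have h5 : 1 / ((S.min' hne : ℕ) : ℝ) ≤ 1 / y := one_div_le_one_div_of_le hy a1
  unfold mu at h4 ⊢
  linarith

/-- Chebyshev (`Chebyshev.theta_le_log4_mul_x`, split at `√x`, or Mathlib's bound for
`Nat.primeCounting`). -/
theorem pi_le : ∃ C : ℝ, 0 < C ∧ ∀ (x : ℝ) (S : Finset ℕ), 2 ≤ x →
    (∀ p ∈ S, p.Prime ∧ (p : ℝ) ≤ x) → (S.card : ℝ) ≤ C * x / Real.log x :=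
  prim82_pi_le

theorem card_primesIoc_le (w : ℝ) {T : ℝ} (hT : 0 ≤ T) : ((primesIoc w T).card : ℝ) ≤ T :=
  prim82_card w hT

/-- `1 - u ≥ exp (-u - 2 u²)` for `0 ≤ u ≤ 1/2`, `1/(q-1) = 1/q + 1/(q(q-1))`, `mu_le`. -/
theorem V_low : ∃ c : ℝ, 0 < c ∧ c ≤ 1 ∧ ∀ (x : ℝ) (S : Finset ℕ) (g : ℕ → ℝ), 2 ≤ x →
    (∀ q ∈ S, q.Prime ∧ 3 ≤ q ∧ (q : ℝ) ≤ x ∧ g q ≤ 1 / ((q : ℝ) - 1)) →
    c / Real.log x ≤ ∏ q ∈ S, (1 - g q) :=
  prim82_V_low mu_le

theorem V1_pos (w : ℝ) : 0 < V1 w ∧ V1 w ≤ 1 := by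
  have h : ∀ p ∈ primesIoc 0 w, 0 < 1 - 1 / (p : ℝ) ∧ 1 - 1 / (p : ℝ) ≤ 1 := fun p hp => by
    have hp2 : (2 : ℝ) ≤ p := by exact_mod_cast (Finset.mem_filter.1 hp).2.two_le
    have h1 : 1 / (p : ℝ) ≤ 1 / 2 := one_div_le_one_div_of_le (by norm_num) hp2
    have h2 : 0 ≤ 1 / (p : ℝ) := by positivity
    constructor <;> linarith
  exact ⟨Finset.prod_pos fun p hp => (h p hp).1,
    Finset.prod_le_one (fun p hp => (h p hp).1.le) fun p hp => (h p hp).2⟩

/-- The case `m = 1` of `HP`. -/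
theorem theta_of_HP {c C : ℝ} (h : HPc c C) {x : ℝ} (hx : 1 ≤ x) :
    |∑ p ∈ primesIoc 0 x, Real.log p - x| ≤ C * x ^ (1 - c) :=
  prim82_theta h hx

/-- Lower bound: `π(x) log x ≥ θ(x)`.  Upper bound: `π(x) log x - θ(x) = ∑_p log (x / p)`; the primes
`p ≤ √x` give `≤ √x log x`, for the others `log (x/p) ≤ 2 (x/p)^(1/2)` and on `x/2^(j+1) < p ≤ x/2^j`
use `pi_le`: total `≤ C x / log x`.  (Or partial summation.) -/
theorem pi_asymp (h : HP) : ∃ C : ℝ, 0 < C ∧ ∀ x : ℝ, 2 ≤ x →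
    |((primesIoc 0 x).card : ℝ) - x / Real.log x| ≤ C * x / Real.log x ^ 2 :=
  prim82_pi_asymp h

theorem Prim60_ci {J i q : ℕ} (hJ : 1 ≤ J) :
    ci J q = i ↔ (i : ℝ) / J ≤ Real.log q ∧ Real.log q < ((i : ℝ) + 1) / J := by
  have hJ0 : (0 : ℝ) < J := by exact_mod_cast hJ
  unfold ci
  rw [Nat.floor_eq_iff (mul_nonneg hJ0.le (Real.log_natCast_nonneg q)), div_le_iff₀ hJ0,
    lt_div_iff₀ hJ0, mul_comm (Real.log q)]

theorem mem_cell {J i q : ℕ} (hJ : 1 ≤ J) : q ∈ cell J i ↔ q.Prime ∧ ci J q = i := by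
  unfold cell
  rw [mem_filter, mem_primesIoc le_rfl (Real.exp_pos _).le]
  refine ⟨fun h => ⟨h.1.1, h.2⟩, fun h => ⟨⟨h.1, ?_, ?_⟩, h.2⟩⟩
  · exact_mod_cast h.1.pos
  · have h0 : (0 : ℝ) < q := by exact_mod_cast h.1.pos
    exact (Real.log_le_iff_le_exp h0).1 ((Prim60_ci hJ).1 h.2).2.le

theorem ci_eq_iff {J i q : ℕ} (hJ : 1 ≤ J) (hq : 1 ≤ q) :
    ci J q = i ↔ (i : ℝ) / J ≤ Real.log q ∧ Real.log q < ((i : ℝ) + 1) / J := by
  exact Prim60_ci hJ

theorem le_ci_iff {J k q : ℕ} (hJ : 1 ≤ J) (hq : 1 ≤ q) :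
    J * k ≤ ci J q ↔ (k : ℝ) ≤ Real.log q := by
  have hJ0 : (0 : ℝ) < J := by exact_mod_cast hJ
  unfold ci
  rw [Nat.le_floor_iff (mul_nonneg hJ0.le (Real.log_natCast_nonneg q))]
  push_cast
  exact mul_le_mul_iff_right₀ hJ0

theorem ci_mono (J : ℕ) {q q' : ℕ} (h : q ≤ q') : ci J q ≤ ci J q' := by
  unfold ci
  refine Nat.floor_le_floor (mul_le_mul_of_nonneg_left ?_ (Nat.cast_nonneg J))
  rcases Nat.eq_zero_or_pos q with rfl | hq
  · rw [Nat.cast_zero, Real.log_zero]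
    exact Real.log_natCast_nonneg q'
  · exact Real.log_le_log (by exact_mod_cast hq) (by exact_mod_cast h)

/-- A cell is contained in `[P, P e^(1/J))`, which has at most `P (e^(1/8) - 1) + 1` integers. -/
theorem card_cell_le {J i : ℕ} (hJ : 8 ≤ J) (hi : J ≤ i) :
    ((cell J i).card : ℝ) ≤ Real.exp ((i : ℝ) / J) := by
  have hJ1 : 1 ≤ J := by omega
  have hJ8 : (8 : ℝ) ≤ J := by exact_mod_cast hJ
  have hJ0 : (0 : ℝ) < J := by linarith
  set P := Real.exp ((i : ℝ) / J) with hP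
  have hP2 : 2 ≤ P := by
    have h1 : (1 : ℝ) ≤ (i : ℝ) / J := by
      rw [le_div_iff₀ hJ0, one_mul]
      exact_mod_cast hi
    have := Real.add_one_le_exp ((i : ℝ) / J)
    linarith
  have he : Real.exp (((i : ℝ) + 1) / J) ≤ P * (8 / 7) := by
    rw [add_div, Real.exp_add]
    refine mul_le_mul_of_nonneg_left ?_ (by linarith)
    have h1 : (1 : ℝ) / J ≤ 1 / 8 := one_div_le_one_div_of_le (by norm_num) hJ8
    have h2 := Real.add_one_le_exp (-(1 / 8 : ℝ))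
    have h3 : Real.exp (1 / 8 : ℝ) * Real.exp (-(1 / 8 : ℝ)) = 1 := by
      rw [← Real.exp_add]; simp
    have h4 := Real.exp_pos (1 / 8 : ℝ)
    refine (Real.exp_le_exp.2 h1).trans ?_
    nlinarith
  have hsub : cell J i ⊆ Ico ⌈P⌉₊ ⌈P * (8 / 7)⌉₊ := by
    intro q hq
    obtain ⟨hp, hc⟩ := (mem_cell hJ1).1 hq
    obtain ⟨h1, h2⟩ := (Prim60_ci hJ1).1 hc
    have h0 : (0 : ℝ) < q := by exact_mod_cast hp.pos
    rw [mem_Ico, Nat.ceil_le, Nat.lt_ceil]
    exact ⟨(Real.le_log_iff_exp_le h0).1 h1, ((Real.log_lt_iff_lt_exp h0).1 h2).trans_le he⟩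
  have hc := card_le_card hsub
  rw [Nat.card_Ico] at hc
  have hle : ⌈P⌉₊ ≤ ⌈P * (8 / 7)⌉₊ := Nat.ceil_le_ceil (by linarith)
  have h5 : ((cell J i).card : ℝ) ≤ (⌈P * (8 / 7)⌉₊ : ℝ) - ⌈P⌉₊ := by
    rw [← Nat.cast_sub hle]
    exact_mod_cast hc
  have h6 := Nat.ceil_lt_add_one (show 0 ≤ P * (8 / 7) by linarith)
  have h7 := Nat.le_ceil P
  linarith

/-- The cell contains the primes of `(P, P (1 + 1/(2J))]`, and `θ` of this interval is at least
`P/(2J) - 3 C P^(1-c) ≥ P/(4J)`; every logarithm is at most `2 log P`. -/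
theorem card_cell_ge (h : HP) : ∃ c P₀ : ℝ, 0 < c ∧ ∀ J i : ℕ, 1 ≤ J →
    P₀ ≤ Real.exp ((i : ℝ) / J) → (J : ℝ) ≤ Real.exp ((i : ℝ) / J) ^ c →
    Real.exp ((i : ℝ) / J) / (8 * (i : ℝ)) ≤ (cell J i).card := by
  obtain ⟨c, C, hc0, hc1, hC, hH⟩ := h
  refine ⟨c / 2, max (Real.exp 1) ((12 * C) ^ (2 / c)), by positivity, fun J i hJ hP0 hJP => ?_⟩
  have hJ' : (1 : ℝ) ≤ J := by exact_mod_cast hJ
  set L : ℝ := (i : ℝ) / J with hL
  set P : ℝ := Real.exp L with hP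
  have hL1 : 1 ≤ L := Real.exp_le_exp.1 ((le_max_left _ _).trans hP0)
  have hP1 : 1 ≤ P := Real.one_le_exp (by linarith)
  have hPpos : 0 < P := by linarith
  have hu0 : (0 : ℝ) < 1 / (2 * J) := by positivity
  have hu1 : 1 / (2 * (J : ℝ)) ≤ 1 / 2 := by
    apply one_div_le_one_div_of_le <;> linarith
  set u : ℝ := 1 / (2 * (J : ℝ)) with hu
  have hP' : P ≤ P * (1 + u) := by nlinarith
  -- the primes of `(P, P (1 + u)]`
  have hmem : ∀ q ∈ primesIoc P (P * (1 + u)), q ∈ cell J i ∧ Real.log q ≤ 2 * L := by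
    intro q hq
    obtain ⟨h1, h2, h3⟩ := (mem_primesIoc hPpos.le (by linarith)).1 hq
    have hq0 : (0 : ℝ) < q := by linarith
    have a1 : L ≤ Real.log q := by
      rw [Real.le_log_iff_exp_le hq0]
      exact h2.le
    have a2 : Real.log q ≤ L + u := by
      have := Real.log_le_log hq0 h3
      rw [Real.log_mul hPpos.ne' (by linarith), hP, Real.log_exp] at this
      have := Real.log_le_sub_one_of_pos (show 0 < 1 + u by linarith)
      linarith
    refine ⟨(mem_cell hJ).2 ⟨h1, (ci_eq_iff hJ h1.one_lt.le).2 ⟨a1, ?_⟩⟩, by linarith⟩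
    have : ((i : ℝ) + 1) / J = L + 2 * u := by
      rw [hL, hu]
      field_simp
    rw [this]
    linarith
  have hsplit : ∑ p ∈ primesIoc 0 (P * (1 + u)), Real.log p ≤
      ∑ p ∈ primesIoc P (P * (1 + u)), Real.log p + ∑ p ∈ primesIoc 0 P, Real.log p := by
    refine le_trans (sum_le_sum_of_subset_of_nonneg (t := primesIoc P (P * (1 + u)) ∪ primesIoc 0 P)
      (fun q hq => ?_) fun q _ _ => Real.log_natCast_nonneg q) ?_
    · obtain ⟨h1, h2, h3⟩ := (mem_primesIoc le_rfl (by linarith)).1 hq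
      rw [mem_union, mem_primesIoc hPpos.le (by linarith), mem_primesIoc le_rfl hPpos.le]
      rcases lt_or_ge P q with h4 | h4
      · exact Or.inl ⟨h1, h4, h3⟩
      · exact Or.inr ⟨h1, h2, h4⟩
    · rw [← sum_union_inter]
      exact le_add_of_nonneg_right (sum_nonneg fun q _ => Real.log_natCast_nonneg q)
  have t1 := (abs_le.1 (theta_of_HP hH hP1)).2
  have t2 := (abs_le.1 (theta_of_HP hH (hP1.trans hP'))).1
  have hpow : (P * (1 + u)) ^ (1 - c) ≤ 2 * P ^ (1 - c) := by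
    rw [Real.mul_rpow hPpos.le (by linarith), mul_comm]
    refine mul_le_mul_of_nonneg_right ?_ (by positivity)
    calc (1 + u) ^ (1 - c) ≤ (1 + u) ^ (1 : ℝ) :=
          Real.rpow_le_rpow_of_exponent_le (by linarith) (by linarith)
      _ ≤ 2 := by rw [Real.rpow_one]; linarith
  have h12 : 12 * C ≤ P ^ (c / 2) := by
    have h1 : ((12 * C) ^ (2 / c)) ^ (c / 2) ≤ P ^ (c / 2) :=
      Real.rpow_le_rpow (by positivity) ((le_max_right _ _).trans hP0) (by positivity)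
    rwa [← Real.rpow_mul (by positivity), show 2 / c * (c / 2) = 1 by field_simp,
      Real.rpow_one] at h1
  have hPP : P ^ (c / 2) * P ^ (c / 2) * P ^ (1 - c) = P := by
    rw [← Real.rpow_add hPpos, ← Real.rpow_add hPpos,
      show c / 2 + c / 2 + (1 - c) = 1 by ring, Real.rpow_one]
  have hkey : 12 * C * J * P ^ (1 - c) ≤ P := by
    calc 12 * C * J * P ^ (1 - c) ≤ P ^ (c / 2) * P ^ (c / 2) * P ^ (1 - c) := by gcongr
      _ = P := hPP
  have hkey2 : 3 * (C * P ^ (1 - c)) ≤ P * u / 2 := by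
    rw [hu, le_div_iff₀ (by norm_num : (0 : ℝ) < 2), mul_one_div, le_div_iff₀ (by positivity)]
    linarith
  have hsum : P * u / 2 ≤ ∑ p ∈ primesIoc P (P * (1 + u)), Real.log p := by
    have := mul_le_mul_of_nonneg_left hpow hC.le
    linarith
  have hcard : ∑ p ∈ primesIoc P (P * (1 + u)), Real.log p ≤ ((cell J i).card : ℝ) * (2 * L) := by
    refine (sum_le_card_nsmul _ _ (2 * L) fun q hq => (hmem q hq).2).trans ?_
    rw [nsmul_eq_mul]
    refine mul_le_mul_of_nonneg_right ?_ (by linarith)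
    exact_mod_cast card_le_card fun q hq => (hmem q hq).1
  have hi : (i : ℝ) = L * J := by
    rw [hL]
    field_simp
  rw [hi, div_le_iff₀ (by positivity)]
  have h3 := hsum.trans hcard
  rw [hu, mul_one_div, div_div, div_le_iff₀ (by positivity)] at h3
  linarith

/-- Lower bound sieve weights.  `svAuxA_exists` with `b` such that `exp (4 K / 2^b) ≤ 2`,
`c = l - e`; test `SvW.upp` with the weights `w p = ind (p ∈ n)`; the main term is
`svEv l g - svEv e g ≥ svV - svV / 2` by `SvW.low`, `SvW.err`. -/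
theorem fl_low : ∃ s : ℕ, 1 ≤ s ∧ ∀ (y : ℝ) (P : Finset ℕ) (g : ℕ → ℝ), 1 ≤ y →
    (∀ p ∈ P, p.Prime ∧ (p : ℝ) ≤ y ∧ 0 ≤ g p ∧ g p ≤ 1 / 2 ∧ g p ≤ 3 / (p : ℝ)) →
    ∃ c : Finset ℕ → ℝ, LW P (y ^ s) c ∧
      (∏ p ∈ P, (1 - g p)) / 2 ≤ ∑ S ∈ P.powerset, c S * ∏ p ∈ S, g p := by
  obtain ⟨K, hK, hex⟩ := R020.svAuxA_exists
  obtain ⟨b, hb⟩ := pow_unbounded_of_one_lt (8 * K) (show (1 : ℝ) < 2 by norm_num)
  have hκ : Real.exp (4 * (K / 2 ^ b)) ≤ 2 := by
    have h2 : (0 : ℝ) < 2 ^ b := by positivity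
    have h1 : 4 * (K / 2 ^ b) ≤ 1 / 2 := by
      rw [← mul_div_assoc, div_le_div_iff₀ h2 (by norm_num)]
      linarith
    calc Real.exp (4 * (K / 2 ^ b)) ≤ Real.exp (Real.log 2) :=
          Real.exp_le_exp.2 (h1.trans (by linarith [Real.log_two_gt_d9]))
      _ = 2 := Real.exp_log (by norm_num)
  refine ⟨4 * b + 6, by omega, fun y P g hy hP => ?_⟩
  obtain ⟨J, hJ⟩ : ∃ J : ℕ, y < 2 ^ (2 ^ J) := by
    obtain ⟨J, hJ⟩ := pow_unbounded_of_one_lt y (show (1 : ℝ) < 2 by norm_num)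
    exact ⟨J, hJ.trans_le (pow_le_pow_right₀ (by norm_num) Nat.lt_two_pow_self.le)⟩
  obtain ⟨l, e, h⟩ := hex g J y P hy hJ hP b
  have hg1 : ∀ p ∈ P, 0 ≤ g p ∧ g p ≤ 1 := fun p hp =>
    ⟨(hP p hp).2.2.1, by linarith [(hP p hp).2.2.2.1]⟩
  refine ⟨fun S => l S - e S, ⟨fun S => ?_, fun S hS hne => ?_, fun n hn => ?_⟩, ?_⟩
  · exact (abs_sub _ _).trans (h.bdd S)
  · refine h.supp S hS ?_
    by_contra hc
    push Not at hc
    exact hne (by simp [hc.1, hc.2])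
  · have hu := h.upp (fun p => ind (p ∈ n)) (fun p _ => ⟨ind_nonneg _, ind_le_one _⟩)
    have h1 : ∑ S ∈ P.powerset, (l S - e S) * ind (S ⊆ n) =
        svEv P (fun S => l S - e S) (fun p => ind (p ∈ n)) := by
      unfold svEv
      refine sum_congr rfl fun S _ => ?_
      congr 1
      by_cases hS : S ⊆ n
      · rw [ind_pos hS]
        exact (prod_eq_one fun p hp => ind_pos (hS hp)).symm
      · rw [ind_neg hS]
        obtain ⟨p, hp, hpn⟩ := not_subset.1 hS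
        exact (prod_eq_zero hp (ind_neg hpn)).symm
    have h2 : svV P (fun p => ind (p ∈ n)) = ind (n = ∅) := by
      unfold svV
      by_cases hn0 : n = ∅
      · rw [ind_pos hn0]
        refine prod_eq_one fun p _ => ?_
        have hpn : p ∉ n := by rw [hn0]; exact notMem_empty p
        beta_reduce
        rw [ind_neg hpn, sub_zero]
      · rw [ind_neg hn0]
        obtain ⟨p, hp⟩ := nonempty_iff_ne_empty.2 hn0
        exact prod_eq_zero (hn hp) (by beta_reduce; rw [ind_pos hp, sub_self])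
    rw [h1, sv_ev_sub, ← h2]
    linarith
  · have h1 := h.low g hg1
    have h2 := h.err
    have h3 := mul_le_mul_of_nonneg_right hκ (sv_V_nonneg P hg1)
    have h4 := sv_ev_sub P l e g
    change svV P g / 2 ≤ svEv P (fun S => l S - e S) g
    rw [h4]
    linarith

end Crest.Agent.R001
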