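import Crest.Agent.R001.Tree2
import Crest.Agent.R001.Prim
import Crest.Agent.R001.DecAuxH2

set_option autoImplicit false

namespace Crest.Agent.R001

open Finset Filter Crest.Agent.R008 Crest.Agent.R026

/-! # The decay estimate -/

theorem KC_pos (s : ℝ) : 0 < KC s := by
  exact Real.exp_pos _

theorem KF_pos (s : ℝ) : 0 < KF s := by
  unfold KF
  split_ifs with h
  · have := sub_nonneg.2 h
    positivity
  · positivity

theorem KC_anti : Antitone KC := by
  intro a b h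
  have := max_le_max_right 0 (sub_le_sub_right h (59 / 20))
  exact Real.exp_le_exp.2 (by linarith)

theorem KF_anti : Antitone KF := by
  intro a b h
  unfold KF
  split_ifs with h1 h2 h2
  · nlinarith
  · exact absurd (h.trans h1) h2
  · have := Real.exp_le_one_iff.2 (show -(11 / 10 * (b - 99 / 25)) ≤ 0 by linarith)
    nlinarith [sq_nonneg (99 / 25 - a)]
  · have := Real.exp_le_exp.2
      (show -(11 / 10 * (b - 99 / 25)) ≤ -(11 / 10 * (a - 99 / 25)) by linarith)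
    linarith

theorem Dec90_exp {x y : ℝ} (h : x ≤ y + 5) : Real.exp x ≤ 149 * Real.exp y := by
  have h1 : Real.exp 5 ≤ 149 := by
    rw [show (5 : ℝ) = (5 : ℕ) * 1 by norm_num, Real.exp_nat_mul]
    exact (pow_le_pow_left₀ (Real.exp_pos 1).le Real.exp_one_lt_d9.le 5).trans (by norm_num)
  refine (Real.exp_le_exp.2 h).trans ?_
  rw [Real.exp_add, mul_comm]
  exact mul_le_mul_of_nonneg_right h1 (Real.exp_pos y).le

theorem KK_bounds (k : ℕ) {s : ℝ} (hs : 0 ≤ s) :
    8 / 25 * Real.exp (-(11 / 10 * s)) ≤ KK k s ∧ KK k s ≤ 1000 * Real.exp (-(11 / 10 * s)) := by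
  have h0 := Real.exp_pos (-(11 / 10 * s))
  unfold KK
  split_ifs
  · have h1 := max_le (show s - 59 / 20 ≤ s by linarith) hs
    have h2 := le_max_left (s - 59 / 20) 0
    have h3 : Real.exp (-(11 / 10 * s)) ≤ KC s := Real.exp_le_exp.2 (by linarith)
    have h4 : KC s ≤ 149 * Real.exp (-(11 / 10 * s)) := Dec90_exp (by linarith)
    constructor <;> linarith
  · unfold KF
    split_ifs with h
    · have h1 := Real.exp_le_one_iff.2 (show -(11 / 10 * s) ≤ 0 by linarith)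
      have h2 := Dec90_exp (show 0 ≤ -(11 / 10 * s) + 5 by linarith)
      rw [Real.exp_zero] at h2
      constructor <;> nlinarith [sq_nonneg (99 / 25 - s)]
    · have h1 := Real.exp_le_exp.2
        (show -(11 / 10 * s) ≤ -(11 / 10 * (s - 99 / 25)) by linarith)
      have h2 := Dec90_exp (show -(11 / 10 * (s - 99 / 25)) ≤ -(11 / 10 * s) + 5 by linarith)
      constructor <;> linarith

/-- `KF` is convex and `C¹`: `KF s' - KF s ≥ (s - s') κ(s)` for `s' ≤ s`, with the slope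
`κ(s) = 44/125 + 9/25 (99/25 - s)` for `s ≤ 99/25` and `44/125 exp (-(11/10)(s - 99/25))` beyond.
Here `s - s' = s / (p + 1)`.  Since `s / (s-u) ≤ 2`, `(s/(s-u))^(1/50) (1 + 1/p) ≤ 1.02`
(`2 ≤ 1.014^50`), so it suffices that `κ(s) ≥ 1.02 KC (s-u) / (s-u)`; use `s - u ≥ s - 1.01`,
`s ≥ 1.98`; for `s ≤ 3.96`: `κ(s) (s - 1.01) ≥ 1.02` (concave quadratic, endpoints `1.0328`,
`1.0384`). -/
theorem dec_F {s u p : ℝ} (hp : 200 ≤ p) (h1 : 99 / 100 ≤ u) (h2 : u ≤ 101 / 100)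
    (hs : 2 * u ≤ s) :
    KF s + 1 / p * ((s / (s - u)) ^ (51 / 50 : ℝ) * KC (s - u)) ≤ KF (s / (1 + 1 / p)) := by
  have hx : 0 < s - u := by linarith
  have hs0 : 0 < s := by linarith
  have hp0 : 0 < p := by linarith
  have hr0 : 0 < s / (s - u) := by positivity
  have hr : (s / (s - u)) ^ (51 / 50 : ℝ) ≤ s / (s - u) * (507 / 500) := by
    rw [show (51 / 50 : ℝ) = 1 + (50 : ℝ)⁻¹ by norm_num, Real.rpow_add hr0, Real.rpow_one]
    refine mul_le_mul_of_nonneg_left ?_ hr0.le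
    rw [Real.rpow_inv_le_iff_of_pos hr0.le (by norm_num) (by norm_num)]
    refine ((div_le_iff₀ hx).2 (show s ≤ 2 * (s - u) by linarith)).trans ?_
    rw [show (50 : ℝ) = (50 : ℕ) by norm_num, Real.rpow_natCast]
    norm_num
  have key : ∀ κ : ℝ, 51 / 50 * KC (s - u) ≤ κ * (s - u) →
      1 / p * ((s / (s - u)) ^ (51 / 50 : ℝ) * KC (s - u)) ≤ (s - s / (1 + 1 / p)) * κ := by
    intro κ hκ
    have h3 := KC_pos (s - u)
    have h4 : 51 / 50 * KC (s - u) / (s - u) ≤ κ := (div_le_iff₀ hx).2 hκ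
    have h5 : 1 / p * (507 / 500) ≤ 1 / (p + 1) * (51 / 50) := by
      rw [div_mul_eq_mul_div, div_mul_eq_mul_div, div_le_div_iff₀ hp0 (by linarith)]
      linarith
    calc _ ≤ 1 / p * (s / (s - u) * (507 / 500) * KC (s - u)) := by gcongr
      _ = 1 / p * (507 / 500) * (s * (KC (s - u) / (s - u))) := by ring
      _ ≤ 1 / (p + 1) * (51 / 50) * (s * (KC (s - u) / (s - u))) := by gcongr
      _ = s / (p + 1) * (51 / 50 * KC (s - u) / (s - u)) := by ring
      _ ≤ s / (p + 1) * κ := by gcongr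
      _ = _ := by
        congr 1
        field_simp
        ring
  have hle : s / (1 + 1 / p) ≤ s := div_le_self hs0.le (le_add_of_nonneg_right (by positivity))
  generalize s / (1 + 1 / p) = s' at key hle ⊢
  by_cases h : s ≤ 99 / 25
  · have h3 : KC (s - u) ≤ 1 :=
      Real.exp_le_one_iff.2 (by linarith [le_max_right (s - u - 59 / 20) 0])
    have h4 := key (44 / 125 + 9 / 25 * (99 / 25 - s)) (by
      nlinarith [mul_nonneg (sub_nonneg.2 h) (show 0 ≤ s - 99 / 50 by linarith),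
        mul_nonneg (sub_nonneg.2 h) (sub_nonneg.2 h2)])
    rw [KF, KF, if_pos h, if_pos (hle.trans h)]
    nlinarith [sq_nonneg (s - s')]
  · have hE := Real.exp_pos (-(11 / 10 * (s - 99 / 25)))
    have h3 : KC (s - u) ≤ Real.exp (-(11 / 10 * (s - 99 / 25))) :=
      Real.exp_le_exp.2 (by linarith [le_max_left (s - u - 59 / 20) 0])
    have h4 := key (44 / 125 * Real.exp (-(11 / 10 * (s - 99 / 25)))) (by
      nlinarith [mul_nonneg hE.le (show 0 ≤ s - u - 59 / 20 by linarith)])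
    have h5 : ∀ t, Real.exp (-(11 / 10 * (s - 99 / 25))) * (11 / 10 * (s - t) + 1) ≤
        Real.exp (-(11 / 10 * (t - 99 / 25))) := fun t => by
      refine (mul_le_mul_of_nonneg_left (Real.add_one_le_exp _) hE.le).trans (le_of_eq ?_)
      rw [← Real.exp_add]
      congr 1
      ring
    rw [KF, KF, if_neg h]
    split_ifs with h6
    · have h7 := h5 (99 / 25)
      rw [sub_self, mul_zero, neg_zero, Real.exp_zero] at h7
      have h8 := Real.exp_le_one_iff.2 (show -(11 / 10 * (s - 99 / 25)) ≤ 0 by linarith)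
      nlinarith [mul_nonneg (sub_nonneg.2 h8) (sub_nonneg.2 h6), sq_nonneg (99 / 25 - s')]
    · linarith [h5 s']

theorem Dec12_tan {c y₀ : ℝ} (y : ℝ) (hc0 : 0 ≤ c) (hc : c ≤ Real.exp (-y₀)) :
    c * (1 + y₀ - y) ≤ Real.exp (-y) := by
  have h1 : Real.exp (-y) = Real.exp (-y₀) * Real.exp (y₀ - y) := by
    rw [← Real.exp_add]; congr 1; ring
  have h2 := Real.add_one_le_exp (y₀ - y)
  rw [h1]
  calc c * (1 + y₀ - y) ≤ c * Real.exp (y₀ - y) := mul_le_mul_of_nonneg_left (by linarith) hc0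
    _ ≤ _ := mul_le_mul_of_nonneg_right hc (Real.exp_pos _).le

theorem Dec12_key {x : ℝ} (hx : 198 / 100 ≤ x) :
    102 / 100 * KF x ≤ 11 / 10 * x * Real.exp (-(11 / 10 * (x - 194 / 100))) := by
  have e1 : (3678 / 10000 : ℝ) ≤ Real.exp (-1) := by linarith [Real.exp_neg_one_gt_d9]
  have e2 : (1352 / 10000 : ℝ) ≤ Real.exp (-2) := by
    have : Real.exp (-2) = Real.exp (-1) * Real.exp (-1) := by rw [← Real.exp_add]; norm_num
    rw [this]; nlinarith
  unfold KF
  split_ifs with h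
  · have key : ∀ c y₀ : ℝ, 0 ≤ c → c ≤ Real.exp (-y₀) →
        102 / 100 * (8 / 25 + 44 / 125 * (99 / 25 - x) + 9 / 50 * (99 / 25 - x) ^ 2) ≤
          11 / 10 * x * (c * (1 + y₀ - 11 / 10 * (x - 194 / 100))) →
        102 / 100 * (8 / 25 + 44 / 125 * (99 / 25 - x) + 9 / 50 * (99 / 25 - x) ^ 2) ≤
          11 / 10 * x * Real.exp (-(11 / 10 * (x - 194 / 100))) := fun c y₀ h0 h1 h2 =>
      h2.trans (mul_le_mul_of_nonneg_left (Dec12_tan _ h0 h1) (by linarith))
    rcases le_total x (23 / 10) with h1 | h1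
    · exact key 1 0 zero_le_one (by simp)
        (by nlinarith [mul_nonneg (sub_nonneg.2 hx) (sub_nonneg.2 h1)])
    rcases le_total x (32 / 10) with h2 | h2
    · exact key _ 1 (by norm_num) e1
        (by nlinarith [mul_nonneg (sub_nonneg.2 h1) (sub_nonneg.2 h2)])
    · exact key _ 2 (by norm_num) e2
        (by nlinarith [mul_nonneg (sub_nonneg.2 h2) (sub_nonneg.2 h)])
  · have h1 : Real.exp (-(11 / 10 * (x - 194 / 100))) =
        Real.exp (-(11 / 10 * (x - 99 / 25))) * Real.exp (-(2222 / 1000)) := by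
      rw [← Real.exp_add]; congr 1; ring
    have h2 := Dec12_tan (2222 / 1000) (by norm_num) e2
    have h3 := Real.exp_pos (-(11 / 10 * (x - 99 / 25)))
    have h4 : 102 / 100 * (8 / 25) ≤ 11 / 10 * x * Real.exp (-(2222 / 1000)) := by
      nlinarith [not_le.1 h]
    rw [h1]
    nlinarith [mul_le_mul_of_nonneg_right h4 h3.le]

/-- On `[59/20, ∞)` the function `KC` is a convex exponential and `s' = s p / (p+1) ≥ 2.955`.
With `x = s - u ≥ 1.98`, `s ≤ x + 1.01` it suffices that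
`1.1 exp (-1.1 (x - 1.94)) ≥ 1.02 KF x / x`.  Values (left, right): `x = 1.98`: `1.05, 0.886`;
`2.5`: `0.594, 0.496`; `3`: `0.342, 0.280`; `3.5`: `0.197, 0.152`; `3.96`: `0.119, 0.083`.  On
`[1.98, 3.96]` use tangent lines of the exponential on a few subintervals, or
`exp (-y) ≥ (1 - y/8)^8`, or `exp y ≤` a Taylor bound. -/
theorem dec_C {s u p : ℝ} (hp : 200 ≤ p) (h1 : 99 / 100 ≤ u) (h2 : u ≤ 101 / 100)
    (hs : 3 * u ≤ s) :
    KC s + 1 / p * ((s / (s - u)) ^ (51 / 50 : ℝ) * KF (s - u)) ≤ KC (s / (1 + 1 / p)) := by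
  have hp0 : 0 < p := by linarith
  have hx : 198 / 100 ≤ s - u := by linarith
  have hx0 : 0 < s - u := by linarith
  have hs0 : 0 < s := by linarith
  have hd : s / (1 + 1 / p) = s - s / (p + 1) := by field_simp; ring
  have hd0 : 0 ≤ s / (p + 1) := by positivity
  have hd1 : s / (p + 1) ≤ s / 201 := div_le_div_of_nonneg_left hs0.le (by norm_num) (by linarith)
  have hr1 : s / (s - u) ≤ 3 / 2 := by rw [div_le_iff₀ hx0]; linarith
  have hr0 : 0 < s / (s - u) := div_pos hs0 hx0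
  have hr2 : (s / (s - u)) ^ (1 / 50 : ℝ) ≤ 101 / 100 := by
    have := rpow_one_add_le_one_add_mul_self (s := s / (s - u) - 1) (by linarith)
      (p := 1 / 50) (by norm_num) (by norm_num)
    rw [add_sub_cancel] at this
    linarith
  have hr3 : (s / (s - u)) ^ (51 / 50 : ℝ) ≤ s / (s - u) * (101 / 100) := by
    rw [show (51 / 50 : ℝ) = 1 + 1 / 50 by norm_num, Real.rpow_add hr0, Real.rpow_one]
    exact mul_le_mul_of_nonneg_left hr2 hr0.le
  have hK : KC s = Real.exp (-(11 / 10 * (s - 59 / 20))) := by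
    rw [KC, max_eq_left (by linarith)]
  have hK' : KC (s / (1 + 1 / p)) = KC s * Real.exp (11 / 10 * (s / (p + 1))) := by
    rw [hK, KC, hd, max_eq_left (by linarith), ← Real.exp_add]; congr 1; ring
  have hK0 : Real.exp (-(11 / 10 * (s - u - 194 / 100))) ≤ KC s := by
    rw [hK]; exact Real.exp_le_exp.2 (by linarith)
  have hKp : 0 < KC s := hK ▸ Real.exp_pos _
  have hF := Dec12_key hx
  have hF0 := (KF_pos (s - u)).le
  have h3 : 102 / 100 * KF (s - u) ≤ 11 / 10 * (s - u) * KC s :=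
    hF.trans (mul_le_mul_of_nonneg_left hK0 (by linarith))
  have h4 : 1 / p * ((s / (s - u)) ^ (51 / 50 : ℝ) * KF (s - u)) ≤
      KC s * (11 / 10 * (s / (p + 1))) := by
    have h5 : 1 / p * (101 / 100) ≤ 1 / (p + 1) * (102 / 100) := by
      rw [div_mul_eq_mul_div, div_mul_eq_mul_div, div_le_div_iff₀ hp0 (by linarith)]; linarith
    calc 1 / p * ((s / (s - u)) ^ (51 / 50 : ℝ) * KF (s - u))
        ≤ 1 / p * (s / (s - u) * (101 / 100) * KF (s - u)) := by gcongr
      _ = 1 / p * (101 / 100) * (s / (s - u) * KF (s - u)) := by ring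
      _ ≤ 1 / (p + 1) * (102 / 100) * (s / (s - u) * KF (s - u)) := by gcongr
      _ = 1 / (p + 1) * (s / (s - u)) * (102 / 100 * KF (s - u)) := by ring
      _ ≤ 1 / (p + 1) * (s / (s - u)) * (11 / 10 * (s - u) * KC s) := by gcongr
      _ = _ := by field_simp
  have h6 := mul_le_mul_of_nonneg_left (Real.add_one_le_exp (11 / 10 * (s / (p + 1)))) hKp.le
  rw [hK']
  linarith

theorem dec17_exp {u : ℝ} (hu : 0 ≤ u) : Real.exp (u - u ^ 2) ≤ 1 + u := by
  have h1 := Real.add_one_le_exp (-(u - u ^ 2))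
  have h2 : Real.exp (u - u ^ 2) * Real.exp (-(u - u ^ 2)) = 1 := by
    rw [← Real.exp_add]; simp
  have h3 := Real.exp_pos (u - u ^ 2)
  have h4 : Real.exp (u - u ^ 2) * (-(u - u ^ 2) + 1) ≤ 1 :=
    (mul_le_mul_of_nonneg_left h1 h3.le).trans h2.le
  have h5 : 0 < -(u - u ^ 2) + 1 := by nlinarith [sq_nonneg (u - 1 / 2)]
  have h6 : 1 ≤ (1 + u) * (-(u - u ^ 2) + 1) := by nlinarith [pow_nonneg hu 3]
  exact le_of_mul_le_mul_right (h4.trans h6) h5

/-- `R005.dk_mertens` with `x = e^L`, `y = max N x`; `u - u² ≤ log (1 + u) ≤ u`,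
`sum_inv_sq_le`. -/
theorem clock : ∃ L₀ : ℝ, 6 ≤ L₀ ∧ ∀ (L : ℝ) (N : ℕ), L₀ ≤ L → ⌊Real.exp L⌋₊ ≤ N →
    199 / 200 * Real.log (N + 1) ≤ clk L N ∧ clk L N ≤ 201 / 200 * Real.log (N + 1) := by
  obtain ⟨C, hC, h⟩ := R005.dk_mertens
  refine ⟨1000 * (C + 2), by linarith, fun L N hL hN => ?_⟩
  have hL0 : 0 < L := by linarith
  have hx : L + 1 ≤ Real.exp L := Real.add_one_le_exp L
  have hx2 : 2 ≤ Real.exp L := by linarith
  have hy1 : Real.exp L ≤ max (N : ℝ) (Real.exp L) := le_max_right _ _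
  have hy2 : (N : ℝ) ≤ max (N : ℝ) (Real.exp L) := le_max_left _ _
  have hy3 : max (N : ℝ) (Real.exp L) < N + 1 := by
    refine max_lt (by linarith) ((Nat.lt_floor_add_one _).trans_le ?_)
    exact_mod_cast Nat.add_le_add_right hN 1
  have hfl : ⌊max (N : ℝ) (Real.exp L)⌋₊ = N := (Nat.floor_eq_iff (by linarith)).2 ⟨hy2, hy3⟩
  have h1 := h (Real.exp L) _ hx2 hy1
  rw [primesIoc, hfl, Real.log_exp] at h1
  generalize max (N : ℝ) (Real.exp L) = y at hy1 hy2 hy3 h1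
  have hy0 : 0 < y := by linarith
  have hl1 : L ≤ Real.log y := by
    rw [Real.le_log_iff_exp_le hy0]; exact hy1
  have hl2 : Real.log y ≤ Real.log (N + 1) := Real.log_le_log hy0 hy3.le
  have hl3 : Real.log (N + 1) ≤ Real.log y + 1 := by
    have e1 : Real.log ((N : ℝ) + 1) ≤ Real.log (2 * y) :=
      Real.log_le_log (by positivity) (by linarith)
    rw [Real.log_mul two_ne_zero hy0.ne'] at e1
    have e2 := Real.log_two_lt_d9
    linarith
  have hsq := sum_inv_sq_le (Real.exp L) (by linarith) ((Ioc ⌊Real.exp L⌋₊ N).filter Nat.Prime)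
    (fun n hn => by
      have e1 := (Finset.mem_Ioc.1 (Finset.mem_filter.1 hn).1).1
      exact ((Nat.floor_lt (Real.exp_pos L).le).1 e1).le)
  unfold clk
  generalize (Ioc ⌊Real.exp L⌋₊ N).filter Nat.Prime = S at h1 hsq ⊢
  have hup : ∏ p ∈ S, (1 + 1 / (p : ℝ)) ≤ Real.exp (∑ p ∈ S, (1 : ℝ) / p) := by
    rw [Real.exp_sum]
    refine Finset.prod_le_prod (fun p _ => by positivity) fun p _ => ?_
    have := Real.add_one_le_exp ((1 : ℝ) / p)
    linarith
  have hlo : Real.exp (∑ p ∈ S, (1 : ℝ) / p - ∑ p ∈ S, (1 : ℝ) / (p : ℝ) ^ 2) ≤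
      ∏ p ∈ S, (1 + 1 / (p : ℝ)) := by
    rw [← Finset.sum_sub_distrib, Real.exp_sum]
    refine Finset.prod_le_prod (fun p _ => (Real.exp_pos _).le) fun p _ => ?_
    have := dec17_exp (u := (1 : ℝ) / p) (by positivity)
    rwa [div_pow, one_pow] at this
  generalize ∏ p ∈ S, (1 + 1 / (p : ℝ)) = P at hup hlo ⊢
  obtain ⟨h2, h3⟩ := abs_le.1 h1
  have hly : 0 < Real.log y := by linarith
  have hE : L * Real.exp (Real.log (Real.log y) - Real.log L) = Real.log y := by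
    rw [Real.exp_sub, Real.exp_log hly, Real.exp_log hL0]; field_simp
  have hCL : C / L ≤ 1 / 2000 + 1 / 2000 - 2 / L := by
    rw [le_sub_iff_add_le, ← add_div, div_le_iff₀ hL0]; linarith
  have h2L : 0 < 2 / L := by positivity
  have h2x : 2 / Real.exp L ≤ 2 / L := div_le_div_of_nonneg_left zero_le_two hL0 (by linarith)
  constructor
  · have e1 : Real.exp (Real.log (Real.log y) - Real.log L + -(1 / 1000)) ≤ P :=
      (Real.exp_le_exp.2 (by linarith)).trans hlo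
    rw [Real.exp_add] at e1
    have e2 := Real.add_one_le_exp (-(1 / 1000) : ℝ)
    have e3 := mul_le_mul_of_nonneg_left e1 hL0.le
    rw [← mul_assoc, hE] at e3
    have e4 : Real.log y * (999 / 1000) ≤ Real.log y * Real.exp (-(1 / 1000)) :=
      mul_le_mul_of_nonneg_left (by linarith) hly.le
    linarith
  · have e1 : P ≤ Real.exp (Real.log (Real.log y) - Real.log L + 1 / 1000) :=
      hup.trans (Real.exp_le_exp.2 (by linarith))
    rw [Real.exp_add] at e1
    have e2 := Real.abs_exp_sub_one_le (x := (1 / 1000 : ℝ)) (by rw [abs_of_pos] <;> norm_num)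
    rw [abs_of_pos (show (0 : ℝ) < 1 / 1000 by norm_num)] at e2
    have e5 := le_abs_self (Real.exp (1 / 1000) - 1)
    have e3 := mul_le_mul_of_nonneg_left e1 hL0.le
    rw [← mul_assoc, hE] at e3
    have e4 : Real.log y * Real.exp (1 / 1000) ≤ Real.log y * (1002 / 1000) :=
      mul_le_mul_of_nonneg_left (by linarith) hly.le
    linarith

/-- One step.  If `p = N + 1` is not prime nothing changes.  Otherwise
`clk L (N+1) = clk L N (1 + 1/p)`; if `p > ⌊T⌋₊` use `KC_anti`, `KF_anti`; else the sets are `ν`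
and `insert p ν` (`Finset.sum_powerset_insert`, `valid_insert_min`), `bud (insert p ν) = a - log p`,
`(a - t)^(-γ) = a^(-γ) (s / (s - u))^γ` with `s = a / τ`, `u = log p / τ`; `dec_C` if `ν.card` is
even and `3 log p ≤ a`, `KC_anti` if it is even and the child is not valid, `dec_F` if it is odd
(`valid_min_odd` gives `a ≥ 2 log p`). -/
theorem dec_step {L M T : ℝ} {N : ℕ} (hL : 0 < L) (hM : 1 < M) (hN : ⌊Real.exp L⌋₊ ≤ N)
    (h200 : 200 ≤ N) (h1 : 199 / 200 * Real.log (N + 1) ≤ clk L N)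
    (h2 : clk L N ≤ 201 / 200 * Real.log (N + 1)) : Gt L M T N ≤ Gt L M T (N + 1) := by
  by_cases hp : (N + 1).Prime
  swap
  · rw [Gt, Gt, decH2_clk' hp, decH2_low' (Or.inl hp)]
  have hlog : 0 < Real.log ((N : ℝ) + 1) :=
    Real.log_pos (by have : (200 : ℝ) ≤ N := by exact_mod_cast h200
                     linarith)
  have hτ : 0 < clk L N := lt_of_lt_of_le (by positivity) h1
  have hpc : ((N + 1 : ℕ) : ℝ) = (N : ℝ) + 1 := by push_cast; rfl
  have hp200 : (200 : ℝ) ≤ ((N + 1 : ℕ) : ℝ) := by exact_mod_cast h200.trans (Nat.le_succ N)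
  have hp0 : (0 : ℝ) < ((N + 1 : ℕ) : ℝ) := by linarith
  rw [← hpc] at h1 h2 hlog
  have hu1 : 99 / 100 ≤ Real.log ((N + 1 : ℕ) : ℝ) / clk L N := by
    rw [le_div_iff₀ hτ]; linarith
  have hu2 : Real.log ((N + 1 : ℕ) : ℝ) / clk L N ≤ 101 / 100 := by
    rw [div_le_iff₀ hτ]; linarith
  have hdiv : ∀ a : ℝ, a / clk L (N + 1) = a / clk L N / (1 + 1 / ((N + 1 : ℕ) : ℝ)) := by
    intro a; rw [decH2_clk hN hp, div_div]
  have hKK : ∀ k, Antitone (KK k) := by
    intro k x y hxy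
    unfold KK
    split_ifs
    exacts [KC_anti hxy, KF_anti hxy]
  have hmono : ∀ ν ∈ ((Ioc (N + 1) ⌊T⌋₊).filter Nat.Prime).powerset, ind (valid 0 M ν) *
      (bud M ν ^ (-(51 / 50) : ℝ) * KK ν.card (bud M ν / clk L N) / pr ν) ≤ ind (valid 0 M ν) *
      (bud M ν ^ (-(51 / 50) : ℝ) * KK ν.card (bud M ν / clk L (N + 1)) / pr ν) := by
    intro ν hν
    by_cases hv : valid 0 M ν
    swap
    · simp [ind_neg hv]
    have hb := bud_nonneg hv hM.le fun q hq => (mem_filter.1 (mem_powerset.1 hν hq)).2.one_le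
    have hle : bud M ν / clk L (N + 1) ≤ bud M ν / clk L N := by
      rw [hdiv]
      exact div_le_self (by positivity) (le_add_of_nonneg_right (by positivity))
    have := hKK ν.card hle
    have h0 : 0 ≤ bud M ν ^ (-(51 / 50) : ℝ) := Real.rpow_nonneg hb _
    rw [ind_pos hv]
    gcongr
  rcases lt_or_ge ⌊T⌋₊ (N + 1) with hT | hT
  · rw [Gt, Gt, decH2_low' (Or.inr hT)]
    exact sum_le_sum hmono
  rw [Gt, Gt, decH2_low hT hp, sum_powerset_insert (by simp), ← sum_add_distrib]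
  refine sum_le_sum fun ν hν => ?_
  have hmem : ∀ q ∈ ν, N + 1 < q ∧ q.Prime := fun q hq => by
    have := mem_filter.1 (mem_powerset.1 hν hq)
    exact ⟨(mem_Ioc.1 this.1).1, this.2⟩
  have hnot : N + 1 ∉ ν := fun h => lt_irrefl _ (hmem _ h).1
  have hins := valid_insert_min (π := 0) (M := M) fun q hq => (hmem q hq).1
  by_cases hc : valid 0 M (insert (N + 1) ν)
  swap
  · rw [ind_neg hc, zero_mul, add_zero]
    exact hmono ν hν
  obtain ⟨hv, hc3⟩ := hins.1 hc
  have hpr : 0 < pr ν := pr_pos fun q hq => (hmem q hq).2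
  have hpr' : (pr (insert (N + 1) ν) : ℝ) = ((N + 1 : ℕ) : ℝ) * pr ν := by
    rw [pr, prod_insert hnot, pr]; push_cast; rfl
  rw [ind_pos hc, ind_pos hv, one_mul, one_mul, one_mul, decH2_bud hpr hp.pos hnot, hpr',
    card_insert_of_notMem hnot, hdiv, sub_div]
  by_cases he : Even ν.card
  · have h3 := decH2_budge 3 hpr hp.pos (hc3 (by simpa using he))
    have he' : ¬ Even (ν.card + 1) := by rw [Nat.even_add_one]; exact not_not.2 he
    simp only [KK, if_pos he, if_neg he']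
    refine decH2_alg (τ := clk L N) hlog (by push_cast at h3 hlog ⊢; linarith) hτ hp0
      (by exact_mod_cast hpr) (dec_C hp200 hu1 hu2 ?_)
    rw [← mul_div_assoc]
    exact div_le_div_of_nonneg_right (by exact_mod_cast h3) hτ.le
  · have ho : Odd ν.card := Nat.not_even_iff_odd.1 he
    have hne : ν.Nonempty := card_pos.1 ho.pos
    have h4 := valid_min_odd hv (ν.min'_mem hne) (fun q hq => ν.min'_le q hq) (by simpa using ho)
    have h5 : ((N + 1 : ℕ) : ℝ) ≤ (ν.min' hne : ℕ) := by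
      exact_mod_cast (hmem _ (ν.min'_mem hne)).1.le
    have h3 := decH2_budge (M := M) 2 hpr hp.pos (le_trans (by gcongr) h4)
    have he' : Even (ν.card + 1) := by rw [Nat.even_add_one]; exact he
    simp only [KK, if_pos he', if_neg he]
    refine decH2_alg (τ := clk L N) hlog (by push_cast at h3 hlog ⊢; linarith) hτ hp0
      (by exact_mod_cast hpr) (dec_F hp200 hu1 hu2 ?_)
    rw [← mul_div_assoc]
    exact div_le_div_of_nonneg_right (by exact_mod_cast h3) hτ.le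

/-- Chain `dec_step` from `N₁ = ⌊e^L₁⌋₊` to `N₂ = ⌊e^L₂⌋₊` with the clock started at `L₁`.  At `N₁`
the clock equals `L₁`, `s = a / L₁ ≥ 1` (`bud_ge`) and `s^(-51/50) e^(-1.1 s) ≥ c e^(-2s)`.  At `N₂`
`a ≥ L₂` and the clock is at most `1.01 L₂`. -/
theorem decay : ∃ C L₀ : ℝ, 0 < C ∧ 1 ≤ L₀ ∧ ∀ M T L₁ L₂ : ℝ, 0 < M → L₀ ≤ L₁ → L₁ ≤ L₂ →
    L₂ ≤ Real.log M → Gs 2 M T L₁ ≤ C * (L₁ / L₂) ^ (51 / 50 : ℝ) * Gs 1 M T L₂ := by
  obtain ⟨L₀, h6, hclk⟩ := clock
  refine ⟨9375, L₀, by norm_num, by linarith, fun M T L₁ L₂ hM0 h1 h12 h2 => ?_⟩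
  have hL1 : 0 < L₁ := by linarith
  have hL2 : 0 < L₂ := by linarith
  have hM : 1 < M := by
    by_contra hc
    have := Real.log_nonpos hM0.le (not_lt.1 hc)
    linarith
  have hmem : ∀ {L : ℝ} {ν : Finset ℕ}, ν ∈ (primesIoc (Real.exp L) T).powerset →
      ∀ q ∈ ν, Real.exp L < q := fun {L ν} hν q hq =>
    Nat.lt_of_floor_lt (mem_Ioc.1 (mem_filter.1 (mem_powerset.1 hν hq)).1).1
  have h200 : 200 ≤ ⌊Real.exp L₁⌋₊ := by
    refine Nat.le_floor ?_
    have e1 : Real.exp 6 ≤ Real.exp L₁ := Real.exp_le_exp.2 (by linarith)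
    have e2 : Real.exp 6 = Real.exp 1 ^ 6 := by rw [← Real.exp_nat_mul]; norm_num
    have e3 : (5 / 2 : ℝ) ^ 6 ≤ Real.exp 1 ^ 6 :=
      pow_le_pow_left₀ (by norm_num) (by linarith [Real.exp_one_gt_d9]) 6
    push_cast
    linarith [show (200 : ℝ) ≤ (5 / 2 : ℝ) ^ 6 by norm_num]
  have h12' : ⌊Real.exp L₁⌋₊ ≤ ⌊Real.exp L₂⌋₊ := Nat.floor_le_floor (Real.exp_le_exp.2 h12)
  have chain : ∀ N, ⌊Real.exp L₁⌋₊ ≤ N → Gt L₁ M T ⌊Real.exp L₁⌋₊ ≤ Gt L₁ M T N := by
    intro N hN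
    induction N, hN using Nat.le_induction with
    | base => exact le_rfl
    | succ N hN ih =>
      obtain ⟨c1, c2⟩ := hclk L₁ N h1 hN
      exact ih.trans (dec_step hL1 hM hN (h200.trans hN) c1 c2)
  have lo : Gs 2 M T L₁ ≤ 75 / 8 * L₁ ^ (51 / 50 : ℝ) * Gt L₁ M T ⌊Real.exp L₁⌋₊ := by
    rw [Gs, Gt, mul_sum]
    refine sum_le_sum fun ν hν => ?_
    by_cases hv : valid 0 M ν
    swap
    · simp [ind_neg hv]
    have ha := (bud_ge hv hL1.le (h12.trans h2) (hmem hν)).1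
    have hc : clk L₁ ⌊Real.exp L₁⌋₊ = L₁ := by simp [clk]
    rw [ind_pos hv, one_mul, one_mul, hc, ← mul_div_assoc]
    refine div_le_div_of_nonneg_right ?_ (Nat.cast_nonneg _)
    set s := bud M ν / L₁ with hs
    have hs1 : 1 ≤ s := (one_le_div hL1).2 ha
    have hb : bud M ν = L₁ * s := by rw [hs]; field_simp
    have k1 := (KK_bounds ν.card (show 0 ≤ s by linarith)).1
    have k2 : L₁ ^ (51 / 50 : ℝ) * bud M ν ^ (-(51 / 50) : ℝ) = s ^ (-(51 / 50) : ℝ) := by
      rw [hb, Real.mul_rpow hL1.le (by linarith), ← mul_assoc, ← Real.rpow_add hL1]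
      norm_num
    have k3 : s ^ (-2 : ℝ) ≤ s ^ (-(51 / 50) : ℝ) :=
      Real.rpow_le_rpow_of_exponent_le hs1 (by norm_num)
    have k4 : Real.exp (-(9 / 10 * s)) ≤ 3 * s ^ (-2 : ℝ) := by
      have q := Real.quadratic_le_exp_of_nonneg (show 0 ≤ 9 / 10 * s by linarith)
      rw [Real.rpow_neg (by linarith), Real.rpow_two, Real.exp_neg, ← div_eq_mul_inv,
        inv_eq_one_div, div_le_div_iff₀ (Real.exp_pos _) (by positivity)]
      nlinarith
    have k5 : Real.exp (-(2 * bud M ν / L₁)) =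
        Real.exp (-(9 / 10 * s)) * Real.exp (-(11 / 10 * s)) := by
      rw [← Real.exp_add, mul_div_assoc, ← hs]
      congr 1
      ring
    have k6 : 0 ≤ s ^ (-(51 / 50) : ℝ) := Real.rpow_nonneg (by linarith) _
    calc Real.exp (-(2 * bud M ν / L₁))
        ≤ 3 * s ^ (-(51 / 50) : ℝ) * Real.exp (-(11 / 10 * s)) := by
          rw [k5]
          exact mul_le_mul_of_nonneg_right (by linarith) (Real.exp_pos _).le
      _ = 75 / 8 * (s ^ (-(51 / 50) : ℝ) * (8 / 25 * Real.exp (-(11 / 10 * s)))) := by ring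
      _ ≤ 75 / 8 * (s ^ (-(51 / 50) : ℝ) * KK ν.card s) := by gcongr
      _ = _ := by rw [← k2]; ring
  have hi : Gt L₁ M T ⌊Real.exp L₂⌋₊ ≤ 1000 * L₂ ^ (-(51 / 50) : ℝ) * Gs 1 M T L₂ := by
    obtain ⟨c1, c2⟩ := hclk L₁ _ h1 h12'
    have hτ0 : 0 < clk L₁ ⌊Real.exp L₂⌋₊ := by
      refine lt_of_lt_of_le (mul_pos (by norm_num) (Real.log_pos ?_)) c1
      have : (200 : ℝ) ≤ ⌊Real.exp L₂⌋₊ := by exact_mod_cast h200.trans h12'
      linarith
    have hτ1 : clk L₁ ⌊Real.exp L₂⌋₊ ≤ 11 / 10 * L₂ := by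
      have e1 : Real.log (⌊Real.exp L₂⌋₊ + 1) ≤ L₂ + 1 / 2 := by
        rw [Real.log_le_iff_le_exp (by positivity), Real.exp_add]
        have a1 := Nat.floor_le (Real.exp_pos L₂).le
        have a2 := Real.add_one_le_exp (1 / 2 : ℝ)
        have a3 := Real.add_one_le_exp L₂
        nlinarith
      linarith
    rw [Gs, Gt, mul_sum]
    refine sum_le_sum fun ν hν => ?_
    by_cases hv : valid 0 M ν
    swap
    · simp [ind_neg hv]
    have ha := (bud_ge hv hL2.le h2 (hmem hν)).1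
    rw [ind_pos hv, one_mul, one_mul, ← mul_div_assoc]
    refine div_le_div_of_nonneg_right ?_ (Nat.cast_nonneg _)
    have ha0 : 0 ≤ bud M ν := by linarith
    have k1 := (KK_bounds ν.card (div_nonneg ha0 hτ0.le)).2
    have k2 : bud M ν ^ (-(51 / 50) : ℝ) ≤ L₂ ^ (-(51 / 50) : ℝ) :=
      Real.rpow_le_rpow_of_nonpos hL2 ha (by norm_num)
    have k3 : Real.exp (-(11 / 10 * (bud M ν / clk L₁ ⌊Real.exp L₂⌋₊))) ≤
        Real.exp (-(1 * bud M ν / L₂)) := by
      rw [Real.exp_le_exp, neg_le_neg_iff, ← mul_div_assoc, div_le_div_iff₀ hL2 hτ0]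
      nlinarith
    have k4 : 0 ≤ KK ν.card (bud M ν / clk L₁ ⌊Real.exp L₂⌋₊) :=
      le_trans (by positivity) (KK_bounds ν.card (div_nonneg ha0 hτ0.le)).1
    calc bud M ν ^ (-(51 / 50) : ℝ) * KK ν.card (bud M ν / clk L₁ ⌊Real.exp L₂⌋₊)
        ≤ L₂ ^ (-(51 / 50) : ℝ) * (1000 * Real.exp (-(1 * bud M ν / L₂))) :=
          mul_le_mul k2 (by linarith) k4 (Real.rpow_nonneg hL2.le _)
      _ = _ := by ring
  have e : (L₁ / L₂) ^ (51 / 50 : ℝ) = L₁ ^ (51 / 50 : ℝ) * L₂ ^ (-(51 / 50) : ℝ) := by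
    rw [Real.div_rpow hL1.le hL2.le, Real.rpow_neg hL2.le, div_eq_mul_inv]
  calc Gs 2 M T L₁ ≤ 75 / 8 * L₁ ^ (51 / 50 : ℝ) *
        (1000 * L₂ ^ (-(51 / 50) : ℝ) * Gs 1 M T L₂) :=
        lo.trans (mul_le_mul_of_nonneg_left ((chain _ h12').trans hi) (by positivity))
    _ = _ := by rw [e]; ring

end Crest.Agent.R001
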