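import Crest.Agent.R001.Gb
import Crest.Agent.R001.Dec
import Crest.Agent.R001.BootAuxH2

set_option autoImplicit false

namespace Crest.Agent.R001

open Finset Filter Crest.Agent.R008 Crest.Agent.R026

/-! # The bootstrap -/

/-- Let `a = log M`, `Γ = Err + N0 / M`, `T = √M`.  Choose `R` with `C e^(-R/2) ≤ 1/8` in `Gs_iter`.
For `a ≤ 40 L` use `Gs_triv` (`1 ≤ 1600 L² / a²`).  Otherwise `Gs_iter`, `tight_le`, `low_bd`,
`delta` with `l = 4 L`, `BS_zero_le` (`√M / M ≤ 1 / a²`, `2/a - 2/(a+l) ≤ 2 l / a²`) give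
`Gs L ≤ C' L (L / a² + Γ) + Gs (2L) / 8`.  Induct on `k` with `a ≤ 40 · 2^k L`. -/
theorem g1 (h : HP) {θ w : ℝ} (hw : 1 ≤ w) (hs : SeqH θ w) : ∃ C L₁ M₀ : ℝ, 0 < C ∧
    ∀ M L : ℝ, M₀ ≤ M → L₁ ≤ L → Gs 1 M √M L ≤
      C * L * (L / Real.log M ^ 2 + (Err θ 0 w M √M + N0 w M √M / M)) :=
  bootH2_g1 h hw hs

/-- Summing the two bounds over the dyadic scales: for `L_j ≤ L'` one has
`(L_j / L')^γ / L_j³ ≤ L'^(-γ) / L_j` and `∑ 1 / L_j ≤ 2 / b ≤ 1`; for `L_j > L'`,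
`1 / L_j² ≤ 1 / (L' L_j)`. -/
theorem asum_le {G : ℝ → ℝ} {b L' C₁ C₂ u Γ : ℝ} (J : ℕ) (hb : 2 ≤ b) (hL : 1 ≤ L') (h1 : 0 ≤ C₁)
    (h2 : 0 ≤ C₂) (hu : 0 ≤ u) (hΓ : 0 ≤ Γ)
    (hlo : ∀ L, b ≤ L → L ≤ L' → G L ≤ C₁ * (L / L') ^ (51 / 50 : ℝ) * (L' * (L' * u + Γ)))
    (hhi : ∀ L, L' ≤ L → G L ≤ C₂ * L * (L * u + Γ)) :
    ∑ j ∈ range J, G (2 ^ j * b) / (2 ^ j * b) ^ 3 ≤
      (C₁ * L' + C₂) * u + (C₁ * L' ^ (-(1 / 50) : ℝ) + C₂ / L') * Γ := by
  have hL0 : 0 < L' := by linarith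
  obtain ⟨r, hr⟩ : ∃ r : ℝ, r = L' ^ (-(1 / 50) : ℝ) := ⟨_, rfl⟩
  have hr0 : 0 < r := by rw [hr]; positivity
  have hr1 : r ≤ 1 := by
    rw [hr]
    exact Real.rpow_le_one_of_one_le_of_nonpos hL (by norm_num)
  rw [← hr]
  obtain ⟨R, hR⟩ : ∃ R : ℝ, R = (C₁ * L' + C₂) * u + (C₁ * r + C₂ / L') * Γ := ⟨_, rfl⟩
  have hR0 : 0 ≤ R := by rw [hR]; positivity
  rw [← hR]
  have key : ∀ L, b ≤ L → G L ≤ L ^ 2 * R := by
    intro L hbL
    have hL1 : 1 ≤ L := by linarith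
    have p1 : 0 ≤ C₁ * L' * u := by positivity
    have p2 : 0 ≤ C₂ * u := by positivity
    have p3 : 0 ≤ C₁ * r * Γ := by positivity
    have p4 : 0 ≤ C₂ / L' * Γ := by positivity
    rcases le_total L L' with h | h
    · refine (hlo L hbL h).trans ?_
      have a1 : (L / L') ^ (51 / 50 : ℝ) ≤ L ^ 2 * (r / L') := by
        rw [Real.div_rpow (by linarith) hL0.le, div_eq_mul_inv, ← Real.rpow_neg hL0.le, hr,
          ← Real.rpow_sub_one hL0.ne']
        refine mul_le_mul ?_ (le_of_eq (by norm_num)) (by positivity) (by positivity)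
        rw [← Real.rpow_two]
        exact Real.rpow_le_rpow_of_exponent_le hL1 (by norm_num)
      calc C₁ * (L / L') ^ (51 / 50 : ℝ) * (L' * (L' * u + Γ))
          ≤ C₁ * (L ^ 2 * (r / L')) * (L' * (L' * u + Γ)) := by gcongr
        _ = L ^ 2 * (r * (C₁ * L' * u) + C₁ * r * Γ) := by field_simp
        _ ≤ L ^ 2 * R := by
          refine mul_le_mul_of_nonneg_left ?_ (by positivity)
          have := mul_le_of_le_one_left p1 hr1
          rw [hR]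
          linarith
    · refine (hhi L h).trans ?_
      have a1 : C₂ / L * Γ ≤ C₂ / L' * Γ := by gcongr
      calc C₂ * L * (L * u + Γ) = L ^ 2 * (C₂ * u + C₂ / L * Γ) := by field_simp
        _ ≤ L ^ 2 * R := by
          refine mul_le_mul_of_nonneg_left ?_ (by positivity)
          rw [hR]
          linarith
  calc ∑ j ∈ range J, G (2 ^ j * b) / (2 ^ j * b) ^ 3 ≤ ∑ j ∈ range J, R / 2 * (1 / 2) ^ j := by
        refine sum_le_sum fun j _ => ?_
        have a1 : (1 : ℝ) ≤ 2 ^ j := one_le_pow₀ one_le_two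
        have a2 : (0 : ℝ) < 2 ^ j * b := by positivity
        rw [div_le_iff₀ (by positivity)]
        refine (key _ (le_mul_of_one_le_left (by linarith) a1)).trans ?_
        have a3 : R / 2 * (1 / 2) ^ j * (2 ^ j * b) ^ 3 = (2 ^ j * b) ^ 2 * (R * (b / 2)) := by
          rw [one_div, inv_pow]
          field_simp
        rw [a3]
        exact mul_le_mul_of_nonneg_left (le_mul_of_one_le_right hR0 (by linarith)) (by positivity)
    _ ≤ R := by
        rw [← mul_sum]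
        have := mul_le_mul_of_nonneg_left (sum_geometric_two_le J) (show 0 ≤ R / 2 by positivity)
        linarith

set_option maxHeartbeats 800000 in
/-- `w₁` with `log w₁ ≥ max L₀ (4/θ) 2`.  By `E1`, `E2` (`J = ⌈log M⌉₊`)
`Γ ≤ e^(-θ a) + C₃ Asum`; by `decay`, `g1`, `Gs_two_le`, `asum_le` with `L'` large,
`C₃ Asum ≤ C / a² + Γ / 2`.  Hence `Γ ≤ C' / a²` for `T = √M`, then `Gs 2 ≤ K L² / a²` for all
`L ≥ log w` and all `T` (`Gs_le_sqrt`), and `E1`, `E2` once more for general `T`. -/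
theorem boot (h : HP) {θ : ℝ} (hθ : 0 < θ) : ∃ w₁ : ℝ, ∀ w : ℝ, w₁ ≤ w → SeqH θ w → GB θ w := by
  obtain ⟨Cd, L₀, hCd, hL₀, hdec⟩ := decay
  obtain ⟨C1, hC1, hE1⟩ := E1 hθ
  obtain ⟨C2, hC2, hE2⟩ := E2
  obtain ⟨β, hβ⟩ : ∃ β : ℝ, β = max (max L₀ (4 / θ)) 2 := ⟨_, rfl⟩
  refine ⟨Real.exp β, fun w hw hs => ?_⟩
  have hw0 : 0 < w := (Real.exp_pos _).trans_le hw
  have hb : β ≤ Real.log w := (Real.le_log_iff_exp_le hw0).2 hw
  rw [hβ] at hb
  simp only [max_le_iff] at hb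
  obtain ⟨⟨b1, b2⟩, b3⟩ := hb
  have hw1 : 1 < w := (Real.log_pos_iff hw0.le).1 (by linarith)
  obtain ⟨Cg, L₁, M₀, hCg, hg⟩ := g1 h hw1.le hs
  -- the scale `L'`
  have hev : ∀ᶠ L' : ℝ in atTop,
      (C1 + C2) * (Cd * Cg * L' ^ (-(1 / 50) : ℝ) + Cg / L') ≤ 1 / 2 := by
    have t1 := (tendsto_rpow_neg_atTop (show (0 : ℝ) < 1 / 50 by norm_num)).const_mul (Cd * Cg)
    have t2 : Tendsto (fun L' : ℝ => Cg / L') atTop (nhds 0) :=
      tendsto_const_nhds.div_atTop tendsto_id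
    have t3 := (t1.add t2).const_mul (C1 + C2)
    rw [mul_zero, add_zero, mul_zero] at t3
    exact t3.eventually_le_const (by norm_num)
  obtain ⟨L', hL', l1, l2⟩ := (hev.and ((eventually_ge_atTop L₁).and
    (eventually_ge_atTop (Real.log w)))).exists
  have l3 : 1 ≤ L' := by linarith
  obtain ⟨K₁, hK₁⟩ : ∃ K₁ : ℝ, K₁ = 2 * (2 / θ ^ 2 + (C1 + C2) * (Cd * Cg * L' + Cg)) := ⟨_, rfl⟩
  have hK₁0 : 0 < K₁ := by rw [hK₁]; positivity
  obtain ⟨K₂, hK₂⟩ : ∃ K₂ : ℝ, K₂ = Cd * Cg * (L' * (L' + K₁)) + Cg * (1 + K₁) := ⟨_, rfl⟩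
  have hK₂0 : 0 < K₂ := by rw [hK₂]; positivity
  refine ⟨K₂ + (2 / θ ^ 2 + C1 * K₂) + C2 * K₂, max M₀ (Real.exp L'), by positivity,
    fun M T hM => ?_⟩
  obtain ⟨m1, m2⟩ := max_le_iff.1 hM
  have hM0 : 0 < M := (Real.exp_pos _).trans_le m2
  have ha : L' ≤ Real.log M := (Real.le_log_iff_exp_le hM0).2 m2
  have hM1 : 1 ≤ M := ((Real.log_pos_iff hM0.le).1 (by linarith)).le
  have ha0 : 0 < Real.log M := by linarith
  obtain ⟨u, hu⟩ : ∃ u : ℝ, u = 1 / Real.log M ^ 2 := ⟨_, rfl⟩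
  have hu0 : 0 < u := by rw [hu]; positivity
  have hdiv : ∀ x : ℝ, x / Real.log M ^ 2 = x * u := fun x => by rw [hu]; ring
  have hJ : Real.log M ≤ 2 ^ ⌈Real.log M⌉₊ * Real.log w := by
    have a1 := Nat.le_ceil (Real.log M)
    have a2 : ((⌈Real.log M⌉₊ : ℕ) : ℝ) ≤ 2 ^ ⌈Real.log M⌉₊ := by
      exact_mod_cast Nat.lt_two_pow_self.le
    have a3 : (0 : ℝ) < 2 ^ ⌈Real.log M⌉₊ := by positivity
    nlinarith
  have hexp : Real.exp (-(θ * Real.log M)) ≤ 2 / θ ^ 2 * u := by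
    have a1 := Real.pow_div_factorial_le_exp (θ * Real.log M) (by positivity) 2
    rw [Real.exp_neg, hu, inv_le_comm₀ (Real.exp_pos _) (by positivity)]
    refine le_trans (le_of_eq ?_) a1
    norm_num [Nat.factorial]
    field_simp
  obtain ⟨Γ, hΓ⟩ : ∃ Γ : ℝ, Γ = Err θ 0 w M √M + N0 w M √M / M := ⟨_, rfl⟩
  have hΓ0 : 0 ≤ Γ := by
    rw [hΓ]
    exact add_nonneg (Err_nonneg _ _ _ _ _) (div_nonneg (N0_nonneg _ _ _) hM0.le)
  have hg' : ∀ L, L' ≤ L → Gs 1 M √M L ≤ Cg * L * (L * u + Γ) := fun L hL => by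
    have := hg M L m1 (l1.trans hL)
    rwa [hdiv, ← hΓ] at this
  have hlo : ∀ L, Real.log w ≤ L → L ≤ L' →
      Gs 2 M √M L ≤ Cd * Cg * (L / L') ^ (51 / 50 : ℝ) * (L' * (L' * u + Γ)) := fun L h1 h2 => by
    refine (hdec M √M L L' hM0 (b1.trans h1) h2 ha).trans ?_
    have a1 : 0 ≤ Cd * (L / L') ^ (51 / 50 : ℝ) := by
      have : 0 ≤ L / L' := div_nonneg (by linarith) (by linarith)
      positivity
    exact (mul_le_mul_of_nonneg_left (hg' L' le_rfl) a1).trans_eq (by ring)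
  have hhi : ∀ L, L' ≤ L → Gs 2 M √M L ≤ Cg * L * (L * u + Γ) := fun L hL =>
    (Gs_two_le _ hM1 (by linarith)).trans (hg' L hL)
  have hA := asum_le (G := fun L => Gs 2 M √M L) ⌈Real.log M⌉₊ b3 l3 (by positivity) hCg.le hu0.le
    hΓ0 hlo hhi
  change Asum M √M (Real.log w) _ ≤ _ at hA
  have hΓ1 : Γ ≤ K₁ * u := by
    have a1 := hE1 w M √M _ hw1 b2 hM1 hJ
    have a2 := hE2 w M √M _ hw1 b3 hM1 hJ
    have a3 : N0 w M √M / M ≤ C2 * Asum M √M (Real.log w) ⌈Real.log M⌉₊ := by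
      rw [div_le_iff₀ hM0]
      linarith
    have a4 := mul_le_mul_of_nonneg_left hA (add_pos hC1 hC2).le
    have a5 := mul_le_mul_of_nonneg_right hL' hΓ0
    rw [hK₁]
    linarith
  have hG : ∀ (T L : ℝ), Real.log w ≤ L → Gs 2 M T L ≤ K₂ * u * L ^ 2 := fun T L hL => by
    refine (Gs_le_sqrt 2 T L hM1).trans ?_
    have hL1 : 1 ≤ L := by linarith
    have hL2 : 1 ≤ L ^ 2 := one_le_pow₀ hL1
    have p1 : 0 ≤ Cd * Cg * (L' * (L' + K₁)) * u := by positivity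
    have p2 : 0 ≤ Cg * (1 + K₁) * u := by positivity
    rcases le_total L L' with h1 | h1
    · refine (hlo L hL h1).trans ?_
      have a1 : (L / L') ^ (51 / 50 : ℝ) ≤ 1 :=
        Real.rpow_le_one (div_nonneg (by linarith) (by linarith))
          ((div_le_one (by linarith)).2 h1) (by norm_num)
      have a2 : L' * (L' * u + Γ) ≤ L' * (L' + K₁) * u := by
        rw [mul_assoc]
        exact mul_le_mul_of_nonneg_left (by linarith) (by linarith)
      calc Cd * Cg * (L / L') ^ (51 / 50 : ℝ) * (L' * (L' * u + Γ))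
          ≤ Cd * Cg * 1 * (L' * (L' + K₁) * u) := by gcongr
        _ = Cd * Cg * (L' * (L' + K₁)) * u * 1 := by ring
        _ ≤ Cd * Cg * (L' * (L' + K₁)) * u * L ^ 2 := mul_le_mul_of_nonneg_left hL2 p1
        _ ≤ K₂ * u * L ^ 2 := by
          refine mul_le_mul_of_nonneg_right ?_ (by positivity)
          rw [hK₂]
          linarith
    · refine (hhi L h1).trans ?_
      have a1 : K₁ * u ≤ L * (K₁ * u) := le_mul_of_one_le_left (by positivity) hL1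
      calc Cg * L * (L * u + Γ) ≤ Cg * L * (L * u + L * (K₁ * u)) := by gcongr; linarith
        _ = Cg * (1 + K₁) * u * L ^ 2 := by ring
        _ ≤ K₂ * u * L ^ 2 := by
          refine mul_le_mul_of_nonneg_right ?_ (by positivity)
          rw [hK₂]
          linarith
  have hA' : Asum M T (Real.log w) ⌈Real.log M⌉₊ ≤ K₂ * u := by
    have := asum_le (G := fun L => K₂ * u * L ^ 2) (b := Real.log w) (L' := 1) (C₁ := 0) (C₂ := K₂)
      (u := u) (Γ := 0) ⌈Real.log M⌉₊ b3 le_rfl le_rfl hK₂0.le hu0.le le_rfl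
      (fun L h1 h2 => by linarith) (fun L _ => le_of_eq (by ring))
    simp only [zero_mul, zero_add, mul_zero, add_zero] at this
    refine le_trans (sum_le_sum fun j _ => ?_) this
    have a1 : (1 : ℝ) ≤ 2 ^ j := one_le_pow₀ one_le_two
    exact div_le_div_of_nonneg_right (hG T _ (le_mul_of_one_le_left (by linarith) a1))
      (by positivity)
  have p0 : 0 ≤ 2 / θ ^ 2 * u := by positivity
  have p1 : 0 ≤ C1 * K₂ * u := by positivity
  have p2 : 0 ≤ C2 * K₂ * u := by positivity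
  have p3 : 0 ≤ K₂ * u := by positivity
  rw [hdiv]
  refine ⟨fun L hL => (hG T L hL).trans (mul_le_mul_of_nonneg_right (by linarith) (by positivity)),
    ?_, ?_⟩
  · have a1 := hE1 w M T _ hw1 b2 hM1 hJ
    have a2 := mul_le_mul_of_nonneg_left hA' hC1.le
    linarith
  · refine (hE2 w M T _ hw1 b3 hM1 hJ).trans ?_
    rw [mul_right_comm]
    refine mul_le_mul_of_nonneg_right ?_ hM0.le
    have a2 := mul_le_mul_of_nonneg_left hA' hC2.le
    linarith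

theorem good_exists (hP : HP) (hL : HL) : ∃ θ w : ℝ, Good θ w := by
  obtain ⟨θ, h0, -, hs⟩ := seqH hL
  obtain ⟨w₁, hw⟩ := boot hP h0
  have h10 : (10 : ℝ) ≤ max w₁ 10 := le_max_right _ _
  exact ⟨θ, max w₁ 10, h0, h10, hs _ (by linarith), hw _ (le_max_left _ _) (hs _ (by linarith))⟩

end Crest.Agent.R001
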