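import Crest.Agent.R001.Tree2
import Crest.Agent.R001.Prim

set_option autoImplicit false

namespace Crest.Agent.R001

open Finset Filter Crest.Agent.R008 Crest.Agent.R026

theorem cc6_tot {q : ℕ} (hq : 1 ≤ q) : Real.exp (mu q.primeFactors) ≤ (q : ℝ) / q.totient := by
  have h0 : (0 : ℝ) < q.totient := by exact_mod_cast Nat.totient_pos.2 hq
  have h1 : (q.totient : ℝ) = q * ∏ p ∈ q.primeFactors, (1 - (p : ℝ)⁻¹) := by
    have := congrArg (Rat.cast : ℚ → ℝ) (Nat.totient_eq_mul_prod_factors q)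
    push_cast at this
    exact this
  have h2 : ∏ p ∈ q.primeFactors, (1 - (p : ℝ)⁻¹) ≤ Real.exp (-mu q.primeFactors) := by
    unfold mu
    rw [← sum_neg_distrib, Real.exp_sum]
    refine prod_le_prod (fun p hp => ?_) fun p _ => ?_
    · have : (1 : ℝ) ≤ p := by exact_mod_cast (Nat.prime_of_mem_primeFactors hp).one_le
      exact sub_nonneg.2 (inv_le_one_of_one_le₀ this)
    · have := Real.add_one_le_exp (-(1 / (p : ℝ)))
      rw [one_div] at this ⊢
      linarith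
  rw [le_div_iff₀ h0, h1]
  have h3 : Real.exp (mu q.primeFactors) * Real.exp (-mu q.primeFactors) = 1 := by
    rw [← Real.exp_add]; simp
  have hq0 : (0 : ℝ) ≤ q := by positivity
  calc Real.exp (mu q.primeFactors) * (q * ∏ p ∈ q.primeFactors, (1 - (p : ℝ)⁻¹))
      ≤ Real.exp (mu q.primeFactors) * (q * Real.exp (-mu q.primeFactors)) := by gcongr
    _ = q * (Real.exp (mu q.primeFactors) * Real.exp (-mu q.primeFactors)) := by ring
    _ = q := by rw [h3, mul_one]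

theorem cc6_one {l g : ℝ} (hl : 3 ≤ l) (hg : g ≤ 1 / (l - 1)) :
    Real.exp (-(1 / l)) ≤ Real.exp (5 * (l ^ 2)⁻¹) * (1 - g) := by
  have h0 : 0 < l := by linarith
  have h1 : Real.exp (-(1 / l)) ≤ l / (l + 1) := by
    rw [Real.exp_neg, inv_le_comm₀ (Real.exp_pos _) (by positivity), inv_div]
    have := Real.add_one_le_exp (1 / l)
    refine le_trans (le_of_eq ?_) this
    field_simp
    ring
  have h2 := Real.add_one_le_exp (5 * (l ^ 2)⁻¹)
  have h3 : (l - 2) / (l - 1) ≤ 1 - g := by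
    have : (l - 2) / (l - 1) = 1 - 1 / (l - 1) := by
      have : l - 1 ≠ 0 := by linarith
      field_simp
      ring
    linarith
  have h4 : 0 ≤ (l - 2) / (l - 1) := div_nonneg (by linarith) (by linarith)
  refine h1.trans (le_trans ?_ (mul_le_mul h2 h3 h4 (Real.exp_pos _).le))
  have h5 : (5 * (l ^ 2)⁻¹ + 1) * ((l - 2) / (l - 1)) = ((5 + l ^ 2) * (l - 2)) / (l ^ 2 * (l - 1)) := by
    have : l - 1 ≠ 0 := by linarith
    field_simp
  rw [h5, div_le_div_iff₀ (by linarith) (mul_pos (by positivity) (by linarith))]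
  nlinarith [mul_nonneg (sub_nonneg.2 hl) h0.le]

theorem cc6_B (B : Finset ℕ) (g : ℕ → ℝ) (hB : ∀ l ∈ B, 3 ≤ l ∧ g l ≤ 1 / ((l : ℝ) - 1)) :
    Real.exp (-mu B) ≤ Real.exp 5 * ∏ l ∈ B, (1 - g l) := by
  have h1 : ∑ l ∈ B, 5 * ((l : ℝ) ^ 2)⁻¹ ≤ 5 := by
    rw [← mul_sum]
    have h2 : B ⊆ Ioc 1 (B.sup id + 1) := fun l hl => mem_Ioc.2
      ⟨by linarith [(hB l hl).1], (le_sup (f := id) hl).trans (Nat.le_succ _)⟩
    have h3 := sum_Ioc_inv_sq_le_sub (α := ℝ) (k := 1) (n := B.sup id + 1) one_ne_zero (by omega)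
    have h4 : ∑ l ∈ B, ((l : ℝ) ^ 2)⁻¹ ≤ ∑ l ∈ Ioc 1 (B.sup id + 1), ((l : ℝ) ^ 2)⁻¹ :=
      sum_le_sum_of_subset_of_nonneg h2 fun _ _ _ => by positivity
    have h5 : (0 : ℝ) ≤ (((B.sup id + 1 : ℕ) : ℝ))⁻¹ := by positivity
    simp only [Nat.cast_one, inv_one] at h3
    linarith
  have h6 : 0 ≤ ∏ l ∈ B, (1 - g l) := prod_nonneg fun l hl => by
    have a : (3 : ℝ) ≤ l := by exact_mod_cast (hB l hl).1
    have b : 1 / ((l : ℝ) - 1) ≤ 1 := by
      rw [div_le_one (by linarith)]; linarith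
    linarith [(hB l hl).2]
  refine le_trans ?_ (mul_le_mul_of_nonneg_right (Real.exp_le_exp.2 h1) h6)
  unfold mu
  rw [← sum_neg_distrib, Real.exp_sum, Real.exp_sum, ← prod_mul_distrib]
  exact prod_le_prod (fun _ _ => (Real.exp_pos _).le) fun l hl =>
    cc6_one (by exact_mod_cast (hB l hl).1) (hB l hl).2

theorem cc6_mert : ∃ C : ℝ, 0 < C ∧ ∀ y : ℝ, 2 ≤ y →
    Real.exp (-mu (primesIoc 6 y)) ≤ C / Real.log y := by
  obtain ⟨C, hC, h⟩ := win
  refine ⟨2 * Real.exp (C / 2), by positivity, fun y hy => ?_⟩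
  have hL : 0 < Real.log y := Real.log_pos (by linarith)
  have he : 1 ≤ Real.exp (C / 2) := Real.one_le_exp (by positivity)
  by_cases h2 : 2 ≤ Real.log y
  · have h3 := h 2 (Real.log y) (by norm_num) h2
    rw [Real.exp_log (by linarith)] at h3
    have h4 : mu (primesIoc (Real.exp 2) y) ≤ mu (primesIoc 6 y) := by
      refine mu_mono (primesIoc_mono ?_ le_rfl)
      have a := Real.exp_one_gt_d9
      have b : Real.exp 2 = Real.exp 1 * Real.exp 1 := by rw [← Real.exp_add]; norm_num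
      nlinarith
    have h5 : -mu (primesIoc 6 y) ≤ C / 2 - Real.log (Real.log y / 2) := by
      linarith [(abs_le.1 h3).1]
    refine (Real.exp_le_exp.2 h5).trans (le_of_eq ?_)
    rw [Real.exp_sub, Real.exp_log (by positivity)]
    field_simp
  · have h3 : Real.exp (-mu (primesIoc 6 y)) ≤ 1 :=
      Real.exp_le_one_iff.2 (by linarith [mu_nonneg (primesIoc 6 y)])
    refine h3.trans ?_
    rw [one_le_div hL]
    linarith

theorem cc6_exp : ∃ C : ℝ, 0 < C ∧ ∀ (y : ℝ) (q : ℕ) (B : Finset ℕ) (g : ℕ → ℝ), 2 ≤ y → 1 ≤ q →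
    (∀ l ∈ B, 3 ≤ l ∧ g l ≤ 1 / ((l : ℝ) - 1)) →
    Real.exp (-(mu ((primesIoc 6 y).filter (fun p => ¬ p ∣ q)) + mu B)) ≤
      C / Real.log y * ((q : ℝ) / q.totient * ∏ l ∈ B, (1 - g l)) := by
  obtain ⟨C, hC, h⟩ := cc6_mert
  refine ⟨C * Real.exp 5, by positivity, fun y q B g hy hq hB => ?_⟩
  have hL : 0 < Real.log y := Real.log_pos (by linarith)
  have h1 : mu (primesIoc 6 y) ≤
      mu ((primesIoc 6 y).filter (fun p => ¬ p ∣ q)) + mu q.primeFactors := by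
    have a : mu ((primesIoc 6 y).filter (fun p => p ∣ q)) ≤ mu q.primeFactors := by
      refine mu_mono fun p hp => ?_
      obtain ⟨b1, b2⟩ := mem_filter.1 hp
      exact Nat.mem_primeFactors.2 ⟨(mem_filter.1 b1).2, b2, by omega⟩
    have b := sum_filter_add_sum_filter_not (primesIoc 6 y) (fun p => p ∣ q)
      (fun p : ℕ => (1 : ℝ) / p)
    unfold mu at a ⊢
    linarith
  have h2 : Real.exp (-(mu ((primesIoc 6 y).filter (fun p => ¬ p ∣ q)) + mu B)) ≤
      Real.exp (-mu (primesIoc 6 y)) * (Real.exp (mu q.primeFactors) * Real.exp (-mu B)) := by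
    rw [← Real.exp_add, ← Real.exp_add]
    exact Real.exp_le_exp.2 (by linarith)
  refine h2.trans ?_
  have h3 := mul_le_mul (h y hy) (mul_le_mul (cc6_tot hq) (cc6_B B g hB) (Real.exp_pos _).le
    (by positivity)) (by positivity) (by positivity)
  refine h3.trans (le_of_eq ?_)
  ring

theorem cc6_low {B : Finset ℕ} (hB : ∀ l ∈ B, l.Prime) {E M R : ℝ} (hE : 0 ≤ E) (hM : 0 ≤ M)
    (hR : 0 ≤ R) {w : Finset ℕ → ℝ} (hw : LW B E w) {g : ℕ → ℝ}
    (hg : (∏ p ∈ B, (1 - g p)) / 2 ≤ ∑ S ∈ B.powerset, w S * ∏ p ∈ S, g p)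
    {ι : Type} (K : Finset ι) (P : ι → Prop) (D : ℕ → ι → Prop) (a : ι → ℝ)
    (ha : ∀ k ∈ K, 0 ≤ a k)
    (h : ∀ S ⊆ B, (pr S : ℝ) ≤ E →
      |∑ k ∈ K, ind (P k ∧ ∀ l ∈ S, D l k) * a k - M * ∏ l ∈ S, g l| ≤ R) :
    M * (∏ l ∈ B, (1 - g l)) / 2 - E * R ≤ ∑ k ∈ K, ind (P k ∧ ∀ l ∈ B, ¬ D l k) * a k := by
  classical
  have h1 : ∑ k ∈ K, ∑ S ∈ B.powerset, w S * (ind (P k ∧ ∀ l ∈ S, D l k) * a k) ≤
      ∑ k ∈ K, ind (P k ∧ ∀ l ∈ B, ¬ D l k) * a k := by
    refine sum_le_sum fun k hk => ?_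
    have a1 := hw.low (B.filter fun l => D l k) (filter_subset _ _)
    have a2 := mul_le_mul_of_nonneg_right a1 (mul_nonneg (ind_nonneg (P k)) (ha k hk))
    rw [sum_mul] at a2
    refine le_trans (le_of_eq (sum_congr rfl fun S hS => ?_)) (a2.trans (le_of_eq ?_))
    · have : (∀ l ∈ S, D l k) ↔ S ⊆ B.filter fun l => D l k :=
        ⟨fun h l hl => mem_filter.2 ⟨mem_powerset.1 hS hl, h l hl⟩,
          fun h l hl => (mem_filter.1 (h hl)).2⟩
      rw [ind_and, ind_congr this]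
      ring
    · rw [ind_and, ind_congr (filter_eq_empty_iff (s := B) (p := fun l => D l k))]
      ring
  refine le_trans ?_ h1
  rw [sum_comm]
  have h2 : ∑ S ∈ B.powerset, (M * (w S * ∏ p ∈ S, g p) - ind (w S ≠ 0) * R) ≤
      ∑ S ∈ B.powerset, ∑ k ∈ K, w S * (ind (P k ∧ ∀ l ∈ S, D l k) * a k) := by
    refine sum_le_sum fun S hS => ?_
    rw [← mul_sum]
    by_cases h0 : w S = 0
    · simp [h0, ind_neg]
    · rw [ind_pos h0]
      have a1 := h S (mem_powerset.1 hS) (hw.supp S (mem_powerset.1 hS) h0)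
      have a2 : |w S * (∑ k ∈ K, ind (P k ∧ ∀ l ∈ S, D l k) * a k - M * ∏ l ∈ S, g l)| ≤ 1 * R := by
        rw [abs_mul]
        exact mul_le_mul (hw.bdd S) a1 (abs_nonneg _) zero_le_one
      have a3 := (abs_le.1 a2).1
      linarith
  refine le_trans ?_ h2
  rw [sum_sub_distrib, ← mul_sum, ← sum_mul]
  have h3 := card_pr_le B hB hE (fun S => w S ≠ 0) hw.supp
  have h4 := mul_le_mul_of_nonneg_left hg hM
  have h5 := mul_le_mul_of_nonneg_right h3 hR
  linarith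

end Crest.Agent.R001
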