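import Crest.Agent.R001.Prim

set_option autoImplicit false

namespace Crest.Agent.R001

open Finset Filter Crest.Agent.R008 Crest.Agent.R026

/-! # Auxiliary results for `c_up` -/

/-- A linear congruence modulo a prime describes one residue class. -/
theorem ccAux74_class {p : ℕ} (hp : p.Prime) {a : ℤ} (ha : ¬ (p : ℤ) ∣ a) (b : ℤ) :
    ∃ r : ℕ, r < p ∧ ∀ n : ℕ, (p : ℤ) ∣ a * n + b ↔ n % p = r := by
  haveI : Fact p.Prime := ⟨hp⟩
  have ha' : (a : ZMod p) ≠ 0 := fun h => ha ((ZMod.intCast_zmod_eq_zero_iff_dvd a p).1 h)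
  refine ⟨(-(b : ZMod p) / (a : ZMod p)).val, ZMod.val_lt _, fun n => ?_⟩
  rw [← ZMod.intCast_zmod_eq_zero_iff_dvd, ← ZMod.val_natCast]
  push_cast
  constructor
  · intro h
    congr 1
    rw [eq_div_iff ha']
    linear_combination h
  · intro h
    have h1 := ZMod.val_injective p h
    rw [eq_div_iff ha'] at h1
    linear_combination h1

/-- The sieve bound before the evaluation of the exponential. -/
theorem ccAux74_up : ∃ C : ℝ, 0 < C ∧ ∀ (y : ℝ) (q Y l : ℕ) (c b' : ℤ) (B : Finset ℕ), 2 ≤ y →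
    l.Prime → y < l → y < c →
    (∀ p ∈ B, p.Prime ∧ 7 ≤ p ∧ (p : ℝ) ≤ y ∧ ¬ (p : ℤ) ∣ c + q * b') →
    ∑ k ∈ range Y, ind (PrA c q k ∧ (l : ℤ) ∣ (k : ℤ) - b' ∧ ∀ p ∈ B, ¬ (p : ℤ) ∣ (k : ℤ) - b') ≤
      C * ((Y : ℝ) / l + 1) *
        Real.exp (-(mu ((primesIoc 6 y).filter (fun p => ¬ p ∣ q)) + mu B)) + y ^ 12 := by
  classical
  obtain ⟨C, hC, h⟩ := R020.svAuxA_upper
  refine ⟨C, by linarith, fun y q Y l c b' B hy hl hyl hyc hB => ?_⟩
  have hl0 : 0 < l := hl.pos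
  have hl0' : (0 : ℤ) < l := by exact_mod_cast hl0
  set k₀ : ℕ := (b' % l).toNat with hk₀
  have hk₀' : (k₀ : ℤ) = b' % l := Int.toNat_of_nonneg (Int.emod_nonneg _ hl0'.ne')
  set K := (range Y).filter (fun k : ℕ => PrA c q k ∧ (l : ℤ) ∣ (k : ℤ) - b' ∧
    ∀ p ∈ B, ¬ (p : ℤ) ∣ (k : ℤ) - b') with hK
  have hdec : ∀ k ∈ K, (k : ℤ) = k₀ + l * ((k / l : ℕ) : ℤ) := by
    intro k hk
    have h1 := (mem_filter.1 hk).2.2.1
    have h2 : (k : ℤ) % l = b' % l := (Int.emod_emod_of_dvd _ (dvd_refl _)).symm.trans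
      (by rw [Int.emod_emod_of_dvd _ (dvd_refl _)]; exact (Int.emod_eq_emod_iff_emod_sub_eq_zero).2
            (Int.emod_eq_zero_of_dvd h1))
    rw [hk₀', ← h2]
    push_cast
    exact (Int.emod_add_mul_ediv _ _).symm
  have hinj : Set.InjOn (fun k : ℕ => k / l) K := by
    intro k hk k' hk' hkk
    have h1 := hdec k hk
    have h2 := hdec k' hk'
    simp only at hkk
    rw [hkk, ← h2] at h1
    exact_mod_cast h1
  have hmem : ∀ p ∈ primesIoc 6 y, p.Prime ∧ 7 ≤ p ∧ (p : ℝ) ≤ y := by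
    intro p hp
    obtain ⟨h1, h2, h3⟩ := (mem_primesIoc (by norm_num) (by linarith)).1 hp
    have : 6 < p := by exact_mod_cast h2
    exact ⟨h1, this, h3⟩
  have hBP : B ⊆ primesIoc 6 y := by
    intro p hp
    obtain ⟨h1, h2, h3, -⟩ := hB p hp
    refine (mem_primesIoc (by norm_num) (by linarith)).2 ⟨h1, ?_, h3⟩
    have : (7 : ℝ) ≤ p := by exact_mod_cast h2
    linarith
  have hpl : ∀ p ∈ primesIoc 6 y, ¬ (p : ℤ) ∣ (l : ℤ) := by
    intro p hp hd
    obtain ⟨h1, -, h3⟩ := hmem p hp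
    have h4 : p ∣ l := by exact_mod_cast hd
    have h5 := (Nat.prime_dvd_prime_iff_eq h1 hl).1 h4
    rw [h5] at h3
    linarith
  have key := h (fun p j => (¬ p ∣ q ∧ (p : ℤ) ∣ c + q * (k₀ + l * (j : ℤ))) ∨
      (p ∈ B ∧ (p : ℤ) ∣ (k₀ + l * (j : ℤ)) - b'))
    (fun p => (if ¬ p ∣ q then 1 else 0) + (if p ∈ B then 1 else 0)) y (primesIoc 6 y)
    (K.image (fun k : ℕ => k / l)) (Y / l + 1) (by linarith) ?_ ?_
  · rw [card_image_of_injOn hinj] at key
    rw [sum_ind]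
    refine key.trans ?_
    have e1 : ∑ p ∈ primesIoc 6 y,
        (((if ¬ p ∣ q then 1 else 0) + (if p ∈ B then 1 else 0) : ℕ) : ℝ) / p =
        mu ((primesIoc 6 y).filter (fun p => ¬ p ∣ q)) + mu B := by
      have hBf : B = (primesIoc 6 y).filter (fun p => p ∈ B) := by
        ext p
        simp only [mem_filter]
        exact ⟨fun hp => ⟨hBP hp, hp⟩, fun hp => hp.2⟩
      unfold mu
      conv_rhs => rw [hBf]
      rw [sum_filter, sum_filter, ← sum_add_distrib]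
      refine sum_congr rfl fun p _ => ?_
      push_cast
      split_ifs <;> ring
    rw [e1]
    have e2 : ((Y / l + 1 : ℕ) : ℝ) ≤ (Y : ℝ) / l + 1 := by
      push_cast
      linarith [(Nat.cast_div_le : ((Y / l : ℕ) : ℝ) ≤ (Y : ℝ) / l)]
    have : (0 : ℝ) ≤ C := by linarith
    gcongr
  · intro p hp
    obtain ⟨h1, h2, h3⟩ := hmem p hp
    refine ⟨h1, h2, h3, by split_ifs <;> norm_num, ?_⟩
    obtain ⟨r₂, hr₂, H₂⟩ := ccAux74_class h1 (hpl p hp) (k₀ - b')
    have H₂' : ∀ n : ℕ, (p : ℤ) ∣ (k₀ + l * (n : ℤ)) - b' ↔ n % p = r₂ := fun n => by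
      rw [← H₂ n]
      exact iff_of_eq (by congr 1; ring)
    by_cases hq : p ∣ q
    · by_cases hb : p ∈ B
      · exact ⟨{r₂}, by simp [hq, hb], by simpa using hr₂, fun n => by simp [hq, hb, H₂']⟩
      · exact ⟨∅, by simp [hq, hb], by simp, fun n => by simp [hq, hb]⟩
    · have hql : ¬ (p : ℤ) ∣ (q : ℤ) * l := by
        intro hd
        rcases (Nat.prime_iff_prime_int.1 h1).dvd_or_dvd hd with h4 | h4
        · exact hq (by exact_mod_cast h4)
        · exact hpl p hp h4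
      obtain ⟨r₁, hr₁, H₁⟩ := ccAux74_class h1 hql (c + q * k₀)
      have H₁' : ∀ n : ℕ, (p : ℤ) ∣ c + q * (k₀ + l * (n : ℤ)) ↔ n % p = r₁ := fun n => by
        rw [← H₁ n]
        exact iff_of_eq (by congr 1; ring)
      by_cases hb : p ∈ B
      · have hne : r₁ ≠ r₂ := by
          intro he
          have a1 := (H₁' r₁).2 (Nat.mod_eq_of_lt hr₁)
          have a2 := (H₂' r₁).2 ((Nat.mod_eq_of_lt hr₁).trans he)
          refine (hB p hb).2.2.2 ?_
          have := dvd_sub a1 (a2.mul_left (q : ℤ))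
          rwa [show c + q * ((k₀ : ℤ) + l * (r₁ : ℤ)) - q * ((k₀ : ℤ) + l * (r₁ : ℤ) - b') =
            c + q * b' by ring] at this
        refine ⟨{r₁, r₂}, by simp [hq, hb, card_pair hne], ?_, fun n => by simp [hq, hb, H₁', H₂']⟩
        intro a ha
        rcases mem_insert.1 ha with rfl | ha
        · exact hr₁
        · rw [mem_singleton.1 ha]; exact hr₂
      · exact ⟨{r₁}, by simp [hq, hb], by simpa using hr₁, fun n => by simp [hq, hb, H₁']⟩
  · intro n hn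
    obtain ⟨k, hk, rfl⟩ := mem_image.1 hn
    obtain ⟨hkY, hpr, -, hkB⟩ := mem_filter.1 hk
    refine ⟨Nat.lt_succ_of_le (Nat.div_le_div_right (mem_range.1 hkY).le), fun p hp hbad => ?_⟩
    rw [← hdec k hk] at hbad
    rcases hbad with ⟨-, hd⟩ | ⟨hb, hd⟩
    · obtain ⟨h1, -, h3⟩ := hmem p hp
      have hc0 : (0 : ℤ) < c := by
        have : (0 : ℝ) < c := by linarith
        exact_mod_cast this
      have hpos : (0 : ℤ) ≤ c + q * k := by positivity
      have h4 : p ∣ (c + q * k).toNat := by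
        rw [← Int.natCast_dvd_natCast, Int.toNat_of_nonneg hpos]
        exact hd
      have h5 := (Nat.prime_dvd_prime_iff_eq h1 hpr).1 h4
      have h6 : (p : ℤ) = c + q * k := by rw [h5, Int.toNat_of_nonneg hpos]
      have h7 : (p : ℝ) = c + q * k := by exact_mod_cast h6
      have h8 : (0 : ℝ) ≤ (q : ℝ) * k := by positivity
      linarith
    · exact hkB p hb hd

end Crest.Agent.R001
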