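import Crest.Agent.R001.Tree2
import Crest.Agent.R001.Prim
import Crest.Agent.R001.CcAux6
import Crest.Agent.R001.CcAux74

set_option autoImplicit false

namespace Crest.Agent.R001

open Finset Filter Crest.Agent.R008 Crest.Agent.R026

/-! # Part (C): a single fraction -/

theorem gq_bounds (q : ℕ) {l : ℕ} (hl : 3 ≤ l) : 0 ≤ gq q l ∧ gq q l ≤ 1 / 2 ∧
    gq q l ≤ 3 / (l : ℝ) ∧ gq q l ≤ 1 / ((l : ℝ) - 1) := by
  have h : (3 : ℝ) ≤ l := by exact_mod_cast hl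
  have h1 : (0 : ℝ) < l - 1 := by linarith
  unfold gq
  split_ifs <;> refine ⟨by positivity, ?_, ?_, ?_⟩ <;>
    rw [div_le_div_iff₀ (by positivity) (by positivity)] <;> linarith

/-- `φ(q d) ∏_{l ∣ d} gq q l = φ(q)`: induction on `S`, `Nat.totient_mul_of_prime_of_dvd`,
`Nat.totient_mul_of_prime_of_not_dvd`. -/
theorem totient_gq {q : ℕ} (hq : 1 ≤ q) {S : Finset ℕ} (hS : ∀ l ∈ S, l.Prime) :
    ((q * pr S).totient : ℝ) * ∏ l ∈ S, gq q l = q.totient := by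
  induction S using Finset.induction_on with
  | empty => simp [pr]
  | insert l S hl ih =>
    have hp := hS l (mem_insert_self _ _)
    have h1 : (1 : ℝ) < l := by exact_mod_cast hp.one_lt
    rw [← ih fun p h => hS p (mem_insert_of_mem h), pr, prod_insert hl, prod_insert hl,
      mul_left_comm q, ← mul_assoc, gq, ← pr]
    congr 1
    split_ifs with h
    · rw [Nat.totient_mul_of_prime_of_dvd hp (h.mul_right _)]
      push_cast
      field_simp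
    · rw [Nat.totient_mul_of_prime_of_not_dvd hp fun h' => ?_]
      · have : (l : ℝ) - 1 ≠ 0 := by linarith
        push_cast [Nat.cast_sub hp.one_le]
        field_simp
      · obtain ⟨p, hpS, h2⟩ := (hp.prime.dvd_finsetProd_iff _).1 ((hp.dvd_mul.1 h').resolve_left h)
        exact hl (((Nat.prime_dvd_prime_iff_eq hp (hS p (mem_insert_of_mem hpS))).1 h2) ▸ hpS)

/-- `k ↦ c + q k` is a bijection onto the primes of `(c - 1, c - 1 + q Y]` which are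
`≡ c + q b'` modulo `q · pr S`; apply `HPc` at both endpoints. -/
theorem ap_count {c₀ C : ℝ} (h : HPc c₀ C) (hc₀ : c₀ ≤ 1) (hC : 0 ≤ C) {q Y : ℕ} {c b' : ℤ}
    {S : Finset ℕ} (hq : 1 ≤ q) (hcq : IsCoprime c (q : ℤ))
    (hS : ∀ l ∈ S, l.Prime ∧ ¬ (l : ℤ) ∣ c + q * b') (hm : ((q * pr S : ℕ) : ℤ) ≤ c - 1) :
    |∑ k ∈ range Y, ind (PrA c q k ∧ ∀ l ∈ S, (l : ℤ) ∣ (k : ℤ) - b') * Real.log (c + q * k) -
      (q : ℝ) * Y / q.totient * ∏ l ∈ S, gq q l| ≤ 2 * C * ((c : ℝ) + q * Y) ^ (1 - c₀) := by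
  classical
  have hm1 : 1 ≤ q * pr S := Nat.mul_pos hq (pr_pos fun l hl => (hS l hl).1)
  have hco : IsCoprime (c + q * b') ((q * pr S : ℕ) : ℤ) := by
    rw [pr]
    push_cast
    exact (hcq.add_mul_left_left _).mul_right (IsCoprime.prod_right fun l hl =>
      ((Nat.prime_iff_prime_int.1 (hS l hl).1).coprime_iff_not_dvd.2 (hS l hl).2).symm)
  have hd : ∀ k : ℕ, ((q * pr S : ℕ) : ℤ) ∣ c + q * k - (c + q * b') ↔
      ∀ l ∈ S, (l : ℤ) ∣ (k : ℤ) - b' := fun k => by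
    rw [show c + q * k - (c + q * b') = q * (k - b') by ring, Nat.cast_mul,
      mul_dvd_mul_iff_left (by omega), Int.natCast_dvd]
    simp only [Int.natCast_dvd]
    exact ⟨fun h l hl => (dvd_prod_of_mem _ hl).trans h, fun h => Finset.prod_primes_dvd _
      (fun l hl => (hS l hl).1.prime) h⟩
  lift c to ℕ using by omega
  have hmR : ((q * pr S : ℕ) : ℝ) ≤ (c : ℝ) - 1 := by exact_mod_cast hm
  have h0 : (0 : ℝ) ≤ (c : ℝ) - 1 := le_trans (by positivity) hmR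
  have hY : (0 : ℝ) ≤ q * Y := by positivity
  have h1 := h (c - 1) _ _ hm1 hmR hco
  have h2 := h (c - 1 + q * Y) _ _ hm1 (by linarith) hco
  have hsub : primesIoc 0 ((c : ℝ) - 1) ⊆ primesIoc 0 (c - 1 + q * Y) := fun p hp => by
    rw [mem_primesIoc le_rfl (by linarith)] at hp ⊢
    exact ⟨hp.1, hp.2.1, by linarith [hp.2.2]⟩
  have hmem : ∀ p : ℕ, p ∈ primesIoc 0 ((c : ℝ) - 1 + q * Y) \ primesIoc 0 ((c : ℝ) - 1) ↔
      p.Prime ∧ c ≤ p ∧ p < c + q * Y := fun p => by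
    rw [Finset.mem_sdiff, mem_primesIoc le_rfl (by linarith), mem_primesIoc le_rfl h0, le_sub_iff_add_le,
      show (c : ℝ) - 1 + q * Y = c + q * Y - 1 by ring, le_sub_iff_add_le]
    norm_cast
    exact ⟨fun h => ⟨h.1.1, not_lt.1 fun h' => h.2 ⟨h.1.1, h.1.2.1, h'⟩, h.1.2.2⟩,
      fun h => ⟨⟨h.1, h.1.pos, h.2.2⟩, fun h' => by omega⟩⟩
  have hP : ∀ k, PrA c q k ↔ (c + q * k).Prime := fun k => by
    rw [PrA, ← Nat.cast_mul, ← Nat.cast_add, Int.toNat_natCast]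
  rw [← sum_sdiff hsub, sum_ind_mul, ← sum_nbij (s := (range Y).filter fun k =>
    PrA c q k ∧ ∀ l ∈ S, (l : ℤ) ∣ (k : ℤ) - b') (f := fun k => Real.log ((c : ℤ) + q * k))
      (fun k => c + q * k) (fun k hk => ?_) (fun k _ k' _ e => ?_) (fun p hp => ?_)
      (fun k _ => by simp), ← sum_ind_mul] at h2
  · have e : (q : ℝ) * Y / q.totient * ∏ l ∈ S, gq q l = q * Y / (q * pr S).totient := by
      have b1 : (0 : ℝ) < q.totient := by exact_mod_cast Nat.totient_pos.2 hq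
      have b2 : (0 : ℝ) < (q * pr S).totient := by exact_mod_cast Nat.totient_pos.2 hm1
      rw [div_mul_eq_mul_div, div_eq_div_iff b1.ne' b2.ne', ← totient_gq hq fun l hl => (hS l hl).1]
      ring
    have b1 := mul_le_mul_of_nonneg_left (Real.rpow_le_rpow h0
      (show (c : ℝ) - 1 ≤ c + q * Y by linarith) (sub_nonneg.2 hc₀)) hC
    have b2 := mul_le_mul_of_nonneg_left (Real.rpow_le_rpow (by linarith)
      (show (c : ℝ) - 1 + q * Y ≤ c + q * Y by linarith) (sub_nonneg.2 hc₀)) hC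
    rw [add_div, abs_le] at h2
    rw [abs_le] at h1
    rw [e, abs_le, Int.cast_natCast]
    rw [Int.cast_natCast] at h2
    constructor <;> linarith [h1.1, h1.2, h2.1, h2.2]
  · obtain ⟨b1, b2, b3⟩ := mem_filter.1 hk
    exact mem_filter.2 ⟨(hmem _).2 ⟨(hP k).1 b2, by omega, Nat.add_lt_add_left
      (Nat.mul_lt_mul_of_pos_left (mem_range.1 b1) hq) _⟩, by exact_mod_cast (hd k).2 b3⟩
  · exact Nat.eq_of_mul_eq_mul_left hq (Nat.add_left_cancel e)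
  · obtain ⟨b1, b2⟩ := mem_filter.1 (mem_coe.1 hp)
    obtain ⟨b3, b4, b5⟩ := (hmem p).1 b1
    obtain ⟨d, rfl⟩ := Nat.exists_eq_add_of_le b4
    obtain ⟨k, rfl⟩ : q ∣ d := by
      have := ((Nat.cast_dvd_cast (Nat.dvd_mul_right q (pr S))).trans b2).add
        (dvd_mul_right (q : ℤ) b')
      push_cast at this
      ring_nf at this
      exact_mod_cast this
    exact ⟨k, mem_coe.2 (mem_filter.2 ⟨mem_range.2 (lt_of_mul_lt_mul_left
      (Nat.lt_of_add_lt_add_left b5) (Nat.zero_le _)), (hP k).2 b3,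
      (hd k).1 (by exact_mod_cast b2)⟩), rfl⟩

/-- `fl_low`, `ap_count`, `card_pr_le`. -/
theorem c_low : ∃ s : ℕ, 1 ≤ s ∧ ∀ (c₀ C y : ℝ) (q Y : ℕ) (c b' : ℤ) (B : Finset ℕ), HPc c₀ C →
    c₀ ≤ 1 → 0 ≤ C → 1 ≤ y → 1 ≤ q → IsCoprime c (q : ℤ) →
    (∀ l ∈ B, l.Prime ∧ 3 ≤ l ∧ (l : ℝ) ≤ y ∧ ¬ (l : ℤ) ∣ c + q * b') →
    (q : ℝ) * y ^ s ≤ c - 1 →
    (q : ℝ) * Y / q.totient * (∏ l ∈ B, (1 - gq q l)) / 2 -
      y ^ s * (2 * C * ((c : ℝ) + q * Y) ^ (1 - c₀)) ≤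
      ∑ k ∈ range Y, ind (PrA c q k ∧ ∀ l ∈ B, ¬ (l : ℤ) ∣ (k : ℤ) - b') *
        Real.log (c + q * k) := by
  obtain ⟨s, hs, hfl⟩ := fl_low
  refine ⟨s, hs, fun c₀ C y q Y c b' B hP hc₀ hC hy hq hcq hB hm => ?_⟩
  obtain ⟨w, hw, hg⟩ := hfl y B (gq q) hy fun p hp =>
    have h := gq_bounds q (hB p hp).2.1
    ⟨(hB p hp).1, (hB p hp).2.2.1, h.1, h.2.1, h.2.2.1⟩
  have hq1 : (1 : ℝ) ≤ q := by exact_mod_cast hq
  have hys : 1 ≤ y ^ s := one_le_pow₀ hy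
  have hc : (2 : ℝ) ≤ c := by nlinarith
  have hcY : (0 : ℝ) ≤ (c : ℝ) + q * Y := by positivity
  refine cc6_low (fun l hl => (hB l hl).1) (by positivity) (by positivity) (by positivity) hw hg
    (range Y) (PrA c q) (fun l k => (l : ℤ) ∣ (k : ℤ) - b') (fun k => Real.log (c + q * k))
    (fun k _ => Real.log_nonneg ?_) fun S hS hE =>
      ap_count hP hc₀ hC hq hcq (fun l hl => ⟨(hB l (hS hl)).1, (hB l (hS hl)).2.2.2⟩) ?_
  · have : (0 : ℝ) ≤ q * k := by positivity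
    linarith
  · have : ((q * pr S : ℕ) : ℝ) ≤ c - 1 := by
      push_cast
      exact (mul_le_mul_of_nonneg_left hE (by positivity)).trans hm
    exact_mod_cast this

/-- `exp (∑_{p ∣ q} 1 / p) ≤ C q / φ(q)` (`Nat.totient_eq_mul_prod_factors`, `1 - u ≤ exp (-u)`),
`exp (-mu B) ≤ C ∏_{B} (1 - gq)` as in `V_low`, `exp (-∑_{7 ≤ p ≤ y} 1/p) ≤ C / log y`. -/
theorem c_exp : ∃ C : ℝ, 0 < C ∧ ∀ (y : ℝ) (q : ℕ) (B : Finset ℕ), 2 ≤ y → 1 ≤ q →
    (∀ l ∈ B, l.Prime ∧ 3 ≤ l) →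
    Real.exp (-(mu ((primesIoc 6 y).filter (fun p => ¬ p ∣ q)) + mu B)) ≤
      C / Real.log y * ((q : ℝ) / q.totient * ∏ l ∈ B, (1 - gq q l)) := by
  obtain ⟨C, hC, h⟩ := cc6_exp
  exact ⟨C, hC, fun y q B hy hq hB => h y q B (gq q) hy hq fun l hl =>
    ⟨(hB l hl).2, (gq_bounds q (hB l hl).2).2.2.2⟩⟩

/-- Write `k = k₀ + l j`, `j < Y / l + 1`.  `R020.svAuxA_upper` with `P = primesIoc 6 y` and
`bad p j ↔ (¬ p ∣ q ∧ p ∣ c + q k) ∨ (p ∈ B ∧ p ∣ k - b')`; each condition is one residue class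
modulo `p` (`l > y ≥ p`), the two classes differ because `p ∤ c + q b'`; the prime `c + q k ≥ c > y`
is not divisible by `p`. -/
theorem c_up : ∃ C : ℝ, 0 < C ∧ ∀ (y : ℝ) (q Y l : ℕ) (c b' : ℤ) (B : Finset ℕ), 2 ≤ y → 1 ≤ q →
    l.Prime → y < l → y < c →
    (∀ p ∈ B, p.Prime ∧ 7 ≤ p ∧ (p : ℝ) ≤ y ∧ ¬ (p : ℤ) ∣ c + q * b') →
    ∑ k ∈ range Y, ind (PrA c q k ∧ (l : ℤ) ∣ (k : ℤ) - b' ∧ ∀ p ∈ B, ¬ (p : ℤ) ∣ (k : ℤ) - b') ≤
      C / Real.log y * (((Y : ℝ) / l + 1) * ((q : ℝ) / q.totient * ∏ p ∈ B, (1 - gq q p))) +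
        y ^ 12 := by
  obtain ⟨C₁, hC₁, h₁⟩ := ccAux74_up
  obtain ⟨C₂, hC₂, h₂⟩ := c_exp
  refine ⟨C₁ * C₂, by positivity, fun y q Y l c b' B hy hq hl hyl hyc hB => ?_⟩
  refine (h₁ y q Y l c b' B hy hl hyl hyc hB).trans ?_
  have h3 := h₂ y q B hy hq (fun p hp => ⟨(hB p hp).1, by linarith [(hB p hp).2.1]⟩)
  have h4 : (0 : ℝ) ≤ C₁ * ((Y : ℝ) / l + 1) := by positivity
  have h5 := mul_le_mul_of_nonneg_left h3 h4
  refine add_le_add (h5.trans (le_of_eq ?_)) le_rfl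
  ring

theorem cc93_ev {δ a : ℝ} (hδ : 0 < δ) (ha : 0 < a) :
    ∀ᶠ X : ℕ in atTop, Real.log X ^ 2 * (X : ℝ) ^ (1 - δ) ≤ a * X := by
  filter_upwards [tendsto_natCast_atTop_atTop.eventually
    ((isLittleO_log_rpow_rpow_atTop 2 hδ).bound ha), eventually_gt_atTop 0] with X h hX
  have hx : (0 : ℝ) < X := by exact_mod_cast hX
  rw [Real.rpow_two, Real.norm_of_nonneg (sq_nonneg _), Real.norm_of_nonneg (by positivity)] at h
  refine (mul_le_mul_of_nonneg_right h (by positivity)).trans_eq ?_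
  rw [mul_assoc, ← Real.rpow_add hx, add_sub_cancel, Real.rpow_one]

theorem cc93_ind (Q : Prop) (D : ℕ → Prop) (y : ℝ) (B : Finset ℕ) :
    ind (Q ∧ ∀ l ∈ B.filter fun l : ℕ => ¬ y < (l : ℝ), ¬ D l) ≤ ind (Q ∧ ∀ l ∈ B, ¬ D l) +
      ∑ l ∈ big y B, ind (Q ∧ D l ∧ ∀ p ∈ B.filter fun l : ℕ => ¬ y < (l : ℝ), ¬ D p) := by
  have h0 := sum_nonneg (s := big y B) fun l _ =>
    ind_nonneg (Q ∧ D l ∧ ∀ p ∈ B.filter fun l : ℕ => ¬ y < (l : ℝ), ¬ D p)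
  by_cases h : ∀ l ∈ big y B, ¬ D l
  · refine le_add_of_le_of_nonneg (ind_mono fun h' => ⟨h'.1, fun l hl => ?_⟩) h0
    by_cases hy : y < l
    · exact h l (mem_filter.2 ⟨hl, hy⟩)
    · exact h'.2 l (mem_filter.2 ⟨hl, hy⟩)
  · push Not at h
    obtain ⟨l, hl, hD⟩ := h
    exact le_add_of_nonneg_of_le (ind_nonneg _) ((ind_mono fun h' => ⟨h'.1, hD, h'.2⟩).trans
      (single_le_sum (fun _ _ => ind_nonneg _) hl))

theorem cc93_fin {L C v u u' x Y W N U : ℝ} (hL : 1 ≤ L) (hC : 0 < C) (hv : 0 < v) (hu : 0 ≤ u')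
    (hx : 0 < x) (a1 : L ^ 2 * u ≤ v / 160 * x) (a2 : L ^ 2 * u' ≤ v / (480 * C) * x)
    (hY : x / 5 ≤ Y) (hW : v / L ≤ W) (h1 : Y * W / 2 - 6 * C * u' ≤ (N + U) * (2 * L))
    (h2 : U ≤ Y * W / (16 * L) + u) : v / 40 * x / L ^ 2 ≤ N := by
  have hL0 : 0 < L := by linarith
  rw [div_le_iff₀ hL0] at hW
  have b1 := mul_le_mul hY hW hv.le (by linarith)
  have b2 := mul_le_mul_of_nonneg_left h2 (show 0 ≤ 2 * L ^ 2 by positivity)
  have b3 := mul_le_mul_of_nonneg_left h1 hL0.le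
  have b4 := mul_le_mul_of_nonneg_left a2 (show 0 ≤ 6 * C by positivity)
  have b5 := mul_le_mul_of_nonneg_left hL (show 0 ≤ 6 * C * u' * L by positivity)
  have e1 : 2 * L ^ 2 * (Y * W / (16 * L) + u) = Y * W * L / 8 + 2 * L ^ 2 * u := by
    field_simp
    ring
  have e2 : 6 * C * (v / (480 * C) * x) = v * x / 80 := by
    field_simp
    ring
  rw [div_le_iff₀ (by positivity)]
  linarith

/-- Let `y = X^ε`, `B₁ = B ∩ [1, y]`, `B₂ = B \ B₁`, `W = (q / φ q) ∏_{B₁} (1 - gq) ≥ c / ℒ`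
(`V_low`).  `c_low` gives `Y W / 2 - X^(ε s) 2 C (4 X^(1+2ε))^(1-c₀)`, the exponent
`ε s + (1 + 2ε)(1 - c₀)` is `≤ 1 - c₀ / 2` for `ε ≤ c₀ / (2 (s + 2))`.  Every `l ∈ B₂` removes at
most `2 ℒ (C / (ε ℒ) (2 Y / l) W + X^(12 ε))` (`c_up`, `log (c + q k) ≤ 2 ℒ`, `l ≤ X^(3/5) ≤ Y`),
in total at most `4 C η Y W / ε + 2 ℒ X^(3/5 + 12 ε)`; take `η = ε / (32 C)`, `ε ≤ 1/100`. -/
theorem c_core (h : HP) : ∃ ε₀ : ℝ, 0 < ε₀ ∧ ∀ ε : ℝ, 0 < ε → ε ≤ ε₀ → ∃ η c₁ : ℝ, 0 < η ∧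
    0 < c₁ ∧ ∀ᶠ X : ℕ in atTop, ∀ (q Y : ℕ) (c b' : ℤ) (B : Finset ℕ), 1 ≤ q →
      (q : ℝ) ≤ (X : ℝ) ^ ε → (X : ℝ) / 5 ≤ Y → Y ≤ X → IsCoprime c (q : ℤ) →
      (q : ℝ) * X / 5 ≤ c → (c : ℝ) ≤ 2 * q * (X : ℝ) ^ (1 + ε) →
      (∀ l ∈ B, l.Prime ∧ 7 ≤ l ∧ (l : ℝ) ≤ (X : ℝ) ^ (3 / 5 : ℝ) ∧ ¬ (l : ℤ) ∣ c + q * b') →
      mu (big ((X : ℝ) ^ ε) B) ≤ η →
      c₁ * X / Real.log X ^ 2 ≤
        ∑ k ∈ range Y, ind (PrA c q k ∧ ∀ l ∈ B, ¬ (l : ℤ) ∣ (k : ℤ) - b') := by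
  obtain ⟨c₀, C₀, hc₀, hc₁, hC₀, hP⟩ := h
  obtain ⟨s, -, hlow⟩ := c_low
  obtain ⟨C₁, hC₁, hup⟩ := c_up
  obtain ⟨v, hv, hv1, hV⟩ := V_low
  refine ⟨min (1 / 100) (c₀ / (2 * (s + 2))), by positivity, fun ε hε hε₀ =>
    ⟨ε / (32 * C₁), v / 40, by positivity, by positivity, ?_⟩⟩
  obtain ⟨e1, e2⟩ := le_min_iff.1 hε₀
  rw [le_div_iff₀ (by positivity)] at e2
  filter_upwards [cc93_ev (δ := 1 / 4) (a := v / 160) (by norm_num) (by positivity),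
    cc93_ev (δ := c₀ / 2) (a := v / (480 * C₀)) (by positivity) (by positivity),
    tendsto_natCast_atTop_atTop.eventually_ge_atTop (6 : ℝ),
    ((tendsto_rpow_atTop hε).comp tendsto_natCast_atTop_atTop).eventually_ge_atTop 2]
    with X a1 a2 hx hy q Y c b' B hq hqy hY hYX hcq hc1 hc2 hB hmu
  replace hYX : (Y : ℝ) ≤ X := by exact_mod_cast hYX
  rw [Function.comp_apply] at hy
  generalize (X : ℝ) = x at *
  have hx1 : 1 ≤ x := by linarith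
  have hx0 : 0 < x := by linarith
  have hL : 1 ≤ Real.log x := by
    rw [Real.le_log_iff_exp_le hx0]
    linarith [Real.exp_one_lt_d9]
  have hq1 : (1 : ℝ) ≤ q := by exact_mod_cast hq
  have hu0 : 0 < x ^ (1 - 1 / 4 : ℝ) := by positivity
  have hu : x ^ (1 - 1 / 4 : ℝ) ≤ x / 160 := by
    nlinarith [mul_le_mul_of_nonneg_right (one_le_pow₀ (n := 2) hL) hu0.le]
  have hr : ∀ {t : ℝ}, t ≤ 3 / 4 → x ^ t ≤ x ^ (1 - 1 / 4 : ℝ) := fun ht =>
    Real.rpow_le_rpow_of_exponent_le hx1 (by linarith)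
  have hs0 : 0 ≤ ε * s := by positivity
  have hys : (x ^ ε) ^ s = x ^ (ε * s) := by rw [Real.rpow_mul hx0.le, Real.rpow_natCast]
  have hyx := hr (t := ε) (by linarith)
  have hcx : x / 5 ≤ c := by nlinarith
  have hY0 : (0 : ℝ) ≤ Y := by positivity
  have hcY : (c : ℝ) + q * Y ≤ 3 * x ^ (1 + 2 * ε) := by
    have b1 : x ≤ x ^ (1 + ε) := by
      simpa using Real.rpow_le_rpow_of_exponent_le hx1 (show 1 ≤ 1 + ε by linarith)
    have b2 := mul_le_mul_of_nonneg_right hqy (show 0 ≤ x ^ (1 + ε) by positivity)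
    rw [← Real.rpow_add hx0, show ε + (1 + ε) = 1 + 2 * ε by ring] at b2
    nlinarith
  have hlog : ∀ k ∈ range Y, Real.log (c + q * k) ≤ 2 * Real.log x := fun k hk => by
    have b1 : (k : ℝ) ≤ Y := by exact_mod_cast (mem_range.1 hk).le
    have b2 := hr (t := 2 * ε) (by linarith)
    rw [Real.rpow_add hx0, Real.rpow_one] at hcY
    rw [show 2 * Real.log x = Real.log (x ^ 2) by simp]
    exact Real.log_le_log (by have : (0 : ℝ) ≤ q * k := by positivity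
                              linarith) (by nlinarith)
  set B₁ := B.filter fun l : ℕ => ¬ x ^ ε < (l : ℝ) with hB₁
  have hB1 : ∀ p ∈ B₁, p.Prime ∧ 7 ≤ p ∧ (p : ℝ) ≤ x ^ ε ∧ ¬ (p : ℤ) ∣ c + q * b' := fun p hp =>
    have hp' := mem_filter.1 hp
    ⟨(hB p hp'.1).1, (hB p hp'.1).2.1, not_lt.1 hp'.2, (hB p hp'.1).2.2.2⟩
  have h1 := hlow c₀ C₀ (x ^ ε) q Y c b' B₁ hP hc₁.le hC₀.le (by linarith) hq hcq
    (fun l hl => ⟨(hB1 l hl).1, by linarith [(hB1 l hl).2.1], (hB1 l hl).2.2⟩)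
    (by rw [hys]; nlinarith [hr (t := ε * s) (by nlinarith)])
  have h2 := h1.trans ((sum_le_sum fun k hk => mul_le_mul (cc93_ind (PrA c q k)
    (fun l => (l : ℤ) ∣ (k : ℤ) - b') (x ^ ε) B) (hlog k hk) (Real.log_nonneg (by
      have : (0 : ℝ) ≤ q * k := by positivity
      linarith)) (add_nonneg (ind_nonneg _) (sum_nonneg fun _ _ => ind_nonneg _))).trans_eq
        (sum_mul _ _ _).symm)
  rw [sum_add_distrib, sum_comm] at h2
  have hW : v / Real.log x ≤ (q : ℝ) / q.totient * ∏ p ∈ B₁, (1 - gq q p) := by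
    have b1 := hV x B₁ (gq q) (by linarith) fun l hl => ⟨(hB1 l hl).1,
      by linarith [(hB1 l hl).2.1], by linarith [(hB1 l hl).2.2.1],
      (gq_bounds q (by linarith [(hB1 l hl).2.1])).2.2.2⟩
    refine b1.trans (le_mul_of_one_le_left (le_trans (by positivity) b1) ?_)
    rw [one_le_div (by exact_mod_cast Nat.totient_pos.2 hq)]
    exact_mod_cast Nat.totient_le q
  rw [show (q : ℝ) * Y / q.totient * (∏ p ∈ B₁, (1 - gq q p)) / 2 =
    Y * ((q : ℝ) / q.totient * ∏ p ∈ B₁, (1 - gq q p)) / 2 by ring] at h2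
  have hup' := fun l : ℕ => fun b1 b2 => hup (x ^ ε) q Y l c b' B₁ hy hq b1 b2 (by linarith) hB1
  generalize (q : ℝ) / q.totient * ∏ p ∈ B₁, (1 - gq q p) = W at *
  have hW0 : 0 ≤ W := le_trans (by positivity) hW
  have h3 := sum_le_sum (s := big (x ^ ε) B) (g := fun l : ℕ =>
      C₁ / (ε * Real.log x) * (2 * Y * W) * (1 / l) + (x ^ ε) ^ 12) fun l hl => by
    obtain ⟨b1, b2⟩ := mem_filter.1 hl
    refine (hup' l (hB l b1).1 b2).trans (add_le_add_left ?_ _)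
    have b3 : (1 : ℝ) ≤ Y / l := by
      rw [one_le_div (by linarith)]
      linarith [(hB l b1).2.2.1, hr (t := 3 / 5) (by norm_num)]
    rw [Real.log_rpow hx0, mul_assoc]
    refine mul_le_mul_of_nonneg_left ?_ (by positivity)
    rw [show 2 * Y * W * (1 / l) = (Y / l + Y / l) * W by ring]
    exact mul_le_mul_of_nonneg_right (by linarith) hW0
  rw [sum_add_distrib, ← mul_sum, sum_const, nsmul_eq_mul] at h3
  have h4 : ((big (x ^ ε) B).card : ℝ) * (x ^ ε) ^ 12 ≤ x ^ (1 - 1 / 4 : ℝ) := by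
    have b1 : ((big (x ^ ε) B).card : ℝ) ≤ x ^ (3 / 5 : ℝ) :=
      le_trans (Nat.cast_le.2 (card_le_card fun l hl => (mem_primesIoc le_rfl (by positivity)).2
        ⟨(hB l (mem_filter.1 hl).1).1, by linarith [(mem_filter.1 hl).2],
          (hB l (mem_filter.1 hl).1).2.2.1⟩)) (card_primesIoc_le 0 (by positivity))
    refine (mul_le_mul_of_nonneg_right b1 (by positivity)).trans ?_
    rw [← Real.rpow_natCast, ← Real.rpow_mul hx0.le, ← Real.rpow_add hx0]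
    exact hr (by push_cast; linarith)
  have h5 : C₁ / (ε * Real.log x) * (2 * Y * W) * mu (big (x ^ ε) B) ≤
      Y * W / (16 * Real.log x) :=
    (mul_le_mul_of_nonneg_left hmu (by positivity)).trans_eq (by field_simp; ring)
  have h6 : (x ^ ε) ^ s * (2 * C₀ * ((c : ℝ) + q * Y) ^ (1 - c₀)) ≤ 6 * C₀ * x ^ (1 - c₀ / 2) := by
    have b1 := Real.rpow_le_rpow (add_nonneg (by linarith) (by positivity)) hcY
      (show 0 ≤ 1 - c₀ by linarith)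
    have b2 : (3 : ℝ) ^ (1 - c₀) ≤ 3 := by
      simpa using Real.rpow_le_rpow_of_exponent_le (show (1 : ℝ) ≤ 3 by norm_num)
        (show 1 - c₀ ≤ 1 by linarith)
    rw [Real.mul_rpow (by norm_num) (by positivity), ← Real.rpow_mul hx0.le] at b1
    have b3 := mul_le_mul_of_nonneg_left (b1.trans (mul_le_mul_of_nonneg_right b2 (by positivity)))
      (show 0 ≤ x ^ (ε * s) by positivity)
    have b4 := Real.rpow_le_rpow_of_exponent_le hx1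
      (show ε * s + (1 + 2 * ε) * (1 - c₀) ≤ 1 - c₀ / 2 by nlinarith)
    rw [Real.rpow_add hx0] at b4
    rw [hys]
    nlinarith
  exact cc93_fin hL hC₀ hv (by positivity) hx0 a1 a2 hY hW (h2.trans' (sub_le_sub_left h6 _))
    (h3.trans (add_le_add h5 h4))

theorem Cc12_mem {x : ℝ} (hx : 0 ≤ x) (y : ℝ) {p : ℕ} :
    p ∈ primesIoc x y ↔ p.Prime ∧ x < p ∧ (p : ℝ) ≤ y := by
  unfold primesIoc
  rw [mem_filter, mem_Ioc, Nat.floor_lt hx]
  constructor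
  · rintro ⟨⟨h1, h2⟩, h3⟩
    exact ⟨h3, h1, (Nat.le_floor_iff' h3.ne_zero).1 h2⟩
  · rintro ⟨h1, h2, h3⟩
    exact ⟨⟨h2, Nat.le_floor h3⟩, h1⟩

theorem Cc12_surv {X Y q : ℕ} {w z : ℝ} {a b c b' s : ℤ} (hw : 0 ≤ w) (hs : s * s = 1)
    (n : ℕ → ℕ) (hn : ∀ k < Y, 1 ≤ n k ∧ n k ≤ X ∧ (n k : ℤ) - b = s * (k - b'))
    (hc : c + q * b' = s * (q * b - a)) (hc0 : 0 ≤ c) (hz : z < c) :
    ∑ k ∈ range Y, ind (PrA c q k ∧ ∀ l ∈ (primesIoc w z).filter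
      (fun l : ℕ => ¬ (l : ℤ) ∣ q * b - a), ¬ (l : ℤ) ∣ (k : ℤ) - b') ≤ surv X b w z := by
  classical
  rw [surv, sum_ind, sum_ind]
  refine Nat.cast_le.2 (card_le_card_of_injOn n (fun k hk => ?_) (fun k hk k' hk' e => ?_))
  · obtain ⟨hk, hP, hB⟩ := mem_filter.1 (mem_coe.1 hk)
    obtain ⟨h1, h2, h3⟩ := hn k (mem_range.1 hk)
    refine mem_coe.2 (mem_filter.2 ⟨mem_Icc.2 ⟨h1, h2⟩, fun p hp hd => ?_⟩)
    have h4 : (p : ℤ) ∣ (k : ℤ) - b' := by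
      have : (k : ℤ) - b' = s * ((n k : ℤ) - b) := by rw [h3, ← mul_assoc, hs, one_mul]
      rw [this]; exact hd.mul_left _
    by_cases h5 : (p : ℤ) ∣ q * b - a
    · have h6 : (p : ℤ) ∣ c + q * k := by
        have : c + q * k = s * (q * b - a) + q * (k - b') := by rw [← hc]; ring
        rw [this]; exact (h5.mul_left _).add (h4.mul_left _)
      have h7 : 0 ≤ c + q * k := by positivity
      rw [← Int.toNat_of_nonneg h7, Int.natCast_dvd_natCast] at h6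
      obtain ⟨p1, -, p3⟩ := (Cc12_mem hw z).1 hp
      have h8 : (p : ℤ) = c + q * k := by
        rw [(Nat.prime_dvd_prime_iff_eq p1 hP).1 h6, Int.toNat_of_nonneg h7]
      have h9 : (p : ℝ) = c + q * k := by exact_mod_cast h8
      have h10 : (0 : ℝ) ≤ q * k := by positivity
      linarith
    · exact hB p (mem_filter.2 ⟨hp, h5⟩) h4
  · have h1 := (hn k (mem_range.1 (mem_filter.1 (mem_coe.1 hk)).1)).2.2
    have h2 := (hn k' (mem_range.1 (mem_filter.1 (mem_coe.1 hk')).1)).2.2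
    rw [e, h2] at h1
    have h3 : s ≠ 0 := by rintro rfl; simp at hs
    have := mul_left_cancel₀ h3 h1
    omega

/-- `Y = X / 4`, `B` the primes of `(w, z]` not dividing `q b - a`.  If `2 a ≤ q X` put
`n = n₀ + k`, `n₀ = X - Y + 1`, `c = q n₀ - a`, `b' = b - n₀`; otherwise `n = Y - k`, `c = a - q Y`,
`b' = Y - b`.  A prime `l ≤ z` dividing `q b - a` and `n - b` divides `± (q n - a) = c + q k`, which
is a prime `≥ q X / 5 > z`. -/
theorem thmC (h : HP) : ∃ ε₀ : ℝ, 0 < ε₀ ∧ ∀ ε : ℝ, 0 < ε → ε ≤ ε₀ → ∃ η c₁ : ℝ, 0 < η ∧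
    0 < c₁ ∧ ∀ᶠ X : ℕ in atTop, ∀ (w z : ℝ) (a b : ℤ) (q : ℕ), 6 ≤ w →
      z ≤ (X : ℝ) ^ (3 / 5 : ℝ) → 1 ≤ q → (q : ℝ) ≤ (X : ℝ) ^ ε →
      |(a : ℝ)| ≤ q * (X : ℝ) ^ (1 + ε) → IsCoprime a (q : ℤ) →
      mu ((primesIoc ((X : ℝ) ^ ε) z).filter (fun l : ℕ => ¬ (l : ℤ) ∣ q * b - a)) ≤ η →
      c₁ * X / Real.log X ^ 2 ≤ surv X b w z := by
  obtain ⟨ε₀, hε₀, H⟩ := c_core h
  refine ⟨ε₀, hε₀, fun ε hε hε' => ?_⟩
  obtain ⟨η, c₁, hη, hc₁, H⟩ := H ε hε hε'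
  refine ⟨η, c₁, hη, hc₁, ?_⟩
  have hev : ∀ᶠ X : ℕ in atTop, (5 : ℝ) < (X : ℝ) ^ (2 / 5 : ℝ) :=
    ((tendsto_rpow_atTop (by norm_num)).comp tendsto_natCast_atTop_atTop).eventually_gt_atTop 5
  filter_upwards [H, hev, eventually_ge_atTop 20] with X H h5 h20 w z a b q hw hz hq hqX ha hcop hmu
  have hX1 : (20 : ℝ) ≤ X := by exact_mod_cast h20
  have hX0 : (0 : ℝ) < X := by linarith
  have hq1 : (1 : ℝ) ≤ q := by exact_mod_cast hq
  have hw0 : 0 ≤ w := by linarith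
  have hz5 : z < (q : ℝ) * X / 5 := by
    have h1 : (X : ℝ) ^ (3 / 5 : ℝ) * (X : ℝ) ^ (2 / 5 : ℝ) = X := by
      rw [← Real.rpow_add hX0]; norm_num
    have h2 := mul_lt_mul_of_pos_left h5 (Real.rpow_pos_of_pos hX0 (3 / 5 : ℝ))
    nlinarith
  have hY1 : (X : ℝ) / 5 ≤ (X / 4 : ℕ) := by
    have : (X : ℝ) ≤ 5 * (X / 4 : ℕ) := by exact_mod_cast (by omega : X ≤ 5 * (X / 4))
    linarith
  have hY2 : 4 * ((X / 4 : ℕ) : ℝ) ≤ X := by exact_mod_cast (by omega : 4 * (X / 4) ≤ X)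
  have hXε : (X : ℝ) ≤ (X : ℝ) ^ (1 + ε) :=
    Real.self_le_rpow_of_one_le (by linarith) (by linarith)
  obtain ⟨ha1, ha2⟩ := abs_le.1 ha
  have main : ∀ (c b' s : ℤ) (n : ℕ → ℕ), s * s = 1 →
      (∀ k < X / 4, 1 ≤ n k ∧ n k ≤ X ∧ (n k : ℤ) - b = s * (k - b')) →
      c + q * b' = s * (q * b - a) → IsCoprime c (q : ℤ) → (q : ℝ) * X / 5 ≤ c →
      (c : ℝ) ≤ 2 * q * (X : ℝ) ^ (1 + ε) → c₁ * X / Real.log X ^ 2 ≤ surv X b w z := by
    intro c b' s n hs hn hc h1 h2 h3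
    have hc0 : 0 ≤ c := by
      have : (0 : ℝ) ≤ c := le_trans (by positivity) h2
      exact_mod_cast this
    refine (H q (X / 4) c b' _ hq hqX hY1 (Nat.div_le_self _ _) h1 h2 h3 (fun l hl => ?_)
      (le_trans (mu_mono fun l hl => ?_) hmu)).trans
      (Cc12_surv hw0 hs n hn hc hc0 (hz5.trans_le h2))
    · obtain ⟨l1, l2⟩ := mem_filter.1 hl
      obtain ⟨l3, l4, l5⟩ := (Cc12_mem hw0 z).1 l1
      refine ⟨l3, ?_, l5.trans hz, fun hd => l2 ?_⟩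
      · have : (6 : ℝ) < l := hw.trans_lt l4
        exact_mod_cast this
      · have : (q : ℤ) * b - a = s * (c + q * b') := by rw [hc, ← mul_assoc, hs, one_mul]
        rw [this]; exact hd.mul_left _
    · obtain ⟨l0, l6⟩ := mem_filter.1 hl
      obtain ⟨l1, l2⟩ := mem_filter.1 l0
      obtain ⟨l3, -, l5⟩ := (Cc12_mem hw0 z).1 l1
      exact mem_filter.2 ⟨(Cc12_mem (Real.rpow_nonneg hX0.le _) z).2 ⟨l3, l6, l5⟩, l2⟩
  rcases le_total (2 * (a : ℝ)) (q * X) with hle | hle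
  · refine main (q * (X - (X / 4 : ℕ) + 1) - a) (b - (X - (X / 4 : ℕ) + 1)) 1
      (fun k => X - X / 4 + 1 + k) (by norm_num) (fun k hk => ⟨by omega, by omega, by omega⟩)
      (by ring) ?_ ?_ ?_
    · rw [sub_eq_neg_add]
      exact hcop.neg_left.add_mul_left_left _
    · rw [Int.cast_sub, Int.cast_mul, Int.cast_add, Int.cast_sub, Int.cast_natCast,
        Int.cast_natCast, Int.cast_natCast, Int.cast_one]
      nlinarith
    · rw [Int.cast_sub, Int.cast_mul, Int.cast_add, Int.cast_sub, Int.cast_natCast,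
        Int.cast_natCast, Int.cast_natCast, Int.cast_one]
      have h1 : (X : ℝ) - (X / 4 : ℕ) + 1 ≤ (X : ℝ) ^ (1 + ε) := by linarith
      nlinarith
  · refine main (a - q * (X / 4 : ℕ)) ((X / 4 : ℕ) - b) (-1)
      (fun k => X / 4 - k) (by norm_num) (fun k hk => ⟨by omega, by omega, by omega⟩)
      (by ring) ?_ ?_ ?_
    · rw [sub_eq_add_neg, ← mul_neg]
      exact hcop.add_mul_left_left _
    · rw [Int.cast_sub, Int.cast_mul, Int.cast_natCast, Int.cast_natCast]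
      nlinarith
    · rw [Int.cast_sub, Int.cast_mul, Int.cast_natCast, Int.cast_natCast]
      have h1 : (0 : ℝ) ≤ q * (X / 4 : ℕ) := by positivity
      have h2 : (0 : ℝ) ≤ q * (X : ℝ) ^ (1 + ε) := by positivity
      linarith

end Crest.Agent.R001
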