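import Crest.Agent.R001.Tree2

set_option autoImplicit false

namespace Crest.Agent.R001

open Finset Filter Crest.Agent.R008 Crest.Agent.R026

/-! # Stability of the boundary -/

theorem ClsAux20_log_pr {s : Finset ℕ} (hs : ∀ q ∈ s, 0 < q) :
    Real.log (pr s) = ∑ q ∈ s, Real.log q := by
  unfold pr
  push_cast
  exact Real.log_prod fun q hq => by exact_mod_cast (hs q hq).ne'

theorem ClsAux20_pr_pos {s : Finset ℕ} (hs : ∀ q ∈ s, 0 < q) : (0 : ℝ) < pr s := by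
  exact_mod_cast (prod_pos hs : 0 < pr s)

theorem ClsAux20_log_image {ν s : Finset ℕ} {f : ℕ → ℕ} {η₁ : ℝ} (hs : s ⊆ ν)
    (hf : StrictMonoOn f ν) (h0 : ∀ q ∈ ν, 0 < q) (h0' : ∀ q ∈ ν, 0 < f q)
    (h1 : ∑ q ∈ ν, |Real.log (f q) - Real.log q| ≤ η₁) :
    |Real.log (pr (s.image f)) - Real.log (pr s)| ≤ η₁ := by
  have hinj : Set.InjOn f s := hf.injOn.mono (by exact_mod_cast hs)
  rw [ClsAux20_log_pr (s := s.image f), ClsAux20_log_pr fun q hq => h0 q (hs hq), sum_image hinj,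
    ← sum_sub_distrib]
  · refine (abs_sum_le_sum_abs _ _).trans (le_trans ?_ h1)
    exact sum_le_sum_of_subset_of_nonneg hs fun _ _ _ => abs_nonneg _
  · intro q hq
    obtain ⟨r, hr, rfl⟩ := mem_image.1 hq
    exact h0' r (hs hr)

theorem ClsAux20_up {ν : Finset ℕ} {f : ℕ → ℕ} (hf : StrictMonoOn f ν) {q : ℕ} (hq : q ∈ ν) :
    up (ν.image f) (f q) = (up ν q).image f := by
  ext r
  simp only [up, mem_filter, mem_image]
  constructor
  · rintro ⟨⟨a, ha, rfl⟩, h⟩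
    exact ⟨a, ⟨ha, (hf.lt_iff_lt hq ha).1 h⟩, rfl⟩
  · rintro ⟨a, ⟨ha, h⟩, rfl⟩
    exact ⟨⟨a, ha, rfl⟩, hf hq ha h⟩

theorem ClsAux20_log3 {a q : ℝ} (ha : 0 < a) (hq : 0 < q) :
    Real.log (a * q ^ 3) = Real.log a + 3 * Real.log q := by
  rw [Real.log_mul ha.ne' (by positivity), Real.log_pow]
  push_cast
  ring

theorem ClsAux20_stab {π : ℕ} {D η₁ η₂ : ℝ} {ν : Finset ℕ} {p : ℕ} (f : ℕ → ℕ) (hD : 0 < D)
    (hp : 0 < p) (hf : StrictMonoOn f ν) (hpf : ∀ q ∈ ν, p < f q) (hη : 0 ≤ η₂)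
    (h1 : ∑ q ∈ ν, |Real.log (f q) - Real.log q| ≤ η₁)
    (h2 : ∀ q ∈ ν, |Real.log (f q) - Real.log q| ≤ η₂)
    (hm : ∀ q ∈ insert p ν,
      η₁ + 3 * η₂ < |Real.log (pr (up ν q)) + 3 * Real.log q - Real.log D|)
    (h : Bd π D ν p) : Bd π D (ν.image f) p := by
  obtain ⟨hlt, hv, he, hM⟩ := h
  have h0 : ∀ q ∈ ν, 0 < q := fun q hq => hp.trans (hlt q hq)
  have h0' : ∀ q ∈ ν, 0 < f q := fun q hq => hp.trans (hpf q hq)
  have himg : ∀ s ⊆ ν, ∀ r ∈ s.image f, 0 < r := by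
    intro s hs r hr
    obtain ⟨a, ha, rfl⟩ := mem_image.1 hr
    exact h0' a (hs ha)
  have hp0 : (0 : ℝ) < p := by exact_mod_cast hp
  refine ⟨?_, ?_, ?_, ?_⟩
  · intro r hr
    obtain ⟨a, ha, rfl⟩ := mem_image.1 hr
    exact hpf a ha
  · intro r hr
    obtain ⟨q, hq, rfl⟩ := mem_image.1 hr
    have hsub : up ν q ⊆ ν := filter_subset _ _
    have hinj : Set.InjOn f (up ν q) := hf.injOn.mono (by exact_mod_cast hsub)
    rw [ClsAux20_up hf hq, card_image_of_injOn hinj]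
    intro hev
    have h3 := hv q hq hev
    have hq0 : (0 : ℝ) < q := by exact_mod_cast h0 q hq
    have hfq0 : (0 : ℝ) < f q := by exact_mod_cast h0' q hq
    have ha := ClsAux20_pr_pos (s := up ν q) fun r hr => h0 r (hsub hr)
    have hb := ClsAux20_pr_pos (himg _ hsub)
    have h4 := Real.log_le_log (by positivity) h3
    rw [ClsAux20_log3 ha hq0] at h4
    rw [← Real.log_le_log_iff (by positivity) hD, ClsAux20_log3 hb hfq0]
    have h5 := hm q (mem_insert_of_mem hq)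
    rw [abs_of_nonpos (by linarith)] at h5
    have h6 := (abs_le.1 (ClsAux20_log_image hsub hf h0 h0' h1)).2
    have h7 := (abs_le.1 (h2 q hq)).2
    linarith
  · rwa [card_image_of_injOn hf.injOn]
  · have ha := ClsAux20_pr_pos h0
    have hb := ClsAux20_pr_pos (himg _ Subset.rfl)
    have h4 := Real.log_lt_log hD hM
    rw [ClsAux20_log3 ha hp0] at h4
    rw [← Real.log_lt_log_iff hD (by positivity), ClsAux20_log3 hb hp0]
    have h5 := hm p (mem_insert_self _ _)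
    have hup : up ν p = ν := filter_true_of_mem hlt
    rw [hup, abs_of_pos (by linarith)] at h5
    have h6 := (abs_le.1 (ClsAux20_log_image Subset.rfl hf h0 h0' h1)).1
    linarith

end Crest.Agent.R001
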