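import Crest.Agent.R001.Prim

set_option autoImplicit false

namespace Crest.Agent.R001

open Finset Filter Crest.Agent.R008 Crest.Agent.R026

namespace AP

variable {g : AP}

theorem cls96_J (h : g.OK) : 8 ≤ g.J := by have := h.nJ; omega

theorem cls96_B_mono (h : g.OK) : StrictMono g.B := by
  have hJ := cls96_J h
  intro i j hij
  unfold AP.B
  exact Nat.mul_lt_mul_of_pos_left (Nat.pow_lt_pow_right h.t2 (by omega)) (by omega)

theorem cls96_pow (h : g.OK) {i j : ℕ} (hij : i ≤ j) : (g.t : ℝ) ^ i ≤ (g.t : ℝ) ^ j := by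
  have : (1 : ℝ) ≤ g.t := by have := h.t2; exact_mod_cast (by omega : 1 ≤ g.t)
  exact pow_le_pow_right₀ this hij

theorem cls96_basic (h : g.OK) :
    1 ≤ g.Z ∧ 1 ≤ g.Xt ∧ g.z ≤ g.D ∧ 1 ≤ g.D ∧ g.w ≤ g.z ∧ 1 ≤ g.J := by
  have h1 : 1 ≤ Real.exp ((g.t : ℝ) ^ (g.n + 2)) := Real.one_le_exp (by positivity)
  have h2 : 1 ≤ g.Xt := h1.trans h.top
  have h3 : 1 ≤ g.z := h2.trans h.Xz
  have h4 : g.z ≤ g.D := (le_mul_of_one_le_right (by linarith) h1).trans h.zD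
  have h5 : Real.exp g.t ≤ Real.exp ((g.t : ℝ) ^ (g.n + 2)) := by
    refine Real.exp_le_exp.2 ?_
    simpa using cls96_pow h (i := 1) (j := g.n + 2) (by omega)
  have hJ := cls96_J h
  exact ⟨h.y0.trans h.yZ, h2, h4, h3.trans h4,
    h.wt.le.trans (h5.trans (h.top.trans h.Xz)), by omega⟩

theorem cls96_mem_cells (h : g.OK) {ι x : Fin (g.n + 1) → ℕ} (hι : ι ∈ g.Idx)
    (hx : x ∈ g.cells ι) (j : Fin (g.n + 1)) : (x j).Prime ∧ ci g.J (x j) = ι j ∧ x j ∈ g.P ∧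
      g.y₂ < x j ∧ (x j : ℝ) ≤ g.Xt ∧ g.B j ≤ ι j ∧ ι j < g.B (j + 1) := by
  have hJ : 1 ≤ g.J := (cls96_basic h).2.2.2.2.2
  obtain ⟨a1, a2⟩ := (mem_cell hJ).1 (Fintype.mem_piFinset.1 hx j)
  obtain ⟨a3, a4⟩ := mem_Ico.1 (Fintype.mem_piFinset.1 hι j)
  have hx2 : (2 : ℝ) ≤ x j := by exact_mod_cast a1.two_le
  have hx0 : (0 : ℝ) < x j := by linarith
  have b1 : ((g.t ^ ((j : ℕ) + 1) : ℕ) : ℝ) ≤ Real.log (x j) :=
    (le_ci_iff hJ a1.one_le).1 (by rw [a2]; exact a3)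
  have b2 : Real.log (x j) < ((g.t ^ ((j : ℕ) + 1 + 1) : ℕ) : ℝ) := by
    by_contra hc
    have := (le_ci_iff hJ a1.one_le).2 (not_lt.1 hc)
    rw [a2] at this
    exact absurd a4 (not_lt.2 this)
  push_cast at b1 b2
  have c1 : Real.exp g.t ≤ x j := by
    rw [← Real.le_log_iff_exp_le hx0]
    refine le_trans ?_ b1
    simpa using cls96_pow h (i := 1) (j := (j : ℕ) + 1) (by omega)
  have c2 : (x j : ℝ) ≤ g.Xt := by
    refine le_trans ?_ h.top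
    rw [← Real.log_le_iff_le_exp hx0]
    exact b2.le.trans (cls96_pow h (by have := j.2; omega))
  have hw : 0 ≤ g.w := by linarith [h.w10]
  refine ⟨a1, a2, (mem_primesIoc hw (hw.trans (cls96_basic h).2.2.2.2.1)).2
    ⟨a1, h.wt.trans_le c1, c2.trans h.Xz⟩, ?_, c2, a3, a4⟩
  by_contra hc
  have hc := not_lt.1 hc
  have d1 := h.yt.trans c1
  have d2 : 4 ≤ g.y₂ ^ 2 := by nlinarith
  nlinarith

theorem cls96_cells_inj (h : g.OK) {ι x : Fin (g.n + 1) → ℕ} (hι : ι ∈ g.Idx)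
    (hx : x ∈ g.cells ι) : Function.Injective x := by
  intro i j e
  obtain ⟨-, a1, -, -, -, a2, a3⟩ := cls96_mem_cells h hι hx i
  obtain ⟨-, b1, -, -, -, b2, b3⟩ := cls96_mem_cells h hι hx j
  have e' : ι i = ι j := by rw [← a1, ← b1, e]
  have c1 := (cls96_B_mono h).lt_iff_lt.1 (a2.trans_lt (e' ▸ b3))
  have c2 := (cls96_B_mono h).lt_iff_lt.1 (b2.trans_lt (e' ▸ a3))
  exact Fin.ext (by omega)

theorem cls96_prod_cells (h : g.OK) {ι x : Fin (g.n + 1) → ℕ} (hι : ι ∈ g.Idx)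
    (hx : x ∈ g.cells ι) : g.U ι ≤ ((∏ j, x j : ℕ) : ℝ) ∧
      ((∏ j, x j : ℕ) : ℝ) ≤ g.U ι * (1 + 2 * ((g.n : ℝ) + 1) / g.J) := by
  have hJ : 1 ≤ g.J := (cls96_basic h).2.2.2.2.2
  have hJ' : (0 : ℝ) < g.J := by exact_mod_cast hJ
  have hl : ∀ j, (ι j : ℝ) / g.J ≤ Real.log (x j) ∧ Real.log (x j) < ((ι j : ℝ) + 1) / g.J :=
    fun j => (ci_eq_iff hJ (cls96_mem_cells h hι hx j).1.one_le).1 (cls96_mem_cells h hι hx j).2.1
  have e : ((∏ j, x j : ℕ) : ℝ) = Real.exp (∑ j, Real.log (x j)) := by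
    rw [Real.exp_sum, Nat.cast_prod]
    refine prod_congr rfl fun j _ => (Real.exp_log ?_).symm
    exact_mod_cast (cls96_mem_cells h hι hx j).1.pos
  rw [e]
  unfold AP.U
  refine ⟨Real.exp_le_exp.2 (sum_le_sum fun j _ => (hl j).1), ?_⟩
  have h1 : ∑ j, Real.log (x j) ≤ ∑ j, (ι j : ℝ) / g.J + ((g.n : ℝ) + 1) / g.J := by
    refine (sum_le_sum fun j _ => (hl j).2.le).trans (le_of_eq ?_)
    simp only [add_div, sum_add_distrib, sum_const, card_univ, Fintype.card_fin, nsmul_eq_mul]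
    push_cast
    ring
  refine (Real.exp_le_exp.2 h1).trans ?_
  rw [Real.exp_add]
  refine mul_le_mul_of_nonneg_left ?_ (Real.exp_pos _).le
  have h2 : ((g.n : ℝ) + 1) / g.J ≤ 1 := by
    rw [div_le_one hJ']
    have := h.nJ
    exact_mod_cast (by omega : g.n + 1 ≤ g.J)
  have h3 : 0 ≤ ((g.n : ℝ) + 1) / g.J := by positivity
  have h4 := Real.abs_exp_sub_one_le (x := ((g.n : ℝ) + 1) / g.J) (by rwa [abs_of_nonneg h3])
  rw [abs_of_nonneg h3] at h4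
  have h5 := le_abs_self (Real.exp (((g.n : ℝ) + 1) / g.J) - 1)
  rw [mul_div_assoc]
  linarith

theorem cls96_card_cells_le (h : g.OK) {ι : Fin (g.n + 1) → ℕ} (hι : ι ∈ g.Idx) :
    ((g.cells ι).card : ℝ) ≤ g.U ι := by
  unfold AP.cells AP.U
  rw [Fintype.card_piFinset, Real.exp_sum, Nat.cast_prod]
  refine prod_le_prod (fun j _ => by positivity) fun j _ => card_cell_le (cls96_J h) ?_
  refine le_trans ?_ (mem_Ico.1 (Fintype.mem_piFinset.1 hι j)).1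
  unfold AP.B
  exact Nat.le_mul_of_pos_right _ (pow_pos (by have := h.t2; omega) _)

theorem cls96_B_le (h : g.OK) (j : Fin (g.n + 1)) : g.B (j + 1) ≤ g.J * g.t ^ (g.n + 2) :=
  (cls96_B_mono h).monotone (show (j : ℕ) + 1 ≤ g.n + 1 by have := j.2; omega)

theorem cls96_U_le (h : g.OK) {ι : Fin (g.n + 1) → ℕ} (hι : ι ∈ g.Idx) :
    1 ≤ g.U ι ∧ g.U ι ≤ Real.exp (((g.n : ℝ) + 1) * (g.t : ℝ) ^ (g.n + 2)) := by
  have hJ : 1 ≤ g.J := (cls96_basic h).2.2.2.2.2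
  have hJ' : (0 : ℝ) < g.J := by exact_mod_cast hJ
  unfold AP.U
  refine ⟨Real.one_le_exp (sum_nonneg fun j _ => by positivity), Real.exp_le_exp.2 ?_⟩
  have h1 : ∀ j, (ι j : ℝ) / g.J ≤ (g.t : ℝ) ^ (g.n + 2) := fun j => by
    rw [div_le_iff₀ hJ', mul_comm]
    have := (mem_Ico.1 (Fintype.mem_piFinset.1 hι j)).2.le.trans (cls96_B_le h j)
    exact_mod_cast this
  refine (sum_le_sum fun j _ => h1 j).trans (le_of_eq ?_)
  simp only [sum_const, card_univ, Fintype.card_fin, nsmul_eq_mul]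
  push_cast
  ring

theorem cls96_card_Idx_le (h : g.OK) : g.Idx.card ≤ (g.J * g.t ^ (g.n + 2)) ^ (g.n + 1) := by
  unfold AP.Idx
  rw [Fintype.card_piFinset]
  refine (prod_le_pow_card _ _ (g.J * g.t ^ (g.n + 2)) fun j _ => ?_).trans (by simp)
  rw [Nat.card_Ico]
  exact (Nat.sub_le _ _).trans (cls96_B_le h j)

end AP

end Crest.Agent.R001
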