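import Crest.Agent.R001.Tree2
import Crest.Agent.R001.Prim
import Crest.Agent.R001.ClsAux20
import Crest.Agent.R001.ClsAux96

set_option autoImplicit false

namespace Crest.Agent.R001

open Finset Filter Crest.Agent.R008 Crest.Agent.R026

/-! # Classes of boundary nodes -/

/-- Stability of the boundary under small order preserving perturbations:
`up (ν.image f) (f q) = (up ν q).image f`, the logarithm of `pr (up ν q) q³` moves by at most
`η₁ + 3 η₂`. -/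
theorem stab {π : ℕ} {D η₁ η₂ : ℝ} {ν : Finset ℕ} {p : ℕ} (f : ℕ → ℕ) (hD : 0 < D) (hp : 0 < p)
    (hf : StrictMonoOn f ν) (hpf : ∀ q ∈ ν, p < f q) (hη : 0 ≤ η₂)
    (h1 : ∑ q ∈ ν, |Real.log (f q) - Real.log q| ≤ η₁)
    (h2 : ∀ q ∈ ν, |Real.log (f q) - Real.log q| ≤ η₂)
    (hm : ∀ q ∈ insert p ν,
      η₁ + 3 * η₂ < |Real.log (pr (up ν q)) + 3 * Real.log q - Real.log D|)
    (h : Bd π D ν p) : Bd π D (ν.image f) p :=
  ClsAux20_stab f hD hp hf hpf hη h1 h2 hm h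

namespace AP

variable {g : AP}

theorem B_mono (h : g.OK) : StrictMono g.B :=
  cls96_B_mono h

/-- The primes of the cells (`mem_cell`, `le_ci_iff`, `ci_eq_iff`). -/
theorem mem_cells (h : g.OK) {ι x : Fin (g.n + 1) → ℕ} (hι : ι ∈ g.Idx) (hx : x ∈ g.cells ι)
    (j : Fin (g.n + 1)) : (x j).Prime ∧ ci g.J (x j) = ι j ∧ x j ∈ g.P ∧ g.y₂ < x j ∧
      (x j : ℝ) ≤ g.Xt ∧ g.B j ≤ ι j ∧ ι j < g.B (j + 1) :=
  cls96_mem_cells h hι hx j

theorem cells_inj (h : g.OK) {ι x : Fin (g.n + 1) → ℕ} (hι : ι ∈ g.Idx) (hx : x ∈ g.cells ι) :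
    Function.Injective x :=
  cls96_cells_inj h hι hx

theorem prod_cells (h : g.OK) {ι x : Fin (g.n + 1) → ℕ} (hι : ι ∈ g.Idx) (hx : x ∈ g.cells ι) :
    g.U ι ≤ ((∏ j, x j : ℕ) : ℝ) ∧
      ((∏ j, x j : ℕ) : ℝ) ≤ g.U ι * (1 + 2 * ((g.n : ℝ) + 1) / g.J) :=
  cls96_prod_cells h hι hx

/-- `card_cell_le`. -/
theorem card_cells_le (h : g.OK) {ι : Fin (g.n + 1) → ℕ} (hι : ι ∈ g.Idx) :
    ((g.cells ι).card : ℝ) ≤ g.U ι :=
  cls96_card_cells_le h hι

theorem U_le (h : g.OK) {ι : Fin (g.n + 1) → ℕ} (hι : ι ∈ g.Idx) :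
    1 ≤ g.U ι ∧ g.U ι ≤ Real.exp (((g.n : ℝ) + 1) * (g.t : ℝ) ^ (g.n + 2)) :=
  cls96_U_le h hι

theorem card_Idx_le (h : g.OK) : g.Idx.card ≤ (g.J * g.t ^ (g.n + 2)) ^ (g.n + 1) :=
  cls96_card_Idx_le h

theorem cls_disj (h : g.OK) {p : ℕ} {ι x : Fin (g.n + 1) → ℕ} {ν : Finset ℕ} (hι : ι ∈ g.Idx)
    (hx : x ∈ g.cells ι) (hc : g.Cls p ι ν) : Disjoint ν (image x univ) := by
  refine disjoint_left.2 fun q hq hq' => ?_
  obtain ⟨j, -, rfl⟩ := mem_image.1 hq'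
  obtain ⟨-, a, -, -, -, b, c⟩ := mem_cells h hι hx j
  have := hc.1 j _ hq (a ▸ b) (a ▸ c)
  omega

theorem cls_pr (h : g.OK) {p : ℕ} {ι x : Fin (g.n + 1) → ℕ} {ν : Finset ℕ} (hι : ι ∈ g.Idx)
    (hx : x ∈ g.cells ι) (hc : g.Cls p ι ν) : pr (g.join ν x) = pr ν * ∏ j, x j := by
  rw [AP.join, pr_union (cls_disj h hι hx hc)]
  congr 1
  exact prod_image fun a _ b _ e => cells_inj h hι hx e

theorem join_big (h : g.OK) {ι x : Fin (g.n + 1) → ℕ} (ν : Finset ℕ) (hι : ι ∈ g.Idx)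
    (hx : x ∈ g.cells ι) : big g.Xt (g.join ν x) = big g.Xt ν := by
  ext q
  simp only [big, AP.join, mem_filter, mem_union, mem_image, mem_univ, true_and]
  constructor
  · rintro ⟨hq | ⟨j, rfl⟩, h2⟩
    · exact ⟨hq, h2⟩
    · exact absurd h2 (not_lt.2 (mem_cells h hι hx j).2.2.2.2.1)
  · rintro ⟨hq, h2⟩
    exact ⟨Or.inl hq, h2⟩

theorem join_sub (h : g.OK) {ι x : Fin (g.n + 1) → ℕ} {ν : Finset ℕ} (hι : ι ∈ g.Idx)
    (hx : x ∈ g.cells ι) (hν : ν ⊆ g.P) : g.join ν x ⊆ g.P := by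
  refine union_subset hν fun q hq => ?_
  obtain ⟨j, -, rfl⟩ := mem_image.1 hq
  exact (mem_cells h hι hx j).2.2.1

/-- `x j` is the largest element of the join in the range `j`. -/
theorem cls_uniq (h : g.OK) {p : ℕ} {ι x ι' x' : Fin (g.n + 1) → ℕ} {ν ν' : Finset ℕ}
    (hι : ι ∈ g.Idx) (hx : x ∈ g.cells ι) (hc : g.Cls p ι ν) (hι' : ι' ∈ g.Idx)
    (hx' : x' ∈ g.cells ι') (hc' : g.Cls p ι' ν') (e : g.join ν x = g.join ν' x') :
    ι = ι' ∧ ν = ν' ∧ x = x' := by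
  have key : ∀ {ι x ι' x' : Fin (g.n + 1) → ℕ} {ν ν' : Finset ℕ}, ι ∈ g.Idx → x ∈ g.cells ι →
      ι' ∈ g.Idx → x' ∈ g.cells ι' → g.Cls p ι' ν' → g.join ν x = g.join ν' x' →
      ∀ j, ι j < ι' j ∨ x j = x' j := by
    intro ι x ι' x' ν ν' hι hx hι' hx' hc' e j
    have hm : x j ∈ g.join ν' x' := e ▸ mem_union_right _ (mem_image_of_mem _ (mem_univ j))
    obtain ⟨-, a, -, -, -, b, c⟩ := mem_cells h hι hx j
    rcases mem_union.1 hm with hm | hm
    · exact Or.inl (a ▸ hc'.1 j _ hm (a ▸ b) (a ▸ c))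
    · obtain ⟨i, -, hi⟩ := mem_image.1 hm
      obtain ⟨-, a', -, -, -, b', c'⟩ := mem_cells h hι' hx' i
      rw [hi, a] at a'
      have h1 : (i : ℕ) < j + 1 := (B_mono h).lt_iff_lt.1 (by omega)
      have h2 : (j : ℕ) < i + 1 := (B_mono h).lt_iff_lt.1 (by omega)
      have : i = j := Fin.ext (by omega)
      exact Or.inr (by rw [← hi, this])
  have ex : x = x' := funext fun j => by
    rcases key hι hx hι' hx' hc' e j with a | a
    · rcases key hι' hx' hι hx hc e.symm j with b | b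
      · omega
      · exact b.symm
    · exact a
  subst ex
  refine ⟨funext fun j => ?_, ?_, rfl⟩
  · rw [← (mem_cells h hι hx j).2.1, (mem_cells h hι' hx' j).2.1]
  · have d1 := cls_disj h hι hx hc
    have d2 := cls_disj h hι' hx' hc'
    rw [← union_sdiff_cancel_right d1, ← union_sdiff_cancel_right d2]
    exact congrArg (· \ image x univ) e

/-- Let `u j` be the largest prime of `ν` in the range `j`, `ι j = ci (u j)`, `ν₁ = ν \ image u`.
For `x ∈ cells ι` let `f` map `u j ↦ x j` and fix the other primes; `ci (f q) = ci q`, so `f` is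
strictly monotone on `ν` (`Cl2`, `ci_mono`); `stab` with `η₁ = (n+1)/J`, `η₂ = 1/J`; `join_big`. -/
theorem cls_ex (h : g.OK) {p : ℕ} {ν : Finset ℕ} (hp : p ∈ g.P) (hν : ν ⊆ g.P) (hF : g.Fam p ν)
    (h1 : g.Cl1 ν) (h2 : g.Cl2 ν) (h3 : g.Cl3 p ν) :
    ∃ ι ∈ g.Idx, ∃ ν₁ ⊆ g.P, ∃ x ∈ g.cells ι, g.Cls p ι ν₁ ∧ g.join ν₁ x = ν := by
  classical
  have hJ : 1 ≤ g.J := by have := h.nJ; omega
  have hz0 : 0 < g.z := ((Real.exp_pos _).trans_le h.top).trans_le h.Xz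
  have hD : 0 < g.D := (mul_pos hz0 (Real.exp_pos _)).trans_le h.zD
  have hw : 0 ≤ g.w := by linarith [h.w10]
  have hz : 0 ≤ g.z := hz0.le
  have hprime : ∀ q ∈ g.P, q.Prime := fun q hq => ((mem_primesIoc hw hz).1 hq).1
  have hne : ∀ j : Fin (g.n + 1),
      (ν.filter (fun q => g.B j ≤ ci g.J q ∧ ci g.J q < g.B (j + 1))).Nonempty := fun j => by
    obtain ⟨q, hq, h'⟩ := h1 j
    exact ⟨q, mem_filter.2 ⟨hq, h'⟩⟩
  set u : Fin (g.n + 1) → ℕ := fun j => max' _ (hne j) with hu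
  have hum : ∀ j, u j ∈ ν ∧ g.B j ≤ ci g.J (u j) ∧ ci g.J (u j) < g.B (j + 1) := fun j =>
    mem_filter.1 (max'_mem _ (hne j))
  have hmax : ∀ j : Fin (g.n + 1), ∀ q ∈ ν, g.B j ≤ ci g.J q → ci g.J q < g.B (j + 1) → q ≤ u j :=
    fun j q hq a b => le_max' _ q (mem_filter.2 ⟨hq, a, b⟩)
  set ι : Fin (g.n + 1) → ℕ := fun j => ci g.J (u j) with hι
  have hιm : ι ∈ g.Idx := Fintype.mem_piFinset.2 fun j => mem_Ico.2 (hum j).2
  have huc : u ∈ g.cells ι := Fintype.mem_piFinset.2 fun j =>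
    (mem_cell hJ).2 ⟨hprime _ (hν (hum j).1), rfl⟩
  have hsub : image u univ ⊆ ν := fun q hq => by
    obtain ⟨j, -, rfl⟩ := mem_image.1 hq
    exact (hum j).1
  have hjoin : g.join (ν \ image u univ) u = ν := sdiff_union_of_subset hsub
  have hB0 : ∀ j : ℕ, g.B 0 ≤ g.B j := fun j => (B_mono h).monotone (Nat.zero_le j)
  refine ⟨ι, hιm, ν \ image u univ, sdiff_subset.trans hν, u, huc, ⟨?_, ?_⟩, hjoin⟩
  · intro j q hq a b
    obtain ⟨hq1, hq2⟩ := mem_sdiff.1 hq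
    refine lt_of_le_of_ne (ci_mono _ (hmax j q hq1 a b)) fun e => hq2 ?_
    rw [h2 q hq1 (u j) (hum j).1 ((hB0 j).trans a) e]
    exact mem_image_of_mem _ (mem_univ j)
  intro x hx
  have uinj := cells_inj h hιm huc
  set f : ℕ → ℕ := fun q => if hq : ∃ j, u j = q then x hq.choose else q with hf
  have fu : ∀ j, f (u j) = x j := fun j => by
    have hq : ∃ i, u i = u j := ⟨j, rfl⟩
    simp only [hf]
    rw [dif_pos hq, uinj hq.choose_spec]
  have fo : ∀ q, q ∉ image u univ → f q = q := fun q hq => by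
    have : ¬ ∃ j, u j = q := fun ⟨j, e⟩ => hq (mem_image.2 ⟨j, mem_univ _, e⟩)
    simp only [hf]
    rw [dif_neg this]
  have hcase : ∀ q, (∃ j, q = u j) ∨ q ∉ image u univ := fun q => by
    by_cases hq : q ∈ image u univ
    · obtain ⟨j, -, e⟩ := mem_image.1 hq
      exact Or.inl ⟨j, e.symm⟩
    · exact Or.inr hq
  have fci : ∀ q, ci g.J (f q) = ci g.J q := fun q => by
    rcases hcase q with ⟨j, rfl⟩ | hq
    · rw [fu, (mem_cells h hιm hx j).2.1]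
    · rw [fo q hq]
  have himg : ν.image f = g.join (ν \ image u univ) x := by
    ext r
    simp only [AP.join, mem_union, mem_image, mem_univ, true_and]
    constructor
    · rintro ⟨q, hq, rfl⟩
      rcases hcase q with ⟨j, rfl⟩ | hq'
      · exact Or.inr ⟨j, (fu j).symm⟩
      · rw [fo q hq']
        exact Or.inl (mem_sdiff.2 ⟨hq, hq'⟩)
    · rintro (hr | ⟨j, rfl⟩)
      · exact ⟨r, (mem_sdiff.1 hr).1, fo r (mem_sdiff.1 hr).2⟩
      · exact ⟨u j, (hum j).1, fu j⟩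
  have hJ' : (0 : ℝ) < g.J := by exact_mod_cast hJ
  have e2 : ∀ q, |Real.log (f q) - Real.log q| ≤ 1 / g.J := fun q => by
    rcases hcase q with ⟨j, rfl⟩ | hq
    · rw [fu]
      have a := (ci_eq_iff hJ (mem_cells h hιm hx j).1.one_le).1 (mem_cells h hιm hx j).2.1
      have b := (ci_eq_iff hJ (mem_cells h hιm huc j).1.one_le).1 (mem_cells h hιm huc j).2.1
      rw [add_div] at a b
      rw [abs_le]
      constructor <;> linarith [a.1, a.2, b.1, b.2]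
    · rw [fo q hq, sub_self, abs_zero]
      positivity
  have e1 : ∑ q ∈ ν, |Real.log (f q) - Real.log q| ≤ ((g.n : ℝ) + 1) / g.J := by
    rw [← sum_subset hsub fun q _ hq => by rw [fo q hq, sub_self, abs_zero]]
    refine (sum_le_card_nsmul _ _ _ fun q _ => e2 q).trans ?_
    have : ((image u univ).card : ℝ) ≤ (g.n : ℝ) + 1 := by
      have := card_image_le (s := univ) (f := u)
      rw [card_univ, Fintype.card_fin] at this
      exact_mod_cast this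
    rw [nsmul_eq_mul, mul_one_div]
    exact div_le_div_of_nonneg_right this hJ'.le
  refine ⟨?_, hF.2.1, hF.2.2.1, ?_⟩
  · rw [← himg]
    refine stab f hD (hprime p hp).pos ?_ ?_ (by positivity) e1
      (fun q _ => e2 q) ?_ hF.1
    · intro q hq q' hq' hlt
      rcases (ci_mono g.J hlt.le).lt_or_eq with a | a
      · by_contra hcon
        have := ci_mono g.J (not_lt.1 hcon)
        rw [fci, fci] at this
        omega
      · have hlow : ¬ g.B 0 ≤ ci g.J q := fun b => hlt.ne (h2 q hq q' hq' b a)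
        have n1 : ∀ r, ci g.J r = ci g.J q → r ∉ image u univ := fun r hr hm => by
          obtain ⟨j, -, rfl⟩ := mem_image.1 hm
          exact hlow (hr ▸ (hB0 j).trans (hum j).2.1)
        rw [fo q (n1 q rfl), fo q' (n1 q' a.symm)]
        exact hlt
    · intro q hq
      rcases hcase q with ⟨j, rfl⟩ | hq'
      · rw [fu]
        have := hF.2.2.1.trans_lt (mem_cells h hιm hx j).2.2.2.1
        exact_mod_cast this
      · rw [fo q hq']
        exact hF.1.1 q hq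
    · intro q hq
      refine lt_of_le_of_lt (le_of_eq ?_) (h3 q hq)
      ring
  · rw [join_big h _ hιm hx, ← join_big h _ hιm huc, hjoin]
    exact hF.2.2.2

/-- `cls_uniq`, `join_sub`. -/
theorem csum_le (h : g.OK) (F : ℕ → Finset ℕ → ℝ) (hF : ∀ p ν, 0 ≤ F p ν) :
    g.csum F ≤ ∑ p ∈ g.P, ∑ ν ∈ g.P.powerset, ind (g.Fam p ν) * F p ν := by
  classical
  unfold csum
  refine sum_le_sum fun p _ => ?_
  set T : Finset (((Fin (g.n + 1) → ℕ) × Finset ℕ) × (Fin (g.n + 1) → ℕ)) :=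
    (((g.Idx ×ˢ g.P.powerset).filter fun a => g.Cls p a.1 a.2).sigma
      (fun a => g.cells a.1)).image (fun a => (a.1, a.2)) with hT
  have hmem : ∀ a, a ∈ T ↔ a.1.1 ∈ g.Idx ∧ a.1.2 ⊆ g.P ∧ g.Cls p a.1.1 a.1.2 ∧ a.2 ∈ g.cells a.1.1 := by
    intro a
    simp only [hT, mem_image, mem_sigma, mem_filter, mem_product, mem_powerset]
    constructor
    · rintro ⟨b, ⟨⟨⟨h1, h2⟩, h3⟩, h4⟩, rfl⟩
      exact ⟨h1, h2, h3, h4⟩
    · rintro ⟨h1, h2, h3, h4⟩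
      exact ⟨⟨a.1, a.2⟩, ⟨⟨⟨h1, h2⟩, h3⟩, h4⟩, rfl⟩
  have e1 : ∑ ι ∈ g.Idx, ∑ ν ∈ g.P.powerset, ind (g.Cls p ι ν) * ∑ x ∈ g.cells ι, F p (g.join ν x) =
      ∑ a ∈ T, F p (g.join a.1.2 a.2) := by
    rw [hT, sum_image (by
      rintro ⟨a, x⟩ _ ⟨b, y⟩ _ hab
      simp only [Prod.mk.injEq] at hab
      obtain ⟨rfl, rfl⟩ := hab
      rfl), sum_sigma, sum_filter, sum_product]
    refine sum_congr rfl fun ι _ => sum_congr rfl fun ν _ => ?_
    by_cases hc : g.Cls p ι ν <;> simp [ind, hc]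
  rw [e1]
  have hinj : Set.InjOn (fun a : ((Fin (g.n + 1) → ℕ) × Finset ℕ) × (Fin (g.n + 1) → ℕ) =>
      g.join a.1.2 a.2) T := by
    rintro ⟨⟨ι, ν⟩, x⟩ ha ⟨⟨ι', ν'⟩, x'⟩ hb e
    obtain ⟨h1, -, h3, h4⟩ := (hmem _).1 ha
    obtain ⟨h1', -, h3', h4'⟩ := (hmem _).1 hb
    obtain ⟨r1, r2, r3⟩ := cls_uniq h h1 h4 h3 h1' h4' h3' e
    simp only at r1 r2 r3
    rw [r1, r2, r3]
  rw [← sum_image (f := fun ν => F p ν) hinj]
  calc _ = ∑ ν ∈ T.image (fun a => g.join a.1.2 a.2), ind (g.Fam p ν) * F p ν := by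
        refine sum_congr rfl fun ν hν => ?_
        obtain ⟨a, ha, rfl⟩ := mem_image.1 hν
        obtain ⟨-, -, h3, h4⟩ := (hmem _).1 ha
        simp [ind, h3.2 _ h4]
    _ ≤ _ := by
        refine sum_le_sum_of_subset_of_nonneg ?_ fun ν _ _ => mul_nonneg ?_ (hF _ _)
        · intro ν hν
          obtain ⟨a, ha, rfl⟩ := mem_image.1 hν
          obtain ⟨h1, h2, -, h4⟩ := (hmem _).1 ha
          exact mem_powerset.2 (join_sub h h1 h4 h2)
        · unfold ind; split_ifs <;> norm_num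

/-- `cls_ex`. -/
theorem le_csum (h : g.OK) (F : ℕ → Finset ℕ → ℝ) (hF : ∀ p ν, 0 ≤ F p ν) :
    ∑ p ∈ g.P, ∑ ν ∈ g.P.powerset, ind (g.Fam p ν ∧ g.Cl1 ν ∧ g.Cl2 ν ∧ g.Cl3 p ν) * F p ν ≤
      g.csum F := by
  classical
  unfold csum
  refine sum_le_sum fun p hp => ?_
  set T : Finset (Σ _ : (Fin (g.n + 1) → ℕ) × Finset ℕ, Fin (g.n + 1) → ℕ) :=
    ((g.Idx ×ˢ g.P.powerset).filter (fun a => g.Cls p a.1 a.2)).sigma (fun a => g.cells a.1) with hT
  have e : ∑ ι ∈ g.Idx, ∑ ν ∈ g.P.powerset, ind (g.Cls p ι ν) *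
      ∑ x ∈ g.cells ι, F p (g.join ν x) = ∑ a ∈ T, F p (g.join a.1.2 a.2) := by
    rw [hT, sum_sigma, ← sum_ind_mul, sum_product]
  rw [e, sum_ind_mul]
  refine le_trans (sum_le_sum_of_subset_of_nonneg ?_ fun _ _ _ => hF _ _)
    (sum_image_le_of_nonneg (s := T) (g := fun a => g.join a.1.2 a.2) (f := F p)
      fun _ _ => hF _ _)
  intro ν hν
  obtain ⟨h0, hFam, h1, h2, h3⟩ := mem_filter.1 hν
  obtain ⟨ι, hι, ν₁, hν₁, x, hx, hc, rfl⟩ := cls_ex h hp (mem_powerset.1 h0) hFam h1 h2 h3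
  refine mem_image.2 ⟨⟨(ι, ν₁), x⟩, ?_, rfl⟩
  rw [hT, mem_sigma, mem_filter, mem_product, mem_powerset]
  exact ⟨⟨⟨hι, hν₁⟩, hc⟩, hx⟩

theorem csum_mono {F G : ℕ → Finset ℕ → ℝ}
    (hF : ∀ p ∈ g.P, ∀ ι ∈ g.Idx, ∀ ν ⊆ g.P, g.Cls p ι ν → ∀ x ∈ g.cells ι,
      F p (g.join ν x) ≤ G p (g.join ν x)) : g.csum F ≤ g.csum G := by
  classical
  unfold csum
  refine sum_le_sum fun p hp => sum_le_sum fun ι hι => sum_le_sum fun ν hν => ?_
  by_cases hc : g.Cls p ι ν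
  · simp only [ind, hc, if_true, one_mul]
    exact sum_le_sum fun x hx => hF p hp ι hι ν (mem_powerset.1 hν) hc x hx
  · simp [ind, hc]

theorem csum_add (F G : ℕ → Finset ℕ → ℝ) :
    g.csum (fun p ν => F p ν + G p ν) = g.csum F + g.csum G := by
  simp only [csum, sum_add_distrib, mul_add]

theorem csum_mul (a : ℝ) (F : ℕ → Finset ℕ → ℝ) :
    g.csum (fun p ν => a * F p ν) = a * g.csum F := by
  simp only [csum, mul_sum]
  refine sum_congr rfl fun p _ => sum_congr rfl fun ι _ => sum_congr rfl fun ν _ =>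
    sum_congr rfl fun x _ => by ring

/-- Size of the members of the family: `valid_min_two` if `ν` has two elements, otherwise
`z y₂ ≤ D`. -/
theorem fam_le (h : g.OK) {p : ℕ} {ν : Finset ℕ} (hp : p ∈ g.P) (hν : ν ⊆ g.P) (hF : g.Fam p ν) :
    (pr ν : ℝ) * p ≤ g.D ∧ g.D < (pr ν : ℝ) * p * g.Z ^ 2 := by
  obtain ⟨⟨hlt, hv, he, hM⟩, -, hy, -⟩ := hF
  have hz0 : 0 < g.z := ((Real.exp_pos _).trans_le h.top).trans_le h.Xz
  have hw : 0 ≤ g.w := by linarith [h.w10]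
  have hp0 : (0 : ℝ) ≤ p := Nat.cast_nonneg p
  have hpr : (0 : ℝ) ≤ pr ν := Nat.cast_nonneg _
  constructor
  · have hne : ν.Nonempty := by
      rw [nonempty_iff_ne_empty]
      rintro rfl
      simp at he
    by_cases h2 : 2 ≤ ν.card
    · have hm := min'_mem ν hne
      have h3 := hlt _ hm
      refine le_trans (mul_le_mul_of_nonneg_left ?_ hpr)
        (valid_min_two hv hm (fun q hq => min'_le ν q hq) (by omega) h2)
      exact_mod_cast h3.le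
    · have h1 : ν.card = 1 := by
        have := card_pos.2 hne
        omega
      obtain ⟨q, rfl⟩ := card_eq_one.1 h1
      have hq := ((mem_primesIoc hw hz0.le).1 (hν (mem_singleton_self q))).2.2
      have e : pr {q} = q := prod_singleton _ _
      rw [e]
      refine le_trans (mul_le_mul hq ?_ hp0 hz0.le) h.zD
      have t2 : (2 : ℝ) ≤ g.t := by exact_mod_cast h.t2
      calc (p : ℝ) ≤ g.y₂ := hy
        _ ≤ g.y₂ ^ 3 := le_self_pow₀ h.y0 (by norm_num)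
        _ ≤ Real.exp g.t := h.yt
        _ ≤ _ := Real.exp_le_exp.2 (le_self_pow₀ (by linarith) (by omega))
  · refine hM.trans_le ?_
    have h1 : (p : ℝ) ^ 2 ≤ g.Z ^ 2 := pow_le_pow_left₀ hp0 (hy.trans h.yZ) 2
    calc (pr ν : ℝ) * (p : ℝ) ^ 3 = pr ν * p * (p : ℝ) ^ 2 := by ring
      _ ≤ _ := mul_le_mul_of_nonneg_left h1 (mul_nonneg hpr hp0)

theorem OK.basic (h : g.OK) : 1 ≤ g.Z ∧ 1 ≤ g.Xt ∧ g.z ≤ g.D ∧ 1 ≤ g.D ∧ g.w ≤ g.z ∧ 1 ≤ g.J :=
  cls96_basic h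

end AP

end Crest.Agent.R001
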