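import Crest.Agent.R001.Prim

set_option autoImplicit false

namespace Crest.Agent.R001

open Finset Filter Crest.Agent.R008 Crest.Agent.R026

theorem cnt43_lam_le (n : ℕ) : lam n ≤ 1 := by
  unfold lam
  rcases Nat.eq_zero_or_pos n with rfl | hn
  · simp
  rw [ArithmeticFunction.liouville_apply hn.ne']
  push_cast
  rcases neg_one_pow_eq_or ℝ (ArithmeticFunction.cardFactors n) with h | h <;> rw [h] <;> norm_num

open Classical in
theorem cnt43_le_card (p : ℕ) (x : ℝ) :
    cnt p x ≤ 2 * (((natIoc 0 x).filter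
      (fun m => ∀ q : ℕ, q.Prime → q ∣ m → p ≤ q)).card : ℝ) := by
  rw [← sum_ind, mul_sum]
  unfold cnt
  refine sum_le_sum fun m _ => ?_
  have h1 := cnt43_lam_le m
  have h2 := ind_nonneg (∀ q : ℕ, q.Prime → q ∣ m → p ≤ q)
  nlinarith

/-- The upper bound sieve for `p`-rough numbers up to `x ≥ p²`. -/
theorem cnt43_big : ∃ C : ℝ, 0 < C ∧ ∀ (p : ℕ) (x : ℝ), 2 ≤ p → (p : ℝ) ^ 2 ≤ x →
    cnt p x ≤ C * (x / Real.log p) := by
  classical
  obtain ⟨C, hC, hs⟩ := R020.svAuxA_upper
  obtain ⟨K, hK, hm⟩ := mertens2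
  have hl6 : 0 < Real.log 6 := Real.log_pos (by norm_num)
  have hl7 : 0 < Real.log 7 := Real.log_pos (by norm_num)
  refine ⟨2 * (12 * Real.log 7 + (C * 2 * (12 * Real.exp K * Real.log 6) + 1)), by positivity,
    fun p x hp hx => ?_⟩
  have hp2 : (2 : ℝ) ≤ p := by exact_mod_cast hp
  have hp0 : (0 : ℝ) < p := by linarith
  have hx4 : (4 : ℝ) ≤ x := by nlinarith
  have hx0 : 0 < x := by linarith
  have hL : 0 < Real.log p := Real.log_pos (by linarith)
  have hq : 0 < x / Real.log p := by positivity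
  refine (cnt43_le_card p x).trans ?_
  rw [mul_assoc]
  refine mul_le_mul_of_nonneg_left ?_ (by norm_num)
  set A := (natIoc 0 x).filter (fun m => ∀ q : ℕ, q.Prime → q ∣ m → p ≤ q) with hA
  have hE : 0 < C * 2 * (12 * Real.exp K * Real.log 6) := by positivity
  by_cases hsm : Real.log p ≤ 12 * Real.log 7
  · have h1 : (A.card : ℝ) ≤ x := by
      have : A.card ≤ ⌊x⌋₊ := by
        refine (card_filter_le _ _).trans ?_
        simp [natIoc]
      exact (Nat.cast_le.2 this).trans (Nat.floor_le hx0.le)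
    have h2 : x ≤ 12 * Real.log 7 * (x / Real.log p) := by
      rw [← mul_div_assoc, le_div_iff₀ hL]; nlinarith
    nlinarith
  push Not at hsm
  set z : ℝ := Real.exp (Real.log p / 12) with hz
  have hz7 : 7 ≤ z := by
    rw [hz, ← Real.exp_log (show (0 : ℝ) < 7 by norm_num)]
    exact Real.exp_le_exp.2 (by linarith)
  have hz12 : z ^ 12 = p := by
    rw [hz, ← Real.exp_nat_mul]
    rw [show ((12 : ℕ) : ℝ) * (Real.log p / 12) = Real.log p by push_cast; ring, Real.exp_log hp0]
  have hzp : z < p := by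
    rw [hz]
    calc Real.exp (Real.log p / 12) < Real.exp (Real.log p) := Real.exp_lt_exp.2 (by linarith)
      _ = p := Real.exp_log hp0
  have hlz : Real.log z = Real.log p / 12 := by rw [hz, Real.log_exp]
  have h1 := hs (fun q n => q ∣ n) (fun _ => 1) z (primesIoc 6 z) A (⌊x⌋₊ + 1) (by linarith)
    (fun q hq => by
      obtain ⟨a, b, c⟩ := (mem_primesIoc (by norm_num) (by linarith)).1 hq
      have b' : 6 < q := by exact_mod_cast b
      refine ⟨a, b', c, by norm_num, {0}, by simp, fun t ht => ?_, fun n => ?_⟩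
      · rw [mem_singleton.1 ht]; exact a.pos
      · simp [Nat.dvd_iff_mod_eq_zero])
    (fun n hn => by
      obtain ⟨a, b⟩ := mem_filter.1 hn
      refine ⟨?_, fun q hq hd => ?_⟩
      · unfold natIoc at a
        have := (mem_Ioc.1 a).2
        omega
      · obtain ⟨a', -, c⟩ := (mem_primesIoc (by norm_num) (by linarith)).1 hq
        have : (p : ℝ) ≤ q := by exact_mod_cast b q a' hd
        linarith)
  have h2 := (abs_le.1 (hm 6 z (by norm_num) (by linarith))).1
  have hlz0 : 0 < Real.log z := by rw [hlz]; positivity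
  have h3 : Real.exp (-∑ q ∈ primesIoc 6 z, (((1 : ℕ) : ℝ)) / q) ≤
      12 * Real.exp K * Real.log 6 / Real.log p := by
    have : -∑ q ∈ primesIoc 6 z, (((1 : ℕ) : ℝ)) / q ≤
        K + Real.log (Real.log 6) - Real.log (Real.log z) := by
      push_cast; linarith
    refine (Real.exp_le_exp.2 this).trans (le_of_eq ?_)
    rw [Real.exp_sub, Real.exp_add, Real.exp_log hl6, Real.exp_log hlz0, hlz]
    field_simp
  have h4 : (((⌊x⌋₊ + 1 : ℕ)) : ℝ) ≤ 2 * x := by
    push_cast
    have := Nat.floor_le hx0.le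
    linarith
  have h5 : (p : ℝ) ≤ x / Real.log p := by
    rw [le_div_iff₀ hL]
    have := Real.log_le_sub_one_of_pos hp0
    nlinarith
  have h6 : C * (((⌊x⌋₊ + 1 : ℕ)) : ℝ) * Real.exp (-∑ q ∈ primesIoc 6 z, (((1 : ℕ) : ℝ)) / q) ≤
      C * (2 * x) * (12 * Real.exp K * Real.log 6 / Real.log p) :=
    mul_le_mul (mul_le_mul_of_nonneg_left h4 (by linarith)) h3 (Real.exp_pos _).le (by positivity)
  have h7 : C * (2 * x) * (12 * Real.exp K * Real.log 6 / Real.log p) =
      C * 2 * (12 * Real.exp K * Real.log 6) * (x / Real.log p) := by ring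
  have h8 : 0 ≤ 12 * Real.log 7 * (x / Real.log p) := by positivity
  rw [hz12] at h1
  nlinarith

end Crest.Agent.R001
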