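import Crest.Agent.R001.Prim

set_option autoImplicit false

namespace Crest.Agent.R001

open Finset Filter Crest.Agent.R008 Crest.Agent.R026

theorem cnt96_lam_prime {p : ℕ} (hp : p.Prime) : lam p = -1 := by
  unfold lam
  rw [ArithmeticFunction.liouville_apply hp.ne_zero, ArithmeticFunction.cardFactors_apply_prime hp]
  simp

theorem cnt96_lam_le (n : ℕ) : lam n ≤ 1 := by
  unfold lam
  rcases Nat.eq_zero_or_pos n with rfl | hn
  · simp
  rw [ArithmeticFunction.liouville_apply hn.ne']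
  push_cast
  rcases neg_one_pow_eq_or ℝ (ArithmeticFunction.cardFactors n) with h | h <;> rw [h] <;> norm_num

theorem cnt96_pt {p m : ℕ} (hm : 1 ≤ m) (hm3 : m < p ^ 3) :
    ind (∀ q : ℕ, q.Prime → q ∣ m → p ≤ q) * (1 + lam m) ≤ 2 * ind (m = 1) +
      2 * ind (∃ p₁ p₂ : ℕ, p₁.Prime ∧ p₂.Prime ∧ p ≤ p₁ ∧ p₁ ≤ p₂ ∧ m = p₁ * p₂) := by
  have hl := cnt96_lam_le m
  have h1 := ind_nonneg (m = 1)
  have h2 := ind_nonneg (∃ p₁ p₂ : ℕ, p₁.Prime ∧ p₂.Prime ∧ p ≤ p₁ ∧ p₁ ≤ p₂ ∧ m = p₁ * p₂)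
  by_cases hr : ∀ q : ℕ, q.Prime → q ∣ m → p ≤ q
  swap
  · rw [ind_neg hr, zero_mul]; positivity
  rw [ind_pos hr, one_mul]
  by_cases hm1 : m = 1
  · rw [ind_pos hm1]; linarith
  have hp1 : m.minFac.Prime := Nat.minFac_prime hm1
  obtain ⟨k, hk⟩ := Nat.minFac_dvd m
  by_cases hk1 : k = 1
  · have : m.Prime := by rw [hk, hk1, mul_one]; exact hp1
    rw [cnt96_lam_prime this]; linarith
  have hp2 : k.minFac.Prime := Nat.minFac_prime hk1
  obtain ⟨l, hl'⟩ := Nat.minFac_dvd k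
  have hkm : k ∣ m := Dvd.intro_left _ hk.symm
  have hd2 : k.minFac ∣ m := (Nat.minFac_dvd k).trans hkm
  have a1 := hr _ hp1 (Nat.minFac_dvd m)
  have a2 := hr _ hp2 hd2
  by_cases hl1 : l = 1
  · have : ∃ p₁ p₂ : ℕ, p₁.Prime ∧ p₂.Prime ∧ p ≤ p₁ ∧ p₁ ≤ p₂ ∧ m = p₁ * p₂ := by
      refine ⟨m.minFac, k.minFac, hp1, hp2, a1, Nat.minFac_le_of_dvd hp2.two_le hd2, ?_⟩
      rw [hl1, mul_one] at hl'
      rw [← hl']; exact hk
    rw [ind_pos this]; linarith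
  exfalso
  have hp3 : l.minFac.Prime := Nat.minFac_prime hl1
  have hlk : l ∣ k := Dvd.intro_left _ hl'.symm
  have a3 := hr _ hp3 ((Nat.minFac_dvd l).trans (hlk.trans hkm))
  have hl0 : 0 < l := Nat.pos_of_dvd_of_pos (hlk.trans hkm) hm
  have a4 : p ≤ l := a3.trans (Nat.minFac_le hl0)
  have a5 : p * (p * p) ≤ m.minFac * (k.minFac * l) :=
    Nat.mul_le_mul a1 (Nat.mul_le_mul a2 a4)
  rw [← hl', ← hk] at a5
  have : p ^ 3 = p * (p * p) := by ring
  omega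

theorem cnt96_cnt3 : ∃ C : ℝ, 0 < C ∧ ∀ (p : ℕ) (x : ℝ), 3 ≤ p → 0 < x → x < (p : ℝ) ^ 3 →
    cnt p x ≤ 2 * ind (1 ≤ x) + ind ((p : ℝ) ^ 2 ≤ x) *
      (C * (x * (Real.log (x / (p : ℝ) ^ 2) + 1) / Real.log p ^ 2)) := by
  classical
  obtain ⟨C₁, hC₁, hpi⟩ := pi_le
  obtain ⟨C₂, hC₂, hwin⟩ := win_le
  refine ⟨2 * C₁ * (C₂ + 1), by positivity, fun p x hp hx hx3 => ?_⟩
  have hp3 : (3 : ℝ) ≤ p := by exact_mod_cast hp
  have hp0 : (0 : ℝ) < p := by linarith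
  have hL : 1 ≤ Real.log p := by
    rw [Real.le_log_iff_exp_le hp0]
    linarith [Real.exp_one_lt_d9]
  have hL0 : 0 < Real.log p := by linarith
  set Q : ℕ → Prop := fun m =>
    ∃ p₁ p₂ : ℕ, p₁.Prime ∧ p₂.Prime ∧ p ≤ p₁ ∧ p₁ ≤ p₂ ∧ m = p₁ * p₂ with hQ
  have h1 : cnt p x ≤ ∑ m ∈ natIoc 0 x, (2 * ind (m = 1) + 2 * ind (Q m)) := by
    refine sum_le_sum fun m hm => ?_
    obtain ⟨a1, a2⟩ := (mem_natIoc le_rfl hx.le).1 hm
    have a3 : (m : ℝ) < (p : ℝ) ^ 3 := a2.trans_lt hx3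
    exact cnt96_pt (by exact_mod_cast a1) (by exact_mod_cast a3)
  rw [sum_add_distrib, ← mul_sum, ← mul_sum] at h1
  have h2 : ∑ m ∈ natIoc 0 x, ind (m = 1) ≤ ind (1 ≤ x) := by
    by_cases h : 1 ≤ x
    · rw [ind_pos h, sum_ind]
      have : ((natIoc 0 x).filter (fun m => m = 1)).card ≤ 1 :=
        card_le_one.2 fun a ha b hb => by rw [(mem_filter.1 ha).2, (mem_filter.1 hb).2]
      exact_mod_cast this
    · rw [ind_neg h]
      refine (sum_eq_zero fun m hm => ind_neg ?_).le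
      rintro rfl
      exact h (by simpa using ((mem_natIoc le_rfl hx.le).1 hm).2)
  set S₁ : Finset ℕ := (primesIoc 0 x).filter (fun q => p ≤ q ∧ (q : ℝ) ^ 2 ≤ x) with hS₁
  have hmem : ∀ q ∈ S₁, q.Prime ∧ p ≤ q ∧ (q : ℝ) ^ 2 ≤ x := fun q hq => by
    obtain ⟨a1, a2⟩ := mem_filter.1 hq
    exact ⟨((mem_primesIoc le_rfl hx.le).1 a1).1, a2⟩
  have h3 : ∑ m ∈ natIoc 0 x, ind (Q m) ≤ ∑ q ∈ S₁, ((primesIoc 0 (x / q)).card : ℝ) := by
    rw [sum_ind]
    have hsub : (natIoc 0 x).filter Q ⊆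
        S₁.biUnion (fun q => (primesIoc 0 (x / q)).image (fun r => q * r)) := by
      intro m hm
      obtain ⟨a1, p₁, p₂, b1, b2, b3, b4, rfl⟩ := mem_filter.1 hm
      have a2 := ((mem_natIoc le_rfl hx.le).1 a1).2
      push_cast at a2
      have c1 : (1 : ℝ) ≤ p₁ := by exact_mod_cast b1.one_le
      have c2 : (1 : ℝ) ≤ p₂ := by exact_mod_cast b2.one_le
      have c3 : (p₁ : ℝ) ≤ p₂ := by exact_mod_cast b4
      refine mem_biUnion.2 ⟨p₁, mem_filter.2 ⟨(mem_primesIoc le_rfl hx.le).2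
        ⟨b1, by linarith, by nlinarith⟩, b3, by nlinarith⟩, mem_image.2 ⟨p₂, ?_, rfl⟩⟩
      refine (mem_primesIoc le_rfl (by positivity)).2 ⟨b2, by linarith, ?_⟩
      rw [le_div_iff₀ (by linarith)]
      linarith
    have := (card_le_card hsub).trans (card_biUnion_le.trans
      (sum_le_sum fun q _ => card_image_le (s := primesIoc 0 (x / q)) (f := fun r => q * r)))
    exact_mod_cast this
  have h4 : ∑ q ∈ S₁, ((primesIoc 0 (x / q)).card : ℝ) ≤ C₁ * x / Real.log p * mu S₁ := by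
    unfold mu
    rw [mul_sum]
    refine sum_le_sum fun q hq => ?_
    obtain ⟨a1, a2, a3⟩ := hmem q hq
    have b1 : (p : ℝ) ≤ q := by exact_mod_cast a2
    have b0 : (0 : ℝ) < q := by linarith
    have b2 : (q : ℝ) ≤ x / q := by rw [le_div_iff₀ b0]; nlinarith
    have b3 := hpi (x / q) (primesIoc 0 (x / q)) (by linarith) fun r hr =>
      ⟨((mem_primesIoc le_rfl (by positivity)).1 hr).1,
        ((mem_primesIoc le_rfl (by positivity)).1 hr).2.2⟩
    have b4 : Real.log p ≤ Real.log (x / q) := Real.log_le_log hp0 (b1.trans b2)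
    refine b3.trans ((div_le_div_of_nonneg_left (by positivity) hL0 b4).trans (le_of_eq ?_))
    ring
  by_cases hx2 : (p : ℝ) ^ 2 ≤ x
  swap
  · have hS : S₁ = ∅ := by
      refine eq_empty_of_forall_notMem fun q hq => hx2 ?_
      obtain ⟨_, a2, a3⟩ := hmem q hq
      have b1 : (p : ℝ) ≤ q := by exact_mod_cast a2
      exact (pow_le_pow_left₀ hp0.le b1 2).trans a3
    rw [hS, sum_empty] at h3
    rw [ind_neg hx2, zero_mul]
    linarith
  rw [ind_pos hx2, one_mul]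
  have hl : 0 ≤ Real.log (x / (p : ℝ) ^ 2) :=
    Real.log_nonneg (by rw [le_div_iff₀ (by positivity)]; linarith)
  have h5 : mu (S₁.erase p) ≤ (Real.log (x / (p : ℝ) ^ 2) / 2 + C₂) / Real.log p := by
    refine hwin (Real.log p) (Real.log p) _ _ hL (by linarith) fun q hq => ?_
    obtain ⟨a0, a1⟩ := mem_erase.1 hq
    obtain ⟨a1, a2, a3⟩ := hmem q a1
    have b1 : (p : ℝ) < q := by exact_mod_cast lt_of_le_of_ne a2 (Ne.symm a0)
    have b2 : Real.log p < Real.log q := Real.log_lt_log hp0 b1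
    refine ⟨a1, b2, b2, ?_⟩
    have b3 : Real.log ((q : ℝ) ^ 2) ≤ Real.log x := Real.log_le_log (by
      have : (0 : ℝ) < q := by linarith
      positivity) a3
    rw [Real.log_div hx.ne' (by positivity), Real.log_pow]
    rw [Real.log_pow] at b3
    push_cast at b3 ⊢
    linarith
  have h6 : mu S₁ ≤ 1 / Real.log p + mu (S₁.erase p) := by
    have a1 : (1 : ℝ) / p ≤ 1 / Real.log p :=
      one_div_le_one_div_of_le hL0 (by linarith [Real.log_le_sub_one_of_pos hp0])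
    by_cases hpS : p ∈ S₁
    · unfold mu
      rw [← add_sum_erase S₁ _ hpS]
      linarith
    · rw [erase_eq_of_notMem hpS]
      have : 0 ≤ 1 / Real.log p := by positivity
      linarith
  have h7 : mu S₁ ≤ (C₂ + 1) * (Real.log (x / (p : ℝ) ^ 2) + 1) / Real.log p := by
    refine h6.trans ((add_le_add_right h5 _).trans ?_)
    rw [← add_div]
    refine div_le_div_of_nonneg_right ?_ hL0.le
    nlinarith
  have h8 := mul_le_mul_of_nonneg_left h7 (show 0 ≤ C₁ * x / Real.log p by positivity)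
  have e : 2 * C₁ * (C₂ + 1) * (x * (Real.log (x / (p : ℝ) ^ 2) + 1) / Real.log p ^ 2) =
      2 * (C₁ * x / Real.log p * ((C₂ + 1) * (Real.log (x / (p : ℝ) ^ 2) + 1) / Real.log p)) := by
    field_simp
  rw [e]
  linarith

end Crest.Agent.R001
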