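import Crest.Agent.R001.Prim
import Crest.Agent.R001.CntAux43
import Crest.Agent.R001.CntAux96

set_option autoImplicit false

namespace Crest.Agent.R001

open Finset Filter Crest.Agent.R008 Crest.Agent.R026

/-! # Rough numbers with an even number of prime factors -/

theorem lam_mul (m n : ℕ) : lam (m * n) = lam m * lam n := by
  unfold lam
  rw [ArithmeticFunction.liouville_apply_mul, Int.cast_mul]

theorem lam_prime {p : ℕ} (hp : p.Prime) : lam p = -1 := cnt96_lam_prime hp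

theorem lam_one : lam 1 = 1 := by
  unfold lam
  rw [ArithmeticFunction.liouville_apply_one, Int.cast_one]

theorem abs_lam_le (n : ℕ) : |lam n| ≤ 1 := by
  unfold lam
  rcases Nat.eq_zero_or_pos n with rfl | hn
  · simp
  rw [ArithmeticFunction.liouville_apply hn.ne']
  simp

theorem lam_pr {s : Finset ℕ} (hs : ∀ p ∈ s, p.Prime) : lam (pr s) = (-1) ^ s.card := by
  classical
  induction s using Finset.induction_on with
  | empty => simpa [pr] using lam_one
  | insert a s ha ih =>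
    have h1 : pr (insert a s) = a * pr s := prod_insert ha
    rw [h1, lam_mul, lam_prime (hs a (mem_insert_self _ _)),
      ih fun p hp => hs p (mem_insert_of_mem hp), card_insert_of_notMem ha, pow_succ]
    ring

theorem cnt_nonneg (p : ℕ) (x : ℝ) : 0 ≤ cnt p x :=
  sum_nonneg fun m _ =>
    mul_nonneg (ind_nonneg _) (by have := (abs_le.1 (abs_lam_le m)).1; linarith)

/-- A number `1 < m < p²` all of whose prime factors are at least `p` is prime. -/
theorem cnt1 {p : ℕ} {x : ℝ} (hx : x < (p : ℝ) ^ 2) : cnt p x ≤ 2 * ind (1 ≤ x) := by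
  classical
  by_cases h1 : 1 ≤ x
  swap
  · have h2 : natIoc 0 x = ∅ := by
      rw [natIoc, Nat.floor_eq_zero.2 (not_le.1 h1)]
      simp
    rw [cnt, h2, sum_empty, ind_neg h1, mul_zero]
  have key : ∀ m ∈ natIoc 0 x, ind (∀ q : ℕ, q.Prime → q ∣ m → p ≤ q) * (1 + lam m) ≤
      if m = 1 then 2 else 0 := by
    intro m hm
    obtain ⟨h2, h3⟩ := (mem_natIoc le_rfl (by linarith)).1 hm
    split_ifs with hm1
    · rw [hm1, lam_one]
      have := ind_le_one (∀ q : ℕ, q.Prime → q ∣ 1 → p ≤ q)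
      linarith
    by_cases hr : ∀ q : ℕ, q.Prime → q ∣ m → p ≤ q
    swap
    · rw [ind_neg hr, zero_mul]
    have h4 : m.Prime := by
      by_contra h5
      have h6 := Nat.minFac_sq_le_self (n := m) (by exact_mod_cast h2) h5
      have h7 := Nat.pow_le_pow_left (hr _ (Nat.minFac_prime hm1) (Nat.minFac_dvd m)) 2
      have h8 : ((p ^ 2 : ℕ) : ℝ) ≤ m := by exact_mod_cast h7.trans h6
      push_cast at h8
      linarith
    rw [lam_prime h4]
    simp
  refine (sum_le_sum key).trans ?_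
  rw [sum_ite_eq', ind_pos h1]
  split_ifs <;> norm_num

/-- For `x < p²` use `cnt1`; for bounded `p` the trivial bound `2 x`; otherwise
`R020.svAuxA_upper` with `ω = 1`, the primes `7 ≤ q ≤ z = p^(1/13)` (`z^12 ≤ x / log p`),
and `mertens2`. -/
theorem cnt2 : ∃ C : ℝ, 0 < C ∧ ∀ (p : ℕ) (x : ℝ), 2 ≤ p → 0 < x →
    cnt p x ≤ 2 * ind (1 ≤ x) + C * (x / Real.log p) := by
  obtain ⟨C, hC, h⟩ := cnt43_big
  refine ⟨C, hC, fun p x hp hx => ?_⟩
  have hL : 0 < Real.log p := Real.log_pos (by exact_mod_cast (show 1 < p by omega))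
  have h0 : 0 ≤ C * (x / Real.log p) := by positivity
  have h1 := ind_nonneg (1 ≤ x)
  rcases lt_or_ge x ((p : ℝ) ^ 2) with h2 | h2
  · have := cnt1 h2
    linarith
  · have := h p x hp h2
    linarith

/-- For `x < p³` only `m = 1` and `m = p₁ p₂`, `p ≤ p₁ ≤ p₂` contribute.  The number of the latter
is at most `∑_{p ≤ p₁ ≤ √x} π(x / p₁) ≤ C (x / log p) ∑ 1 / p₁` (`pi_le`, `x / p₁ ≥ p`), and the sum
over `p₁` is at most `1/p + (log (x/p²)/2 + C) / log p` (`win_le`; small `p` trivially). -/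
theorem cnt3 : ∃ C : ℝ, 0 < C ∧ ∀ (p : ℕ) (x : ℝ), 3 ≤ p → 0 < x → x < (p : ℝ) ^ 3 →
    cnt p x ≤ 2 * ind (1 ≤ x) + ind ((p : ℝ) ^ 2 ≤ x) *
      (C * (x * (Real.log (x / (p : ℝ) ^ 2) + 1) / Real.log p ^ 2)) :=
  cnt96_cnt3

theorem cnt63_pairs (p : ℕ) {x u v : ℝ} (hx : 0 < x) (hu : 0 ≤ u) (huv : u ≤ v) (hp : (p : ℝ) ≤ u) :
    ∑ p₁ ∈ primesIoc u v, ((primesIoc v (x / p₁)).card : ℝ) ≤ cnt p x := by
  classical
  have hv : 0 ≤ v := hu.trans huv
  set S : Finset (Σ _ : ℕ, ℕ) := (primesIoc u v).sigma (fun p₁ => primesIoc v (x / p₁)) with hS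
  have hmem : ∀ a ∈ S, a.1.Prime ∧ a.2.Prime ∧ u < a.1 ∧ (a.1 : ℝ) ≤ v ∧ v < a.2 ∧
      ((a.1 * a.2 : ℕ) : ℝ) ≤ x := by
    intro a ha
    rw [hS, mem_sigma] at ha
    obtain ⟨h1, h2, h3⟩ := (mem_primesIoc hu hv).1 ha.1
    obtain ⟨h4, h5, h6⟩ := (mem_primesIoc hv (by positivity)).1 ha.2
    have h7 : (0 : ℝ) < a.1 := by exact_mod_cast h1.pos
    refine ⟨h1, h4, h2, h3, h5, ?_⟩
    rw [le_div_iff₀ h7] at h6
    push_cast; linarith
  have hinj : Set.InjOn (fun a : (Σ _ : ℕ, ℕ) => a.1 * a.2) S := by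
    intro a ha b hb hab
    obtain ⟨a1, a2, -, a4, a5, -⟩ := hmem a ha
    obtain ⟨b1, b2, -, b4, b5, -⟩ := hmem b hb
    have hab' : a.1 * a.2 = b.1 * b.2 := hab
    have h1 : a.1 = b.1 := by
      have : a.1 ∣ b.1 * b.2 := hab' ▸ Dvd.intro _ rfl
      rcases (Nat.Prime.dvd_mul a1).1 this with h | h
      · exact (Nat.prime_dvd_prime_iff_eq a1 b1).1 h
      · have h' := (Nat.prime_dvd_prime_iff_eq a1 b2).1 h
        rw [h'] at a4; linarith
    have h2 : a.2 = b.2 := by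
      rw [h1] at hab'
      exact Nat.eq_of_mul_eq_mul_left b1.pos hab'
    obtain ⟨a, a'⟩ := a
    obtain ⟨b, b'⟩ := b
    simp only at h1 h2
    rw [h1, h2]
  have hc : ∑ p₁ ∈ primesIoc u v, ((primesIoc v (x / p₁)).card : ℝ) =
      ∑ _m ∈ S.image (fun a => a.1 * a.2), (1 : ℝ) := by
    rw [sum_const, card_image_of_injOn hinj, hS, card_sigma]
    simp
  rw [hc]
  unfold cnt
  have hnn : ∀ m : ℕ, 0 ≤ ind (∀ q : ℕ, q.Prime → q ∣ m → p ≤ q) * (1 + lam m) := fun m =>
    mul_nonneg (ind_nonneg _) (by have := (abs_le.1 (abs_lam_le m)).1; linarith)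
  refine le_trans (sum_le_sum fun m hm => ?_) (sum_le_sum_of_subset_of_nonneg
    (s := S.image (fun a => a.1 * a.2)) (fun m hm => ?_) fun m _ _ => hnn m)
  · obtain ⟨a, ha, rfl⟩ := mem_image.1 hm
    obtain ⟨a1, a2, a3, a4, a5, -⟩ := hmem a ha
    rw [ind_pos, lam_mul, lam_prime a1, lam_prime a2]
    · norm_num
    · intro q hq hd
      have : (p : ℝ) ≤ q := by
        rcases (Nat.Prime.dvd_mul hq).1 hd with h | h
        · rw [(Nat.prime_dvd_prime_iff_eq hq a1).1 h]; linarith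
        · rw [(Nat.prime_dvd_prime_iff_eq hq a2).1 h]; linarith
      exact_mod_cast this
  · obtain ⟨a, ha, rfl⟩ := mem_image.1 hm
    obtain ⟨a1, a2, -, -, -, a6⟩ := hmem a ha
    refine (mem_natIoc le_rfl hx.le).2 ⟨?_, a6⟩
    exact_mod_cast Nat.mul_pos a1.pos a2.pos

theorem cnt63_card {v y : ℝ} (hv : 0 ≤ v) (hy : 0 ≤ y) :
    ((primesIoc 0 y).card : ℝ) - v ≤ (primesIoc v y).card := by
  classical
  have h1 : primesIoc 0 y ⊆ primesIoc 0 v ∪ primesIoc v y := by
    intro q hq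
    obtain ⟨a, b, c⟩ := (mem_primesIoc le_rfl hy).1 hq
    rcases le_or_gt (q : ℝ) v with h | h
    · exact mem_union_left _ ((mem_primesIoc le_rfl hv).2 ⟨a, b, h⟩)
    · exact mem_union_right _ ((mem_primesIoc hv hy).2 ⟨a, h, c⟩)
  have h2 : ((primesIoc 0 y).card : ℝ) ≤ (primesIoc 0 v).card + (primesIoc v y).card := by
    exact_mod_cast (card_le_card h1).trans (card_union_le _ _)
  have h3 := card_primesIoc_le 0 hv
  linarith

/-- Count `m = p₁ p₂` with `x^(1/4) < p₁ ≤ x^(1/3) < p₂ ≤ x / p₁` (injective in `(p₁, p₂)`),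
using `pi_asymp` and `win`. -/
theorem cnt4 (h : HP) : ∃ c x₀ : ℝ, 0 < c ∧ ∀ (p : ℕ) (x : ℝ), x₀ ≤ x → (p : ℝ) ^ 4 ≤ x →
    c * (x / Real.log x) ≤ cnt p x := by
  obtain ⟨C, hC, hpi⟩ := pi_asymp h
  obtain ⟨C', hC', hwin⟩ := win
  have hl : 0 < Real.log (4 / 3) := Real.log_pos (by norm_num)
  refine ⟨Real.log (4 / 3) / 8, Real.exp (72 + 3 * C + 8 * C' / Real.log (4 / 3)), by positivity,
    fun p x hx hp => ?_⟩
  have hx0 : 0 < x := (Real.exp_pos _).trans_le hx
  obtain ⟨L, hL⟩ : ∃ L, L = Real.log x := ⟨_, rfl⟩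
  have hxL : x = Real.exp L := by rw [hL, Real.exp_log hx0]
  have hL0 : 72 + 3 * C + 8 * C' / Real.log (4 / 3) ≤ L := by
    rw [hL]; exact (Real.le_log_iff_exp_le hx0).2 hx
  have hq : 0 ≤ 8 * C' / Real.log (4 / 3) := by positivity
  have hL72 : 72 ≤ L := by linarith
  have hLC : 3 * C ≤ L := by linarith
  have hLC' : 8 * C' ≤ L * Real.log (4 / 3) := by
    rw [← div_le_iff₀ hl]; linarith
  have hpu : (p : ℝ) ≤ Real.exp (L / 4) := by
    refine le_of_pow_le_pow_left₀ (n := 4) (by norm_num) (Real.exp_pos _).le ?_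
    rw [← Real.exp_nat_mul]
    have : ((4 : ℕ) : ℝ) * (L / 4) = L := by push_cast; ring
    rw [this, ← hxL]; exact hp
  have huv : Real.exp (L / 4) ≤ Real.exp (L / 3) := Real.exp_le_exp.2 (by linarith)
  refine le_trans ?_ (cnt63_pairs p hx0 (Real.exp_pos _).le huv hpu)
  have hmu : Real.log (4 / 3) / 2 ≤ mu (primesIoc (Real.exp (L / 4)) (Real.exp (L / 3))) := by
    have h1 := (abs_le.1 (hwin (L / 4) (L / 3) (by linarith) (by linarith))).1
    have h2 : L / 3 / (L / 4) = 4 / 3 := by field_simp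
    have h3 : C' / (L / 4) ≤ Real.log (4 / 3) / 2 := by
      rw [div_le_iff₀ (by linarith)]; linarith
    rw [h2] at h1
    linarith
  have hE : 4 * L ≤ Real.exp (L / 3) := by
    have := Real.quadratic_le_exp_of_nonneg (x := L / 3) (by linarith)
    nlinarith
  have hterm : ∀ p₁ ∈ primesIoc (Real.exp (L / 4)) (Real.exp (L / 3)),
      x / (4 * L) * (1 / p₁) ≤ ((primesIoc (Real.exp (L / 3)) (x / p₁)).card : ℝ) := by
    intro p₁ hp₁
    obtain ⟨h1, -, h3⟩ := (mem_primesIoc (Real.exp_pos _).le (Real.exp_pos _).le).1 hp₁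
    have h4 : (1 : ℝ) ≤ p₁ := by exact_mod_cast h1.one_le
    obtain ⟨y, hy⟩ : ∃ y, y = x / p₁ := ⟨_, rfl⟩
    have hy1 : Real.exp (2 * L / 3) ≤ y := by
      rw [hy, le_div_iff₀ (by linarith), hxL]
      calc Real.exp (2 * L / 3) * p₁ ≤ Real.exp (2 * L / 3) * Real.exp (L / 3) :=
            mul_le_mul_of_nonneg_left h3 (Real.exp_pos _).le
        _ = Real.exp L := by rw [← Real.exp_add]; congr 1; ring
    have hy0 : 0 < y := (Real.exp_pos _).trans_le hy1
    have hy2 : y ≤ x := by rw [hy]; exact div_le_self hx0.le h4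
    have hlo : 2 * L / 3 ≤ Real.log y := (Real.le_log_iff_exp_le hy0).2 hy1
    have hhi : Real.log y ≤ L := by rw [hL]; exact Real.log_le_log hy0 hy2
    have hl0 : 0 < Real.log y := by linarith
    have hy3 : 2 ≤ y := by
      have := Real.add_one_le_exp (2 * L / 3)
      linarith
    have h5 := (abs_le.1 (hpi y hy3)).1
    have h6 : C * y / Real.log y ^ 2 ≤ y / Real.log y / 2 := by
      rw [div_div, div_le_div_iff₀ (by positivity) (by positivity)]
      have : y * Real.log y * (2 * C) ≤ y * Real.log y * Real.log y :=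
        mul_le_mul_of_nonneg_left (by linarith) (by positivity)
      nlinarith
    have h7 : y / L ≤ y / Real.log y := div_le_div_of_nonneg_left hy0.le hl0 hhi
    have h8 : Real.exp (L / 3) ≤ y / (4 * L) := by
      rw [le_div_iff₀ (by linarith)]
      calc Real.exp (L / 3) * (4 * L) ≤ Real.exp (L / 3) * Real.exp (L / 3) :=
            mul_le_mul_of_nonneg_left hE (Real.exp_pos _).le
        _ = Real.exp (2 * L / 3) := by rw [← Real.exp_add]; congr 1; ring
        _ ≤ y := hy1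
    have h9 := cnt63_card (Real.exp_pos (L / 3)).le hy0.le
    have h10 : x / (4 * L) * (1 / p₁) = y / (4 * L) := by rw [hy]; ring
    have h11 : y / (4 * L) = y / L / 4 := by rw [div_div, mul_comm]
    rw [h10, ← hy]
    linarith
  refine le_trans ?_ (sum_le_sum hterm)
  rw [← mul_sum, ← hL]
  have h12 : Real.log (4 / 3) / 8 * (x / L) = x / (4 * L) * (Real.log (4 / 3) / 2) := by
    field_simp; ring
  rw [h12]
  exact mul_le_mul_of_nonneg_left hmu (by positivity)

end Crest.Agent.R001
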