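import Crest.Agent.R026.Defs
import Crest.Agent.R008.Mertens

set_option autoImplicit false

namespace Crest.Agent.R001

open Finset Filter Crest.Agent.R008 Crest.Agent.R026

/-!
# Row 1 (Jacobsthal's function): definitions

Overview.  `thmT`: for a fixed `w`, large `X`, `z = √X log³ X` and every integer `b` at least
`c X / log² X` integers `n ∈ [1, X]` have `n - b` free of primes in `(w, z]`.

* Rosser's tree (`valid`, `Bd`): exact identity `ident`,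
  `S = ∑_{valid} μ(d) |A_d| ± ∑_{boundary} S(A_d, p)`.
* Evaluating the identity on `1 ± λ(n)` (`SeqH`) together with a crude decay estimate (`decay`)
  gives the size of the tree (`GB`), the main term (`M1`) and the mass of the boundary with
  `log p ≍ ℓ` (`M2`, `M3`).
* `thmAB`: the boundary terms have their expected size unless the sums `∑_u e(h b / (f u v))` are
  biased; by the inverse theorem `thmB` a bias forces `b ≡ a / q` modulo the large primes of `v`.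
* `lab`, `mass_low`: hence one fraction `a / q` works for most primes, and `thmC` counts primes
  `q n - a` (zero free half plane `Re s > 7/8`).
-/

/-! ### Rosser's tree -/

/-- The elements of `s` exceeding `q`. -/
def up (s : Finset ℕ) (q : ℕ) : Finset ℕ := s.filter (fun r => q < r)

/-- The elements of `s` exceeding the real number `y`. -/
noncomputable def big (y : ℝ) (s : Finset ℕ) : Finset ℕ := s.filter (fun q : ℕ => y < (q : ℝ))

/-- Rosser's condition: `π` even is the upper bound sieve, `π` odd the lower bound sieve. -/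
def valid (π : ℕ) (M : ℝ) (s : Finset ℕ) : Prop :=
  ∀ q ∈ s, Even ((up s q).card + π) → (pr (up s q) : ℝ) * (q : ℝ) ^ 3 ≤ M

/-- `ν ∪ {p}` is a boundary node: `ν` is valid and `ν ∪ {p}` (`p` below `ν`) is not. -/
def Bd (π : ℕ) (M : ℝ) (ν : Finset ℕ) (p : ℕ) : Prop :=
  (∀ q ∈ ν, p < q) ∧ valid π M ν ∧ Even (ν.card + π) ∧ M < (pr ν : ℝ) * (p : ℝ) ^ 3

/-- The remaining budget of a node. -/
noncomputable def bud (M : ℝ) (ν : Finset ℕ) : ℝ := Real.log M - Real.log (pr ν)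

/-- The sum of the reciprocals. -/
noncomputable def mu (S : Finset ℕ) : ℝ := ∑ p ∈ S, (1 : ℝ) / p

/-- Weighted mass of the boundary. -/
noncomputable def Bm (π : ℕ) (w M T : ℝ) (φ : ℕ → ℝ) : ℝ :=
  ∑ p ∈ primesIoc w T, ∑ ν ∈ (primesIoc w T).powerset, ind (Bd π M ν p) * (φ p / (pr ν * p))

/-- Weighted mass of the boundary with a condition on the primes above `y`. -/
noncomputable def BmQ (π : ℕ) (w M T y : ℝ) (Q : Finset ℕ → Prop) (φ : ℕ → ℝ) : ℝ :=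
  ∑ p ∈ primesIoc w T, ∑ ν ∈ (primesIoc w T).powerset,
    ind (Bd π M ν p ∧ Q (big y ν)) * (φ p / (pr ν * p))

/-- The weight `1 / log p` on `(y₁, y₂]`. -/
noncomputable def phi (y₁ y₂ : ℝ) (p : ℕ) : ℝ := ind (y₁ < p ∧ (p : ℝ) ≤ y₂) / Real.log p

/-- The main term of Rosser's sieve. -/
noncomputable def Main (π : ℕ) (w M T : ℝ) : ℝ :=
  ∑ ν ∈ (primesIoc w T).powerset, ind (valid π M ν) * ((-1) ^ ν.card / pr ν)

/-- The error term for the sequences `1 ± λ`. -/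
noncomputable def Err (θ : ℝ) (π : ℕ) (w M T : ℝ) : ℝ :=
  ∑ ν ∈ (primesIoc w T).powerset, ind (valid π M ν) * (Real.exp (-(θ * bud M ν)) / pr ν)

/-- The size of the upper bound tree at the scale `L`. -/
noncomputable def Gs (r M T L : ℝ) : ℝ :=
  ∑ ν ∈ (primesIoc (Real.exp L) T).powerset,
    ind (valid 0 M ν) * (Real.exp (-(r * bud M ν / L)) / pr ν)

/-- The mass of the nodes at scale `L` with budget at most `R L`. -/
noncomputable def Tight (R M T L : ℝ) : ℝ :=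
  ∑ ν ∈ (primesIoc (Real.exp L) T).powerset, ind (valid 0 M ν ∧ bud M ν ≤ R * L) * (1 / pr ν)

/-- Sum over the dyadic scales. -/
noncomputable def Asum (M T b : ℝ) (J : ℕ) : ℝ :=
  ∑ j ∈ range J, Gs 2 M T (2 ^ j * b) / (2 ^ j * b) ^ 3

/-- Number of boundary nodes of the upper bound tree with at least two primes. -/
noncomputable def N0 (w M T : ℝ) : ℝ :=
  ∑ p ∈ primesIoc w T, ∑ ν ∈ (primesIoc w T).powerset, ind (Bd 0 M ν p ∧ ν.Nonempty)

/-- Number of boundary nodes of the lower bound tree of size at most `M`. -/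
noncomputable def N1 (w M T : ℝ) : ℝ :=
  ∑ p ∈ primesIoc w T, ∑ ν ∈ (primesIoc w T).powerset, ind (Bd 1 M ν p ∧ (pr ν : ℝ) * p ≤ M)

/-- The hypothesis of the reachability lemma. -/
def Base (w : ℝ) (φ : ℕ → ℝ) (β lo hi : ℝ) : Prop :=
  ∀ M t : ℝ, 0 < M → lo ≤ t → t ≤ hi → 6 / 5 * t ≤ Real.log M → Real.log M ≤ 27 / 10 * t →
    β ≤ Bm 0 w M (Real.exp t) φ

/-! ### The parity sequences -/

/-- Liouville's function. -/
noncomputable def lam (n : ℕ) : ℝ := ((ArithmeticFunction.liouville n : ℤ) : ℝ)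

/-- Twice the number of `m ≤ x` with an even number of prime factors, all at least `p`. -/
noncomputable def cnt (p : ℕ) (x : ℝ) : ℝ :=
  ∑ m ∈ natIoc 0 x, ind (∀ q : ℕ, q.Prime → q ∣ m → p ≤ q) * (1 + lam m)

/-- The boundary terms for the sequence `1 - (-1)^π λ(n)`, `n ≤ Y`. -/
noncomputable def BS (π : ℕ) (w M T Y : ℝ) : ℝ :=
  ∑ p ∈ primesIoc w T, ∑ ν ∈ (primesIoc w T).powerset, ind (Bd π M ν p) * cnt p (Y / (pr ν * p))

/-- The sifted sum for the sequence `1 - (-1)^π λ(n)`, `n ≤ Y`. -/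
noncomputable def Sq (π : ℕ) (T Y : ℝ) : ℝ :=
  ∑ n ∈ natIoc 0 Y, ind (Rough T n) * (1 - (-1) ^ π * lam n)

/-- The zero free half plane (row 17). -/
def QRH : Prop := ∀ (N : ℕ) [NeZero N] (χ : DirichletCharacter ℂ N) (s : ℂ), (χ ≠ 1 ∨ s ≠ 1) →
  7 / 8 < s.re → χ.LFunction s ≠ 0

/-- Primes in progressions with a power saving, explicit constants. -/
def HPc (c C : ℝ) : Prop := ∀ (x : ℝ) (m : ℕ) (a : ℤ), 1 ≤ m → (m : ℝ) ≤ x → IsCoprime a (m : ℤ) →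
  |∑ p ∈ primesIoc 0 x, ind ((m : ℤ) ∣ (p : ℤ) - a) * Real.log p - x / (m.totient : ℝ)| ≤
    C * x ^ (1 - c)

/-- Primes in progressions with a power saving. -/
def HP : Prop := ∃ c C : ℝ, 0 < c ∧ c < 1 ∧ 0 < C ∧ HPc c C

/-- Sums of Liouville's function with a power saving. -/
def HL : Prop := ∃ c C : ℝ, 0 < c ∧ c < 1 ∧ 0 < C ∧
  ∀ x : ℝ, 0 < x → |∑ n ∈ natIoc 0 x, lam n| ≤ C * x ^ (1 - c)

/-- Rosser's identity for the parity sequences. -/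
def SeqH (θ w : ℝ) : Prop := ∃ C : ℝ, 0 < C ∧ ∀ (π : ℕ) (M T Y : ℝ), w ≤ T → 0 < M → M ≤ Y →
  |Sq π T Y - V1 w * Y * Main π w M T + (-1) ^ π * BS π w M T Y| ≤ C * Y * Err θ π w M T

/-- The size of the upper bound tree. -/
def GB (θ w : ℝ) : Prop := ∃ K M₀ : ℝ, 0 < K ∧ ∀ M T : ℝ, M₀ ≤ M →
  (∀ L : ℝ, Real.log w ≤ L → Gs 2 M T L ≤ K / Real.log M ^ 2 * L ^ 2) ∧
    Err θ 0 w M T ≤ K / Real.log M ^ 2 ∧ N0 w M T ≤ K / Real.log M ^ 2 * M

/-- Everything that is needed about the threshold `w`. -/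
structure Good (θ w : ℝ) : Prop where
  θ0 : 0 < θ
  w10 : 10 ≤ w
  seq : SeqH θ w
  gb : GB θ w

/-! ### The decay estimate -/

/-- Supersolution at the nodes whose children are constrained. -/
noncomputable def KC (s : ℝ) : ℝ := Real.exp (-(11 / 10 * max (s - 59 / 20) 0))

/-- Supersolution at the nodes whose children are free. -/
noncomputable def KF (s : ℝ) : ℝ :=
  if s ≤ 99 / 25 then 8 / 25 + 44 / 125 * (99 / 25 - s) + 9 / 50 * (99 / 25 - s) ^ 2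
  else 8 / 25 * Real.exp (-(11 / 10 * (s - 99 / 25)))

/-- The supersolution at a node with `k` primes. -/
noncomputable def KK (k : ℕ) (s : ℝ) : ℝ := if Even k then KC s else KF s

/-- The clock `≈ log N`. -/
noncomputable def clk (L : ℝ) (N : ℕ) : ℝ :=
  L * ∏ p ∈ (Ioc ⌊Real.exp L⌋₊ N).filter Nat.Prime, (1 + 1 / (p : ℝ))

/-- The monotone quantity. -/
noncomputable def Gt (L M T : ℝ) (N : ℕ) : ℝ :=
  ∑ ν ∈ ((Ioc N ⌊T⌋₊).filter Nat.Prime).powerset, ind (valid 0 M ν) *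
    (bud M ν ^ (-(51 / 50) : ℝ) * KK ν.card (bud M ν / clk L N) / pr ν)

/-! ### The sifting problem -/

/-- The number of survivors. -/
noncomputable def surv (X : ℕ) (b : ℤ) (w z : ℝ) : ℝ :=
  ∑ n ∈ Icc 1 X, ind (∀ p ∈ primesIoc w z, ¬ (p : ℤ) ∣ (n : ℤ) - b)

/-- The weighted number of survivors. -/
noncomputable def Sw (N : ℕ) (b : ℤ) (P : Finset ℕ) : ℝ :=
  ∑ i ∈ Icc 1 N ×ˢ Icc 1 N, ind (∀ p ∈ P, ¬ (p : ℤ) ∣ (i.1 : ℤ) + i.2 - b)

/-- The weighted number of multiples. -/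
noncomputable def Tm (N : ℕ) (b : ℤ) (m : ℕ) : ℝ :=
  ∑ i ∈ Icc 1 N ×ˢ Icc 1 N, ind ((m : ℤ) ∣ (i.1 : ℤ) + i.2 - b)

/-- The remainder. -/
noncomputable def rm (N : ℕ) (b : ℤ) (m : ℕ) : ℝ := Tm N b m - (N : ℝ) ^ 2 / m

/-- The exponential sum over `[1, N]`. -/
noncomputable def Gf (N : ℕ) (θ : ℝ) : ℂ := ∑ n ∈ Icc 1 N, ee (n * θ)

/-- The Fourier coefficient. -/
noncomputable def cf (N : ℕ) (h : ℤ) (x : ℝ) : ℂ := Gf N (h / x) ^ 2 / x

/-- The nonzero frequencies. -/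
noncomputable def Hs (H : ℕ) : Finset ℤ := (Icc (-(H : ℤ)) H).erase 0

/-- The index of the cell of `q`. -/
noncomputable def ci (J q : ℕ) : ℕ := ⌊(J : ℝ) * Real.log q⌋₊

/-- The primes of a cell. -/
noncomputable def cell (J i : ℕ) : Finset ℕ :=
  (primesIoc 0 (Real.exp (((i : ℝ) + 1) / J))).filter (fun q => ci J q = i)

/-- Lower bound sieve weights on `P` of level `E`. -/
structure LW (P : Finset ℕ) (E : ℝ) (c : Finset ℕ → ℝ) : Prop where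
  bdd : ∀ S, |c S| ≤ 1
  supp : ∀ S ⊆ P, c S ≠ 0 → (pr S : ℝ) ≤ E
  low : ∀ n ⊆ P, ∑ S ∈ P.powerset, c S * ind (S ⊆ n) ≤ ind (n = ∅)

/-- The parameters of part (A). -/
structure AP where
  N : ℕ
  b : ℤ
  w : ℝ
  D : ℝ
  z : ℝ
  y₁ : ℝ
  y₂ : ℝ
  Xt : ℝ
  Z : ℝ
  n : ℕ
  J : ℕ
  t : ℕ
  Q : Finset ℕ → Prop

namespace AP

variable (g : AP)

/-- The sifting primes. -/
noncomputable def P : Finset ℕ := primesIoc g.w g.z

/-- The sifting primes below `p`. -/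
noncomputable def Pp (p : ℕ) : Finset ℕ := g.P.filter (fun q => q < p)

/-- The range number `j` consists of the cells with index in `[B j, B (j+1))`, that is of the
primes with `t^(j+1) ≤ log q < t^(j+2)`. -/
def B (j : ℕ) : ℕ := g.J * g.t ^ (j + 1)

/-- One cell in every range. -/
noncomputable def Idx : Finset (Fin (g.n + 1) → ℕ) :=
  Fintype.piFinset (fun j : Fin (g.n + 1) => Ico (g.B j) (g.B (j + 1)))

/-- One prime in every chosen cell. -/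
noncomputable def cells (ι : Fin (g.n + 1) → ℕ) : Finset (Fin (g.n + 1) → ℕ) :=
  Fintype.piFinset (fun j => cell g.J (ι j))

/-- The reference value of the product of the chosen primes. -/
noncomputable def U (ι : Fin (g.n + 1) → ℕ) : ℝ := Real.exp (∑ j, (ι j : ℝ) / g.J)

/-- Adding the chosen primes. -/
def join (ν : Finset ℕ) (x : Fin (g.n + 1) → ℕ) : Finset ℕ := ν ∪ image x univ

/-- The family of boundary nodes. -/
def Fam (p : ℕ) (ν : Finset ℕ) : Prop :=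
  Bd 1 g.D ν p ∧ g.y₁ < p ∧ (p : ℝ) ≤ g.y₂ ∧ g.Q (big g.Xt ν)

/-- A full class: the chosen primes are the largest ones of their ranges and may move freely in
their cells. -/
def Cls (p : ℕ) (ι : Fin (g.n + 1) → ℕ) (ν : Finset ℕ) : Prop :=
  (∀ j : Fin (g.n + 1), ∀ q ∈ ν, g.B j ≤ ci g.J q → ci g.J q < g.B (j + 1) → ci g.J q < ι j) ∧
    ∀ x ∈ g.cells ι, g.Fam p (g.join ν x)

/-- Every range contains a prime of `ν`. -/
def Cl1 (ν : Finset ℕ) : Prop :=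
  ∀ j : Fin (g.n + 1), ∃ q ∈ ν, g.B j ≤ ci g.J q ∧ ci g.J q < g.B (j + 1)

/-- The large primes of `ν` lie in different cells. -/
def Cl2 (ν : Finset ℕ) : Prop :=
  ∀ q ∈ ν, ∀ q' ∈ ν, g.B 0 ≤ ci g.J q → ci g.J q = ci g.J q' → q = q'

/-- Rosser's conditions hold or fail with a margin. -/
def Cl3 (p : ℕ) (ν : Finset ℕ) : Prop :=
  ∀ q ∈ insert p ν, ((g.n : ℝ) + 4) / g.J <
    |Real.log (pr (up ν q)) + 3 * Real.log q - Real.log g.D|

/-- Sum over all members of all classes. -/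
noncomputable def csum (F : ℕ → Finset ℕ → ℝ) : ℝ :=
  ∑ p ∈ g.P, ∑ ι ∈ g.Idx, ∑ ν ∈ g.P.powerset, ind (g.Cls p ι ν) *
    ∑ x ∈ g.cells ι, F p (g.join ν x)

/-- The remainder terms of the boundary nodes. -/
noncomputable def Bias (c : ℕ → Finset ℕ → ℝ) : ℝ :=
  g.csum (fun p ν => ∑ e ∈ (g.Pp p).powerset, c p e * rm g.N g.b (pr ν * p * pr e))

/-- The exponential sum over a class. -/
noncomputable def Ex (h : ℤ) (f v : ℕ) (ι : Fin (g.n + 1) → ℕ) : ℂ :=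
  ∑ x ∈ g.cells ι, ee (((h * g.b : ℤ) : ℝ) / ((f : ℝ) * ((∏ j, x j : ℕ) : ℝ) * v))

/-- Few classes are biased. -/
def NB (H : ℕ) (δ ω : ℝ) : Prop :=
  ∀ p ∈ g.P, ∀ m : ℕ, 1 ≤ m → (m : ℝ) ≤ g.Z → ∀ h ∈ Hs H, ∀ ι ∈ g.Idx,
    ∑ ν ∈ g.P.powerset, ind (g.Cls p ι ν ∧ δ * (g.cells ι).card ≤ ‖g.Ex h (p * m) (pr ν) ι‖) *
      (1 / pr ν) ≤ ω

/-- The standing assumptions on the parameters. -/
structure OK : Prop where
  w10 : 10 ≤ g.w
  t2 : 2 ≤ g.t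
  nJ : 8 * (g.n + 4) ≤ g.J
  wt : g.w < Real.exp g.t
  y0 : 1 ≤ g.y₂
  yt : g.y₂ ^ 3 ≤ Real.exp g.t
  top : Real.exp ((g.t : ℝ) ^ (g.n + 2)) ≤ g.Xt
  Xz : g.Xt ≤ g.z
  zD : g.z * Real.exp ((g.t : ℝ) ^ (g.n + 2)) ≤ g.D
  Qne : ∀ s, g.Q s → s.Nonempty
  yZ : g.y₂ ≤ g.Z
  muZ : mu g.P * Real.exp (mu g.P) ≤ g.Z
  NZ : (g.N : ℝ) ≤ g.Z * g.D
  ne : ∀ ι ∈ g.Idx, (g.cells ι).Nonempty

end AP

/-! ### The inverse theorem -/

/-- Number of solutions of `∑ m(y_i) ≡ ∑ m(y'_i)` modulo `p` (equality for `p = 0`). -/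
noncomputable def Zc {α : Type} (S : Finset α) (m : α → ℕ) (k p : ℕ) : ℝ :=
  ∑ y ∈ Fintype.piFinset (fun _ : Fin k => S), ∑ y' ∈ Fintype.piFinset (fun _ : Fin k => S),
    ind ((p : ℤ) ∣ ((∑ i, m (y i) : ℕ) : ℤ) - ((∑ i, m (y' i) : ℕ) : ℤ))

/-- The hypotheses of the inverse theorem on the sets of primes. -/
structure Cells (X : ℝ) (A : ℕ) {n : ℕ} (S : Fin n → Finset ℕ) (P : Fin n → ℝ) : Prop where
  pos : ∀ j, 0 < P j
  mem : ∀ j, ∀ q ∈ S j, q.Prime ∧ P j ≤ q ∧ (q : ℝ) ≤ 2 * P j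
  disj : ∀ i j, i ≠ j → Disjoint (S i) (S j)
  card : ∀ j, P j / Real.log X ^ A ≤ (S j).card
  lo : ∀ j, Real.log (Real.log X) ^ 2 ≤ Real.log (P j)
  hi : ∀ j, Real.log (P j) ≤ Real.log (Real.log X) ^ A

/-- The conclusion of the inverse theorem for given parameters. -/
def InvB (X σ : ℝ) (A A' n : ℕ) : Prop :=
  ∀ (S : Fin (n + 1) → Finset ℕ) (P : Fin (n + 1) → ℝ) (δ V : ℝ) (Λ : Finset ℕ) (b h : ℤ) (f : ℕ),
    Cells X A' S P → 1 / Real.log X ^ A ≤ δ → δ ≤ 1 → (∀ v ∈ Λ, 1 ≤ v ∧ (v : ℝ) ≤ V) →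
    X ^ (1 / 2 : ℝ) ≤ V → V ≤ X → V * X ^ (-σ) ≤ Λ.card → h ≠ 0 → 2 * |(h : ℝ)| ≤ X ^ σ →
    1 ≤ f → (f : ℝ) ≤ X ^ σ →
    (∀ v ∈ Λ, δ * (Fintype.piFinset S).card ≤ ‖∑ x ∈ Fintype.piFinset S,
      ee (((h * b : ℤ) : ℝ) / ((f : ℝ) * ((∏ j, x j : ℕ) : ℝ) * v))‖) →
    ∃ (a : ℤ) (q : ℕ), 1 ≤ q ∧ (q : ℝ) ≤ X ^ (3 * σ) ∧ |(a : ℝ)| ≤ q * X ^ (1 + 4 * σ) ∧
      IsCoprime a (q : ℤ) ∧ ∃ Λ₀ ⊆ Λ, V * X ^ (-(2 * σ)) ≤ Λ₀.card ∧
        ∀ v ∈ Λ₀, ∀ l : ℕ, l.Prime → l ∣ v → X ^ (3 * σ) < l → (l : ℤ) ∣ q * b - a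

/-- A popular fraction. -/
def Pop (X σ z : ℝ) (b a : ℤ) (q : ℕ) : Prop :=
  1 ≤ q ∧ (q : ℝ) ≤ X ^ (3 * σ) ∧ |(a : ℝ)| ≤ q * X ^ (1 + 4 * σ) ∧ IsCoprime a (q : ℤ) ∧
    X ^ (-(2 * σ)) ≤ mu ((primesIoc (X ^ (10 * σ)) z).filter (fun l : ℕ => (l : ℤ) ∣ q * b - a))

/-- A set of primes that is not explained by a popular fraction. -/
def Unex (X σ z : ℝ) (b : ℤ) (s : Finset ℕ) : Prop :=
  s.Nonempty ∧ ∀ (a : ℤ) (q : ℕ), Pop X σ z b a q → ∃ l ∈ s, ¬ (l : ℤ) ∣ q * b - a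

/-! ### Part (C) -/

/-- The density of a residue class among the primes `c + q k`. -/
noncomputable def gq (q l : ℕ) : ℝ := if l ∣ q then 1 / (l : ℝ) else 1 / ((l : ℝ) - 1)

/-- `c + q k` is a (positive) prime. -/
def PrA (c : ℤ) (q k : ℕ) : Prop := (c + q * k).toNat.Prime

/-- The level and the sifting limit. -/
noncomputable def DX (X : ℕ) : ℝ := ((X / 2 : ℕ) : ℝ) / Real.log X ^ 2

/-- The sifting limit. -/
noncomputable def zX (X : ℕ) : ℝ := Real.sqrt X * Real.log X ^ 3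

end Crest.Agent.R001
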