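import Crest.Agent.R001.Reach

set_option autoImplicit false

namespace Crest.Agent.R001

open Finset Filter Crest.Agent.R008 Crest.Agent.R026

theorem GbAux1_BmQ_le (π : ℕ) (w M T y : ℝ) (Q : Finset ℕ → Prop) {φ : ℕ → ℝ} (hφ : ∀ p, 0 ≤ φ p) :
    BmQ π w M T y Q φ ≤ Bm π w M T φ := by
  refine sum_le_sum fun p _ => sum_le_sum fun ν _ => ?_
  exact mul_le_mul_of_nonneg_right (ind_mono fun h => h.1) (div_nonneg (hφ p) (by positivity))

theorem GbAux1_base : ∃ C : ℝ, 0 < C ∧ ∀ w lo L : ℝ, 0 ≤ w → C ≤ lo → w ≤ Real.exp (9 / 10 * lo) →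
    Base w (fun p => ind (Real.log p ≤ L)) (1 / 20) lo L := by
  obtain ⟨C, hC, hw⟩ := win
  refine ⟨23 * C + 2, by positivity, fun w lo L h0 h1 h2 M t hM ht1 ht2 _ ht4 => ?_⟩
  have ht : 23 * C + 2 ≤ t := h1.trans ht1
  have ht0 : 0 < t := by linarith
  have h3 := hw (9 / 10 * t) t (by linarith) (by linarith)
  have h4 : t / (9 / 10 * t) = 10 / 9 := by field_simp
  have h5 : (1 / 10 : ℝ) ≤ Real.log (10 / 9) := by
    have := Real.one_sub_inv_le_log_of_pos (x := 10 / 9) (by norm_num)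
    norm_num at this ⊢
    linarith
  have h6 : C / (9 / 10 * t) ≤ 1 / 20 := by
    rw [div_le_iff₀ (by positivity)]
    linarith
  rw [h4] at h3
  have h7 : 1 / 20 ≤ mu (primesIoc (Real.exp (9 / 10 * t)) (Real.exp t)) := by
    have := (abs_le.1 h3).1
    linarith
  refine h7.trans ?_
  have hsub : primesIoc (Real.exp (9 / 10 * t)) (Real.exp t) ⊆ primesIoc w (Real.exp t) :=
    primesIoc_mono (h2.trans (Real.exp_le_exp.2 (by linarith))) le_rfl
  have hn : ∀ (p : ℕ) (ν : Finset ℕ),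
      0 ≤ ind (Bd 0 M ν p) * (ind (Real.log p ≤ L) / ((pr ν : ℝ) * p)) := fun p ν =>
    mul_nonneg (ind_nonneg _) (div_nonneg (ind_nonneg _) (by positivity))
  refine le_trans ?_ (sum_le_sum_of_subset_of_nonneg hsub fun p _ _ => sum_nonneg fun ν _ => hn p ν)
  refine sum_le_sum fun p hp => ?_
  obtain ⟨hp1, hp2, hp3⟩ := (mem_primesIoc (Real.exp_pos _).le (Real.exp_pos _).le).1 hp
  have hp0 : (0 : ℝ) < p := by exact_mod_cast hp1.pos
  refine le_trans (le_of_eq ?_) (single_le_sum (f := fun ν =>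
    ind (Bd 0 M ν p) * (ind (Real.log p ≤ L) / ((pr ν : ℝ) * p))) (fun ν _ => hn p ν)
    (empty_mem_powerset _))
  have hb : Bd 0 M ∅ p := by
    refine ⟨by simp, valid_empty _ _, by simp, ?_⟩
    have e1 : M ≤ Real.exp (9 / 10 * t) ^ 3 := by
      rw [← Real.exp_nat_mul, ← Real.log_le_iff_le_exp hM]
      push_cast
      linarith
    have e2 : Real.exp (9 / 10 * t) ^ 3 < (p : ℝ) ^ 3 :=
      pow_lt_pow_left₀ hp2 (Real.exp_pos _).le (by norm_num)
    simp only [pr, prod_empty, Nat.cast_one, one_mul]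
    linarith
  have hl : Real.log p ≤ L := ((Real.log_le_iff_le_exp hp0).2 hp3).trans ht2
  simp [ind_pos hb, ind_pos hl, pr]

theorem GbAux1_tight_le (R : ℝ) : ∃ c θ L₀ : ℝ, 0 < c ∧ 0 < θ ∧ 1 ≤ L₀ ∧ ∀ w M T L : ℝ, 0 ≤ w →
    L₀ ≤ L → w ≤ Real.exp (θ * L) → 0 < M → L ≤ Real.log M → Real.exp L ≤ T →
    c * Tight R M T L ≤ Bm 0 w M T (fun p => ind (Real.log p ≤ L)) := by
  obtain ⟨c, θ, b₀, hc, hθ, hθ1, hb₀, hr⟩ := reach R
  obtain ⟨C, hC, hB⟩ := GbAux1_base
  refine ⟨c * (1 / 20), 9 / 10 * θ, max b₀ (C / θ), by positivity, by positivity,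
    hb₀.trans (le_max_left _ _), fun w M T L h0 h1 h2 hM h3 h4 => ?_⟩
  have hL1 : b₀ ≤ L := (le_max_left _ _).trans h1
  have hL0 : 0 ≤ L := by linarith
  have hL2 : C ≤ θ * L := by
    have := (le_max_right _ _).trans h1
    rw [div_le_iff₀ hθ] at this
    linarith
  have hθL : 0 ≤ θ * L := by positivity
  have hw1 : w ≤ Real.exp (θ * L) := h2.trans (Real.exp_le_exp.2 (by linarith))
  have hw2 : w ≤ Real.exp L := hw1.trans (Real.exp_le_exp.2 (by nlinarith))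
  have hφ : ∀ p : ℕ, 0 ≤ ind (Real.log p ≤ L) := fun p => ind_nonneg _
  have hbase := hB w (θ * L) L h0 hL2 (by rw [← mul_assoc]; exact h2)
  refine le_trans ?_ ((pre 0 M h0 hw2 h4 (fun ν => bud M ν ≤ R * L) hφ).trans
    (GbAux1_BmQ_le _ _ _ _ _ _ hφ))
  rw [Tight, mul_sum]
  refine sum_le_sum fun ν hν => ?_
  by_cases hv : valid 0 M ν ∧ bud M ν ≤ R * L
  · rw [ind_pos hv, one_mul, one_mul, mul_one_div]
    have hmem : ∀ q ∈ ν, q.Prime ∧ Real.exp L < q := fun q hq => by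
      have := (mem_primesIoc (Real.exp_pos _).le ((Real.exp_pos _).le.trans h4)).1
        (mem_powerset.1 hν hq)
      exact ⟨this.1, this.2.1⟩
    have hpr : (0 : ℝ) < pr ν := by exact_mod_cast pr_pos fun q hq => (hmem q hq).1
    refine div_le_div_of_nonneg_right ?_ hpr.le
    have hlog : Real.log (M / pr ν) = bud M ν := Real.log_div hM.ne' hpr.ne'
    obtain ⟨k1, k2⟩ := hr w _ (1 / 20) L (M / pr ν) h0 hφ (by norm_num) hL1 hw1 hbase
      (div_pos hM hpr) (by rw [hlog]; exact hv.2)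
    obtain ⟨b1, b2⟩ := bud_ge hv.1 hL0 h3 fun q hq => (hmem q hq).2
    rcases Nat.even_or_odd ν.card with he | ho
    · rw [Bm_parity (π' := 0) (by simpa using Nat.even_iff.1 he)]
      exact k1 (by rw [hlog]; exact b1)
    · rw [Bm_parity (π' := 1) (by simpa using Nat.odd_iff.1 ho)]
      exact k2 (by rw [hlog]; exact b2 ho)
  · rw [ind_neg hv]; simp

end Crest.Agent.R001
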