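import Crest.Agent.R001.Tree
import Crest.Agent.R001.Tree2
import Crest.Agent.R001.Prim

set_option autoImplicit false

namespace Crest.Agent.R001

open Finset Filter Crest.Agent.R008 Crest.Agent.R026

theorem GbAux18_mem {x y : ℝ} (hx : 0 ≤ x) {p : ℕ} (h : p ∈ primesIoc x y) :
    p.Prime ∧ x < p := by
  unfold primesIoc at h
  rw [mem_filter, mem_Ioc, Nat.floor_lt hx] at h
  exact ⟨h.2, h.1.1⟩

/-- Pointwise splitting according to the budget. -/
theorem GbAux18_split {R M L : ℝ} (hM : 1 ≤ M) (hL : 0 < L) {ν : Finset ℕ}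
    (h1 : ∀ q ∈ ν, 1 ≤ q) :
    ind (valid 0 M ν) * (Real.exp (-(1 * bud M ν / L)) / pr ν) ≤
      ind (valid 0 M ν ∧ bud M ν ≤ R * L) * (1 / pr ν) +
        Real.exp (-(R / 2)) * (ind (valid 0 M ν) * (Real.exp (-(1 * bud M ν / (2 * L))) / pr ν)) := by
  have hp : (0 : ℝ) ≤ pr ν := Nat.cast_nonneg _
  have a1 : 0 ≤ ind (valid 0 M ν ∧ bud M ν ≤ R * L) * (1 / (pr ν : ℝ)) :=
    mul_nonneg (ind_nonneg _) (div_nonneg zero_le_one hp)
  have a2 : 0 ≤ Real.exp (-(R / 2)) *
      (ind (valid 0 M ν) * (Real.exp (-(1 * bud M ν / (2 * L))) / pr ν)) :=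
    mul_nonneg (Real.exp_pos _).le
      (mul_nonneg (ind_nonneg _) (div_nonneg (Real.exp_pos _).le hp))
  by_cases hv : valid 0 M ν
  · by_cases hb : bud M ν ≤ R * L
    · refine le_add_of_le_of_nonneg ?_ a2
      rw [ind_pos hv, ind_pos ⟨hv, hb⟩]
      refine mul_le_mul_of_nonneg_left (div_le_div_of_nonneg_right ?_ hp) zero_le_one
      rw [Real.exp_le_one_iff, neg_nonpos, one_mul]
      exact div_nonneg (bud_nonneg hv hM h1) hL.le
    · refine le_add_of_nonneg_of_le a1 ?_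
      rw [ind_pos hv, one_mul, one_mul, one_mul, ← mul_div_assoc, ← Real.exp_add]
      refine div_le_div_of_nonneg_right (Real.exp_le_exp.2 ?_) hp
      have e : bud M ν / L = 2 * (bud M ν / (2 * L)) := by field_simp
      have : R / 2 ≤ bud M ν / (2 * L) := by
        rw [le_div_iff₀ (by linarith)]
        linarith [not_le.1 hb]
      linarith
  · rw [ind_neg hv, zero_mul]
    rw [ind_neg hv] at a2
    exact add_nonneg a1 a2

/-- Removing the primes below `e^(2L)`. -/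
theorem GbAux18_cut {M L : ℝ} (hL : 0 < L) {ν s : Finset ℕ}
    (hν : ∀ q ∈ ν, q.Prime ∧ Real.exp (2 * L) < q)
    (hs : ∀ q ∈ s, q.Prime ∧ (q : ℝ) ≤ Real.exp (2 * L)) :
    ind (valid 0 M (ν ∪ s)) * (Real.exp (-(1 * bud M (ν ∪ s) / (2 * L))) / pr (ν ∪ s)) ≤
      ind (valid 0 M ν) * (Real.exp (-(1 * bud M ν / (2 * L))) / pr ν) *
        (Real.exp 1 ^ s.card / pr s) := by
  have hlt : ∀ q ∈ ν, ∀ r ∈ s, r < q := fun q hq r hr => by
    exact_mod_cast (hs r hr).2.trans_lt (hν q hq).2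
  have hd : Disjoint ν s := disjoint_left.2 fun q h1 h2 => lt_irrefl _ (hlt q h1 q h2)
  have p1 : (0 : ℝ) < pr ν := by exact_mod_cast pr_pos fun q hq => (hν q hq).1
  have p2 : (0 : ℝ) < pr s := by exact_mod_cast pr_pos fun q hq => (hs q hq).1
  have e1 : (pr (ν ∪ s) : ℝ) = pr ν * pr s := by rw [pr_union hd, Nat.cast_mul]
  have e2 : bud M (ν ∪ s) = bud M ν - Real.log (pr s) := by
    unfold bud
    rw [e1, Real.log_mul p1.ne' p2.ne']
    ring
  have b1 : (pr s : ℝ) ≤ Real.exp (2 * L) ^ s.card := by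
    unfold pr
    rw [Nat.cast_prod, ← prod_const]
    exact prod_le_prod (fun q _ => Nat.cast_nonneg _) fun q hq => (hs q hq).2
  have b2 : Real.log (pr s) ≤ s.card * (2 * L) := by
    have := Real.log_le_log p2 b1
    rwa [Real.log_pow, Real.log_exp] at this
  have b3 : Real.exp (-(1 * bud M (ν ∪ s) / (2 * L))) ≤
      Real.exp (-(1 * bud M ν / (2 * L))) * Real.exp 1 ^ s.card := by
    rw [← Real.exp_nat_mul, ← Real.exp_add, Real.exp_le_exp, e2, one_mul, one_mul, mul_one, sub_div]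
    have : Real.log (pr s) / (2 * L) ≤ s.card := by
      rw [div_le_iff₀ (by linarith)]
      exact b2
    linarith
  rw [mul_assoc, div_mul_div_comm, e1]
  refine mul_le_mul (ind_mono fun h => ((valid_union (fun q hq => (hν q hq).1.pos) hlt).1 h).1)
    (div_le_div_of_nonneg_right b3 (mul_pos p1 p2).le)
    (div_nonneg (Real.exp_pos _).le (mul_pos p1 p2).le) (ind_nonneg _)

theorem GbAux18_Gs_iter : ∃ C : ℝ, 0 < C ∧ ∀ R M T L : ℝ, 1 ≤ M → 1 ≤ L →
    Gs 1 M T L ≤ Tight R M T L + C * Real.exp (-(R / 2)) * Gs 1 M T (2 * L) := by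
  obtain ⟨C₀, hC₀, hw⟩ := win
  refine ⟨Real.exp (Real.exp 1 * (Real.log 2 + C₀)), Real.exp_pos _, fun R M T L hM hL => ?_⟩
  have hL0 : 0 < L := by linarith
  have hmu : mu (primesIoc (Real.exp L) (Real.exp (2 * L))) ≤ Real.log 2 + C₀ := by
    have h1 := (abs_le.1 (hw L (2 * L) hL (by linarith))).2
    rw [mul_div_cancel_right₀ _ hL0.ne'] at h1
    have h2 : C₀ / L ≤ C₀ := div_le_self hC₀.le hL
    linarith
  have hsum : ∑ s ∈ (primesIoc (Real.exp L) (Real.exp (2 * L))).powerset,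
      Real.exp 1 ^ s.card / pr s ≤ Real.exp (Real.exp 1 * (Real.log 2 + C₀)) :=
    (sum_pow_div_pr _ (Real.exp_pos 1).le).trans
      (Real.exp_le_exp.2 (mul_le_mul_of_nonneg_left hmu (Real.exp_pos 1).le))
  have hF : ∀ ν : Finset ℕ,
      0 ≤ ind (valid 0 M ν) * (Real.exp (-(1 * bud M ν / (2 * L))) / pr ν) := fun ν =>
    mul_nonneg (ind_nonneg _) (div_nonneg (Real.exp_pos _).le (Nat.cast_nonneg _))
  have h2 : ∑ ν ∈ (primesIoc (Real.exp L) T).powerset,
      ind (valid 0 M ν) * (Real.exp (-(1 * bud M ν / (2 * L))) / pr ν) ≤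
      Real.exp (Real.exp 1 * (Real.log 2 + C₀)) * Gs 1 M T (2 * L) := by
    refine (sum_cut_le (y := Real.exp (2 * L)) T (Real.exp_le_exp.2 (by linarith))
      (fun ν => ind (valid 0 M ν) * (Real.exp (-(1 * bud M ν / (2 * L))) / pr ν)) hF).trans ?_
    unfold Gs
    rw [mul_sum]
    refine sum_le_sum fun ν hν => ?_
    refine le_trans ?_ ((mul_le_mul_of_nonneg_left hsum (hF ν)).trans_eq (mul_comm _ _))
    rw [mul_sum]
    refine sum_le_sum fun s hs => GbAux18_cut hL0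
      (fun q hq => GbAux18_mem (Real.exp_pos _).le (mem_powerset.1 hν hq)) fun q hq => ?_
    have := (mem_primesIoc (Real.exp_pos _).le (Real.exp_pos _).le).1 (mem_powerset.1 hs hq)
    exact ⟨this.1, this.2.2⟩
  have h3 := mul_le_mul_of_nonneg_left h2 (Real.exp_pos (-(R / 2))).le
  have h4 : Gs 1 M T L ≤ Tight R M T L + Real.exp (-(R / 2)) *
      ∑ ν ∈ (primesIoc (Real.exp L) T).powerset,
        ind (valid 0 M ν) * (Real.exp (-(1 * bud M ν / (2 * L))) / pr ν) := by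
    unfold Gs Tight
    rw [mul_sum, ← sum_add_distrib]
    exact sum_le_sum fun ν hν => GbAux18_split hM hL0 fun q hq =>
      (GbAux18_mem (Real.exp_pos _).le (mem_powerset.1 hν hq)).1.one_le
  linarith

end Crest.Agent.R001
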