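import Crest.Agent.R001.Tree2
import Crest.Agent.R001.Prim

set_option autoImplicit false

namespace Crest.Agent.R001

open Finset Filter Crest.Agent.R008 Crest.Agent.R026

/-! # Auxiliary lemmas for `sum_pi_sq` and `E2` -/

theorem GbAux20_mem {x y : ℝ} (hx : 0 ≤ x) {p : ℕ} (h : p ∈ primesIoc x y) :
    p.Prime ∧ x < p ∧ p ≤ ⌊y⌋₊ := by
  unfold primesIoc at h
  rw [Finset.mem_filter, Finset.mem_Ioc, Nat.floor_lt hx] at h
  exact ⟨h.2, h.1.1, h.1.2⟩

theorem GbAux20_mem' {x y : ℝ} (hx : 0 ≤ x) {p : ℕ} (h1 : p.Prime) (h2 : x < p) (h3 : p ≤ ⌊y⌋₊) :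
    p ∈ primesIoc x y := by
  unfold primesIoc
  rw [Finset.mem_filter, Finset.mem_Ioc, Nat.floor_lt hx]
  exact ⟨⟨h2, h3⟩, h1⟩

theorem GbAux20_sum_pi_sq : ∃ C : ℝ, 0 < C ∧ ∀ (L R : ℝ) (S : Finset ℕ), 1 ≤ L → 0 < R →
    (∀ q ∈ S, q.Prime ∧ L < Real.log q ∧ (q : ℝ) ≤ R) →
    ∑ q ∈ S, ((primesIoc 0 q).card : ℝ) ^ 2 ≤ C * R ^ 3 / L ^ 3 := by
  obtain ⟨C, hC, h⟩ := pi_le
  refine ⟨C ^ 3, by positivity, fun L R S hL hR hS => ?_⟩
  have hL0 : 0 < L := by linarith
  rcases S.eq_empty_or_nonempty with rfl | ⟨q0, hq0⟩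
  · simp only [sum_empty]; positivity
  have key : ∀ (x : ℝ) (U : Finset ℕ), 2 ≤ x → L < Real.log x → x ≤ R →
      (∀ p ∈ U, p.Prime ∧ (p : ℝ) ≤ x) → (U.card : ℝ) ≤ C * R / L := by
    intro x U hx hLx hxR hU
    refine (h x U hx hU).trans ?_
    exact div_le_div₀ (by positivity) (by gcongr) hL0 hLx.le
  have h2 : ∀ q ∈ S, (2 : ℝ) ≤ q := fun q hq => by exact_mod_cast (hS q hq).1.two_le
  have hcard : (S.card : ℝ) ≤ C * R / L := by
    refine key R S ((h2 q0 hq0).trans (hS q0 hq0).2.2) ?_ le_rfl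
      fun p hp => ⟨(hS p hp).1, (hS p hp).2.2⟩
    exact (hS q0 hq0).2.1.trans_le
      (Real.log_le_log (by linarith [h2 q0 hq0]) (hS q0 hq0).2.2)
  have hq : ∀ q ∈ S, ((primesIoc 0 q).card : ℝ) ^ 2 ≤ (C * R / L) ^ 2 := by
    intro q hq
    refine pow_le_pow_left₀ (by positivity) ?_ 2
    refine key q _ (h2 q hq) (hS q hq).2.1 (hS q hq).2.2 fun p hp => ?_
    rw [mem_primesIoc le_rfl (by positivity)] at hp
    exact ⟨hp.1, hp.2.2⟩
  calc ∑ q ∈ S, ((primesIoc 0 q).card : ℝ) ^ 2 ≤ ∑ _q ∈ S, (C * R / L) ^ 2 := sum_le_sum hq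
    _ = S.card * (C * R / L) ^ 2 := by rw [sum_const, nsmul_eq_mul]
    _ ≤ C * R / L * (C * R / L) ^ 2 := by gcongr
    _ = C ^ 3 * R ^ 3 / L ^ 3 := by field_simp

theorem GbAux20_dyadic {b t : ℝ} (hb : 0 < b) (ht : b < t) :
    ∃ j : ℕ, 2 ^ j * b < t ∧ t ≤ 2 * (2 ^ j * b) := by
  classical
  have hex : ∃ j : ℕ, t ≤ 2 * (2 ^ j * b) := by
    obtain ⟨j, hj⟩ := pow_unbounded_of_one_lt (t / b) (by norm_num : (1 : ℝ) < 2)
    refine ⟨j, ?_⟩
    rw [div_lt_iff₀ hb] at hj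
    have : 0 < 2 ^ j * b := by positivity
    linarith
  refine ⟨Nat.find hex, ?_, Nat.find_spec hex⟩
  rcases h : Nat.find hex with _ | k
  · simpa using ht
  · have := Nat.find_min hex (m := k) (by omega)
    rw [pow_succ]
    linarith [not_le.1 this]

/-- The number of primes of `P` below `q' ≤ q`. -/
theorem GbAux20_cnt {P : Finset ℕ} (hP : ∀ p ∈ P, p.Prime) {q' q : ℕ} (h : q' ≤ q) :
    ∑ p ∈ P, ind (p < q') ≤ ((primesIoc 0 q).card : ℝ) := by
  rw [sum_ind]
  norm_cast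
  refine card_le_card fun p hp => ?_
  rw [mem_filter] at hp
  rw [mem_primesIoc le_rfl (by positivity)]
  refine ⟨hP p hp.1, by exact_mod_cast (hP p hp.1).pos, ?_⟩
  exact_mod_cast hp.2.le.trans h

/-- Peeling off the two smallest primes of a boundary node. -/
theorem GbAux20_step1 (M : ℝ) {P : Finset ℕ} (hP : ∀ p ∈ P, p.Prime) :
    ∑ p ∈ P, ∑ ν ∈ P.powerset, ind (Bd 0 M ν p ∧ ν.Nonempty) ≤
      ∑ q ∈ P, ∑ ν ∈ (P.filter (fun r => q < r)).powerset,
        ind (valid 0 M ν ∧ (pr ν : ℝ) * (q : ℝ) ^ 3 ≤ M) * ((primesIoc 0 q).card : ℝ) ^ 2 := by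
  set H : ℕ → ℝ := fun q => ∑ ν ∈ (P.filter (fun r => q < r)).powerset,
    ind (valid 0 M ν ∧ (pr ν : ℝ) * (q : ℝ) ^ 3 ≤ M) * ((primesIoc 0 q).card : ℝ) with hH
  have hH0 : ∀ q, 0 ≤ H q := fun q =>
    sum_nonneg fun ν _ => mul_nonneg (ind_nonneg _) (by positivity)
  rw [sum_comm, sum_bot]
  have h0 : ∑ p ∈ P, ind (Bd 0 M ∅ p ∧ (∅ : Finset ℕ).Nonempty) = 0 :=
    sum_eq_zero fun p _ => ind_neg (by simp)
  rw [h0, zero_add]
  have h1 : ∀ q' ∈ P, ∑ s ∈ (P.filter (fun r => q' < r)).powerset,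
      ∑ p ∈ P, ind (Bd 0 M (insert q' s) p ∧ (insert q' s).Nonempty) ≤
      ∑ q ∈ P, ind (q' < q) * H q := by
    intro q' _
    rw [sum_bot]
    have h2 : ∑ p ∈ P, ind (Bd 0 M (insert q' ∅) p ∧ (insert q' (∅ : Finset ℕ)).Nonempty) = 0 := by
      refine sum_eq_zero fun p _ => ind_neg fun h => ?_
      have := h.1.2.2.1
      simp at this
    rw [h2, zero_add, sum_ind_mul]
    refine sum_le_sum fun q hq => ?_
    have hq'q : q' < q := (mem_filter.1 hq).2
    calc _ ≤ ∑ ν ∈ ((P.filter (fun r => q' < r)).filter (fun r => q < r)).powerset,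
          ind (valid 0 M ν ∧ (pr ν : ℝ) * (q : ℝ) ^ 3 ≤ M) * ((primesIoc 0 q).card : ℝ) := by
          refine sum_le_sum fun ν hν => ?_
          have hν' : ∀ r ∈ ν, q < r := fun r hr => (mem_filter.1 (mem_powerset.1 hν hr)).2
          have hqν : q ∉ ν := fun h => lt_irrefl _ (hν' q h)
          have hq'ν : ∀ r ∈ insert q ν, q' < r := by
            intro r hr
            rcases mem_insert.1 hr with rfl | hr
            · exact hq'q
            · exact hq'q.trans (hν' r hr)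
          have hq'n : q' ∉ insert q ν := fun h => lt_irrefl _ (hq'ν q' h)
          calc _ ≤ ∑ p ∈ P, ind (valid 0 M ν ∧ (pr ν : ℝ) * (q : ℝ) ^ 3 ≤ M) * ind (p < q') := by
                refine sum_le_sum fun p _ => ?_
                rw [← ind_and]
                refine ind_mono fun h => ?_
                obtain ⟨⟨hlt, hv, he, _⟩, _⟩ := h
                rw [card_insert_of_notMem hq'n, card_insert_of_notMem hqν] at he
                have he' : Even (ν.card + 0) := by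
                  rw [Nat.even_iff] at he ⊢
                  omega
                have hv1 := ((valid_insert_min hq'ν).1 hv).1
                have hv2 := (valid_insert_min hν').1 hv1
                exact ⟨⟨hv2.1, hv2.2 he'⟩, hlt q' (mem_insert_self _ _)⟩
            _ = ind (valid 0 M ν ∧ (pr ν : ℝ) * (q : ℝ) ^ 3 ≤ M) * ∑ p ∈ P, ind (p < q') := by
                rw [mul_sum]
            _ ≤ _ := mul_le_mul_of_nonneg_left (GbAux20_cnt hP hq'q.le) (ind_nonneg _)
      _ ≤ H q := by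
          refine sum_le_sum_of_subset_of_nonneg (powerset_mono.2 ?_)
            fun ν _ _ => mul_nonneg (ind_nonneg _) (by positivity)
          intro r hr
          rw [mem_filter, mem_filter] at hr
          exact mem_filter.2 ⟨hr.1.1, hr.2⟩
  refine (sum_le_sum h1).trans ?_
  rw [sum_comm]
  refine sum_le_sum fun q _ => ?_
  rw [← sum_mul]
  calc _ ≤ ((primesIoc 0 q).card : ℝ) * H q :=
        mul_le_mul_of_nonneg_right (GbAux20_cnt hP le_rfl) (hH0 q)
    _ = _ := by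
        rw [hH, mul_sum]
        refine sum_congr rfl fun ν _ => by ring

theorem GbAux20_num {L a : ℝ} (hL : 2 ≤ L) :
    3 * min (2 * L) (a / 3) ≤ 12 + a + -(2 * a / L) := by
  have hL0 : 0 < L := by linarith
  have e : 2 * a / L = 2 * (a / L) := by ring
  have ea : a = a / L * L := by field_simp
  set u := a / L
  rw [e]
  rcases le_total u 6 with h | h
  · have := min_le_right (2 * L) (a / 3)
    linarith
  · have := min_le_left (2 * L) (a / 3)
    nlinarith

theorem GbAux20_E2 : ∃ C : ℝ, 0 < C ∧ ∀ (w M T : ℝ) (J : ℕ), 1 < w → 2 ≤ Real.log w → 1 ≤ M →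
    Real.log M ≤ 2 ^ J * Real.log w → N0 w M T ≤ C * M * Asum M T (Real.log w) J := by
  obtain ⟨C, hC, hsq⟩ := GbAux20_sum_pi_sq
  refine ⟨C * Real.exp 12, by positivity, fun w M T J hw hlw hM hJ => ?_⟩
  have hw0 : (0 : ℝ) ≤ w := by linarith
  have hM0 : 0 < M := by linarith
  set P := primesIoc w T with hP
  set b := Real.log w with hb
  have hb0 : 0 < b := by linarith
  have hPp : ∀ p ∈ P, p.Prime := fun p hp => (GbAux20_mem hw0 hp).1
  refine (GbAux20_step1 M hPp).trans ?_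
  -- insert the dyadic scale
  have h1 : ∀ q ∈ P, ∑ ν ∈ (P.filter (fun r => q < r)).powerset,
        ind (valid 0 M ν ∧ (pr ν : ℝ) * (q : ℝ) ^ 3 ≤ M) * ((primesIoc 0 q).card : ℝ) ^ 2 ≤
      ∑ j ∈ range J, ∑ ν ∈ (primesIoc (Real.exp (2 ^ j * b)) T).powerset, ind (valid 0 M ν) *
        (ind (2 ^ j * b < Real.log q ∧ Real.log q ≤ 2 * (2 ^ j * b) ∧
          (pr ν : ℝ) * (q : ℝ) ^ 3 ≤ M) * ((primesIoc 0 q).card : ℝ) ^ 2) := by
    intro q hq
    obtain ⟨hqp, hwq, -⟩ := GbAux20_mem hw0 hq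
    have hq0 : (0 : ℝ) < q := by linarith
    have hnn : ∀ (j : ℕ) (ν : Finset ℕ), 0 ≤ ind (valid 0 M ν) *
        (ind (2 ^ j * b < Real.log q ∧ Real.log q ≤ 2 * (2 ^ j * b) ∧
          (pr ν : ℝ) * (q : ℝ) ^ 3 ≤ M) * ((primesIoc 0 q).card : ℝ) ^ 2) := fun j ν =>
      mul_nonneg (ind_nonneg _) (mul_nonneg (ind_nonneg _) (by positivity))
    by_cases hq3 : (q : ℝ) ^ 3 ≤ M
    · obtain ⟨j, hj1, hj2⟩ := GbAux20_dyadic hb0 (Real.log_lt_log (by linarith) hwq)
      have hlq : 3 * Real.log q ≤ Real.log M := by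
        have := Real.log_le_log (by positivity) hq3
        rwa [Real.log_pow] at this
      have hjJ : j < J := by
        have hpos : 0 < 2 ^ j * b := by positivity
        have h3 : (2 : ℝ) ^ j * b < 2 ^ J * b := by linarith
        have h4 : (2 : ℝ) ^ j < 2 ^ J := lt_of_mul_lt_mul_right h3 hb0.le
        exact (pow_lt_pow_iff_right₀ (by norm_num : (1 : ℝ) < 2)).1 h4
      refine le_trans ?_ (single_le_sum (f := fun j => ∑ ν ∈
        (primesIoc (Real.exp (2 ^ j * b)) T).powerset, ind (valid 0 M ν) *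
        (ind (2 ^ j * b < Real.log q ∧ Real.log q ≤ 2 * (2 ^ j * b) ∧
          (pr ν : ℝ) * (q : ℝ) ^ 3 ≤ M) * ((primesIoc 0 q).card : ℝ) ^ 2))
        (fun j _ => sum_nonneg fun ν _ => hnn j ν) (mem_range.2 hjJ))
      refine le_trans (sum_le_sum fun ν _ => ?_)
        (sum_le_sum_of_subset_of_nonneg (powerset_mono.2 ?_) fun ν _ _ => hnn j ν)
      · rw [← mul_assoc, ← ind_and]
        exact mul_le_mul_of_nonneg_right (ind_mono fun h => ⟨h.1, hj1, hj2, h.2⟩) (by positivity)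
      · intro r hr
        rw [mem_filter] at hr
        obtain ⟨hr1, -, hr3⟩ := GbAux20_mem hw0 hr.1
        refine GbAux20_mem' (Real.exp_pos _).le hr1 ?_ hr3
        have : Real.exp (2 ^ j * b) < q := by
          rwa [← Real.lt_log_iff_exp_lt hq0]
        exact this.trans (by exact_mod_cast hr.2)
    · refine le_trans (le_of_eq (sum_eq_zero fun ν hν => ?_))
        (sum_nonneg fun j _ => sum_nonneg fun ν _ => hnn j ν)
      rw [ind_neg, zero_mul]
      intro h
      apply hq3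
      have h1 : (1 : ℝ) ≤ pr ν := by
        exact_mod_cast pr_pos fun p hp => hPp p (mem_filter.1 (mem_powerset.1 hν hp)).1
      have h2 : (0 : ℝ) ≤ (q : ℝ) ^ 3 := by positivity
      nlinarith [h.2]
  refine (sum_le_sum h1).trans ?_
  rw [sum_comm]
  unfold Asum
  rw [mul_sum]
  refine sum_le_sum fun j _ => ?_
  set L := 2 ^ j * b with hL
  have hL2 : 2 ≤ L := by
    have : (1 : ℝ) ≤ 2 ^ j := one_le_pow₀ (by norm_num)
    nlinarith
  rw [sum_comm]
  unfold Gs
  rw [sum_div, mul_sum]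
  refine sum_le_sum fun ν hν => ?_
  rw [← mul_sum, mul_div_assoc, mul_left_comm (C * Real.exp 12 * M)]
  refine mul_le_mul_of_nonneg_left ?_ (ind_nonneg _)
  have hν0 : (0 : ℝ) < pr ν := by
    exact_mod_cast pr_pos fun p hp => (GbAux20_mem (Real.exp_pos _).le (mem_powerset.1 hν hp)).1
  rw [sum_ind_mul]
  refine (hsq L (Real.exp (min (2 * L) (bud M ν / 3))) _ (by linarith) (Real.exp_pos _)
    fun q hq => ?_).trans ?_
  · rw [mem_filter] at hq
    have hqp := hPp q hq.1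
    have hq0 : (0 : ℝ) < q := by exact_mod_cast hqp.pos
    refine ⟨hqp, hq.2.1, ?_⟩
    rw [← Real.log_le_iff_le_exp hq0]
    refine le_min hq.2.2.1 ?_
    have := Real.log_le_log (by positivity) hq.2.2.2
    rw [Real.log_mul hν0.ne' (by positivity), Real.log_pow] at this
    unfold bud
    push_cast at this
    linarith
  · have h3 : Real.exp (min (2 * L) (bud M ν / 3)) ^ 3 ≤
        Real.exp 12 * (M / pr ν) * Real.exp (-(2 * bud M ν / L)) := by
      have e1 : M / pr ν = Real.exp (bud M ν) := by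
        unfold bud
        rw [Real.exp_sub, Real.exp_log hM0, Real.exp_log hν0]
      rw [e1, ← Real.exp_nat_mul, ← Real.exp_add, ← Real.exp_add]
      exact Real.exp_le_exp.2 (by exact_mod_cast GbAux20_num hL2)
    have hL3 : 0 < L ^ 3 := by positivity
    calc C * Real.exp (min (2 * L) (bud M ν / 3)) ^ 3 / L ^ 3
        ≤ C * (Real.exp 12 * (M / pr ν) * Real.exp (-(2 * bud M ν / L))) / L ^ 3 := by gcongr
      _ = _ := by ring

end Crest.Agent.R001
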