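import Crest.Agent.R001.Tree2
import Crest.Agent.R001.Cnt

set_option autoImplicit false

namespace Crest.Agent.R001

open Finset Filter Crest.Agent.R008 Crest.Agent.R026

/-- The termwise bound behind `low_bd`. -/
theorem GbAux24_term {c x₀ : ℝ} (hc : 0 < c)
    (h4 : ∀ (p : ℕ) (x : ℝ), x₀ ≤ x → (p : ℝ) ^ 4 ≤ x → c * (x / Real.log x) ≤ cnt p x)
    {M L : ℝ} (hL1 : 1 ≤ L) (hL0 : x₀ ≤ L) (hM : 0 < M) (h3 : 3 * L ≤ Real.log M)
    {p : ℕ} {ν : Finset ℕ} (hp : p.Prime) (hν : ∀ q ∈ ν, q.Prime) (hB : Bd 0 M ν p)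
    (hpL : Real.log p ≤ L) :
    c / 6 / L * (1 / ((pr ν : ℝ) * p)) ≤
      cnt p (M * Real.exp (4 * L) / (pr ν * p)) / (M * Real.exp (4 * L)) := by
  obtain ⟨hlt, hval, -, hbig⟩ := hB
  have hp0 : (0 : ℝ) < p := by exact_mod_cast hp.pos
  have hpr0 : (0 : ℝ) < pr ν := by exact_mod_cast pr_pos hν
  have hpe : (p : ℝ) ≤ Real.exp L := by
    rw [← Real.exp_log hp0]; exact Real.exp_le_exp.2 hpL
  have hMe : Real.exp (3 * L) ≤ M := by
    rw [← Real.exp_log hM]; exact Real.exp_le_exp.2 h3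
  have hp3 : (p : ℝ) ^ 3 ≤ M := by
    refine le_trans ?_ hMe
    rw [show (3 : ℝ) * L = ((3 : ℕ) : ℝ) * L by norm_num, Real.exp_nat_mul]
    exact pow_le_pow_left₀ hp0.le hpe 3
  have hne : ν.Nonempty := by
    rw [nonempty_iff_ne_empty]
    rintro rfl
    simp [pr] at hbig
    linarith
  have hmin := valid_zero_min hval (ν.min'_mem hne) (fun q hq => ν.min'_le q hq)
    (hν _ (ν.min'_mem hne)).pos
  have hd : (pr ν : ℝ) * p ≤ M := by
    refine le_trans (mul_le_mul_of_nonneg_left ?_ hpr0.le) hmin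
    exact_mod_cast (hlt _ (ν.min'_mem hne)).le
  set d : ℝ := (pr ν : ℝ) * p with hdd
  have hd0 : 0 < d := mul_pos hpr0 hp0
  set Y : ℝ := M * Real.exp (4 * L) with hY
  have hE : 0 < Real.exp (4 * L) := Real.exp_pos _
  have hY0 : 0 < Y := mul_pos hM hE
  have hxlo : Real.exp (4 * L) ≤ Y / d := by
    rw [le_div_iff₀ hd0, hY]; nlinarith
  have hxhi : Y / d ≤ Real.exp (6 * L) := by
    rw [div_le_iff₀ hd0, hY]
    have h2 : (p : ℝ) ^ 2 ≤ Real.exp (2 * L) := by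
      rw [show (2 : ℝ) * L = ((2 : ℕ) : ℝ) * L by norm_num, Real.exp_nat_mul]
      exact pow_le_pow_left₀ hp0.le hpe 2
    have h6 : Real.exp (6 * L) = Real.exp (4 * L) * Real.exp (2 * L) := by
      rw [← Real.exp_add]; ring_nf
    have hMd : M ≤ Real.exp (2 * L) * d := by
      have : (pr ν : ℝ) * (p : ℝ) ^ 3 = (p : ℝ) ^ 2 * d := by rw [hdd]; ring
      have h7 : (p : ℝ) ^ 2 * d ≤ Real.exp (2 * L) * d := mul_le_mul_of_nonneg_right h2 hd0.le
      linarith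
    rw [h6]
    nlinarith
  have hx0 : 0 < Y / d := div_pos hY0 hd0
  have hp4 : (p : ℝ) ^ 4 ≤ Y / d := by
    refine le_trans ?_ hxlo
    rw [show (4 : ℝ) * L = ((4 : ℕ) : ℝ) * L by norm_num, Real.exp_nat_mul]
    exact pow_le_pow_left₀ hp0.le hpe 4
  have hxx : x₀ ≤ Y / d := by
    have := Real.add_one_le_exp (4 * L)
    linarith
  have hlog1 : 4 * L ≤ Real.log (Y / d) := by
    rw [Real.le_log_iff_exp_le hx0]; exact hxlo
  have hlog2 : Real.log (Y / d) ≤ 6 * L := by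
    rw [Real.log_le_iff_le_exp hx0]; exact hxhi
  have hmain := h4 p (Y / d) hxx hp4
  have hq : Y / d / (6 * L) ≤ Y / d / Real.log (Y / d) :=
    div_le_div_of_nonneg_left hx0.le (by linarith) hlog2
  rw [le_div_iff₀ hY0]
  have : c / 6 / L * (1 / d) * Y = c * (Y / d / (6 * L)) := by
    field_simp
  rw [this]
  exact le_trans (mul_le_mul_of_nonneg_left hq hc.le) hmain

theorem GbAux24_low_bd (h : HP) : ∃ c L₀ : ℝ, 0 < c ∧ ∀ w M T L : ℝ, 0 ≤ w → L₀ ≤ L → 0 < M →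
    3 * L ≤ Real.log M → c / L * Bm 0 w M T (fun p => ind (Real.log p ≤ L)) ≤
      BS 0 w M T (M * Real.exp (4 * L)) / (M * Real.exp (4 * L)) := by
  obtain ⟨c, x₀, hc, h4⟩ := cnt4 h
  refine ⟨c / 6, max 1 x₀, by positivity, fun w M T L _ hL hM h3 => ?_⟩
  have hL1 : 1 ≤ L := le_trans (le_max_left _ _) hL
  have hL0 : x₀ ≤ L := le_trans (le_max_right _ _) hL
  have hY0 : 0 < M * Real.exp (4 * L) := mul_pos hM (Real.exp_pos _)
  unfold Bm BS
  rw [mul_sum, sum_div]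
  refine sum_le_sum fun p hp => ?_
  rw [mul_sum, sum_div]
  refine sum_le_sum fun ν hν => ?_
  have hpp : p.Prime := (mem_filter.1 hp).2
  have hνp : ∀ q ∈ ν, q.Prime := fun q hq => (mem_filter.1 (mem_powerset.1 hν hq)).2
  by_cases hB : Bd 0 M ν p
  · rw [ind_pos hB, one_mul, one_mul]
    by_cases hpL : Real.log p ≤ L
    · simp only [ind_pos hpL]
      exact GbAux24_term hc h4 hL1 hL0 hM h3 hpp hνp hB hpL
    · simp only [ind_neg hpL, zero_div, mul_zero]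
      exact div_nonneg (cnt_nonneg _ _) hY0.le
  · simp [ind_neg hB]

end Crest.Agent.R001
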