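import Crest.Agent.R001.Tree2
import Crest.Agent.R001.Cnt

set_option autoImplicit false

namespace Crest.Agent.R001

open Finset Filter Crest.Agent.R008 Crest.Agent.R026

/-! # Rosser's identity for the parity sequences -/

theorem Seq12_dvd {d : ℕ} (hd : 1 ≤ d) (Y : ℝ) (F : ℕ → ℝ) :
    ∑ n ∈ natIoc 0 Y, ind (d ∣ n) * F n = ∑ m ∈ natIoc 0 (Y / d), F (d * m) := by
  rw [sum_ind_mul]
  simp only [natIoc, Nat.floor_zero, Nat.floor_div_natCast]
  symm
  refine sum_bij (fun m _ => d * m) (fun m hm => ?_) (fun m _ m' _ h => ?_) (fun n hn => ?_)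
    (fun _ _ => rfl)
  · obtain ⟨h1, h2⟩ := mem_Ioc.1 hm
    rw [Nat.le_div_iff_mul_le hd, mul_comm] at h2
    exact mem_filter.2 ⟨mem_Ioc.2 ⟨Nat.mul_pos hd h1, h2⟩, dvd_mul_right _ _⟩
  · exact Nat.eq_of_mul_eq_mul_left hd h
  · obtain ⟨h1, m, rfl⟩ := mem_filter.1 hn
    obtain ⟨h2, h3⟩ := mem_Ioc.1 h1
    refine ⟨m, mem_Ioc.2 ⟨Nat.pos_of_mul_pos_left h2, ?_⟩, rfl⟩
    rwa [Nat.le_div_iff_mul_le hd, mul_comm]

theorem Seq12_rough {w : ℝ} (hw : 0 ≤ w) (n : ℕ) :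
    ind (Rough w n) = ∑ S ∈ (primesIoc 0 w).powerset, (-1) ^ S.card * ind (pr S ∣ n) := by
  have hP : ∀ p, p ∈ primesIoc 0 w ↔ p.Prime ∧ (p : ℝ) ≤ w := fun p => by
    rw [mem_primesIoc le_rfl hw]
    exact ⟨fun h => ⟨h.1, h.2.2⟩, fun h => ⟨h.1, by exact_mod_cast h.1.pos, h.2⟩⟩
  have h1 : ind (Rough w n) = ∏ p ∈ primesIoc 0 w, (1 + -ind (p ∣ n)) := by
    by_cases h : Rough w n
    · rw [ind_pos h, prod_eq_one]
      intro p hp
      rw [ind_neg fun hd => absurd (h p ((hP p).1 hp).1 hd) (not_lt.2 ((hP p).1 hp).2)]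
      simp
    · rw [ind_neg h]
      simp only [Rough, not_forall, not_lt] at h
      obtain ⟨p, h1, h2, h3⟩ := h
      exact (prod_eq_zero ((hP p).2 ⟨h1, h3⟩) (by rw [ind_pos h2]; simp)).symm
  rw [h1, prod_one_add]
  refine sum_congr rfl fun S hS => ?_
  have hS' : ∀ p ∈ S, p.Prime := fun p hp => ((hP p).1 (mem_powerset.1 hS hp)).1
  rw [prod_neg]
  congr 1
  by_cases h : pr S ∣ n
  · rw [ind_pos h]
    exact prod_eq_one fun p hp => ind_pos ((dvd_prod_of_mem (fun p => p) hp).trans h)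
  · rw [ind_neg h]
    by_contra h2
    refine h (Finset.prod_primes_dvd n (fun p hp => (hS' p hp).prime) fun p hp => ?_)
    exact ind_ne_zero.1 (prod_ne_zero_iff.1 h2 p hp)

theorem Seq12_V1 (w : ℝ) : V1 w = ∑ S ∈ (primesIoc 0 w).powerset, (-1) ^ S.card * (1 / (pr S : ℝ)) := by
  simp only [V1, Vz, sub_eq_add_neg]
  rw [prod_one_add]
  refine sum_congr rfl fun S _ => ?_
  rw [prod_neg, pr, Nat.cast_prod, prod_div_distrib, prod_const_one]

theorem Seq12_floor {y c : ℝ} (hy : 0 < y) (h0 : 0 < c) (h1 : c < 1) :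
    |∑ _m ∈ natIoc 0 y, (1 : ℝ) - y| ≤ y ^ (1 - c) := by
  simp only [natIoc, Nat.floor_zero, sum_const, Nat.card_Ioc, Nat.sub_zero, nsmul_eq_mul, mul_one]
  have h2 := Nat.floor_le hy.le
  have h3 := Nat.lt_floor_add_one y
  have h4 : (0 : ℝ) ≤ ⌊y⌋₊ := Nat.cast_nonneg _
  rw [abs_sub_comm, abs_of_nonneg (by linarith)]
  rcases le_total y 1 with h | h
  · have := Real.self_le_rpow_of_le_one hy.le h (by linarith : 1 - c ≤ 1)
    linarith
  · have := Real.one_le_rpow h (by linarith : 0 ≤ 1 - c)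
    linarith

/-- `ind (Rough w n) = ∑_{S ⊆ primesIoc 0 w} (-1)^|S| ind (pr S ∣ n)`, `n = pr S * m`, `lam_mul`;
`|⌊y⌋ - y| ≤ y^(1-θ)` for every `y > 0`; `V1 w = ∑ (-1)^|S| / pr S` (`Finset.prod_one_sub…`,
`prod_one_add`). -/
theorem lam_rough (h : HL) : ∃ θ : ℝ, 0 < θ ∧ θ < 1 ∧ ∀ w : ℝ, 0 ≤ w → ∃ C : ℝ, 0 < C ∧
    ∀ x : ℝ, 0 < x → |∑ n ∈ natIoc 0 x, ind (Rough w n) * lam n| ≤ C * x ^ (1 - θ) ∧
      |∑ n ∈ natIoc 0 x, ind (Rough w n) - V1 w * x| ≤ C * x ^ (1 - θ) := by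
  obtain ⟨c, C, h0, h1, hC, h⟩ := h
  refine ⟨c, h0, h1, fun w hw => ⟨((primesIoc 0 w).powerset.card + 1) * (C + 1), by positivity,
    fun x hx => ?_⟩⟩
  have hpr : ∀ S ∈ (primesIoc 0 w).powerset, 1 ≤ pr S := fun S hS =>
    pr_pos fun p hp => ((mem_primesIoc le_rfl hw).1 (mem_powerset.1 hS hp)).1
  have hx' : 0 ≤ x ^ (1 - c) := Real.rpow_nonneg hx.le _
  have hdiv : ∀ S ∈ (primesIoc 0 w).powerset,
      0 < x / pr S ∧ (x / pr S) ^ (1 - c) ≤ x ^ (1 - c) := by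
    intro S hS
    have h2 : (1 : ℝ) ≤ pr S := by exact_mod_cast hpr S hS
    have h3 : 0 < x / pr S := by positivity
    exact ⟨h3, Real.rpow_le_rpow h3.le (div_le_self hx.le h2) (by linarith)⟩
  have key : ∀ F : Finset ℕ → ℝ, (∀ S ∈ (primesIoc 0 w).powerset, |F S| ≤ (C + 1) * x ^ (1 - c)) →
      |∑ S ∈ (primesIoc 0 w).powerset, (-1) ^ S.card * F S| ≤
        ((primesIoc 0 w).powerset.card + 1) * (C + 1) * x ^ (1 - c) := by
    intro F hF
    refine (abs_sum_le_sum_abs _ _).trans ((sum_le_card_nsmul _ _ ((C + 1) * x ^ (1 - c))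
      fun S hS => ?_).trans ?_)
    · rw [abs_mul, abs_pow, abs_neg, abs_one, one_pow, one_mul]
      exact hF S hS
    · rw [nsmul_eq_mul, mul_assoc]
      exact mul_le_mul_of_nonneg_right (by linarith) (by positivity)
  constructor
  · have h2 : ∑ n ∈ natIoc 0 x, ind (Rough w n) * lam n = ∑ S ∈ (primesIoc 0 w).powerset,
        (-1) ^ S.card * (lam (pr S) * ∑ m ∈ natIoc 0 (x / pr S), lam m) := by
      simp only [Seq12_rough hw, sum_mul]
      rw [sum_comm]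
      refine sum_congr rfl fun S hS => ?_
      simp only [mul_assoc]
      rw [← mul_sum, Seq12_dvd (hpr S hS), mul_sum]
      simp only [lam_mul, mul_sum]
    rw [h2]
    refine key _ fun S hS => ?_
    rw [abs_mul]
    refine (mul_le_of_le_one_left (abs_nonneg _) (abs_lam_le _)).trans ((h _ (hdiv S hS).1).trans ?_)
    exact mul_le_mul (by linarith) (hdiv S hS).2 (Real.rpow_nonneg (hdiv S hS).1.le _) (by linarith)
  · have h2 : ∑ n ∈ natIoc 0 x, ind (Rough w n) - V1 w * x = ∑ S ∈ (primesIoc 0 w).powerset,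
        (-1) ^ S.card * (∑ _m ∈ natIoc 0 (x / pr S), (1 : ℝ) - x / pr S) := by
      simp only [Seq12_rough hw, Seq12_V1, sum_mul]
      rw [sum_comm, ← sum_sub_distrib]
      refine sum_congr rfl fun S hS => ?_
      have h3 := Seq12_dvd (hpr S hS) x (fun _ => 1)
      simp only [mul_one] at h3
      rw [← mul_sum, h3]
      ring
    rw [h2]
    refine key _ fun S hS => ((Seq12_floor (hdiv S hS).1 h0 h1).trans (hdiv S hS).2).trans ?_
    exact le_mul_of_one_le_left hx' (by linarith)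

/-- Multiples of `d`. -/
theorem sum_natIoc_dvd {d : ℕ} (hd : 1 ≤ d) (Y : ℝ) (F : ℕ → ℝ) :
    ∑ n ∈ natIoc 0 Y, ind (d ∣ n) * F n = ∑ m ∈ natIoc 0 (Y / d), F (d * m) := by
  exact Seq12_dvd hd Y F

theorem Seq83_mem {s : Finset ℕ} (hs : ∀ p ∈ s, p.Prime) {q : ℕ} (hq : q.Prime) (h : q ∣ pr s) :
    q ∈ s := by
  rw [← pr_primeFactors hs]
  exact Nat.mem_primeFactors.2 ⟨hq, h, (pr_pos hs).ne'⟩

theorem Seq83_dvd {P s : Finset ℕ} (hP : ∀ p ∈ P, p.Prime) (hs : s ⊆ P) (n : ℕ) :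
    s ⊆ P.filter (fun q => q ∣ n) ↔ pr s ∣ n :=
  ⟨fun h => Finset.prod_primes_dvd n (fun p hp => (hP p (hs hp)).prime)
      fun _ hp => (mem_filter.1 (h hp)).2,
    fun h _ hp => mem_filter.2 ⟨hs hp, (dvd_prod_of_mem _ hp).trans h⟩⟩

theorem Seq83_main (π : ℕ) {w T : ℝ} (M Y : ℝ) (hw : 0 ≤ w) (hT : w ≤ T) {s : Finset ℕ}
    (hs : s ⊆ primesIoc w T) :
    ∑ n ∈ natIoc 0 Y, ind (valid π M s ∧ s ⊆ (primesIoc w T).filter (fun q => q ∣ n)) *
      (-1) ^ s.card * (ind (Rough w n) * (1 - (-1) ^ π * lam n)) =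
      ind (valid π M s) * ((-1) ^ s.card *
        ∑ m ∈ natIoc 0 (Y / pr s), ind (Rough w m) * (1 - (-1) ^ (π + s.card) * lam m)) := by
  have hP : ∀ p ∈ primesIoc w T, p.Prime := fun p hp => ((mem_primesIoc hw (hw.trans hT)).1 hp).1
  have hs' : ∀ p ∈ s, p.Prime := fun p hp => hP p (hs hp)
  have hr : Rough w (pr s) := fun q hq hd =>
    ((mem_primesIoc hw (hw.trans hT)).1 (hs (Seq83_mem hs' hq hd))).2.1
  have h1 := sum_natIoc_dvd (pr_pos hs') Y (fun n => ind (Rough w n) * (1 - (-1) ^ π * lam n))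
  have h2 : ∑ m ∈ natIoc 0 (Y / pr s), ind (Rough w m) * (1 - (-1) ^ (π + s.card) * lam m) =
      ∑ m ∈ natIoc 0 (Y / pr s), ind (Rough w (pr s * m)) * (1 - (-1) ^ π * lam (pr s * m)) := by
    refine sum_congr rfl fun m _ => ?_
    rw [lam_mul, lam_pr hs', pow_add, mul_assoc,
      ind_congr (show Rough w (pr s * m) ↔ Rough w m from rough_mul.trans (and_iff_right hr))]
  rw [h2, ← h1, mul_sum, mul_sum]
  refine sum_congr rfl fun n _ => ?_
  rw [ind_and, ind_congr (Seq83_dvd hP hs n)]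
  ring

theorem Seq83_bd (π : ℕ) {w T : ℝ} (M Y : ℝ) (hw : 0 ≤ w) (hT : w ≤ T) {p : ℕ}
    (hp : p ∈ primesIoc w T) {ν : Finset ℕ} (hν : ν ⊆ primesIoc w T) :
    ∑ n ∈ natIoc 0 Y, ind (Bd π M ν p ∧ ν ⊆ (primesIoc w T).filter (fun q => q ∣ n) ∧
      p ∈ (primesIoc w T).filter (fun q => q ∣ n) ∧
      ∀ q ∈ (primesIoc w T).filter (fun q => q ∣ n), p ≤ q) *
      (ind (Rough w n) * (1 - (-1) ^ π * lam n)) =
      ind (Bd π M ν p) * cnt p (Y / (pr ν * p)) := by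
  by_cases hB : Bd π M ν p
  swap
  · rw [ind_neg hB, zero_mul]
    exact sum_eq_zero fun n _ => by rw [ind_neg (fun h => hB h.1), zero_mul]
  have hm := fun q => mem_primesIoc hw (hw.trans hT) (p := q)
  have hP : ∀ q ∈ primesIoc w T, q.Prime := fun q hq => ((hm q).1 hq).1
  have hs : insert p ν ⊆ primesIoc w T := insert_subset hp hν
  have hs' : ∀ q ∈ insert p ν, q.Prime := fun q hq => hP q (hs hq)
  have hn : p ∉ ν := fun h => lt_irrefl _ (hB.1 p h)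
  have e1 : pr (insert p ν) = pr ν * p := by rw [pr, prod_insert hn, mul_comm]; rfl
  have e2 : (-1 : ℝ) ^ π * lam (pr (insert p ν)) = -1 := by
    rw [lam_pr hs', card_insert_of_notMem hn, ← pow_add, ← add_assoc, add_comm π, pow_succ,
      hB.2.2.1.neg_one_pow, one_mul]
  have h1 := sum_natIoc_dvd (pr_pos hs') Y (fun n =>
    ind (∀ q ∈ (primesIoc w T).filter (fun q => q ∣ n), p ≤ q) *
      (ind (Rough w n) * (1 - (-1) ^ π * lam n)))
  rw [ind_pos hB, one_mul, ← Nat.cast_mul, ← e1, cnt]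
  refine Eq.trans (sum_congr rfl fun n _ => ?_) (h1.trans (sum_congr rfl fun m _ => ?_))
  · rw [← mul_assoc (ind _) (ind _) (_ * _), ← ind_and, ← Seq83_dvd hP hs n, insert_subset_iff]
    congr 1
    exact ind_congr ⟨fun h => ⟨⟨h.2.2.1, h.2.1⟩, h.2.2.2⟩, fun h => ⟨hB, h.1.2, h.1.1, h.2⟩⟩
  · rw [← mul_assoc, ← ind_and, lam_mul, ← mul_assoc, e2, neg_one_mul, sub_neg_eq_add]
    congr 1
    obtain ⟨-, p1, p2⟩ := (hm p).1 hp
    refine ind_congr ⟨fun h q hq hd => ?_, fun h => ?_⟩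
    · have a1 := hd.mul_left (pr (insert p ν))
      rcases le_or_gt (q : ℝ) T with a2 | a2
      · exact h.1 q (mem_filter.2 ⟨(hm q).2 ⟨hq, h.2 q hq a1, a2⟩, a1⟩)
      · exact_mod_cast p2.trans a2.le
    · have key : ∀ q : ℕ, q.Prime → q ∣ pr (insert p ν) * m → p ≤ q := by
        intro q hq hd
        rcases (Nat.Prime.dvd_mul hq).1 hd with a | a
        · rcases mem_insert.1 (Seq83_mem hs' hq a) with b | b
          · exact b.ge
          · exact (hB.1 q b).le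
        · exact h q hq a
      exact ⟨fun q hq => key q (hP q (mem_filter.1 hq).1) (mem_filter.1 hq).2,
        fun q hq hd => p1.trans_le (by exact_mod_cast key q hq hd)⟩

/-- The exact identity: multiply `ident` for `n ↦ P.filter (· ∣ n)`, `P = primesIoc w T`, by
`ind (Rough w n) (1 - (-1)^π λ(n))` and sum.  In a boundary term `n = pr ν * p * m`,
`(-1)^π λ(pr ν * p) = -1`, and the conditions say that all primes of `m` are at least `p`. -/
theorem seq_ident (π : ℕ) {w T : ℝ} (M Y : ℝ) (hw : 0 ≤ w) (hT : w ≤ T) :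
    Sq π T Y = ∑ ν ∈ (primesIoc w T).powerset, ind (valid π M ν) * ((-1) ^ ν.card *
      ∑ m ∈ natIoc 0 (Y / pr ν), ind (Rough w m) * (1 - (-1) ^ (π + ν.card) * lam m)) -
      (-1) ^ π * BS π w M T Y := by
  have hm := fun q => mem_primesIoc hw (hw.trans hT) (p := q)
  have h1 : ∀ n : ℕ, ind (Rough T n) =
      ind ((primesIoc w T).filter (fun q => q ∣ n) = ∅) * ind (Rough w n) := by
    intro n
    rw [← ind_and, filter_eq_empty_iff]
    refine ind_congr ⟨fun h => ⟨fun q hq hd => ?_, h.mono hT⟩, fun h q hq hd => ?_⟩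
    · exact absurd (h q ((hm q).1 hq).1 hd) (not_lt.2 ((hm q).1 hq).2.2)
    · by_contra a
      exact h.1 ((hm q).2 ⟨hq, h.2 q hq hd, not_lt.1 a⟩) hd
  rw [Sq, BS, ← sum_congr rfl fun ν hν => Seq83_main π M Y hw hT (mem_powerset.1 hν),
    ← sum_congr rfl fun p hp => sum_congr rfl fun ν hν =>
      Seq83_bd π M Y hw hT hp (mem_powerset.1 hν), sum_comm (s := (primesIoc w T).powerset),
    sum_congr rfl fun p _ => sum_comm (s := (primesIoc w T).powerset),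
    sum_comm (s := primesIoc w T), mul_sum, ← sum_sub_distrib]
  refine sum_congr rfl fun n _ => ?_
  rw [h1, mul_assoc, ident π M (filter_subset _ (primesIoc w T)), sub_mul, sum_mul, mul_assoc,
    sum_mul]
  simp only [sum_mul]

/-- `seq_ident`, `lam_rough`, `(Y/d)^(1-θ) ≤ (Y/d) (M/d)^(-θ) = (Y/d) exp (-θ bud)`. -/
theorem seqH (h : HL) : ∃ θ : ℝ, 0 < θ ∧ θ < 1 ∧ ∀ w : ℝ, 0 ≤ w → SeqH θ w := by
  obtain ⟨θ, h0, h1, H⟩ := lam_rough h
  refine ⟨θ, h0, h1, fun w hw => ?_⟩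
  obtain ⟨C, hC, H⟩ := H w hw
  refine ⟨2 * C, by positivity, fun π M T Y hT hM hY => ?_⟩
  have hY0 : 0 < Y := hM.trans_le hY
  rw [seq_ident π M Y hw hT, Main, Err, mul_sum, mul_sum, sub_right_comm, sub_add_cancel,
    ← sum_sub_distrib]
  refine (abs_sum_le_sum_abs _ _).trans (sum_le_sum fun ν hν => ?_)
  have hd : (0 : ℝ) < pr ν := by
    exact_mod_cast pr_pos fun q hq => (mem_filter.1 (mem_powerset.1 hν hq)).2
  obtain ⟨a1, a2⟩ := H (Y / pr ν) (by positivity)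
  have e : ∑ m ∈ natIoc 0 (Y / pr ν), ind (Rough w m) * (1 - (-1) ^ (π + ν.card) * lam m) =
      ∑ m ∈ natIoc 0 (Y / pr ν), ind (Rough w m) -
        (-1) ^ (π + ν.card) * ∑ m ∈ natIoc 0 (Y / pr ν), ind (Rough w m) * lam m := by
    rw [mul_sum, ← sum_sub_distrib]
    exact sum_congr rfl fun m _ => by ring
  rw [e]
  generalize ∑ m ∈ natIoc 0 (Y / pr ν), ind (Rough w m) * lam m = A at a1
  generalize ∑ m ∈ natIoc 0 (Y / pr ν), ind (Rough w m) = B at a2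
  have e2 : ind (valid π M ν) * ((-1) ^ ν.card * (B - (-1) ^ (π + ν.card) * A)) -
      V1 w * Y * (ind (valid π M ν) * ((-1) ^ ν.card / pr ν)) =
      ind (valid π M ν) * ((-1) ^ ν.card * ((B - V1 w * (Y / pr ν)) - (-1) ^ (π + ν.card) * A)) := by
    ring
  have b1 : |(B - V1 w * (Y / pr ν)) - (-1) ^ (π + ν.card) * A| ≤ 2 * C * (Y / pr ν) ^ (1 - θ) := by
    refine (abs_sub _ _).trans ?_
    rw [abs_mul, abs_pow, abs_neg, abs_one, one_pow, one_mul]
    linarith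
  have b2 : (Y / pr ν) ^ (1 - θ) ≤ Y * (Real.exp (-(θ * bud M ν)) / pr ν) := by
    have c1 : (Y / pr ν) ^ (-θ) ≤ (M / pr ν) ^ (-θ) :=
      Real.rpow_le_rpow_of_nonpos (by positivity) (by gcongr) (by linarith)
    have c2 : (M / pr ν) ^ (-θ) = Real.exp (-(θ * bud M ν)) := by
      rw [Real.rpow_def_of_pos (by positivity), Real.log_div hM.ne' hd.ne', bud]
      congr 1
      ring
    rw [sub_eq_add_neg, Real.rpow_add (by positivity), Real.rpow_one, ← c2]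
    calc Y / pr ν * (Y / pr ν) ^ (-θ) ≤ Y / pr ν * (M / pr ν) ^ (-θ) := by gcongr
      _ = _ := by ring
  rw [e2, abs_mul, abs_ind, abs_mul, abs_pow, abs_neg, abs_one, one_pow, one_mul]
  calc _ ≤ ind (valid π M ν) * (2 * C * (Y * (Real.exp (-(θ * bud M ν)) / pr ν))) :=
        mul_le_mul_of_nonneg_left (b1.trans (by gcongr)) (ind_nonneg _)
    _ = _ := by ring

theorem Sq_nonneg (π : ℕ) (T Y : ℝ) : 0 ≤ Sq π T Y := by
  refine sum_nonneg fun n _ => mul_nonneg (ind_nonneg _) ?_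
  have : |(-1 : ℝ) ^ π * lam n| ≤ 1 := by
    rw [abs_mul, abs_pow, abs_neg, abs_one, one_pow, one_mul]
    exact abs_lam_le n
  linarith [(abs_le.1 this).2]

theorem Seq48_pt {T : ℝ} (hT : 0 ≤ T) {n : ℕ} (h0 : 0 < n) (h3 : (n : ℝ) < T ^ 3) :
    ind (Rough T n) * (1 - (-1) ^ 0 * lam n) = 2 * ind (n.Prime ∧ T < (n : ℝ)) := by
  rw [pow_zero, one_mul]
  by_cases hp : n.Prime
  · rw [lam_prime hp, ind_congr (show Rough T n ↔ n.Prime ∧ T < (n : ℝ) from
      ⟨fun h => ⟨hp, h n hp dvd_rfl⟩, fun h q hq hd => by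
        rw [(Nat.prime_dvd_prime_iff_eq hq hp).1 hd]; exact h.2⟩)]
    ring
  rw [ind_neg (P := n.Prime ∧ T < (n : ℝ)) (fun h => hp h.1), mul_zero]
  by_cases hr : Rough T n
  swap
  · rw [ind_neg hr, zero_mul]
  refine mul_eq_zero_of_right _ (sub_eq_zero.2 ?_)
  by_cases h1 : n = 1
  · rw [h1, lam_one]
  obtain ⟨p, pp, m, rfl⟩ := Nat.exists_prime_and_dvd h1
  have hm1 : m ≠ 1 := fun h => hp (by rw [h, mul_one]; exact pp)
  obtain ⟨q, qp, r, rfl⟩ := Nat.exists_prime_and_dvd hm1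
  by_cases hr1 : r = 1
  · rw [hr1, mul_one, lam_mul, lam_prime pp, lam_prime qp]
    norm_num
  obtain ⟨s, sp, u, rfl⟩ := Nat.exists_prime_and_dvd hr1
  exfalso
  have a1 := hr p pp (Dvd.intro _ rfl)
  have a2 := hr q qp ((Dvd.intro _ rfl).mul_left p)
  have a3 := hr s sp (((Dvd.intro _ rfl).mul_left q).mul_left p)
  have a4 : (1 : ℝ) ≤ u := by
    have : u ≠ 0 := fun h => by simp [h] at h0
    exact_mod_cast Nat.one_le_iff_ne_zero.2 this
  have a5 : T * (T * (T * 1)) ≤ (p : ℝ) * (q * (s * u)) := by gcongr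
  push_cast at h3
  nlinarith

/-- A `T`-rough number below `T³` with an odd number of prime factors is prime. -/
theorem Sq_zero {T Y : ℝ} (hT : 1 ≤ T) (h1 : T ≤ Y) (h2 : Y < T ^ 3) :
    Sq 0 T Y = 2 * (((primesIoc 0 Y).card : ℝ) - (primesIoc 0 T).card) := by
  have hT0 : 0 ≤ T := by linarith
  have hY0 : 0 ≤ Y := by linarith
  have e1 : ((primesIoc 0 Y).card : ℝ) = (primesIoc T Y).card + (primesIoc 0 T).card := by
    rw [primesIoc_union hT0 h1, card_union_of_disjoint, Nat.cast_add]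
    exact disjoint_left.2 fun q hq hq' => lt_irrefl _ (primesIoc_lt hq hq')
  have e2 : primesIoc T Y = (natIoc 0 Y).filter (fun n : ℕ => n.Prime ∧ T < (n : ℝ)) := by
    ext q
    rw [mem_filter, mem_primesIoc hT0 hY0, mem_natIoc le_rfl hY0]
    exact ⟨fun h => ⟨⟨by linarith [h.2.1], h.2.2⟩, h.1, h.2.1⟩, fun h => ⟨h.2.1, h.2.2, h.1.2⟩⟩
  rw [e1, add_sub_cancel_right, e2, ← sum_ind, mul_sum, Sq]
  refine sum_congr rfl fun n hn => ?_
  obtain ⟨n0, nY⟩ := (mem_natIoc le_rfl hY0).1 hn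
  exact Seq48_pt hT0 (by exact_mod_cast n0) (nY.trans_lt h2)

/-- `Sq_zero`, `pi_asymp`; `T ≤ M^(5/6)`, `M e^l ≤ M^(11/10) < T³`. -/
theorem Sq_asymp (h : HP) : ∃ C M₀ : ℝ, 0 < C ∧ ∀ M T l : ℝ, M₀ ≤ M → 0 < T →
    6 / 5 * Real.log T ≤ Real.log M → Real.log M ≤ 27 / 10 * Real.log T → 0 ≤ l →
    l ≤ Real.log M / 10 →
    |Sq 0 T (M * Real.exp l) / (M * Real.exp l) - 2 / (Real.log M + l)| ≤ C / Real.log M ^ 2 := by
  obtain ⟨C, hC, hπ⟩ := pi_asymp h
  refine ⟨2 * C + 144, Real.exp 1, by positivity, fun M T l hM hT h1 h2 hl hl' => ?_⟩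
  obtain ⟨L, rfl⟩ : ∃ L, M = Real.exp L :=
    ⟨Real.log M, (Real.exp_log ((Real.exp_pos _).trans_le hM)).symm⟩
  obtain ⟨t, rfl⟩ : ∃ t, T = Real.exp t := ⟨Real.log T, (Real.exp_log hT).symm⟩
  simp only [Real.log_exp, Real.exp_le_exp] at hM h1 h2 hl' ⊢
  rw [← Real.exp_add, Sq_zero (Real.one_le_exp (by linarith)) (Real.exp_le_exp.2 (by linarith))
    (by rw [← Real.exp_nat_mul, Real.exp_lt_exp]; push_cast; linarith)]
  have a1 := hπ (Real.exp (L + l)) (by linarith [Real.add_one_le_exp (L + l)])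
  have a2 := card_primesIoc_le 0 hT.le
  have a3 : Real.exp t * (L ^ 2 / 72) ≤ Real.exp (L + l) := by
    refine (mul_le_mul_of_nonneg_left (show _ ≤ Real.exp (L / 6) by
      linarith [Real.quadratic_le_exp_of_nonneg (show 0 ≤ L / 6 by linarith)]) hT.le).trans ?_
    rw [← Real.exp_add, Real.exp_le_exp]
    linarith
  rw [Real.log_exp] at a1
  have hY := Real.exp_pos (L + l)
  generalize Real.exp (L + l) = Y at *
  have hL : 0 < L := by linarith
  have a4 : C * Y / (L + l) ^ 2 ≤ C * Y / L ^ 2 := by gcongr; linarith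
  have a5 : ((primesIoc 0 (Real.exp t)).card : ℝ) ≤ 72 * Y / L ^ 2 := by
    rw [le_div_iff₀ (by positivity)]
    linarith [mul_le_mul_of_nonneg_right a2 (sq_nonneg L)]
  have a6 : (0 : ℝ) ≤ (primesIoc 0 (Real.exp t)).card := by positivity
  have e : ∀ a b : ℝ, 2 * (a - b) / Y - 2 / (L + l) = 2 * (a - Y / (L + l) - b) / Y := fun a b => by
    have : 0 < L + l := by linarith
    field_simp
    ring
  rw [e, abs_div, abs_of_pos hY, div_le_iff₀ hY, abs_le,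
    show (2 * C + 144) / L ^ 2 * Y = 2 * (C * Y / L ^ 2) + 2 * (72 * Y / L ^ 2) by ring]
  rw [abs_le] at a1
  constructor <;> linarith [a1.1, a1.2]

/-- Subtract `SeqH` for `Y = M e^l` and `Y = M` (after dividing by `Y`); the main terms cancel. -/
theorem delta (h : HP) {θ w : ℝ} (hs : SeqH θ w) : ∃ C M₀ : ℝ, 0 < C ∧ ∀ M T l : ℝ, M₀ ≤ M →
    0 < T → 6 / 5 * Real.log T ≤ Real.log M → Real.log M ≤ 27 / 10 * Real.log T → 0 ≤ l →
    l ≤ Real.log M / 10 →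
    |BS 0 w M T (M * Real.exp l) / (M * Real.exp l) - BS 0 w M T M / M -
      (2 / Real.log M - 2 / (Real.log M + l))| ≤
      C * (1 / Real.log M ^ 2 + Err θ 0 w M T) := by
  obtain ⟨C, M₀, hC, h1⟩ := Sq_asymp h
  obtain ⟨D, hD, h2⟩ := hs
  refine ⟨2 * C + 2 * D, max M₀ (Real.exp (3 * |w|)), by positivity,
    fun M T l hM hT b1 b2 hl hl' => ?_⟩
  obtain ⟨hM1, hM2⟩ := max_le_iff.1 hM
  have hM0 := (Real.exp_pos _).trans_le hM2
  have hw : w ≤ T := by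
    linarith [(Real.le_log_iff_exp_le hM0).2 hM2, le_abs_self w, abs_nonneg w,
      Real.log_le_sub_one_of_pos hT]
  have key : ∀ Y, M ≤ Y → |Sq 0 T Y / Y - V1 w * Main 0 w M T + BS 0 w M T Y / Y| ≤
      D * Err θ 0 w M T := fun Y hY => by
    have hY0 := hM0.trans_le hY
    have := div_le_div_of_nonneg_right (h2 0 M T Y hw hM0 hY) hY0.le
    rw [← abs_of_pos hY0, ← abs_div, abs_of_pos hY0] at this
    refine le_of_eq_of_le (congrArg _ ?_) (this.trans_eq ?_) <;> field_simp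
  have a1 := key M le_rfl
  have a2 := key (M * Real.exp l) (le_mul_of_one_le_right hM0.le (Real.one_le_exp hl))
  have a3 := h1 M T 0 hM1 hT b1 b2 le_rfl (by linarith)
  have a4 := h1 M T l hM1 hT b1 b2 hl hl'
  have a5 : 0 ≤ Err θ 0 w M T := nonneg_of_mul_nonneg_right ((abs_nonneg _).trans a1) hD
  have a6 := mul_nonneg hC.le a5
  have a7 : 0 ≤ D * (1 / Real.log M ^ 2) := by positivity
  rw [Real.exp_zero, mul_one, add_zero] at a3
  rw [div_eq_mul_one_div C] at a3 a4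
  rw [abs_le] at a1 a2 a3 a4 ⊢
  constructor <;> linarith [a1.1, a1.2, a2.1, a2.2, a3.1, a3.2, a4.1, a4.2]

theorem BS_nonneg (π : ℕ) (w M T Y : ℝ) : 0 ≤ BS π w M T Y := 
  sum_nonneg fun _ _ => sum_nonneg fun _ _ => mul_nonneg (ind_nonneg _) (cnt_nonneg _ _)

/-- The number of boundary nodes of the upper bound tree. -/
theorem sum_Bd_le (w M : ℝ) {T : ℝ} (hT : 0 ≤ T) :
    ∑ p ∈ primesIoc w T, ∑ ν ∈ (primesIoc w T).powerset, ind (Bd 0 M ν p) ≤ N0 w M T + T := by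
  refine le_trans ?_ (add_le_add le_rfl (card_primesIoc_le w hT))
  rw [N0, card_eq_sum_ones, Nat.cast_sum, ← sum_add_distrib]
  refine sum_le_sum fun p _ => ?_
  have h1 : ∑ ν ∈ (primesIoc w T).powerset, ind (ν = ∅) = ((1 : ℕ) : ℝ) := by
    rw [sum_eq_single ∅ (fun ν _ h => ind_neg h) (fun h => absurd (empty_mem_powerset _) h),
      ind_pos rfl, Nat.cast_one]
  rw [← h1, ← sum_add_distrib]
  refine sum_le_sum fun ν _ => ?_
  rcases ν.eq_empty_or_nonempty with h | h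
  · rw [ind_pos h]
    linarith [ind_le_one (Bd 0 M ν p), ind_nonneg (Bd 0 M ν p ∧ ν.Nonempty)]
  · linarith [ind_mono (P := Bd 0 M ν p) (Q := Bd 0 M ν p ∧ ν.Nonempty) fun hb => ⟨hb, h⟩,
      ind_nonneg (ν = ∅)]

theorem seq_97_cnt {π : ℕ} {w M T : ℝ} {p : ℕ} {ν : Finset ℕ} (hp : p ∈ primesIoc w T)
    (hν : ν ∈ (primesIoc w T).powerset) :
    ind (Bd π M ν p) * cnt p (M / (pr ν * p)) ≤ 2 * ind (Bd π M ν p ∧ (pr ν : ℝ) * p ≤ M) := by
  by_cases h : Bd π M ν p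
  swap
  · rw [ind_neg h, zero_mul]
    exact mul_nonneg zero_le_two (ind_nonneg _)
  have h1 : (0 : ℝ) < p := by exact_mod_cast (mem_filter.1 hp).2.pos
  have h2 : (0 : ℝ) < pr ν := by
    exact_mod_cast pr_pos fun q hq => (mem_filter.1 (mem_powerset.1 hν hq)).2
  rw [ind_pos h, one_mul]
  refine (cnt1 ?_).trans (mul_le_mul_of_nonneg_left (ind_mono fun h3 => ⟨h, ?_⟩) zero_le_two)
  · rw [div_lt_iff₀ (by positivity)]
    linarith [h.2.2.2]
  · exact (one_le_div (by positivity)).1 h3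

/-- `cnt1`. -/
theorem BS_zero_le (w M : ℝ) {T : ℝ} (hT : 0 ≤ T) : BS 0 w M T M ≤ 2 * (N0 w M T + T) := by
  refine le_trans ?_ (mul_le_mul_of_nonneg_left (sum_Bd_le w M hT) zero_le_two)
  simp only [BS, mul_sum]
  refine sum_le_sum fun p hp => sum_le_sum fun ν hν => (seq_97_cnt hp hν).trans ?_
  exact mul_le_mul_of_nonneg_left (ind_mono fun h => h.1) zero_le_two

/-- `cnt1`. -/
theorem BS_one_le (w M T : ℝ) : BS 1 w M T M ≤ 2 * N1 w M T := by
  simp only [BS, N1, mul_sum]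
  exact sum_le_sum fun p hp => sum_le_sum fun ν hν => seq_97_cnt hp hν

end Crest.Agent.R001
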