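import Crest.Agent.R001.Reach
import Crest.Agent.R001.GbAux1
import Crest.Agent.R001.Seq
import Crest.Agent.R001.GbAux20
import Crest.Agent.R001.GbAux24
import Crest.Agent.R001.GbAux18

set_option autoImplicit false

namespace Crest.Agent.R001

open Finset Filter Crest.Agent.R008 Crest.Agent.R026

/-! # The size of the tree in terms of the boundary -/

theorem Gs_nonneg (r M T L : ℝ) : 0 ≤ Gs r M T L := by
  exact sum_nonneg fun _ _ => mul_nonneg (ind_nonneg _) (by positivity)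

theorem Err_nonneg (θ : ℝ) (π : ℕ) (w M T : ℝ) : 0 ≤ Err θ π w M T := by
  exact sum_nonneg fun _ _ => mul_nonneg (ind_nonneg _) (by positivity)

theorem N0_nonneg (w M T : ℝ) : 0 ≤ N0 w M T := by
  exact sum_nonneg fun _ _ => sum_nonneg fun _ _ => ind_nonneg _

theorem gb52_sub (r : ℝ) {M T' : ℝ} (T L : ℝ)
    (h : ∀ q : ℕ, 1 ≤ q → (q : ℝ) ^ 3 ≤ M → (q : ℝ) ≤ T') : Gs r M T L ≤ Gs r M T' L := by
  classical
  unfold Gs
  rw [sum_ind_mul, sum_ind_mul]
  refine sum_le_sum_of_subset_of_nonneg (fun ν hν => ?_) fun _ _ _ => by positivity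
  obtain ⟨h1, h2⟩ := mem_filter.1 hν
  refine mem_filter.2 ⟨mem_powerset.2 fun q hq => ?_, h2⟩
  obtain ⟨h3, h4⟩ := mem_filter.1 (mem_powerset.1 h1 hq)
  exact mem_filter.2 ⟨mem_Ioc.2 ⟨(mem_Ioc.1 h3).1,
    Nat.le_floor (h q h4.one_le (valid_zero_cube h2 hq))⟩, h4⟩

/-- The primes of a valid node are at most `M^(1/3) ≤ √M` (`valid_zero_cube`). -/
theorem Gs_le_sqrt (r : ℝ) {M : ℝ} (T L : ℝ) (hM : 1 ≤ M) : Gs r M T L ≤ Gs r M √M L := by
  refine gb52_sub r T L fun q h1 h2 => Real.le_sqrt_of_sq_le (le_trans ?_ h2)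
  exact pow_le_pow_right₀ (by exact_mod_cast h1) (by norm_num)

theorem Gs_two_le {M L : ℝ} (T : ℝ) (hM : 1 ≤ M) (hL : 0 < L) : Gs 2 M T L ≤ Gs 1 M T L := by
  refine sum_le_sum fun ν hν => ?_
  by_cases h : valid 0 M ν
  · have h1 := bud_nonneg h hM fun q hq => (mem_filter.1 (mem_powerset.1 hν hq)).2.one_le
    refine mul_le_mul_of_nonneg_left (div_le_div_of_nonneg_right (Real.exp_le_exp.2
      (neg_le_neg (div_le_div_of_nonneg_right (by linarith) hL.le))) (by positivity)) (ind_nonneg _)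
  · rw [ind_neg h, zero_mul, zero_mul]

/-- Valid nodes consist of primes of `(e^L, e^(14 L)]`; `sum_pow_div_pr`, `win`. -/
theorem Gs_triv : ∃ C : ℝ, 0 < C ∧ ∀ r M T L : ℝ, 0 ≤ r → 1 ≤ M → 1 ≤ L →
    Real.log M ≤ 40 * L → Gs r M T L ≤ C := by
  obtain ⟨C, hC, H⟩ := win
  refine ⟨Real.exp (Real.log 14 + C), Real.exp_pos _, fun r M T L hr hM hL h => ?_⟩
  have hL0 : 0 < L := by linarith
  refine (gb52_sub r (T' := Real.exp (14 * L)) T L fun q _ h2 => ?_).trans ?_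
  · refine le_of_pow_le_pow_left₀ three_ne_zero (Real.exp_pos _).le (h2.trans ?_)
    rw [← Real.exp_nat_mul, ← Real.exp_log (show 0 < M by linarith)]
    refine Real.exp_le_exp.2 ?_
    push_cast
    linarith
  · refine le_trans (sum_le_sum fun ν hν => ?_)
      ((sum_pow_div_pr (primesIoc (Real.exp L) (Real.exp (14 * L))) zero_le_one).trans ?_)
    · by_cases h : valid 0 M ν
      · have h1 := bud_nonneg h hM fun q hq => (mem_filter.1 (mem_powerset.1 hν hq)).2.one_le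
        rw [ind_pos h, one_mul, one_pow]
        exact div_le_div_of_nonneg_right (Real.exp_le_one_iff.2 (neg_nonpos.2 (by positivity)))
          (by positivity)
      · rw [ind_neg h, zero_mul]
        positivity
    · have h1 := (abs_le.1 (H L (14 * L) hL (by linarith))).2
      rw [mul_div_assoc, div_self hL0.ne', mul_one] at h1
      have h2 : C / L ≤ C := div_le_self hC.le hL
      exact Real.exp_le_exp.2 (by linarith)

/-- The dyadic scale of `t`. -/
theorem dyadic {b t : ℝ} (hb : 0 < b) (ht : b < t) :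
    ∃ j : ℕ, 2 ^ j * b < t ∧ t ≤ 2 * (2 ^ j * b) := by
  classical
  have hex : ∃ j : ℕ, t ≤ 2 * (2 ^ j * b) := by
    obtain ⟨j, hj⟩ := pow_unbounded_of_one_lt (t / b) (one_lt_two (α := ℝ))
    rw [div_lt_iff₀ hb] at hj
    have : 0 < 2 ^ j * b := by positivity
    exact ⟨j, by linarith⟩
  refine ⟨Nat.find hex, ?_, Nat.find_spec hex⟩
  rcases h : Nat.find hex with _ | j
  · simpa using ht
  · have := Nat.find_min hex (show j < Nat.find hex by omega)
    rw [pow_succ]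
    linarith [not_le.1 this]

/-- For `bud ν > R L`: `exp (-bud ν / L) ≤ exp (-R/2) exp (-bud ν / (2L))`; `sum_cut_le` at `e^(2L)`,
`ν = ν' ∪ s`, `bud ν = bud ν' - log (pr s)`, `exp (log (pr s) / (2L)) ≤ e^|s|`, `valid_union`,
`sum_pow_div_pr`, `win`. -/
theorem Gs_iter : ∃ C : ℝ, 0 < C ∧ ∀ R M T L : ℝ, 1 ≤ M → 1 ≤ L →
    Gs 1 M T L ≤ Tight R M T L + C * Real.exp (-(R / 2)) * Gs 1 M T (2 * L) :=
  GbAux18_Gs_iter

/-- `pre` with `y = e^L`, `Q ν = (bud M ν ≤ R L)`; `reach` (`bud_ge`, `Bm_parity`) with the base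
case given by the boundary nodes `ν = ∅`, `p ∈ (e^(0.9 t), e^t]`, of mass at least `1/20`
(`win`). -/
theorem tight_le (R : ℝ) : ∃ c θ L₀ : ℝ, 0 < c ∧ 0 < θ ∧ 1 ≤ L₀ ∧ ∀ w M T L : ℝ, 0 ≤ w → L₀ ≤ L →
    w ≤ Real.exp (θ * L) → 0 < M → L ≤ Real.log M → Real.exp L ≤ T →
    c * Tight R M T L ≤ Bm 0 w M T (fun p => ind (Real.log p ≤ L)) :=
  GbAux1_tight_le R

/-- For a boundary node with `log p ≤ L ≤ log M / 3` the set `ν` is nonempty, so `d = pr ν * p ≤ M`
(`valid_zero_min`), `x = M e^(4L) / d ∈ [e^(4L), e^(6L)]`, and `cnt4` applies. -/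
theorem low_bd (h : HP) : ∃ c L₀ : ℝ, 0 < c ∧ ∀ w M T L : ℝ, 0 ≤ w → L₀ ≤ L → 0 < M →
    3 * L ≤ Real.log M → c / L * Bm 0 w M T (fun p => ind (Real.log p ≤ L)) ≤
      BS 0 w M T (M * Real.exp (4 * L)) / (M * Real.exp (4 * L)) :=
  GbAux24_low_bd h

/-- A nonempty valid `ν` with least element `m` has a dyadic scale `L_j < log m ≤ 2 L_j`, `j < J`,
`ν ⊆ primesIoc (e^L_j) T`, `a = bud ν ≥ log m > L_j`, and
`e^(-θ a) ≤ e^(-θ L_j / 2) e^(-2 a / L_j) ≤ C L_j^(-3) e^(-2a/L_j)` because `L_j ≥ 4 / θ`. -/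
theorem E1 {θ : ℝ} (hθ : 0 < θ) : ∃ C : ℝ, 0 < C ∧ ∀ (w M T : ℝ) (J : ℕ), 1 < w →
    4 / θ ≤ Real.log w → 1 ≤ M → Real.log M ≤ 2 ^ J * Real.log w →
    Err θ 0 w M T ≤ Real.exp (-(θ * Real.log M)) + C * Asum M T (Real.log w) J := by
  refine ⟨48 / θ ^ 3, by positivity, fun w M T J hw hθw hM hJ => ?_⟩
  have hb : 0 < Real.log w := Real.log_pos hw
  set b := Real.log w with hbw
  let G : ℕ → Finset ℕ → ℝ := fun j ν => if ν ⊆ primesIoc (Real.exp (2 ^ j * b)) T then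
    ind (valid 0 M ν) * (Real.exp (-(2 * bud M ν / (2 ^ j * b))) / pr ν) / (2 ^ j * b) ^ 3 else 0
  have G0 : ∀ j ν, 0 ≤ G j ν := fun j ν => by
    have := ind_nonneg (valid 0 M ν)
    simp only [G]
    split_ifs <;> positivity
  have hbL : ∀ j : ℕ, b ≤ 2 ^ j * b := fun j =>
    le_mul_of_one_le_left hb.le (one_le_pow₀ one_le_two)
  have e1 : Asum M T b J = ∑ ν ∈ (primesIoc w T).powerset, ∑ j ∈ range J, G j ν := by
    rw [sum_comm]
    refine sum_congr rfl fun j _ => ?_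
    rw [Gs, sum_div, ← sum_filter]
    refine sum_congr ?_ fun _ _ => rfl
    ext ν
    rw [mem_filter, mem_powerset, mem_powerset]
    refine ⟨fun h => ⟨h.trans (primesIoc_mono ?_ le_rfl), h⟩, fun h => h.2⟩
    exact (Real.log_le_iff_le_exp (by linarith)).1 (hbL j)
  rw [Err, ← add_sum_erase _ _ (empty_mem_powerset _), e1, mul_sum]
  refine add_le_add (le_of_eq ?_) (le_trans (sum_le_sum fun ν hν => ?_)
    (sum_le_sum_of_subset_of_nonneg (erase_subset ∅ _) fun ν _ _ =>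
      mul_nonneg (by positivity) (sum_nonneg fun j _ => G0 j ν)))
  · simp [ind_pos (valid_empty 0 M), bud, pr]
  by_cases hv : valid 0 M ν
  swap
  · rw [ind_neg hv, zero_mul]
    exact mul_nonneg (by positivity) (sum_nonneg fun j _ => G0 j ν)
  obtain ⟨hne, hs⟩ := mem_erase.1 hν
  rw [mem_powerset] at hs
  obtain ⟨m, hm, hmin⟩ := ν.exists_min_image id (nonempty_iff_ne_empty.2 hne)
  have hT : 0 ≤ T := by
    by_contra hT
    have := hs hm
    simp [primesIoc, Nat.floor_of_nonpos (not_le.1 hT).le] at this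
  have hmem := fun q (hq : q ∈ ν) => (mem_primesIoc (by linarith) hT).1 (hs hq)
  have m0 : (0 : ℝ) < m := by linarith [(hmem m hm).2.1]
  have p0 : (1 : ℝ) ≤ pr ν := by exact_mod_cast pr_pos fun q hq => (hmem q hq).1
  obtain ⟨j, j1, -⟩ := dyadic hb (Real.log_lt_log (by linarith) (hmem m hm).2.1)
  have a1 : Real.log m ≤ bud M ν := by
    have := Real.log_le_log (by positivity) (valid_zero_min hv hm hmin (hmem m hm).1.one_le)
    rw [Real.log_mul (by positivity) m0.ne'] at this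
    unfold bud
    linarith
  have a2 : bud M ν ≤ Real.log M := sub_le_self _ (Real.log_nonneg p0)
  have hj : j < J := by
    have : (2 : ℝ) ^ j < 2 ^ J := lt_of_mul_lt_mul_right (by linarith) hb.le
    exact (pow_lt_pow_iff_right₀ one_lt_two).1 this
  have hsub : ν ⊆ primesIoc (Real.exp (2 ^ j * b)) T := fun q hq =>
    (mem_primesIoc (Real.exp_pos _).le hT).2 ⟨(hmem q hq).1,
      ((Real.lt_log_iff_exp_lt m0).1 j1).trans_le (by exact_mod_cast hmin q hq), (hmem q hq).2.2⟩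
  refine le_trans ?_ (mul_le_mul_of_nonneg_left
    (single_le_sum (fun j _ => G0 j ν) (mem_range.2 hj)) (by positivity))
  simp only [G, if_pos hsub, ind_pos hv, one_mul]
  have hL := hθw.trans (hbL j)
  have hL0 := hb.trans_le (hbL j)
  generalize 2 ^ j * b = L at *
  generalize bud M ν = a at *
  have c1 : Real.exp (-(θ * a)) ≤ Real.exp (-(θ * L / 2)) * Real.exp (-(2 * a / L)) := by
    rw [← Real.exp_add]
    refine Real.exp_le_exp.2 ?_
    have d1 : 2 * a / L ≤ θ * a / 2 := by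
      rw [div_le_iff₀ hθ] at hL
      rw [div_le_iff₀ hL0]
      nlinarith
    nlinarith
  have c2 : Real.exp (-(θ * L / 2)) ≤ 48 / θ ^ 3 / L ^ 3 := by
    have := Real.pow_div_factorial_le_exp (θ * L / 2) (by positivity) 3
    rw [Real.exp_neg]
    refine (inv_anti₀ (by positivity) this).trans (le_of_eq ?_)
    simp only [Nat.factorial]
    field_simp
    norm_num
  calc _ ≤ 48 / θ ^ 3 / L ^ 3 * Real.exp (-(2 * a / L)) / pr ν := by
        gcongr
        exact c1.trans (by gcongr)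
    _ = _ := by ring

/-- `∑_{q ≤ R} π(q)² ≤ C R³ / L³` over primes with `log q > L` (`pi_le`). -/
theorem sum_pi_sq : ∃ C : ℝ, 0 < C ∧ ∀ (L R : ℝ) (S : Finset ℕ), 1 ≤ L → 0 < R →
    (∀ q ∈ S, q.Prime ∧ L < Real.log q ∧ (q : ℝ) ≤ R) →
    ∑ q ∈ S, ((primesIoc 0 q).card : ℝ) ^ 2 ≤ C * R ^ 3 / L ^ 3 :=
  GbAux20_sum_pi_sq

/-- A boundary pair `(ν, p)` with `ν` nonempty has `ν.card` even, `ν = ν₀ ∪ {q'', q'}` with
`p < q' < q'' < ν₀`, `ν₀` valid and `pr ν₀ q''³ ≤ M` (twice `sum_bot`, or an injection into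
quadruples).  With `L_j < log q'' ≤ 2 L_j`: `ν₀ ⊆ primesIoc (e^L_j) T`, and by `sum_pi_sq` with
`R = min (e^(2 L_j)) (M / pr ν₀)^(1/3)` the count for given `ν₀, j` is at most `C R³ / L_j³` with
`R³ ≤ e^12 (M / pr ν₀) e^(-2 a / L_j)` (`a = bud ν₀`, `L_j ≥ 2`). -/
theorem E2 : ∃ C : ℝ, 0 < C ∧ ∀ (w M T : ℝ) (J : ℕ), 1 < w → 2 ≤ Real.log w → 1 ≤ M →
    Real.log M ≤ 2 ^ J * Real.log w → N0 w M T ≤ C * M * Asum M T (Real.log w) J :=
  GbAux20_E2

end Crest.Agent.R001
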