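import Mathlib

set_option autoImplicit false

namespace Crest.Agent.R001

open Finset

theorem Inv1_49_close (Λ : Finset ℕ) {V : ℝ} (hΛ : ∀ v ∈ Λ, 1 ≤ v ∧ (v : ℝ) ≤ V)
    (h2 : 2 ≤ Λ.card) : ∃ w ∈ Λ, ∃ w' ∈ Λ, w < w' ∧ ((w' : ℝ) - w) * (Λ.card - 1) ≤ V := by
  obtain ⟨n, hn⟩ : ∃ n, Λ.card = n + 1 := ⟨Λ.card - 1, by omega⟩
  obtain ⟨v₀, hv₀⟩ : Λ.Nonempty := card_pos.1 (by omega)
  have hV : 0 ≤ V := (Nat.cast_nonneg _).trans (hΛ v₀ hv₀).2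
  have hL : ∀ v ∈ Λ, v ≤ ⌊V⌋₊ := fun v hv => Nat.le_floor (hΛ v hv).2
  have hL0 : 0 < ⌊V⌋₊ := (hΛ v₀ hv₀).1.trans (hL v₀ hv₀)
  have key : ∀ w w' : ℕ, 1 ≤ w → w < w' → (w - 1) * n / ⌊V⌋₊ = (w' - 1) * n / ⌊V⌋₊ →
      ((w' : ℝ) - w) * (Λ.card - 1) ≤ V := by
    intro w w' h1 hlt he
    have a1 := Nat.div_mul_le_self ((w - 1) * n) ⌊V⌋₊
    have a2 := Nat.lt_div_mul_add (a := (w' - 1) * n) hL0
    rw [← he] at a2
    have a3 : (w' - 1) * n ≤ (w - 1) * n + ⌊V⌋₊ := by omega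
    have a4 : ((w' - 1 : ℕ) : ℝ) * n ≤ ((w - 1 : ℕ) : ℝ) * n + ⌊V⌋₊ := by exact_mod_cast a3
    rw [Nat.cast_sub h1, Nat.cast_sub (by omega)] at a4
    rw [hn]
    push_cast at a4 ⊢
    linarith [Nat.floor_le hV]
  obtain ⟨x, hx, y, hy, hne, he⟩ := exists_ne_map_eq_of_card_lt_of_maps_to (s := Λ) (t := range n)
    (by rw [card_range]; omega) (f := fun v => (v - 1) * n / ⌊V⌋₊) (fun v hv => by
      have hv : v ∈ Λ := hv
      have := hL v hv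
      have := (hΛ v hv).1
      simp only [coe_range, Set.mem_Iio]
      rw [Nat.div_lt_iff_lt_mul hL0, mul_comm n]
      exact Nat.mul_lt_mul_of_pos_right (by omega) (by omega))
  rcases lt_or_gt_of_ne hne with h | h
  · exact ⟨x, hx, y, hy, h, key x y (hΛ x hx).1 h he⟩
  · exact ⟨y, hy, x, hx, h, key y x (hΛ y hy).1 h he.symm⟩

theorem Inv1_49_far (Λ : Finset ℕ) (h2 : 2 ≤ Λ.card) :
    ∃ u ∈ Λ, ∃ u' ∈ Λ, (Λ.card : ℝ) - 1 ≤ (u' : ℝ) - u := by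
  have hne : Λ.Nonempty := card_pos.1 (by omega)
  refine ⟨_, Λ.min'_mem hne, _, Λ.max'_mem hne, ?_⟩
  have a1 : Λ.card ≤ (Icc (Λ.min' hne) (Λ.max' hne)).card :=
    card_le_card fun v hv => mem_Icc.2 ⟨Λ.min'_le v hv, Λ.le_max' v hv⟩
  rw [Nat.card_Icc] at a1
  have a2 : Λ.card + Λ.min' hne ≤ Λ.max' hne + 1 := by omega
  have a3 : (Λ.card : ℝ) + Λ.min' hne ≤ Λ.max' hne + 1 := by exact_mod_cast a2
  linarith

theorem Inv1_49_ndvd (Λ : Finset ℕ) {V : ℝ} (hΛ : ∀ v ∈ Λ, 1 ≤ v ∧ (v : ℝ) ≤ V) (hV : 0 ≤ V)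
    {l : ℕ} (hl : V < l * Λ.card) : ∃ v ∈ Λ, ¬ l ∣ v := by
  by_contra hh
  push Not at hh
  have a1 : Λ.card ≤ ((Ioc 0 ⌊V⌋₊).filter (l ∣ ·)).card :=
    card_le_card fun v hv => mem_filter.2 ⟨mem_Ioc.2 ⟨(hΛ v hv).1, Nat.le_floor (hΛ v hv).2⟩, hh v hv⟩
  rw [Nat.Ioc_filter_dvd_card_eq_div] at a1
  have a2 : l * Λ.card ≤ ⌊V⌋₊ := (Nat.mul_le_mul_left l a1).trans (Nat.mul_div_le _ _)
  have a3 : (l : ℝ) * Λ.card ≤ ⌊V⌋₊ := by exact_mod_cast a2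
  linarith [Nat.floor_le hV]

theorem Inv1_49_glue (Λ : Finset ℕ) {V : ℝ} (h b : ℤ) {f M : ℕ}
    (hΛ : ∀ v ∈ Λ, 1 ≤ v ∧ (v : ℝ) ≤ V)
    (h2 : 2 ≤ Λ.card) (hf : 1 ≤ f) (hh : h ≠ 0) (hM : 2 * (f : ℝ) * V ^ 3 < M)
    (hd : ∀ v ∈ Λ, ∀ v' ∈ Λ, (M : ℤ) ∣ h * b / ((f * v : ℕ) : ℤ) - h * b / ((f * v' : ℕ) : ℤ)) :
    ∃ (a : ℤ) (q : ℕ), 1 ≤ q ∧ (q : ℝ) ≤ |(h : ℝ)| * (2 * V / Λ.card) ∧
      |(a : ℝ)| ≤ q * (2 * f * V ^ 2 / Λ.card) ∧ IsCoprime a (q : ℤ) ∧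
      ∀ v ∈ Λ, ∀ l : ℕ, l.Prime → l ∣ v → V < l * Λ.card → |(h : ℝ)| * (2 * V / Λ.card) < l →
        (l : ℤ) ∣ q * b - a := by
  obtain ⟨w, hw, w', hw', hlt, ht⟩ := Inv1_49_close Λ hΛ h2
  obtain ⟨u, hu, u', hu', hfar⟩ := Inv1_49_far Λ h2
  have hV : 0 ≤ V := (Nat.cast_nonneg _).trans (hΛ w hw).2
  have hn : (2 : ℝ) ≤ Λ.card := by exact_mod_cast h2
  obtain ⟨ρ, hρ⟩ : ∃ ρ : ℕ → ℤ, ∀ v, ρ v = h * b % ((f * v : ℕ) : ℤ) := ⟨_, fun _ => rfl⟩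
  obtain ⟨y, hy⟩ : ∃ y : ℕ → ℕ → ℤ, ∀ v v', y v v' = v' * ρ v - v * ρ v' := ⟨_, fun _ _ => rfl⟩
  have e1 : ∀ v v' : ℕ, h * b * ((v' : ℤ) - v) - y v v' =
      v * (f * v' * (h * b / ((f * v : ℕ) : ℤ) - h * b / ((f * v' : ℕ) : ℤ))) := by
    intro v v'
    have a1 := Int.mul_ediv_add_emod (h * b) ((f * v : ℕ) : ℤ)
    have a2 := Int.mul_ediv_add_emod (h * b) ((f * v' : ℕ) : ℤ)
    rw [hy, hρ, hρ]
    generalize h * b / ((f * v : ℕ) : ℤ) = c at *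
    generalize h * b / ((f * v' : ℕ) : ℤ) = c' at *
    generalize h * b % ((f * v : ℕ) : ℤ) = r at *
    generalize h * b % ((f * v' : ℕ) : ℤ) = r' at *
    push_cast at a1 a2
    linear_combination (-(v' : ℤ)) * a1 + v * a2
  have e2 : ∀ v ∈ Λ, ∀ v' ∈ Λ, 0 ≤ ((v' : ℝ) * ρ v) ∧ (v' : ℝ) * ρ v ≤ f * V ^ 2 := by
    intro v hv v' hv'
    have p : (0 : ℤ) < ((f * v : ℕ) : ℤ) := by
      have := (hΛ v hv).1
      positivity
    have a1 : (0 : ℝ) ≤ ρ v := by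
      rw [hρ]
      exact_mod_cast Int.emod_nonneg _ p.ne'
    have a2 : (ρ v : ℝ) ≤ f * v := by
      rw [hρ]
      exact_mod_cast (Int.emod_lt_of_pos _ p).le
    refine ⟨by positivity, ?_⟩
    calc (v' : ℝ) * ρ v ≤ V * (f * V) :=
          mul_le_mul (hΛ v' hv').2 (a2.trans (by gcongr; exact (hΛ v hv).2)) a1 hV
      _ = _ := by ring
  have e3 : ∀ v ∈ Λ, ∀ v' ∈ Λ, |(y v v' : ℝ)| ≤ f * V ^ 2 := by
    intro v hv v' hv'
    rw [hy]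
    push_cast
    rw [abs_le]
    constructor <;> linarith [e2 v hv v' hv', e2 v' hv' v hv]
  have e4 : ∀ v ∈ Λ, ∀ v' ∈ Λ, |(v' : ℝ) - v| ≤ V := by
    intro v hv v' hv'
    rw [abs_le]
    constructor <;> linarith [(hΛ v hv).2, (hΛ v' hv').2, Nat.cast_nonneg (α := ℝ) v,
      Nat.cast_nonneg (α := ℝ) v']
  have e5 : ∀ v ∈ Λ, ∀ v' ∈ Λ, y v v' * ((w' : ℤ) - w) = y w w' * ((v' : ℤ) - v) := by
    intro v hv v' hv'
    have d1 : (M : ℤ) ∣ h * b * ((v' : ℤ) - v) - y v v' := by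
      rw [e1]
      exact ((hd v hv v' hv').mul_left _).mul_left _
    have d2 : (M : ℤ) ∣ h * b * ((w' : ℤ) - w) - y w w' := by
      rw [e1]
      exact ((hd w hw w' hw').mul_left _).mul_left _
    have d3 : (M : ℤ) ∣ y v v' * ((w' : ℤ) - w) - y w w' * ((v' : ℤ) - v) := by
      exact ((d2.mul_right ((v' : ℤ) - v)).sub (d1.mul_right ((w' : ℤ) - w))).trans
        (dvd_of_eq (by ring))
    refine sub_eq_zero.1 (Int.eq_zero_of_abs_lt_dvd d3 ?_)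
    have : |(y v v' : ℝ) * ((w' : ℝ) - w) - y w w' * ((v' : ℝ) - v)| < M := by
      refine (abs_sub _ _).trans_lt (lt_of_le_of_lt ?_ hM)
      rw [abs_mul, abs_mul]
      have b1 := mul_le_mul (e3 v hv v' hv') (e4 w hw w' hw') (abs_nonneg _) (by positivity)
      have b2 := mul_le_mul (e3 w hw w' hw') (e4 v hv v' hv') (abs_nonneg _) (by positivity)
      linarith
    exact_mod_cast this
  have ht0 : (0 : ℝ) < (w' : ℝ) - w := sub_pos.2 (by exact_mod_cast hlt)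
  have hh1 : (1 : ℝ) ≤ |(h : ℝ)| := by exact_mod_cast Int.one_le_abs hh
  -- the unreduced fraction
  set q₀ : ℕ := h.natAbs * (w' - w) with hq₀
  set a₀ : ℤ := h.sign * y w w' with ha₀
  have cq : (q₀ : ℤ) = |h| * ((w' : ℤ) - w) := by
    rw [hq₀]
    push_cast [Nat.cast_sub hlt.le]
    rfl
  have cq' : (q₀ : ℝ) = |(h : ℝ)| * ((w' : ℝ) - w) := by exact_mod_cast cq
  have q0 : 0 < q₀ := by
    have : (0 : ℝ) < q₀ := by
      rw [cq']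
      positivity
    exact_mod_cast this
  have q1 : (q₀ : ℝ) ≤ |(h : ℝ)| * (2 * V / Λ.card) := by
    rw [cq']
    gcongr
    rw [le_div_iff₀ (by linarith)]
    nlinarith
  have q2 : |(a₀ : ℝ)| ≤ q₀ * (2 * f * V ^ 2 / Λ.card) := by
    have a1 : |(a₀ : ℝ)| = |(y w w' : ℝ)| := by
      have : |a₀| = |y w w'| := by rw [ha₀, abs_mul, Int.abs_sign_of_ne_zero hh, one_mul]
      exact_mod_cast this
    have a2 : (y u u' : ℝ) * ((w' : ℝ) - w) = y w w' * ((u' : ℝ) - u) := by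
      exact_mod_cast e5 u hu u' hu'
    have a3 := congrArg abs a2
    rw [abs_mul, abs_mul, abs_of_pos ht0, abs_of_nonneg (by linarith : (0 : ℝ) ≤ u' - u)] at a3
    have a4 : |(y w w' : ℝ)| * (Λ.card - 1) ≤ f * V ^ 2 * ((w' : ℝ) - w) :=
      ((mul_le_mul_of_nonneg_left hfar (abs_nonneg _)).trans a3.ge).trans
        (mul_le_mul_of_nonneg_right (e3 u hu u' hu') ht0.le)
    have a5 : f * V ^ 2 * ((w' : ℝ) - w) ≤ f * V ^ 2 * q₀ := by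
      rw [cq']
      gcongr
      exact le_mul_of_one_le_left ht0.le hh1
    rw [a1, ← mul_div_assoc, le_div_iff₀ (by linarith)]
    nlinarith [abs_nonneg (y w w' : ℝ)]
  obtain ⟨a, q', hco, ea, eq⟩ := Int.exists_gcd_one (m := a₀) (n := q₀)
    (Int.gcd_pos_of_ne_zero_right _ (by exact_mod_cast q0.ne'))
  set d : ℕ := Int.gcd a₀ q₀ with hd'
  have d0 : 0 < d := Int.gcd_pos_of_ne_zero_right _ (by exact_mod_cast q0.ne')
  have q'0 : 0 < q' := by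
    have : (0 : ℤ) < q' * d := by
      rw [← eq]
      exact_mod_cast q0
    exact (mul_pos_iff_of_pos_right (by exact_mod_cast d0)).1 this
  obtain ⟨q, rfl⟩ := Int.eq_ofNat_of_zero_le q'0.le
  have eq' : q₀ = q * d := by exact_mod_cast eq
  have qpos : 0 < q := by exact_mod_cast q'0
  have dR : (0 : ℝ) < d := by exact_mod_cast d0
  refine ⟨a, q, qpos, le_trans ?_ q1, ?_, Int.isCoprime_iff_gcd_eq_one.2 hco, ?_⟩
  · exact_mod_cast eq' ▸ Nat.le_mul_of_pos_right q d0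
  · rw [ea, eq'] at q2
    push_cast at q2
    rw [abs_mul, abs_of_pos dR, mul_right_comm] at q2
    exact le_of_mul_le_mul_right q2 dR
  · intro v hv l hl hlv h1 h3
    obtain ⟨v', hv', hnd⟩ := Inv1_49_ndvd Λ hΛ hV h1
    have pl : Prime (l : ℤ) := Nat.prime_iff_prime_int.1 hl
    have lv : (l : ℤ) ∣ v := Int.natCast_dvd_natCast.2 hlv
    have d1 : (l : ℤ) ∣ h * b * ((v' : ℤ) - v) - y v v' := by
      rw [e1]
      exact lv.mul_right _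
    have d2 : (l : ℤ) ∣ ((v' : ℤ) - v) * (h * b * ((w' : ℤ) - w) - y w w') := by
      refine (d1.mul_right ((w' : ℤ) - w)).trans (dvd_of_eq ?_)
      linear_combination -e5 v hv v' hv'
    have d3 : (l : ℤ) ∣ h * b * ((w' : ℤ) - w) - y w w' :=
      (pl.dvd_or_dvd d2).resolve_left fun hh =>
        hnd (Int.natCast_dvd_natCast.1 (by simpa using hh.add lv))
    have d4 : (l : ℤ) ∣ d * (q * b - a) := by
      refine (d3.mul_left h.sign).trans (dvd_of_eq ?_)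
      have s1 : h.sign * h = |h| := Int.sign_mul_self_eq_abs h
      linear_combination b * eq - ea - b * cq + ha₀ + b * ((w' : ℤ) - w) * s1
    refine (pl.dvd_or_dvd d4).resolve_left fun hh => ?_
    have a1 : l ≤ d := Nat.le_of_dvd d0 (Int.natCast_dvd_natCast.1 hh)
    have a2 : d ≤ q₀ := eq' ▸ Nat.le_mul_of_pos_left d qpos
    have a3 : (l : ℝ) ≤ q₀ := by exact_mod_cast a1.trans a2
    linarith

end Crest.Agent.R001
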