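import Crest.Agent.R001.Prim

set_option autoImplicit false

namespace Crest.Agent.R001

open Finset Filter Crest.Agent.R008 Crest.Agent.R026

theorem inv1a6_quot {n : ℕ} (Q : Fin n → Finset ℕ) (hp : ∀ j, ∀ q ∈ Q j, q.Prime)
    {x : Fin n → ℕ} (hx : x ∈ Fintype.piFinset Q) :
    (∏ j, pr (Q j)) / ∏ j, x j = ∏ j, pr ((Q j).erase (x j)) := by
  have hx' := Fintype.mem_piFinset.1 hx
  have h1 : (∏ j, pr (Q j)) = (∏ j, x j) * ∏ j, pr ((Q j).erase (x j)) := by
    rw [← prod_mul_distrib]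
    refine prod_congr rfl fun j _ => ?_
    unfold pr
    exact (mul_prod_erase (Q j) (fun p => p) (hx' j)).symm
  rw [h1]
  exact Nat.mul_div_cancel_left _ (prod_pos fun j _ => (hp j _ (hx' j)).pos)

theorem inv1a6_dvd {n : ℕ} (Q : Fin n → Finset ℕ) (hp : ∀ j, ∀ q ∈ Q j, q.Prime)
    (hd : ∀ i j, i ≠ j → Disjoint (Q i) (Q j)) {x : Fin n → ℕ} (hx : x ∈ Fintype.piFinset Q)
    {j : Fin n} {l : ℕ} (hl : l ∈ Q j) :
    l ∣ (∏ j, pr (Q j)) / ∏ j, x j ↔ x j ≠ l := by
  rw [inv1a6_quot Q hp hx]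
  constructor
  · intro h he
    obtain ⟨j', -, h1⟩ := (Prime.dvd_finsetProd_iff (hp j l hl).prime _).1 h
    unfold pr at h1
    obtain ⟨q, hq, h2⟩ := (Prime.dvd_finsetProd_iff (hp j l hl).prime _).1 h1
    have hq' := mem_erase.1 hq
    have h3 : l = q := (Nat.prime_dvd_prime_iff_eq (hp j l hl) (hp j' q hq'.2)).1 h2
    subst h3
    by_cases hj : j = j'
    · subst hj
      exact hq'.1 he.symm
    · exact disjoint_left.1 (hd j j' hj) hl hq'.2
  · intro h
    refine Dvd.dvd.trans ?_ (dvd_prod_of_mem _ (mem_univ j))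
    unfold pr
    exact dvd_prod_of_mem (fun p => p) (mem_erase.2 ⟨fun e => h e.symm, hl⟩)

theorem inv1a6_few {n k : ℕ} (Q : Fin n → Finset ℕ) (hp : ∀ j, ∀ q ∈ Q j, q.Prime)
    (hd : ∀ i j, i ≠ j → Disjoint (Q i) (Q j)) {y y' : Fin k → Fin n → ℕ}
    (hy : ∀ i, y i ∈ Fintype.piFinset Q) (hy' : ∀ i, y' i ∈ Fintype.piFinset Q)
    (h : ∑ i, (∏ j, pr (Q j)) / ∏ j, y i j = ∑ i, (∏ j, pr (Q j)) / ∏ j, y' i j) (j : Fin n) :
    (image (fun i => y i j) univ ∪ image (fun i => y' i j) univ).card ≤ k := by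
  classical
  set Y : Fin k ⊕ Fin k → Fin n → ℕ := Sum.elim y y' with hY
  have hYm : ∀ s, Y s ∈ Fintype.piFinset Q := by
    rintro (i | i)
    · exact hy i
    · exact hy' i
  set ε : Fin k ⊕ Fin k → ℤ := Sum.elim (fun _ => 1) (fun _ => -1) with hε
  have hεu : ∀ s, IsUnit (ε s) := by
    rintro (i | i) <;> simp [hε]
  have hsum : ∑ s, ε s * (((∏ j, pr (Q j)) / ∏ j, Y s j : ℕ) : ℤ) = 0 := by
    rw [Fintype.sum_sum_type]
    simp only [hε, hY, Sum.elim_inl, Sum.elim_inr, one_mul, neg_mul, sum_neg_distrib]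
    rw [← Nat.cast_sum, ← Nat.cast_sum, h]
    ring
  have him : image (fun i => y i j) univ ∪ image (fun i => y' i j) univ =
      image (fun s => Y s j) univ := by
    ext l
    simp [hY]
  rw [him]
  have key : 2 * (image (fun s => Y s j) univ).card ≤ (univ : Finset (Fin k ⊕ Fin k)).card := by
    refine mul_card_image_le_card _ _ fun l hl => ?_
    obtain ⟨s₀, -, hs₀⟩ := mem_image.1 hl
    have hlQ : l ∈ Q j := hs₀ ▸ Fintype.mem_piFinset.1 (hYm s₀) j
    by_contra hlt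
    have hone : ∀ s, s ≠ s₀ → Y s j ≠ l := by
      intro s hs he
      apply hlt
      have : ({s, s₀} : Finset _) ⊆ univ.filter (fun s => Y s j = l) := by
        intro u hu
        rcases mem_insert.1 hu with rfl | hu
        · exact mem_filter.2 ⟨mem_univ _, he⟩
        · rw [mem_singleton.1 hu]; exact mem_filter.2 ⟨mem_univ _, hs₀⟩
      have h2 := card_le_card this
      rwa [card_pair hs] at h2
    rw [← add_sum_erase _ _ (mem_univ s₀)] at hsum
    have h3 : (l : ℤ) ∣ ∑ s ∈ univ.erase s₀,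
        ε s * (((∏ j, pr (Q j)) / ∏ j, Y s j : ℕ) : ℤ) := by
      refine dvd_sum fun s hs => Dvd.dvd.mul_left ?_ _
      exact Int.natCast_dvd_natCast.2
        ((inv1a6_dvd Q hp hd (hYm s) hlQ).2 (hone s (mem_erase.1 hs).1))
    have h4 : (l : ℤ) ∣ ε s₀ * (((∏ j, pr (Q j)) / ∏ j, Y s₀ j : ℕ) : ℤ) := by
      rw [eq_neg_of_add_eq_zero_left hsum]
      exact dvd_neg.2 h3
    have h5 := Int.natCast_dvd_natCast.1 ((hεu s₀).dvd_mul_left.1 h4)
    exact (inv1a6_dvd Q hp hd (hYm s₀) hlQ).1 h5 hs₀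
  simp only [card_univ, Fintype.card_sum, Fintype.card_fin] at key
  omega

theorem inv1a6_swap {n k : ℕ} (Q : Fin n → Finset ℕ) (G : (Fin k → Fin n → ℕ) → ℝ) :
    ∑ y ∈ Fintype.piFinset (fun _ : Fin k => Fintype.piFinset Q), G y =
      ∑ z ∈ Fintype.piFinset (fun j : Fin n => Fintype.piFinset (fun _ : Fin k => Q j)),
        G (fun i j => z j i) := by
  refine sum_nbij' (fun y j i => y i j) (fun z i j => z j i) ?_ ?_ ?_ ?_ ?_
  · intro y hy
    simp only [Fintype.mem_piFinset] at hy ⊢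
    exact fun j i => hy i j
  · intro z hz
    simp only [Fintype.mem_piFinset] at hz ⊢
    exact fun i j => hz j i
  · intro y _; rfl
  · intro z _; rfl
  · intro y _; rfl

theorem inv1a6_main {n : ℕ} (Q : Fin n → Finset ℕ) {k : ℕ} (hp : ∀ j, ∀ q ∈ Q j, q.Prime)
    (hd : ∀ i j, i ≠ j → Disjoint (Q i) (Q j)) :
    Zc (Fintype.piFinset Q) (fun x => (∏ j, pr (Q j)) / ∏ j, x j) k 0 ≤
      ∏ j, ∑ a ∈ Fintype.piFinset (fun _ : Fin k => Q j),
        ∑ a' ∈ Fintype.piFinset (fun _ : Fin k => Q j),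
          ind ((image a univ ∪ image a' univ).card ≤ k) := by
  have h1 : Zc (Fintype.piFinset Q) (fun x => (∏ j, pr (Q j)) / ∏ j, x j) k 0 ≤
      ∑ y ∈ Fintype.piFinset (fun _ : Fin k => Fintype.piFinset Q),
        ∑ y' ∈ Fintype.piFinset (fun _ : Fin k => Fintype.piFinset Q),
          ∏ j, ind ((image (fun i => y i j) univ ∪ image (fun i => y' i j) univ).card ≤ k) := by
    unfold Zc
    refine sum_le_sum fun y hy => sum_le_sum fun y' hy' => ?_
    by_cases h : ∑ i, (∏ j, pr (Q j)) / ∏ j, y i j = ∑ i, (∏ j, pr (Q j)) / ∏ j, y' i j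
    · rw [prod_congr rfl fun j _ => ind_pos (inv1a6_few Q hp hd (Fintype.mem_piFinset.1 hy)
        (Fintype.mem_piFinset.1 hy') h j), prod_const_one]
      exact ind_le_one _
    · rw [ind_neg]
      · exact prod_nonneg fun j _ => ind_nonneg _
      · intro h'
        apply h
        rw [Nat.cast_zero, zero_dvd_iff, sub_eq_zero] at h'
        exact_mod_cast h'
  refine h1.trans (le_of_eq ?_)
  rw [prod_univ_sum, inv1a6_swap]
  refine sum_congr rfl fun z _ => ?_
  rw [prod_univ_sum, inv1a6_swap]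

end Crest.Agent.R001
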