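import Crest.Agent.R001.Defs

set_option autoImplicit false

namespace Crest.Agent.R001

open Finset Filter Crest.Agent.R008 Crest.Agent.R026

theorem inv169_primes (P : Finset ℕ) (hP : ∀ p ∈ P, p.Prime) {d : ℤ} {Ω : ℕ}
    (hd : d.natAbs < 2 ^ Ω) : ∑ p ∈ P, ind ((p : ℤ) ∣ d) ≤ P.card * ind (((0 : ℕ) : ℤ) ∣ d) + Ω := by
  by_cases h0 : d = 0
  · rw [ind_pos (by simp [h0] : ((0 : ℕ) : ℤ) ∣ d), mul_one]
    have := Finset.sum_le_card_nsmul P (fun p => ind ((p : ℤ) ∣ d)) 1 fun p _ => ind_le_one _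
    rw [nsmul_eq_mul, mul_one] at this
    linarith [Nat.cast_nonneg (α := ℝ) Ω]
  · rw [ind_neg (by simpa using h0 : ¬ ((0 : ℕ) : ℤ) ∣ d), mul_zero, zero_add, sum_ind]
    have hn : d.natAbs ≠ 0 := Int.natAbs_ne_zero.2 h0
    have h1 : P.filter (fun p : ℕ => (p : ℤ) ∣ d) ⊆ d.natAbs.primeFactors := fun p hp => by
      obtain ⟨a, b⟩ := Finset.mem_filter.1 hp
      exact Nat.mem_primeFactors.2 ⟨hP p a, Int.natCast_dvd.1 b, hn⟩
    have h2 : 2 ^ d.natAbs.primeFactors.card ≤ d.natAbs := by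
      refine le_trans ?_ (Nat.le_of_dvd (Nat.pos_of_ne_zero hn) (Nat.prod_primeFactors_dvd _))
      exact Finset.pow_card_le_prod _ _ _ fun p hp => (Nat.prime_of_mem_primeFactors hp).two_le
    have h3 : d.natAbs.primeFactors.card < Ω :=
      (Nat.pow_lt_pow_iff_right one_lt_two).1 (h2.trans_lt hd)
    exact_mod_cast (Finset.card_le_card h1).trans h3.le

theorem inv169_sum_Zc {α : Type} (S : Finset α) (m : α → ℕ) (k W Ω : ℕ) (P : Finset ℕ)
    (hP : ∀ p ∈ P, p.Prime) (hm : ∀ x ∈ S, m x ≤ W) (hΩ : k * W < 2 ^ Ω) :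
    ∑ p ∈ P, Zc S m k p ≤ P.card * Zc S m k 0 + (S.card : ℝ) ^ (2 * k) * Ω := by
  have hs : ∀ y ∈ Fintype.piFinset (fun _ : Fin k => S), ∑ i, m (y i) ≤ k * W := fun y hy => by
    have := Finset.sum_le_card_nsmul univ (fun i => m (y i)) W fun i _ =>
      hm _ (Fintype.mem_piFinset.1 hy i)
    simpa using this
  have hc : ((Fintype.piFinset fun _ : Fin k => S).card : ℝ) = (S.card : ℝ) ^ k := by
    rw [Fintype.card_piFinset]
    simp
  have e : (S.card : ℝ) ^ (2 * k) * Ω = ∑ _y ∈ Fintype.piFinset (fun _ : Fin k => S),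
      ∑ _y' ∈ Fintype.piFinset (fun _ : Fin k => S), (Ω : ℝ) := by
    simp only [Finset.sum_const, nsmul_eq_mul, hc]
    ring
  unfold Zc
  rw [e, Finset.sum_comm, Finset.mul_sum, ← Finset.sum_add_distrib]
  refine Finset.sum_le_sum fun y hy => ?_
  rw [Finset.sum_comm, Finset.mul_sum, ← Finset.sum_add_distrib]
  refine Finset.sum_le_sum fun y' hy' => inv169_primes P hP ?_
  have h1 := hs y hy
  have h2 := hs y' hy'
  omega

theorem inv169_few (Q : Finset ℕ) {k : ℕ} (hk : k ≤ Q.card) :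
    ∑ a ∈ Fintype.piFinset (fun _ : Fin k => Q), ∑ a' ∈ Fintype.piFinset (fun _ : Fin k => Q),
      ind ((image a univ ∪ image a' univ).card ≤ k) ≤
        (Q.card : ℝ) ^ k * (k : ℝ) ^ (2 * k) := by
  have h1 : ∀ a ∈ Fintype.piFinset (fun _ : Fin k => Q),
      ∀ a' ∈ Fintype.piFinset (fun _ : Fin k => Q), ind ((image a univ ∪ image a' univ).card ≤ k) ≤
        ∑ T ∈ Q.powersetCard k, ind (a ∈ Fintype.piFinset fun _ : Fin k => T) *
          ind (a' ∈ Fintype.piFinset fun _ : Fin k => T) := fun a ha a' ha' => by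
    have h0 : ∀ T ∈ Q.powersetCard k, 0 ≤ ind (a ∈ Fintype.piFinset fun _ : Fin k => T) *
        ind (a' ∈ Fintype.piFinset fun _ : Fin k => T) := fun T _ =>
      mul_nonneg (ind_nonneg _) (ind_nonneg _)
    by_cases h : (image a univ ∪ image a' univ).card ≤ k
    · have hs : image a univ ∪ image a' univ ⊆ Q :=
        union_subset (image_subset_iff.2 fun i _ => Fintype.mem_piFinset.1 ha i)
          (image_subset_iff.2 fun i _ => Fintype.mem_piFinset.1 ha' i)
      obtain ⟨T, hT1, hT2, hT3⟩ := Finset.exists_subsuperset_card_eq hs h hk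
      refine le_trans ?_ (Finset.single_le_sum h0 (mem_powersetCard.2 ⟨hT2, hT3⟩))
      rw [ind_pos h, ind_pos (Fintype.mem_piFinset.2 fun i =>
        hT1 (mem_union_left _ (mem_image_of_mem _ (mem_univ i)))), ind_pos (Fintype.mem_piFinset.2
        fun i => hT1 (mem_union_right _ (mem_image_of_mem _ (mem_univ i)))), mul_one]
    · rw [ind_neg h]
      exact Finset.sum_nonneg h0
  have h2 : ∀ T ∈ Q.powersetCard k, ∑ a ∈ Fintype.piFinset (fun _ : Fin k => Q),
      ind (a ∈ Fintype.piFinset fun _ : Fin k => T) ≤ (k : ℝ) ^ k := fun T hT => by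
    rw [sum_ind]
    have : ((Fintype.piFinset fun _ : Fin k => Q).filter
        fun a => a ∈ Fintype.piFinset fun _ : Fin k => T).card ≤ k ^ k := by
      refine (Finset.card_le_card fun a ha => (Finset.mem_filter.1 ha).2).trans ?_
      rw [Fintype.card_piFinset]
      simp [(mem_powersetCard.1 hT).2]
    exact_mod_cast this
  refine (Finset.sum_le_sum fun a ha => Finset.sum_le_sum fun a' ha' => h1 a ha a' ha').trans ?_
  have e : ∑ a ∈ Fintype.piFinset (fun _ : Fin k => Q),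
      ∑ a' ∈ Fintype.piFinset (fun _ : Fin k => Q),
      ∑ T ∈ Q.powersetCard k, ind (a ∈ Fintype.piFinset fun _ : Fin k => T) *
        ind (a' ∈ Fintype.piFinset fun _ : Fin k => T) =
      ∑ T ∈ Q.powersetCard k, (∑ a ∈ Fintype.piFinset (fun _ : Fin k => Q),
        ind (a ∈ Fintype.piFinset fun _ : Fin k => T)) *
        ∑ a' ∈ Fintype.piFinset (fun _ : Fin k => Q),
          ind (a' ∈ Fintype.piFinset fun _ : Fin k => T) := by
    simp only [Finset.sum_mul_sum]
    rw [Finset.sum_comm (s := Q.powersetCard k)]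
    exact Finset.sum_congr rfl fun a _ => Finset.sum_comm
  rw [e]
  have h3 := Finset.sum_le_card_nsmul (Q.powersetCard k) _ ((k : ℝ) ^ k * (k : ℝ) ^ k)
    fun T hT => mul_le_mul (h2 T hT) (h2 T hT) (Finset.sum_nonneg fun _ _ => ind_nonneg _)
      (by positivity)
  refine h3.trans ?_
  rw [nsmul_eq_mul, card_powersetCard, two_mul, pow_add]
  refine mul_le_mul_of_nonneg_right ?_ (by positivity)
  exact_mod_cast Nat.choose_le_pow _ _

end Crest.Agent.R001
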