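import Crest.Agent.R001.Defs

set_option autoImplicit false

namespace Crest.Agent.R001

open Finset Filter Crest.Agent.R008 Crest.Agent.R026

theorem inv1_74_ee_pow (θ : ℝ) (t : ℕ) : ee ((t : ℝ) * θ) = ee θ ^ t := by
  induction t with
  | zero => simp
  | succ t ih => rw [pow_succ, ← ih, ← ee_add]; congr 1; push_cast; ring

theorem inv1_74_ee_sum {ι : Type} (s : Finset ι) (f : ι → ℝ) :
    ee (∑ i ∈ s, f i) = ∏ i ∈ s, ee (f i) := by
  classical
  induction s using Finset.induction_on with
  | empty => simp
  | insert a s ha ih => rw [sum_insert ha, prod_insert ha, ee_add, ih]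

end Crest.Agent.R001
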