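import Crest.Agent.R001.Prim
import Crest.Agent.R001.Inv1Aux69
import Crest.Agent.R001.Inv1Aux74
import Crest.Agent.R001.Inv1Aux6
import Crest.Agent.R001.Inv1Aux49

set_option autoImplicit false

namespace Crest.Agent.R001

open Finset Filter Crest.Agent.R008 Crest.Agent.R026

/-! # The inverse theorem: combinatorial lemmas -/

/-- Averaging over the subsets of size `m`: every element of `P` lies in `choose (|P|-1) (m-1)`
of the `choose |P| m` subsets, and `|P| choose (|P|-1) (m-1) = m choose |P| m`. -/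
theorem sparsify_one {ι : Type} (Λ : Finset ι) (P : Finset ℕ) {m : ℕ} (hm : m ≤ P.card)
    (F : ι → ℕ → ℂ) : ∃ Q ⊆ P, Q.card = m ∧
      (m : ℝ) * ∑ v ∈ Λ, ‖∑ a ∈ P, F v a‖ ≤ (P.card : ℝ) * ∑ v ∈ Λ, ‖∑ a ∈ Q, F v a‖ := by
  rcases Nat.eq_zero_or_pos m with rfl | hm0
  · exact ⟨∅, empty_subset _, card_empty, by simp⟩
  obtain ⟨k, rfl⟩ : ∃ k, m = k + 1 := ⟨m - 1, by omega⟩
  obtain ⟨N, hN⟩ : ∃ N, P.card = N + 1 := ⟨P.card - 1, by omega⟩
  have hne : (powersetCard (k + 1) P).Nonempty := powersetCard_nonempty.2 hm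
  obtain ⟨Q, hQ, hmax⟩ := exists_max_image (powersetCard (k + 1) P)
    (fun Q => ∑ v ∈ Λ, ‖∑ a ∈ Q, F v a‖) hne
  obtain ⟨hQ1, hQ2⟩ := mem_powersetCard.1 hQ
  refine ⟨Q, hQ1, hQ2, ?_⟩
  have e1 : ∀ v, ∑ R ∈ powersetCard (k + 1) P, ∑ a ∈ R, F v a =
      (N.choose k : ℂ) * ∑ a ∈ P, F v a := by
    intro v
    have : ∀ R ∈ powersetCard (k + 1) P, ∑ a ∈ R, F v a =
        ∑ a ∈ P, if {a} ⊆ R then F v a else 0 := by
      intro R hR
      rw [← sum_filter]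
      refine sum_congr ?_ fun _ _ => rfl
      ext a
      simp only [mem_filter, singleton_subset_iff]
      exact ⟨fun h => ⟨(mem_powersetCard.1 hR).1 h, h⟩, fun h => h.2⟩
    rw [sum_congr rfl this, sum_comm, mul_sum]
    refine sum_congr rfl fun a ha => ?_
    rw [← sum_filter, sum_const, card_filter_powersetCard_subset {a} P (k + 1)
      (singleton_subset_iff.2 ha) (by simp), hN, card_singleton, nsmul_eq_mul]
    simp
  have e2 : (N.choose k : ℝ) * ∑ v ∈ Λ, ‖∑ a ∈ P, F v a‖ ≤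
      ((N + 1).choose (k + 1) : ℝ) * ∑ v ∈ Λ, ‖∑ a ∈ Q, F v a‖ := by
    calc (N.choose k : ℝ) * ∑ v ∈ Λ, ‖∑ a ∈ P, F v a‖
        = ∑ v ∈ Λ, ‖∑ R ∈ powersetCard (k + 1) P, ∑ a ∈ R, F v a‖ := by
          rw [mul_sum]
          refine sum_congr rfl fun v _ => ?_
          rw [e1, norm_mul, Complex.norm_natCast]
      _ ≤ ∑ v ∈ Λ, ∑ R ∈ powersetCard (k + 1) P, ‖∑ a ∈ R, F v a‖ :=
          sum_le_sum fun v _ => norm_sum_le _ _
      _ = ∑ R ∈ powersetCard (k + 1) P, ∑ v ∈ Λ, ‖∑ a ∈ R, F v a‖ := sum_comm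
      _ ≤ ∑ R ∈ powersetCard (k + 1) P, ∑ v ∈ Λ, ‖∑ a ∈ Q, F v a‖ :=
          sum_le_sum fun R hR => hmax R hR
      _ = _ := by rw [sum_const, card_powersetCard, hN, nsmul_eq_mul]
  have e3 : ((N : ℝ) + 1) * (N.choose k : ℝ) = ((N + 1).choose (k + 1) : ℝ) * ((k : ℝ) + 1) := by
    exact_mod_cast Nat.add_one_mul_choose_eq N k
  have e4 : (0 : ℝ) < ((N + 1).choose (k + 1) : ℝ) := by
    exact_mod_cast Nat.choose_pos (by omega)
  rw [hN]
  push_cast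
  refine le_of_mul_le_mul_left ?_ e4
  have e5 := mul_le_mul_of_nonneg_left e2 (by positivity : (0 : ℝ) ≤ (N : ℝ) + 1)
  rw [← mul_assoc, e3] at e5
  linarith

theorem Inv1_62_succ {n : ℕ} (S : Fin (n + 1) → Finset ℕ) (F : (Fin (n + 1) → ℕ) → ℂ) :
    ∑ x ∈ Fintype.piFinset S, F x =
      ∑ p ∈ S 0, ∑ x ∈ Fintype.piFinset (fun j : Fin n => S j.succ), F (Fin.cons p x) := by
  rw [← sum_product']
  refine sum_nbij' (fun x => (x 0, Fin.tail x)) (fun y => Fin.cons y.1 y.2) ?_ ?_ ?_ ?_ ?_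
  · intro x hx
    have hx' := Fintype.mem_piFinset.1 hx
    exact mem_product.2 ⟨hx' 0, Fintype.mem_piFinset.2 fun j => hx' j.succ⟩
  · intro y hy
    obtain ⟨h1, h2⟩ := mem_product.1 hy
    refine Fintype.mem_piFinset.2 fun j => ?_
    refine Fin.cases ?_ (fun j => ?_) j
    · simpa using h1
    · simpa using Fintype.mem_piFinset.1 h2 j
  · intro x _
    exact Fin.cons_self_tail x
  · intro y _
    simp
  · intro x _
    simp only [Fin.cons_self_tail]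

/-- Induction on `n` (`Fin.consEquiv`, `Fin.insertNthEquiv`, `Fin.cons_mem_piFinset_cons`): sparsify
the first coordinate, then the others. -/
theorem sparsify {ι : Type} (Λ : Finset ι) {n : ℕ} (P : Fin n → Finset ℕ) {m : ℕ}
    (hm : ∀ j, m ≤ (P j).card) (F : ι → (Fin n → ℕ) → ℂ) :
    ∃ Q : Fin n → Finset ℕ, (∀ j, Q j ⊆ P j ∧ (Q j).card = m) ∧
      (m : ℝ) ^ n * ∑ v ∈ Λ, ‖∑ x ∈ Fintype.piFinset P, F v x‖ ≤
        ((Fintype.piFinset P).card : ℝ) * ∑ v ∈ Λ, ‖∑ x ∈ Fintype.piFinset Q, F v x‖ := by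
  induction n with
  | zero =>
    refine ⟨P, fun j => j.elim0, ?_⟩
    simp
  | succ n ih =>
    obtain ⟨Q0, h1, h2, h3⟩ := sparsify_one Λ (P 0) (hm 0)
      (fun v p => ∑ x ∈ Fintype.piFinset (fun j : Fin n => P j.succ), F v (Fin.cons p x))
    obtain ⟨Q', h4, h5⟩ := ih (fun j => P j.succ) (fun j => hm j.succ)
      (fun v x => ∑ p ∈ Q0, F v (Fin.cons p x))
    refine ⟨Fin.cons Q0 Q', fun j => Fin.cases ⟨h1, h2⟩ (fun j => h4 j) j, ?_⟩
    have e1 : ((Fintype.piFinset P).card : ℝ) =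
        (P 0).card * ((Fintype.piFinset (fun j : Fin n => P j.succ)).card : ℝ) := by
      rw [Fintype.card_piFinset, Fintype.card_piFinset, Fin.prod_univ_succ, Nat.cast_mul]
    have e2 : ∑ v ∈ Λ, ‖∑ x ∈ Fintype.piFinset (Fin.cons Q0 Q' : Fin (n + 1) → Finset ℕ), F v x‖ =
        ∑ v ∈ Λ, ‖∑ x ∈ Fintype.piFinset Q', ∑ p ∈ Q0, F v (Fin.cons p x)‖ := by
      refine sum_congr rfl fun v _ => ?_
      rw [Inv1_62_succ, sum_comm]
      simp only [Fin.cons_zero, Fin.cons_succ]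
    have e3 : ∑ v ∈ Λ, ‖∑ p ∈ Q0, ∑ x ∈ Fintype.piFinset (fun j : Fin n => P j.succ),
        F v (Fin.cons p x)‖ = ∑ v ∈ Λ, ‖∑ x ∈ Fintype.piFinset (fun j : Fin n => P j.succ),
          ∑ p ∈ Q0, F v (Fin.cons p x)‖ := sum_congr rfl fun v _ => by rw [sum_comm]
    have e4 : ∑ v ∈ Λ, ‖∑ x ∈ Fintype.piFinset P, F v x‖ = ∑ v ∈ Λ, ‖∑ p ∈ P 0,
        ∑ x ∈ Fintype.piFinset (fun j : Fin n => P j.succ), F v (Fin.cons p x)‖ :=
      sum_congr rfl fun v _ => by rw [Inv1_62_succ]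
    rw [e1, e2, e4, pow_succ, mul_assoc, mul_assoc]
    rw [e3] at h3
    have h6 := mul_le_mul_of_nonneg_left h3 (by positivity : (0 : ℝ) ≤ (m : ℝ) ^ n)
    have h7 := mul_le_mul_of_nonneg_left h5 (by positivity : (0 : ℝ) ≤ ((P 0).card : ℝ))
    refine h6.trans (le_trans (le_of_eq ?_) h7)
    ring

theorem sum_piFinset_succ {n : ℕ} (S : Fin (n + 1) → Finset ℕ) (F : (Fin (n + 1) → ℕ) → ℂ) :
    ∑ x ∈ Fintype.piFinset S, F x =
      ∑ p ∈ S 0, ∑ x ∈ Fintype.piFinset (fun j : Fin n => S j.succ), F (Fin.cons p x) := by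
  exact Inv1_62_succ S F

/-- Orthogonality of additive characters. -/
theorem sum_ee_range {p : ℕ} (hp : 1 ≤ p) (a : ℤ) :
    ∑ t ∈ range p, ee ((t : ℝ) * a / p) = if (p : ℤ) ∣ a then (p : ℂ) else 0 := by
  have hp0 : (p : ℝ) ≠ 0 := by positivity
  simp only [mul_div_assoc, inv1_74_ee_pow]
  split_ifs with h
  · obtain ⟨c, rfl⟩ := h
    have : ((((p : ℤ) * c : ℤ) : ℝ)) / p = (c : ℝ) := by push_cast; field_simp
    rw [this, ee_int]
    simp
  · have h1 : ee ((a : ℝ) / p) ≠ 1 := by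
      intro h1
      obtain ⟨n, hn⟩ := Complex.exp_eq_one_iff.1 h1
      have h2 := congrArg Complex.im hn
      simp only [Complex.mul_im, Complex.I_re, Complex.I_im, Complex.ofReal_re, Complex.ofReal_im,
        Complex.mul_re, Complex.intCast_re, Complex.intCast_im, Complex.re_ofNat,
        Complex.im_ofNat] at h2
      have h3 : (a : ℝ) / p = n := by
        have := Real.pi_pos
        nlinarith
      rw [div_eq_iff hp0] at h3
      refine h ⟨n, ?_⟩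
      have h4 : a = n * (p : ℤ) := by exact_mod_cast h3
      rw [h4, mul_comm]
    rw [geom_sum_eq h1, ← inv1_74_ee_pow, mul_div_cancel₀ _ hp0, ee_int]
    simp

/-- The `2k`-th moment: expand `‖∑‖^(2k) = (∑)^k (conj ∑)^k` (`Finset.prod_univ_sum`,
`Finset.sum_pow'`), sum over `t` with `sum_ee_range`. -/
theorem moment {α : Type} (S : Finset α) (m : α → ℕ) (g : α → ℂ) (hg : ∀ x, ‖g x‖ ≤ 1) (k : ℕ)
    {p : ℕ} (hp : 1 ≤ p) {θ : ℝ} (hθ : 0 ≤ θ) :
    (∑ t ∈ range p, ind (θ ≤ ‖∑ x ∈ S, g x * ee ((t : ℝ) * m x / p)‖)) * θ ^ (2 * k) ≤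
      p * Zc S m k p := by
  classical
  set T := Fintype.piFinset (fun _ : Fin k => S) with hT
  have h1 : ∀ t : ℕ, ((‖∑ x ∈ S, g x * ee ((t : ℝ) * m x / p)‖ ^ (2 * k) : ℝ) : ℂ) =
      ∑ y ∈ T, ∑ y' ∈ T, (∏ i, g (y i)) * (starRingEnd ℂ) (∏ i, g (y' i)) *
        ee ((t : ℝ) * ((((∑ i, m (y i) : ℕ) : ℤ) - ((∑ i, m (y' i) : ℕ) : ℤ) : ℤ) : ℝ) / p) := by
    intro t
    have e1 : (∑ x ∈ S, g x * ee ((t : ℝ) * m x / p)) ^ k =
        ∑ y ∈ T, (∏ i, g (y i)) * ee ((t : ℝ) * ((∑ i, m (y i) : ℕ) : ℝ) / p) := by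
      rw [sum_pow']
      refine sum_congr rfl fun y _ => ?_
      rw [prod_mul_distrib, ← inv1_74_ee_sum]
      congr 2
      push_cast
      rw [mul_sum, sum_div]
    rw [mul_comm 2 k, pow_mul, ← norm_pow, ← Complex.normSq_eq_norm_sq, ← Complex.mul_conj, e1,
      map_sum, sum_mul_sum]
    refine sum_congr rfl fun y _ => sum_congr rfl fun y' _ => ?_
    rw [map_mul, conj_ee, mul_mul_mul_comm, ← ee_add]
    congr 2
    push_cast
    ring
  have h2 : ((∑ t ∈ range p, ‖∑ x ∈ S, g x * ee ((t : ℝ) * m x / p)‖ ^ (2 * k) : ℝ) : ℂ) =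
      ∑ y ∈ T, ∑ y' ∈ T, (∏ i, g (y i)) * (starRingEnd ℂ) (∏ i, g (y' i)) *
        (if (p : ℤ) ∣ ((∑ i, m (y i) : ℕ) : ℤ) - ((∑ i, m (y' i) : ℕ) : ℤ) then (p : ℂ) else 0) := by
    rw [Complex.ofReal_sum, sum_congr rfl fun t _ => h1 t, sum_comm]
    refine sum_congr rfl fun y _ => ?_
    rw [sum_comm]
    refine sum_congr rfl fun y' _ => ?_
    rw [← mul_sum, sum_ee_range hp]
  have h3 : ∑ t ∈ range p, ‖∑ x ∈ S, g x * ee ((t : ℝ) * m x / p)‖ ^ (2 * k) ≤ p * Zc S m k p := by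
    refine (le_abs_self _).trans ?_
    rw [← Real.norm_eq_abs, ← Complex.norm_real, h2, Zc, mul_sum]
    refine (norm_sum_le _ _).trans (sum_le_sum fun y _ => ?_)
    rw [mul_sum]
    refine (norm_sum_le _ _).trans (sum_le_sum fun y' _ => ?_)
    have hy : ∀ y : Fin k → α, ‖∏ i, g (y i)‖ ≤ 1 := fun y => by
      rw [norm_prod]
      exact prod_le_one (fun _ _ => norm_nonneg _) fun _ _ => hg _
    rw [norm_mul, norm_mul, Complex.norm_conj, ind_eq_ite]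
    have h4 : ‖∏ i, g (y i)‖ * ‖∏ i, g (y' i)‖ ≤ 1 := mul_le_one₀ (hy y) (norm_nonneg _) (hy y')
    refine (mul_le_of_le_one_left (norm_nonneg _) h4).trans (le_of_eq ?_)
    split_ifs <;> simp
  refine le_trans ?_ h3
  rw [sum_mul]
  refine sum_le_sum fun t _ => ?_
  rw [ind_eq_ite]
  split_ifs with h
  · rw [one_mul]
    exact pow_le_pow_left₀ hθ h _
  · rw [zero_mul]
    positivity

theorem Zc_nonneg {α : Type} (S : Finset α) (m : α → ℕ) (k p : ℕ) : 0 ≤ Zc S m k p :=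
  sum_nonneg fun _ _ => sum_nonneg fun _ _ => ind_nonneg _

/-- A nonzero integer of absolute value `< 2^Ω` has at most `Ω` prime divisors. -/
theorem sum_Zc_le {α : Type} (S : Finset α) (m : α → ℕ) (k W Ω : ℕ) (P : Finset ℕ)
    (hP : ∀ p ∈ P, p.Prime) (hm : ∀ x ∈ S, m x ≤ W) (hΩ : k * W < 2 ^ Ω) :
    ∑ p ∈ P, Zc S m k p ≤ P.card * Zc S m k 0 + (S.card : ℝ) ^ (2 * k) * Ω :=
  inv169_sum_Zc S m k W Ω P hP hm hΩ

/-- Pairs of `k`-tuples whose union of values has at most `k` elements: the values lie in a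
`k`-subset (`Finset.exists_subsuperset_card_eq`), `choose m k ≤ m^k`. -/
theorem card_few_values (Q : Finset ℕ) {k : ℕ} (hk : k ≤ Q.card) :
    ∑ a ∈ Fintype.piFinset (fun _ : Fin k => Q), ∑ a' ∈ Fintype.piFinset (fun _ : Fin k => Q),
      ind ((image a univ ∪ image a' univ).card ≤ k) ≤
        (Q.card : ℝ) ^ k * (k : ℝ) ^ (2 * k) :=
  inv169_few Q hk

/-- Let `W = ∏_j pr (Q j)` (squarefree).  If a prime `l` occurs exactly once among the `2k` values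
in the coordinate `j`, it divides all the terms `W / ∏ x` but one, so there is no equality.  Hence
every value occurs at least twice and there are at most `k` values in every coordinate; transpose
the tuples and use `card_few_values`. -/
theorem Zc_zero_le {n : ℕ} (Q : Fin n → Finset ℕ) {m k : ℕ} (hk : k ≤ m)
    (hc : ∀ j, (Q j).card = m) (hp : ∀ j, ∀ q ∈ Q j, q.Prime)
    (hd : ∀ i j, i ≠ j → Disjoint (Q i) (Q j)) :
    Zc (Fintype.piFinset Q) (fun x => (∏ j, pr (Q j)) / ∏ j, x j) k 0 ≤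
      ((m : ℝ) ^ k * (k : ℝ) ^ (2 * k)) ^ n := by
  refine (inv1a6_main Q hp hd).trans ?_
  calc _ ≤ ∏ _j : Fin n, ((m : ℝ) ^ k * (k : ℝ) ^ (2 * k)) := by
        refine prod_le_prod (fun j _ => sum_nonneg fun a _ => sum_nonneg fun a' _ =>
          ind_nonneg _) fun j _ => ?_
        have := card_few_values (Q j) (k := k) (by rw [hc j]; exact hk)
        rwa [hc j] at this
    _ = _ := by simp

/-- Averaging over the subsets `D` of size `n₀`:
`choose |G v| n₀ / choose |P| n₀ ≥ ((g - n₀) / |P|)^n₀` (`Nat.pow_le_choose`, `Nat.choose_le_pow_div`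
or `descFactorial` bounds). -/
theorem choose_D {ι : Type} (Λ : Finset ι) (P : Finset ℕ) (G : ι → Finset ℕ) {n₀ : ℕ} {g : ℝ}
    (hn : (n₀ : ℝ) ≤ g) (hP : n₀ ≤ P.card) (hG : ∀ v ∈ Λ, G v ⊆ P ∧ g ≤ (G v).card) :
    ∃ D ⊆ P, D.card = n₀ ∧
      (Λ.card : ℝ) * ((g - n₀) / P.card) ^ n₀ ≤ ∑ v ∈ Λ, ind (D ⊆ G v) := by
  have key : ∀ a : ℕ, g ≤ a → ((g - n₀) / P.card) ^ n₀ * (P.card.choose n₀ : ℝ) ≤ a.choose n₀ := by
    intro a ha
    have hna : n₀ ≤ a := by exact_mod_cast hn.trans ha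
    have a1 : (g - n₀) ^ n₀ ≤ (n₀.factorial : ℝ) * a.choose n₀ := by
      have b1 := Nat.pow_sub_le_descFactorial a n₀
      rw [Nat.descFactorial_eq_factorial_mul_choose] at b1
      refine le_trans ?_ (by exact_mod_cast b1 : ((a + 1 - n₀ : ℕ) : ℝ) ^ n₀ ≤ _)
      rw [Nat.cast_sub (by omega)]
      push_cast
      gcongr
      linarith
    have a2 : (n₀.factorial : ℝ) * P.card.choose n₀ ≤ (P.card : ℝ) ^ n₀ := by
      have b1 := Nat.descFactorial_le_pow P.card n₀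
      rw [Nat.descFactorial_eq_factorial_mul_choose] at b1
      exact_mod_cast b1
    have a3 : (0 : ℝ) < (P.card : ℝ) ^ n₀ := by
      refine lt_of_lt_of_le ?_ a2
      have := Nat.choose_pos hP
      positivity
    rw [div_pow, div_mul_eq_mul_div, div_le_iff₀ a3]
    calc _ ≤ (n₀.factorial : ℝ) * a.choose n₀ * P.card.choose n₀ := by gcongr
      _ = a.choose n₀ * ((n₀.factorial : ℝ) * P.card.choose n₀) := by ring
      _ ≤ _ := by gcongr
  have hs : ∑ _D ∈ powersetCard n₀ P, (Λ.card : ℝ) * ((g - n₀) / P.card) ^ n₀ ≤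
      ∑ D ∈ powersetCard n₀ P, ∑ v ∈ Λ, ind (D ⊆ G v) := by
    rw [sum_comm, sum_const, card_powersetCard, nsmul_eq_mul, mul_comm, mul_assoc, ← nsmul_eq_mul]
    refine card_nsmul_le_sum _ _ _ fun v hv => (key _ (hG v hv).2).trans (le_of_eq ?_)
    rw [sum_ind, ← card_powersetCard]
    congr 2
    ext D
    rw [mem_filter, mem_powersetCard, mem_powersetCard]
    exact ⟨fun h => ⟨⟨h.1.trans (hG v hv).1, h.2⟩, h.1⟩, fun h => ⟨h.2, h.1.2⟩⟩
  obtain ⟨D, hD, h⟩ := exists_le_of_sum_le (powersetCard_nonempty.2 hP) hs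
  exact ⟨D, (mem_powersetCard.1 hD).1, (mem_powersetCard.1 hD).2, h⟩

/-- Pigeonhole on the signature `(β % W, ((β / W) % p)_{p ∈ D})`; equal signatures give
`p ∣ β v / W - β v' / W` for all `p ∈ D`, and `β v - β v' = W (β v / W - β v' / W)`. -/
theorem signature {ι : Type} (Λ : Finset ι) (β : ι → ℤ) {W : ℕ} (hW : 1 ≤ W) (D : Finset ℕ)
    (hD : ∀ p ∈ D, p.Prime) (Γ : ℕ → ℤ → Finset ℕ) {κ : ℝ} (hκ : 0 ≤ κ)
    (hΓ : ∀ p ∈ D, ∀ c, ((Γ p c).card : ℝ) ≤ κ)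
    (h : ∀ v ∈ Λ, ∀ p ∈ D, ((β v / W) % p).toNat ∈ Γ p (β v % W)) :
    ∃ Λ₀ ⊆ Λ, (Λ.card : ℝ) ≤ W * κ ^ D.card * Λ₀.card ∧
      ∀ v ∈ Λ₀, ∀ v' ∈ Λ₀, ((pr D : ℕ) : ℤ) ∣ β v - β v' := by
  classical
  rcases Λ.eq_empty_or_nonempty with rfl | ⟨v₀, hv₀⟩
  · exact ⟨∅, Subset.refl _, by simp, fun v hv => absurd hv (notMem_empty v)⟩
  have hW0 : (0 : ℤ) < W := by exact_mod_cast hW
  set σ : ι → ℤ × (D → ℕ) := fun v => (β v % W, fun p => ((β v / W) % (p : ℕ)).toNat) with hσ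
  set T : Finset (ℤ × (D → ℕ)) := (Ico (0 : ℤ) W).biUnion fun c =>
    {c} ×ˢ Fintype.piFinset fun p : D => Γ p c with hT
  have hmap : ∀ v ∈ Λ, σ v ∈ T := fun v hv =>
    mem_biUnion.2 ⟨β v % W, mem_Ico.2 ⟨Int.emod_nonneg _ hW0.ne', Int.emod_lt_of_pos _ hW0⟩,
      mem_product.2 ⟨mem_singleton_self _, Fintype.mem_piFinset.2 fun p => h v hv p p.2⟩⟩
  have hcard : (T.card : ℝ) ≤ W * κ ^ D.card := by
    have h1 : (T.card : ℝ) ≤ ∑ c ∈ Ico (0 : ℤ) W,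
        (({c} ×ˢ Fintype.piFinset fun p : D => Γ p c).card : ℝ) := by
      exact_mod_cast card_biUnion_le
    refine h1.trans ((sum_le_card_nsmul _ _ (κ ^ D.card) fun c _ => ?_).trans (le_of_eq ?_))
    · rw [card_product, card_singleton, one_mul, Fintype.card_piFinset, Nat.cast_prod]
      refine (Finset.prod_le_prod (g := fun _ : D => κ) (fun p _ => Nat.cast_nonneg _)
        fun p _ => hΓ p p.2 c).trans (le_of_eq ?_)
      rw [prod_const, card_univ, Fintype.card_coe]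
    · rw [Int.card_Ico, nsmul_eq_mul]
      simp
  obtain ⟨y, -, hy⟩ := exists_max_image T (fun y => (Λ.filter fun v => σ v = y).card)
    ⟨_, hmap v₀ hv₀⟩
  refine ⟨Λ.filter fun v => σ v = y, filter_subset _ _, ?_, fun v hv v' hv' => ?_⟩
  · have h1 : Λ.card ≤ T.card * (Λ.filter fun v => σ v = y).card := by
      rw [card_eq_sum_card_fiberwise (f := σ) (t := T) fun v hv => hmap v hv]
      exact (sum_le_card_nsmul _ _ _ hy).trans (le_of_eq (smul_eq_mul _ _))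
    have h2 : (Λ.card : ℝ) ≤ T.card * ((Λ.filter fun v => σ v = y).card : ℝ) := by
      exact_mod_cast h1
    exact h2.trans (mul_le_mul_of_nonneg_right hcard (Nat.cast_nonneg _))
  · have e : σ v = σ v' := (mem_filter.1 hv).2.trans (mem_filter.1 hv').2.symm
    have e1 : β v % W = β v' % W := congrArg Prod.fst e
    have e2 : ∀ p ∈ D, (p : ℤ) ∣ β v / W - β v' / W := by
      intro p hp
      have hp0 : (p : ℤ) ≠ 0 := by exact_mod_cast (hD p hp).ne_zero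
      have e3 : ((β v / W) % p).toNat = ((β v' / W) % p).toNat :=
        congrFun (congrArg Prod.snd e) ⟨p, hp⟩
      have e4 : (β v / W) % p = (β v' / W) % p := by
        rw [← Int.toNat_of_nonneg (Int.emod_nonneg (β v / W) hp0), e3,
          Int.toNat_of_nonneg (Int.emod_nonneg _ hp0)]
      exact (Int.ModEq.dvd e4.symm)
    have e5 : β v - β v' = W * (β v / W - β v' / W) := by
      have a1 := Int.emod_add_mul_ediv (β v) W
      have a2 := Int.emod_add_mul_ediv (β v') W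
      rw [mul_sub]
      linarith
    rw [e5]
    refine Dvd.dvd.mul_left ?_ _
    unfold pr
    rw [Nat.cast_prod]
    refine prod_dvd_of_coprime (fun p hp q hq hpq => ?_) e2
    exact Nat.isCoprime_iff_coprime.2 ((Nat.coprime_primes (hD p hp) (hD q hq)).2 hpq)

/-- Splitting of the phase: `β = W s + c`, `w ∣ W`. -/
theorem ee_split (β : ℤ) {W w p : ℕ} (hW : 1 ≤ W) (hw : w ∣ W) (hp : 1 ≤ p) :
    ee ((β : ℝ) / ((p * w : ℕ) : ℝ)) = ee (((β % W : ℤ) : ℝ) / ((p * w : ℕ) : ℝ)) *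
      ee (((((β / W) % p).toNat : ℕ) : ℝ) * ((W / w : ℕ) : ℝ) / p) := by
  obtain ⟨u, rfl⟩ := hw
  have hw0 : 0 < w := Nat.pos_of_mul_pos_right hW
  have hp0 : (p : ℝ) ≠ 0 := by positivity
  have hw0' : (w : ℝ) ≠ 0 := by positivity
  rw [Nat.mul_div_cancel_left _ hw0]
  set s : ℤ := β / ((w * u : ℕ) : ℤ) with hs
  set c : ℤ := β % ((w * u : ℕ) : ℤ) with hc
  have h1 : β = c + ((w * u : ℕ) : ℤ) * s := (Int.emod_add_mul_ediv _ _).symm
  have h2 : s = s % p + p * (s / p) := (Int.emod_add_mul_ediv _ _).symm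
  have h3 : (((s % p).toNat : ℕ) : ℝ) = ((s % p : ℤ) : ℝ) := by
    have : (((s % p).toNat : ℕ) : ℤ) = s % p :=
      Int.toNat_of_nonneg (Int.emod_nonneg _ (by positivity))
    exact_mod_cast this
  have h1' : (β : ℝ) = c + (w * u : ℝ) * s := by exact_mod_cast h1
  have h2' : (s : ℝ) = ((s % p : ℤ) : ℝ) + p * ((s / p : ℤ) : ℝ) := by exact_mod_cast h2
  rw [h3, ← ee_add, ← mul_one (ee (_ + _)), ← ee_int ((u : ℤ) * (s / p)), ← ee_add]
  congr 1
  rw [h1', Int.cast_mul, Int.cast_natCast, Nat.cast_mul]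
  generalize ((s % p : ℤ) : ℝ) = r at *
  generalize ((s / p : ℤ) : ℝ) = v at *
  rw [h2']
  field_simp
  ring

/-- Gluing.  Put `g = h b`, `ρ v = g % (f v) ∈ [0, f v)`, `y v v' = v' ρ v - v ρ v'`; then
`g (v' - v) - y v v' = f v v' (g / (f v) - g / (f v'))` is divisible by `M` and by `v`, and
`|y| ≤ f V²`.  For two pairs `y v v' (w' - w) - y w w' (v' - v)` is divisible by `M` and smaller than
`M`, hence zero.  Take the closest pair `w < w'`, `t = w' - w ≤ V / (|Λ| - 1)`, `q₀ = |h| t`,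
`a₀ = sign h · y w w'`; compare with the pair `(min, max)`, whose distance is `≥ |Λ| - 1`.  If the
prime `l` divides `v` pick `v' ∈ Λ` not divisible by `l` (at most `V / l < |Λ|` multiples).  Finally
divide by `gcd a₀ q₀ ≤ q₀ < l`. -/
theorem glue (Λ : Finset ℕ) {V : ℝ} (h b : ℤ) {f M : ℕ} (hΛ : ∀ v ∈ Λ, 1 ≤ v ∧ (v : ℝ) ≤ V)
    (h2 : 2 ≤ Λ.card) (hf : 1 ≤ f) (hh : h ≠ 0) (hM : 2 * (f : ℝ) * V ^ 3 < M)
    (hd : ∀ v ∈ Λ, ∀ v' ∈ Λ, (M : ℤ) ∣ h * b / ((f * v : ℕ) : ℤ) - h * b / ((f * v' : ℕ) : ℤ)) :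
    ∃ (a : ℤ) (q : ℕ), 1 ≤ q ∧ (q : ℝ) ≤ |(h : ℝ)| * (2 * V / Λ.card) ∧
      |(a : ℝ)| ≤ q * (2 * f * V ^ 2 / Λ.card) ∧ IsCoprime a (q : ℤ) ∧
      ∀ v ∈ Λ, ∀ l : ℕ, l.Prime → l ∣ v → V < l * Λ.card → |(h : ℝ)| * (2 * V / Λ.card) < l →
        (l : ℤ) ∣ q * b - a :=
  Inv1_49_glue Λ h b hΛ h2 hf hh hM hd

end Crest.Agent.R001
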