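import Crest.Agent.R001.Defs
import Crest.Agent.R026.ZRep
import Crest.Agent.GQ.CPnt

set_option autoImplicit false

namespace Crest.Agent.R001

open Finset Filter Crest.Agent.R008 Crest.Agent.R026

open Complex

/-! # Bounds for `L`-functions in the zero free half plane -/

theorem LBd75_Hz {β : ℝ} (h0 : 0 ≤ β) {s : ℂ} (hs : 1 / 2 ≤ s.re) : ‖Hz β s‖ ≤ 3 * ‖s‖ := by
  have h1 := (ZRep_summable_T h0 (s := s) (by linarith)).hasSum
  have h2 := ((ZRep_summable_pow (r := 3 / 2) (by norm_num)).hasSum).mul_left ‖s‖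
  rw [ZRep_Hz_eq]
  refine (h1.norm_le_of_bounded h2 fun k => (ZRep_norm_T h0 k (by linarith)).trans ?_).trans ?_
  · refine mul_le_mul_of_nonneg_left (Real.rpow_le_rpow_of_exponent_le ?_ (by linarith))
      (norm_nonneg _)
    linarith [(Nat.cast_nonneg k : (0 : ℝ) ≤ k)]
  · rw [mul_comm]
    exact mul_le_mul_of_nonneg_right ZRep_tsum_le (norm_nonneg _)

theorem LBd75_norm {s : ℂ} (h1 : 0 ≤ s.re) (h2 : s.re ≤ 4) : ‖s‖ ≤ 4 * (1 + |s.im|) := by
  have := Complex.norm_le_abs_re_add_abs_im s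
  rw [abs_of_nonneg h1] at this
  linarith [abs_nonneg s.im]

theorem LBd75_L {N : ℕ} [NeZero N] (χ : DirichletCharacter ℂ N) (hχ : χ ≠ 1) {s : ℂ}
    (hs : 1 / 2 < s.re) (h1 : s ≠ 1) : ‖χ.LFunction s‖ ≤ N * (2 + 3 * ‖s‖) := by
  have hN : (1 : ℝ) ≤ N := by exact_mod_cast NeZero.one_le
  rw [L_rep χ hχ (by linarith) h1]
  refine (norm_sum_le_of_le _ (n := fun _ => 2 + 3 * ‖s‖) fun a ha => ?_).trans
    (by rw [sum_const, Nat.card_Icc, nsmul_eq_mul, Nat.add_sub_cancel])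
  obtain ⟨ha1, ha2⟩ := mem_Icc.1 ha
  have k0 : ∀ m : ℕ, 1 ≤ m → ‖(m : ℂ) ^ (-s)‖ ≤ 1 := fun m hm => by
    rw [Complex.norm_natCast_cpow_of_pos (by omega)]
    exact Real.rpow_le_one_of_one_le_of_nonpos (by exact_mod_cast hm)
      (by rw [Complex.neg_re]; linarith)
  have hb0 : (0 : ℝ) ≤ (a : ℝ) / N := by positivity
  have hb1 : (a : ℝ) / N ≤ 1 := div_le_one_of_le₀ (by exact_mod_cast ha2) (by positivity)
  have k1 := ZRep_quot_le hb0 hb1 (s := s) (by linarith) h1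
  have k2 := LBd75_Hz hb0 hs.le
  have k3 := (norm_add_le _ _).trans (add_le_add k1 k2)
  have k4 := mul_le_mul (k0 N NeZero.one_le) k3 (norm_nonneg _) zero_le_one
  rw [← norm_mul] at k4
  have k5 := (norm_add_le _ _).trans (add_le_add (k0 a ha1) k4)
  rw [norm_mul]
  refine (mul_le_of_le_one_left (norm_nonneg _) (χ.norm_le_one _)).trans (k5.trans (le_of_eq ?_))
  ring

/-- `R026.L_rep`, `ZRep_norm_T`, `ZRep_tsum_le`, `ZRep_quot_le`; at `s = 1` by continuity. -/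
theorem L_bound : ∃ C : ℝ, 1 ≤ C ∧ ∀ (N : ℕ) [NeZero N] (χ : DirichletCharacter ℂ N), χ ≠ 1 →
    ∀ s : ℂ, 7 / 8 < s.re → s.re ≤ 4 → ‖χ.LFunction s‖ ≤ C * N * (1 + |s.im|) ^ 2 := by
  refine ⟨14, by norm_num, fun N _ χ hχ s hs1 hs2 => ?_⟩
  have key : ‖χ.LFunction s‖ ≤ N * (2 + 3 * ‖s‖) := by
    by_cases h1 : s = 1
    · subst h1
      have c1 : Tendsto (fun s => ‖χ.LFunction s‖) (nhdsWithin 1 {1}ᶜ) (nhds ‖χ.LFunction 1‖) :=
        ((DirichletCharacter.differentiable_LFunction hχ).continuous.norm.tendsto 1).mono_left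
          nhdsWithin_le_nhds
      have c2 : Tendsto (fun s : ℂ => (N : ℝ) * (2 + 3 * ‖s‖)) (nhdsWithin 1 {1}ᶜ)
          (nhds (N * (2 + 3 * ‖(1 : ℂ)‖))) :=
        ((by fun_prop : Continuous fun s : ℂ => (N : ℝ) * (2 + 3 * ‖s‖)).tendsto 1).mono_left
          nhdsWithin_le_nhds
      refine le_of_tendsto_of_tendsto c1 c2 ?_
      have c3 : ∀ᶠ s : ℂ in nhds 1, 1 / 2 < s.re :=
        (isOpen_lt continuous_const Complex.continuous_re).mem_nhds (by norm_num)
      filter_upwards [c3.filter_mono nhdsWithin_le_nhds, self_mem_nhdsWithin] with s k1 k2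
      exact LBd75_L χ hχ k1 k2
    · exact LBd75_L χ hχ (by linarith) h1
  have k1 := LBd75_norm (s := s) (by linarith) hs2
  have k2 := abs_nonneg s.im
  have k3 : 2 + 3 * ‖s‖ ≤ 14 * (1 + |s.im|) ^ 2 := by nlinarith
  refine key.trans ((mul_le_mul_of_nonneg_left k3 (Nat.cast_nonneg N)).trans (le_of_eq ?_))
  ring

/-- `R026.zeta_rep`. -/
theorem zeta_bound : ∃ C : ℝ, 1 ≤ C ∧
    ∀ s : ℂ, 7 / 8 < s.re → s.re ≤ 4 → ‖riemannZeta₁ s‖ ≤ C * (1 + |s.im|) ^ 2 := by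
  refine ⟨67, by norm_num, fun s hs1 hs2 => ?_⟩
  have k2 := abs_nonneg s.im
  by_cases h1 : s = 1
  · subst h1; simp
  have hs : s - 1 ≠ 0 := sub_ne_zero.2 h1
  have e : riemannZeta₁ s = (s - 1) + (2 : ℂ) ^ (1 - s) + (s - 1) * Hz 1 s := by
    have e1 := zeta_rep (s := s) (by linarith) h1
    rw [riemannZeta_eq_inv_sub_mul h1] at e1
    field_simp at e1
    linear_combination e1
  have k1 := LBd75_norm (s := s) (by linarith) hs2
  have k3 : ‖s - 1‖ ≤ 5 * (1 + |s.im|) := by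
    have := norm_sub_le s 1
    rw [norm_one] at this
    linarith
  have k4 : ‖(2 : ℂ) ^ (1 - s)‖ ≤ 2 := by
    have := Complex.norm_natCast_cpow_of_pos (n := 2) (by norm_num) (1 - s)
    rw [Nat.cast_ofNat, Nat.cast_ofNat] at this
    rw [this]
    refine (Real.rpow_le_rpow_of_exponent_le one_le_two (z := 1) ?_).trans (by simp)
    rw [Complex.sub_re, Complex.one_re]; linarith
  have k5 := LBd75_Hz zero_le_one (s := s) (by linarith)
  have k6 := mul_le_mul k3 (k5.trans (mul_le_mul_of_nonneg_left k1 (by norm_num))) (norm_nonneg _)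
    (by positivity)
  rw [← norm_mul] at k6
  rw [e]
  refine (norm_add₃_le.trans (add_le_add (add_le_add k3 k4) k6)).trans ?_
  nlinarith

/-- `‖L(s, χ)‖ ≥ 1 - ∑_{n ≥ 2} n^(-2) ≥ 1/4` on `Re s = 2` (`∑_{n ≥ 2} n^(-2) ≤ 1/4 + 1/2`). -/
theorem L_low (N : ℕ) [NeZero N] (χ : DirichletCharacter ℂ N) {s : ℂ} (hs : s.re = 2) :
    1 / 4 ≤ ‖χ.LFunction s‖ := by
  have hs1 : 1 < s.re := by linarith
  rw [DirichletCharacter.LFunction_eq_LSeries χ hs1]
  have h1 := hasSum_ite_sub_hasSum (DirichletCharacter.LSeriesSummable_of_one_lt_re χ hs1).hasSum 1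
  have h2 := hasSum_ite_sub_hasSum hasSum_zeta_two 1
  have h3 := h1.norm_le_of_bounded h2 fun n => by
    split_ifs with h
    · simp
    · rcases Nat.eq_zero_or_pos n with rfl | hn
      · simp
      · rw [LSeries.norm_term_eq, if_neg hn.ne', hs, Real.rpow_two]
        exact div_le_div_of_nonneg_right (χ.norm_le_one _) (by positivity)
  have h4 : LSeries.term (fun n : ℕ => χ n) s 1 = 1 := by simp [LSeries.term]
  rw [h4] at h3
  have h5 := norm_sub_norm_le (1 : ℂ) (LSeries (fun n : ℕ => χ n) s)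
  rw [norm_one, norm_sub_rev] at h5
  have h6 := Real.pi_lt_d2
  have h7 := Real.pi_pos
  have h8 : ‖LSeries (fun n : ℕ => χ n) s - 1‖ ≤ Real.pi ^ 2 / 6 - 1 / ((1 : ℕ) : ℝ) ^ 2 := h3
  rw [Nat.cast_one] at h8
  nlinarith

/-- `GC.logDeriv_le` with `r = 11/10`, `R = 9/8`, centre `2 + i Im s`, as in `GC.cpn_strip`. -/
theorem logder : ∃ C : ℝ, 0 < C ∧ ∀ (Φ : ℂ → ℂ) (B : ℝ), 1 ≤ B →
    DifferentiableOn ℂ Φ {s : ℂ | 7 / 8 < s.re} → (∀ s : ℂ, 7 / 8 < s.re → Φ s ≠ 0) →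
    (∀ s : ℂ, 7 / 8 < s.re → s.re ≤ 4 → ‖Φ s‖ ≤ B * (1 + |s.im|) ^ 2) →
    (∀ s : ℂ, s.re = 2 → 1 / 4 ≤ ‖Φ s‖) →
    ∀ s ∈ R017.strip (9 / 10) 2,
      ‖deriv Φ s / Φ s‖ ≤ C * (1 + Real.log B + Real.log (1 + |s.im|)) := by
  obtain ⟨C, hC, h⟩ := GC.logDeriv_le (r := 11 / 10) (R := 9 / 8) (by norm_num) (by norm_num)
  refine ⟨36 * C, by positivity, fun Φ B hB hd h0 hb h2 s hs => ?_⟩
  have ht := abs_nonneg s.im
  have hlB : 0 ≤ Real.log B := Real.log_nonneg hB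
  have hlt : 0 ≤ Real.log (1 + |s.im|) := Real.log_nonneg (by linarith)
  have hball : ∀ z ∈ Metric.ball ((2 : ℂ) + s.im * I) (9 / 8),
      7 / 8 < z.re ∧ z.re ≤ 4 ∧ |z.im| ≤ |s.im| + 2 := fun z hz => by
    rw [Metric.mem_ball, dist_eq_norm] at hz
    have e1 := abs_le.1 ((abs_re_le_norm _).trans hz.le)
    have e1' := abs_lt.1 ((abs_re_le_norm _).trans_lt hz)
    have e2 := (abs_im_le_norm _).trans hz.le
    simp only [sub_re, add_re, re_ofNat, mul_re, ofReal_re, I_re, mul_zero, ofReal_im, I_im,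
      mul_one, sub_self, add_zero, sub_im, add_im, im_ofNat, mul_im, zero_add] at e1 e1' e2
    have e3 := abs_add_le (z.im - s.im) s.im
    rw [sub_add_cancel] at e3
    refine ⟨by linarith [e1'.1], by linarith [e1.2], by linarith⟩
  have hM : Real.exp (36 + Real.log B + 2 * Real.log (1 + |s.im|)) =
      Real.exp 36 * B * (1 + |s.im|) ^ 2 := by
    rw [Real.exp_add, Real.exp_add, Real.exp_log (by linarith), two_mul, Real.exp_add,
      Real.exp_log (by linarith)]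
    ring
  have he : (37 : ℝ) ≤ Real.exp 36 := by
    have := Real.add_one_le_exp (36 : ℝ)
    linarith
  have h1 := h Φ (2 + s.im * I) (36 + Real.log B + 2 * Real.log (1 + |s.im|)) (by positivity)
    (hd.mono fun z hz => (hball z hz).1) (fun z hz => h0 z (hball z hz).1) (fun z hz => by
      obtain ⟨a1, a2, a3⟩ := hball z hz
      refine (hb z a1 a2).trans (le_trans ?_
        (mul_le_mul_of_nonneg_left (h2 _ (by simp)) (Real.exp_pos _).le))
      rw [hM]
      have b1 : (1 + |z.im|) ^ 2 ≤ (3 * (1 + |s.im|)) ^ 2 :=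
        pow_le_pow_left₀ (by positivity) (by linarith) 2
      have b2 : B * (1 + |z.im|) ^ 2 ≤ B * (3 * (1 + |s.im|)) ^ 2 :=
        mul_le_mul_of_nonneg_left b1 (by linarith)
      have b3 : 0 ≤ B * (1 + |s.im|) ^ 2 := by positivity
      have b4 := mul_le_mul_of_nonneg_right he b3
      nlinarith) s (by
      rw [Metric.mem_closedBall, dist_eq_norm]
      have e : s - (2 + s.im * I) = ((s.re - 2 : ℝ) : ℂ) := by
        apply Complex.ext <;> simp
      rw [e, Complex.norm_real, Real.norm_eq_abs, abs_le]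
      have a1 := hs.1
      have a2 := hs.2
      constructor <;> linarith)
  refine h1.trans ?_
  have c1 := mul_nonneg hC.le hlB
  have c2 := mul_nonneg hC.le hlt
  nlinarith

theorem LBd19_eq {s : ℂ} (hs : s ≠ 1) :
    riemannZeta₁ s = (s - 1) * (1 : DirichletCharacter ℂ 1).LFunction s := by
  rw [DirichletCharacter.LFunction_modOne_eq, riemannZeta_eq_inv_sub_mul hs, ← mul_assoc,
    mul_inv_cancel₀ (sub_ne_zero.mpr hs), one_mul]

theorem LBd19_ne (h : QRH) {s : ℂ} (hs : 7 / 8 < s.re) : riemannZeta₁ s ≠ 0 := by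
  by_cases h1 : s = 1
  · subst h1; simp
  · rw [LBd19_eq h1]
    exact mul_ne_zero (sub_ne_zero.mpr h1) (h 1 1 s (Or.inr h1) hs)

theorem LBd19_low {s : ℂ} (hs : s.re = 2) : 1 / 4 ≤ ‖riemannZeta₁ s‖ := by
  have h1 : s ≠ 1 := by
    intro h; rw [h] at hs; norm_num at hs
  rw [LBd19_eq h1, norm_mul]
  have h2 : (1 : ℝ) ≤ ‖s - 1‖ := by
    have := Complex.re_le_norm (s - 1)
    simp only [sub_re, one_re, hs] at this
    linarith
  have h3 := L_low 1 1 hs
  nlinarith [norm_nonneg ((1 : DirichletCharacter ℂ 1).LFunction s)]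

/-- Gronwall along a horizontal segment. -/
theorem LBd19_gron (Φ : ℂ → ℂ) (hΦ : Differentiable ℂ Φ) (t K : ℝ) (hK : 0 ≤ K)
    (hne : ∀ s ∈ R017.strip (9 / 10) 2, Φ s ≠ 0)
    (hb : ∀ s ∈ R017.strip (9 / 10) 2, s.im = t → ‖deriv Φ s / Φ s‖ ≤ K)
    (h2 : 1 / 4 ≤ ‖Φ (2 + t * I)‖) (s : ℂ) (hs : s ∈ R017.strip (9 / 10) 2) (hst : s.im = t) :
    ‖(Φ s)⁻¹‖ ≤ 4 * Real.exp (K * (11 / 10)) := by
  set z : ℝ → ℂ := fun u => 2 + t * I - (u : ℂ) with hz
  have hzmem : ∀ u ∈ Set.Icc (0 : ℝ) (11 / 10), z u ∈ R017.strip (9 / 10) 2 := by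
    intro u hu
    rw [R017.mem_strip]
    simp only [hz, sub_re, add_re, mul_re, ofReal_re, I_re, ofReal_im, I_im, re_ofNat]
    constructor <;> linarith [hu.1, hu.2]
  have hzim : ∀ u : ℝ, (z u).im = t := by
    intro u; simp [hz]
  have hder : ∀ u ∈ Set.Icc (0 : ℝ) (11 / 10),
      HasDerivAt (fun u : ℝ => (Φ (z u))⁻¹) (deriv Φ (z u) / Φ (z u) * (Φ (z u))⁻¹) u := by
    intro u hu
    have h0 := hne _ (hzmem u hu)
    have hA : HasDerivAt (fun w : ℂ => (Φ (2 + t * I - w))⁻¹)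
        (deriv Φ (z u) / Φ (z u) * (Φ (z u))⁻¹) (u : ℂ) := by
      have h1 : HasDerivAt (fun w : ℂ => 2 + t * I - w) (-1) (u : ℂ) := by
        simpa using (hasDerivAt_id (u : ℂ)).const_sub (2 + t * I)
      have h3 : HasDerivAt (fun w : ℂ => Φ (2 + t * I - w)) (deriv Φ (z u) * (-1)) (u : ℂ) :=
        (hΦ (z u)).hasDerivAt.comp (u : ℂ) h1
      have h4 := h3.inv h0
      have h7 : deriv Φ (z u) / Φ (z u) * (Φ (z u))⁻¹ =
          -(deriv Φ (z u) * (-1)) / Φ (z u) ^ 2 := by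
        field_simp
      rw [h7]
      exact h4
    exact hA.comp_ofReal
  have hcont : ContinuousOn (fun u : ℝ => (Φ (z u))⁻¹) (Set.Icc (0 : ℝ) (11 / 10)) :=
    fun u hu => (hder u hu).continuousAt.continuousWithinAt
  have ha : ‖(Φ (z 0))⁻¹‖ ≤ 4 := by
    have : z 0 = 2 + t * I := by simp [hz]
    rw [this, norm_inv]
    rw [inv_le_comm₀ (by linarith) (by norm_num)]
    linarith
  have hg := norm_le_gronwallBound_of_norm_deriv_right_le (K := K) (ε := 0) hcont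
    (fun u hu => (hder u (Set.Ico_subset_Icc_self hu)).hasDerivWithinAt) ha
    (fun u hu => by
      rw [norm_mul, add_zero]
      exact mul_le_mul_of_nonneg_right
        (hb _ (hzmem u (Set.Ico_subset_Icc_self hu)) (hzim u)) (norm_nonneg _))
  have hu : 2 - s.re ∈ Set.Icc (0 : ℝ) (11 / 10) := by
    rw [R017.mem_strip] at hs
    constructor <;> linarith [hs.1, hs.2]
  have h5 := hg _ hu
  have h6 : z (2 - s.re) = s := by
    apply Complex.ext <;> simp [hz, hst]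
  rw [h6, gronwallBound_ε0] at h5
  refine h5.trans ?_
  have : K * (2 - s.re - 0) ≤ K * (11 / 10) :=
    mul_le_mul_of_nonneg_left (by linarith [hu.2]) hK
  exact mul_le_mul_of_nonneg_left (Real.exp_le_exp.mpr this) (by norm_num)

/-- Gronwall along the horizontal segment from `2 + i t` to `s`: `u ↦ (Φ (u + i t))⁻¹` has
logarithmic derivative bounded by `logder` (`norm_le_gronwallBound_of_norm_deriv_right_le`, or
the mean value theorem for `u ↦ log ‖Φ (u + i t)‖`). -/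
theorem inv_zeta (h : QRH) : ∃ (A : ℕ) (B : ℝ), 1 ≤ B ∧ ∀ s ∈ R017.strip (9 / 10) 2,
    ‖(riemannZeta₁ s)⁻¹‖ ≤ B * (1 + |s.im|) ^ A := by
  obtain ⟨C, hC, hlog⟩ := logder
  obtain ⟨B, hB, hbd⟩ := zeta_bound
  have hmain := hlog riemannZeta₁ B hB differentiable_riemannZeta₁.differentiableOn
    (fun s hs => LBd19_ne h hs) hbd (fun s hs => LBd19_low hs)
  have hlB : 0 ≤ Real.log B := Real.log_nonneg hB
  refine ⟨⌈C * (11 / 10)⌉₊, 4 * Real.exp (C * (1 + Real.log B) * (11 / 10)), ?_, ?_⟩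
  · have : 1 ≤ Real.exp (C * (1 + Real.log B) * (11 / 10)) := Real.one_le_exp (by positivity)
    linarith
  · intro s hs
    have h1 : (1 : ℝ) ≤ 1 + |s.im| := by linarith [abs_nonneg s.im]
    have hl : 0 ≤ Real.log (1 + |s.im|) := Real.log_nonneg h1
    have hg := LBd19_gron riemannZeta₁ differentiable_riemannZeta₁ s.im
      (C * (1 + Real.log B + Real.log (1 + |s.im|))) (by positivity)
      (fun w hw => LBd19_ne h (by rw [R017.mem_strip] at hw; linarith [hw.1]))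
      (fun w hw hwt => by rw [← hwt]; exact hmain w hw)
      (LBd19_low (by simp)) s hs rfl
    refine hg.trans ?_
    have h2 : C * (1 + Real.log B + Real.log (1 + |s.im|)) * (11 / 10) =
        C * (1 + Real.log B) * (11 / 10) + Real.log (1 + |s.im|) * (C * (11 / 10)) := by ring
    rw [h2, Real.exp_add, ← mul_assoc]
    refine mul_le_mul_of_nonneg_left ?_ (by positivity)
    rw [← Real.rpow_def_of_pos (by linarith), ← Real.rpow_natCast]
    exact Real.rpow_le_rpow_of_exponent_le h1 (Nat.le_ceil _)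

theorem zeta1_ne (h : QRH) {s : ℂ} (hs : 7 / 8 < s.re) : riemannZeta₁ s ≠ 0 := by
  exact LBd19_ne h hs

end Crest.Agent.R001
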