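import Crest.Agent.R001.Tree2
import Crest.Agent.R001.Prim

set_option autoImplicit false

namespace Crest.Agent.R001

open Finset Filter Crest.Agent.R008 Crest.Agent.R026

/-! # Popular fractions -/

/-- A prime dividing `q b - a` and `q' b - a'` divides `a q' - a' q ≠ 0` (both fractions are
reduced), `|a q' - a' q| ≤ 2 X^(1 + 10 σ) ≤ X²`; so `(X^(10σ))^|S| ≤ X²`. -/
theorem lab_two {X σ z : ℝ} {b a a' : ℤ} {q q' : ℕ} (hX : 4 ≤ X) (hσ : 0 < σ) (hσ1 : σ ≤ 1 / 200)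
    (h : Pop X σ z b a q) (h' : Pop X σ z b a' q') (hne : (a, q) ≠ (a', q')) (S : Finset ℕ)
    (hS : ∀ l ∈ S, l.Prime ∧ X ^ (10 * σ) < l ∧ (l : ℤ) ∣ q * b - a ∧ (l : ℤ) ∣ q' * b - a') :
    mu S ≤ 1 / (5 * σ) * X ^ (-(10 * σ)) := by
  obtain ⟨q1, q2, q3, q4, -⟩ := h
  obtain ⟨q1', q2', q3', q4', -⟩ := h'
  have hX1 : 1 < X := by linarith
  have hX0 : 0 < X := by linarith
  have hd : a * q' - a' * q ≠ 0 := fun e => by
    have e' := sub_eq_zero.1 e
    have h1 : (q : ℤ) ∣ q' := q4.symm.dvd_of_dvd_mul_left (e' ▸ dvd_mul_left _ _)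
    have h2 : (q' : ℤ) ∣ q := q4'.symm.dvd_of_dvd_mul_left (e' ▸ dvd_mul_left _ _)
    obtain rfl : q = q' := Nat.dvd_antisymm (by exact_mod_cast h1) (by exact_mod_cast h2)
    exact hne (by rw [mul_right_cancel₀ (by omega : (q : ℤ) ≠ 0) e'])
  have h1 : pr S ∣ (a * q' - a' * q).natAbs := by
    refine Finset.prod_primes_dvd _ (fun l hl => (hS l hl).1.prime) fun l hl => ?_
    rw [← Int.natCast_dvd, show a * q' - a' * q = q * (q' * b - a') - q' * (q * b - a) by ring]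
    exact dvd_sub ((hS l hl).2.2.2.mul_left _) ((hS l hl).2.2.1.mul_left _)
  have h2 : (pr S : ℝ) ≤ |(a : ℝ) * q' - a' * q| := by
    have h3 : ((pr S : ℕ) : ℝ) ≤ ((a * q' - a' * q).natAbs : ℝ) := by
      exact_mod_cast Nat.le_of_dvd (Int.natAbs_pos.2 hd) h1
    rw [Nat.cast_natAbs] at h3
    exact_mod_cast h3
  have h3 : |(a : ℝ) * q' - a' * q| ≤ X ^ (2 : ℝ) := by
    have a1 : (2 : ℝ) ≤ X ^ (1 / 2 : ℝ) := by
      rw [← Real.sqrt_eq_rpow]
      exact Real.le_sqrt_of_sq_le (by linarith)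
    calc _ ≤ |(a : ℝ)| * q' + |(a' : ℝ)| * q := by
          refine (abs_sub _ _).trans ?_
          rw [abs_mul, abs_mul, Nat.abs_cast, Nat.abs_cast]
      _ ≤ X ^ (3 * σ) * X ^ (1 + 4 * σ) * X ^ (3 * σ) +
          X ^ (3 * σ) * X ^ (1 + 4 * σ) * X ^ (3 * σ) :=
          add_le_add (mul_le_mul (q3.trans (by gcongr)) q2' (by positivity) (by positivity))
            (mul_le_mul (q3'.trans (by gcongr)) q2 (by positivity) (by positivity))
      _ ≤ X ^ (1 / 2 : ℝ) * (X ^ (3 * σ) * X ^ (1 + 4 * σ) * X ^ (3 * σ)) := by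
          rw [← two_mul]
          gcongr
      _ ≤ _ := by
          rw [← Real.rpow_add hX0, ← Real.rpow_add hX0, ← Real.rpow_add hX0]
          exact Real.rpow_le_rpow_of_exponent_le hX1.le (by linarith)
  have h4 : X ^ (10 * σ * S.card) ≤ pr S := by
    rw [Real.rpow_mul hX0.le, Real.rpow_natCast, ← prod_const, pr, Nat.cast_prod]
    exact prod_le_prod (fun _ _ => by positivity) fun l hl => (hS l hl).2.1.le
  have h5 : (S.card : ℝ) ≤ 1 / (5 * σ) := by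
    have := (Real.rpow_le_rpow_left_iff hX1).1 (h4.trans (h2.trans h3))
    rw [le_div_iff₀ (by positivity)]
    linarith
  refine (sum_le_card_nsmul _ _ (X ^ (-(10 * σ))) fun l hl => ?_).trans ?_
  · rw [Real.rpow_neg hX0.le, one_div]
    exact inv_anti₀ (by positivity) (hS l hl).2.1.le
  · rw [nsmul_eq_mul]
    exact mul_le_mul_of_nonneg_right h5 (by positivity)

/-- Bonferroni's inequality for `N` of the sets (induction on the index set:
`mu (⋃) ≥ ∑ mu (S i) - ∑_{i ≠ j} mu (S i ∩ S j)`). -/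
theorem bonf {ι : Type} [DecidableEq ι] (R : Finset ι) (S : ι → Finset ℕ) (P : Finset ℕ)
    {α β : ℝ} (hβ : 0 ≤ β) (hS : ∀ i ∈ R, S i ⊆ P ∧ α ≤ mu (S i))
    (h2 : ∀ i ∈ R, ∀ j ∈ R, i ≠ j → mu (S i ∩ S j) ≤ β) {N : ℕ}
    (hN : mu P < N * α - (N : ℝ) ^ 2 * β) : R.card < N := by
  have hU : ∀ A B : Finset ℕ, mu (A ∪ B) + mu (A ∩ B) = mu A + mu B := fun A B => sum_union_inter
  have h3 : ∀ (T : Finset ι) (F : ι → Finset ℕ), (∀ j ∈ T, mu (F j) ≤ β) →
      mu (T.biUnion F) ≤ T.card * β := by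
    intro T F
    induction T using Finset.induction_on with
    | empty => simp [mu]
    | insert i T hi ih =>
      intro h
      rw [biUnion_insert, card_insert_of_notMem hi]
      push_cast
      linarith [hU (F i) (T.biUnion F), mu_nonneg (F i ∩ T.biUnion F), h i (mem_insert_self _ _),
        ih fun j hj => h j (mem_insert_of_mem hj)]
  have h4 : ∀ T ⊆ R, T.card * α - (T.card : ℝ) ^ 2 * β ≤ mu (T.biUnion S) := by
    intro T
    induction T using Finset.induction_on with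
    | empty => simp [mu]
    | insert i T hi ih =>
      intro h
      have a1 := h (mem_insert_self _ _)
      have a2 := (subset_insert i T).trans h
      have a3 := h3 T (fun j => S i ∩ S j) fun j hj => h2 i a1 j (a2 hj) fun e => hi (e ▸ hj)
      rw [← inter_biUnion] at a3
      rw [biUnion_insert, card_insert_of_notMem hi]
      push_cast
      have a4 : 0 ≤ (T.card : ℝ) * β := by positivity
      linarith [hU (S i) (T.biUnion S), ih a2, (hS i a1).2]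
  by_contra hc
  obtain ⟨T, hT, rfl⟩ := exists_subset_card_eq (not_lt.1 hc)
  exact absurd ((h4 T hT).trans (mu_mono (biUnion_subset.2 fun i hi => (hS i (hT hi)).1)))
    (not_le.2 hN)

/-- The popular fractions form a finite set with at most `2 X^(3σ)` elements (`bonf` with
`N = ⌈X^(3σ)⌉₊`, `lab_two`, `mu_le`). -/
theorem pop_fin {σ : ℝ} (hσ : 0 < σ) (hσ1 : σ ≤ 1 / 200) : ∀ᶠ X : ℝ in atTop, ∀ (z : ℝ) (b : ℤ),
    z ≤ X → ∃ R : Finset (ℤ × ℕ), (∀ r : ℤ × ℕ, r ∈ R ↔ Pop X σ z b r.1 r.2) ∧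
      (R.card : ℝ) ≤ 2 * X ^ (3 * σ) := by
  classical
  obtain ⟨C, hC, hmu⟩ := mu_le
  have h1 : ∀ᶠ X : ℝ in atTop, 4 / (5 * σ) * X ^ (-(4 * σ)) < 1 := by
    have h := (tendsto_rpow_neg_atTop (show 0 < 4 * σ by positivity)).const_mul (4 / (5 * σ))
    rw [mul_zero] at h
    exact h.eventually (gt_mem_nhds one_pos)
  have h2 := (isLittleO_log_rpow_atTop hσ).bound (show 0 < 1 / (2 * C) by positivity)
  filter_upwards [h1, h2, (tendsto_rpow_atTop hσ).eventually_ge_atTop 2,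
    eventually_ge_atTop (4 : ℝ)] with X a1 a2 a3 hX z b hz
  have hX0 : 0 < X := by linarith
  have hfin : {r : ℤ × ℕ | Pop X σ z b r.1 r.2}.Finite := by
    refine ((Set.finite_Icc (-⌈X ^ (3 * σ) * X ^ (1 + 4 * σ)⌉) ⌈X ^ (3 * σ) * X ^ (1 + 4 * σ)⌉).prod
      (Set.finite_Iic ⌊X ^ (3 * σ)⌋₊)).subset fun r hr => ?_
    obtain ⟨-, b2, b3, -⟩ := hr
    refine ⟨abs_le.1 ?_, Nat.le_floor b2⟩
    have b4 : ((|r.1| : ℤ) : ℝ) ≤ (⌈X ^ (3 * σ) * X ^ (1 + 4 * σ)⌉ : ℤ) := by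
      rw [Int.cast_abs]
      exact (b3.trans (mul_le_mul_of_nonneg_right b2 (by positivity))).trans (Int.le_ceil _)
    exact_mod_cast b4
  refine ⟨hfin.toFinset, fun r => by simp, ?_⟩
  have hmem : ∀ l ∈ primesIoc (X ^ (10 * σ)) z, l.Prime ∧ X ^ (10 * σ) < l ∧ (l : ℝ) ≤ X := by
    intro l hl
    obtain ⟨b1, b2⟩ := mem_filter.1 hl
    obtain ⟨b3, b4⟩ := mem_Ioc.1 b1
    have b5 : 1 ≤ z := Nat.floor_pos.1 (b2.pos.trans_le b4)
    exact ⟨b2, Nat.lt_of_floor_lt b3, ((Nat.le_floor_iff (by linarith)).1 b4).trans hz⟩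
  have h3σ : 1 ≤ X ^ (3 * σ) := Real.one_le_rpow (by linarith) (by positivity)
  have key : hfin.toFinset.card < ⌈X ^ (3 * σ)⌉₊ := by
    refine bonf hfin.toFinset
      (fun r => (primesIoc (X ^ (10 * σ)) z).filter (fun l : ℕ => (l : ℤ) ∣ r.2 * b - r.1))
      (primesIoc (X ^ (10 * σ)) z) (α := X ^ (-(2 * σ))) (β := 1 / (5 * σ) * X ^ (-(10 * σ)))
      (by positivity) (fun r hr => ⟨filter_subset _ _, (hfin.mem_toFinset.1 hr).2.2.2.2⟩)
      (fun r hr r' hr' hne => lab_two hX hσ hσ1 (hfin.mem_toFinset.1 hr) (hfin.mem_toFinset.1 hr')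
        hne _ fun l hl => ?_) ?_
    · obtain ⟨b1, b2⟩ := mem_inter.1 hl
      obtain ⟨b3, b4, -⟩ := hmem l (mem_filter.1 b1).1
      exact ⟨b3, b4, (mem_filter.1 b1).2, (mem_filter.1 b2).2⟩
    · have b1 := (hmu X _ (by linarith) fun l hl => ⟨(hmem l hl).1, (hmem l hl).2.2⟩).2
      have b2 := Real.add_one_le_exp (mu (primesIoc (X ^ (10 * σ)) z))
      rw [Real.norm_of_nonneg (Real.log_nonneg (by linarith)),
        Real.norm_of_nonneg (by positivity)] at a2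
      have b3 : C * Real.log X ≤ X ^ σ / 2 :=
        (mul_le_mul_of_nonneg_left a2 hC.le).trans (le_of_eq (by field_simp))
      have b4 : X ^ σ ≤ (⌈X ^ (3 * σ)⌉₊ : ℝ) * X ^ (-(2 * σ)) := by
        refine le_trans (le_of_eq ?_) (mul_le_mul_of_nonneg_right (Nat.le_ceil _) (by positivity))
        rw [← Real.rpow_add hX0]
        congr 1
        ring
      have b5 : (⌈X ^ (3 * σ)⌉₊ : ℝ) ≤ 2 * X ^ (3 * σ) := by
        linarith [Nat.ceil_lt_add_one (show 0 ≤ X ^ (3 * σ) by positivity)]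
      have b6 : (⌈X ^ (3 * σ)⌉₊ : ℝ) ^ 2 * (1 / (5 * σ) * X ^ (-(10 * σ))) ≤
          4 / (5 * σ) * X ^ (-(4 * σ)) := by
        have c2 : X ^ (3 * σ) * X ^ (3 * σ) * X ^ (-(10 * σ)) = X ^ (-(4 * σ)) := by
          rw [← Real.rpow_add hX0, ← Real.rpow_add hX0]
          congr 1
          ring
        refine (mul_le_mul_of_nonneg_right (pow_le_pow_left₀ (Nat.cast_nonneg _) b5 2)
          (by positivity)).trans (le_of_eq ?_)
        rw [← c2]
        ring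
      linarith
  linarith [Nat.lt_ceil.1 key]

theorem lab14_split (S : Finset ℕ) (P : ℕ → Prop) [DecidablePred P] :
    mu (S.filter P) + mu (S.filter fun l => ¬ P l) = mu S := sum_filter_add_sum_filter_not _ _ _

theorem lab14_biUnion {ι : Type} [DecidableEq ι] (R : Finset ι) (S : ι → Finset ℕ) :
    mu (R.biUnion S) ≤ ∑ i ∈ R, mu (S i) := by
  induction R using Finset.induction_on with
  | empty => simp [mu]
  | insert i R hi ih =>
    rw [biUnion_insert, sum_insert hi]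
    have h1 : mu (S i ∪ R.biUnion S) + mu (S i ∩ R.biUnion S) = mu (S i) + mu (R.biUnion S) :=
      sum_union_inter
    linarith [mu_nonneg (S i ∩ R.biUnion S)]

theorem lab14_mem {x y : ℝ} {l : ℕ} (h : l ∈ primesIoc x y) : l.Prime ∧ x < l :=
  ⟨(mem_filter.1 h).2, Nat.lt_of_floor_lt (mem_Ioc.1 (mem_filter.1 h).1).1⟩

theorem lab14_I {σ : ℝ} (hσ : 0 < σ) : ∀ᶠ X : ℝ in atTop,
    3 / 5 ≤ mu (primesIoc (X ^ (10 * σ)) (X ^ (20 * σ))) := by
  obtain ⟨C, hC, h⟩ := win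
  have h1 : Tendsto (fun X : ℝ => 10 * σ * Real.log X) atTop atTop :=
    Real.tendsto_log_atTop.const_mul_atTop (by positivity)
  filter_upwards [h1.eventually_ge_atTop 1, h1.eventually_ge_atTop (20 * C),
    eventually_gt_atTop 0] with X a1 a2 hX
  have a3 := h (10 * σ * Real.log X) (20 * σ * Real.log X) a1 (by linarith)
  have e1 : Real.exp (10 * σ * Real.log X) = X ^ (10 * σ) := by
    rw [Real.rpow_def_of_pos hX, mul_comm]
  have e2 : Real.exp (20 * σ * Real.log X) = X ^ (20 * σ) := by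
    rw [Real.rpow_def_of_pos hX, mul_comm]
  have e3 : 20 * σ * Real.log X / (10 * σ * Real.log X) = 2 := by
    rw [div_eq_iff (by linarith)]; ring
  have e4 : C / (10 * σ * Real.log X) ≤ 1 / 20 := by
    rw [div_le_iff₀ (by linarith)]; linarith
  rw [e1, e2, e3] at a3
  linarith [(abs_le.1 a3).1, Real.log_two_gt_d9]

theorem lab14_small {c κ ε : ℝ} (hκ : 0 < κ) (hε : 0 < ε) :
    ∀ᶠ X : ℝ in atTop, c * X ^ (-κ) < ε := by
  have h := (tendsto_rpow_neg_atTop hκ).const_mul c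
  rw [mul_zero] at h
  exact h.eventually (gt_mem_nhds hε)

/-- Let `I = primesIoc (X^(10σ)) (X^(20σ))`, `mu I ≥ 3/5` (`dk_mertens`), `G r` the primes dividing
`q b - a`.  `Am` consists of the primes of `primesIoc (X^(20σ)) z` lying in `G r ∩ G r'` for two
popular `r ≠ r'` (`pop_fin`, `lab_two`).  If some popular `r*` has `mu (I ∩ G r*) > 2/3 mu I` take
the first alternative, otherwise the second.  For `q₁ ∈ Bad \ Am` at most one popular `r` has
`q₁ ∈ G r`; `r ≠ r*`, and `mu (I ∩ G r) ≤ 2/3 mu I` (otherwise `mu (I ∩ G r ∩ G r*) ≥ mu I / 3`,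
contradicting `lab_two`); `N q₁ = I \ G r` (or `I`). -/
theorem lab {σ η : ℝ} (hσ : 0 < σ) (hσ1 : σ ≤ 1 / 200) (hη : 0 < η) : ∀ᶠ X : ℝ in atTop,
    ∀ (z : ℝ) (b : ℤ), z ≤ X → ∃ (Bad Am : Finset ℕ) (N : ℕ → Finset ℕ), mu Am ≤ η ∧
      ((∃ (a : ℤ) (q : ℕ), Pop X σ z b a q ∧
          Bad = (primesIoc (X ^ (20 * σ)) z).filter (fun l : ℕ => ¬ (l : ℤ) ∣ q * b - a)) ∨
        Bad = primesIoc (X ^ (20 * σ)) z) ∧
      ∀ q₁ ∈ Bad \ Am, N q₁ ⊆ primesIoc (X ^ (10 * σ)) (X ^ (20 * σ)) ∧ 1 / 5 ≤ mu (N q₁) ∧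
        ∀ q₂ ∈ N q₁, Unex X σ z b {q₁, q₂} := by
  classical
  filter_upwards [pop_fin hσ hσ1, lab14_I hσ, eventually_ge_atTop (4 : ℝ),
    lab14_small (c := 1 / (5 * σ)) (κ := 10 * σ) (ε := 1 / 5) (by positivity) (by norm_num),
    lab14_small (c := 4 / (5 * σ)) (κ := 4 * σ) (by positivity) hη] with X hpop hI hX hβ hηX
  intro z b hz
  obtain ⟨R, hR, hcard⟩ := hpop z b hz
  have hX0 : 0 < X := by linarith
  set I := primesIoc (X ^ (10 * σ)) (X ^ (20 * σ)) with hIdef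
  set P := primesIoc (X ^ (20 * σ)) z with hPdef
  set G : ℤ × ℕ → ℕ → Prop := fun r l => (l : ℤ) ∣ r.2 * b - r.1 with hG
  have two : ∀ r ∈ R, ∀ r' ∈ R, r ≠ r' → ∀ S : Finset ℕ,
      (∀ l ∈ S, l.Prime ∧ X ^ (10 * σ) < l) →
      mu (S.filter fun l => G r l ∧ G r' l) ≤ 1 / (5 * σ) * X ^ (-(10 * σ)) :=
    fun r hr r' hr' hne S hS => lab_two hX hσ hσ1 ((hR r).1 hr) ((hR r').1 hr') hne _ fun l hl =>
      ⟨(hS l (mem_filter.1 hl).1).1, (hS l (mem_filter.1 hl).1).2, (mem_filter.1 hl).2⟩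
  have hle : X ^ (10 * σ) ≤ X ^ (20 * σ) :=
    Real.rpow_le_rpow_of_exponent_le (by linarith) (by linarith)
  set Am := R.offDiag.biUnion (fun rr => P.filter fun l => G rr.1 l ∧ G rr.2 l) with hAm
  have hAm1 : mu Am ≤ η := by
    refine (lab14_biUnion _ _).trans ((sum_le_card_nsmul _ _ (1 / (5 * σ) * X ^ (-(10 * σ)))
      fun rr hrr => ?_).trans ?_)
    · obtain ⟨a1, a2, a3⟩ := mem_offDiag.1 hrr
      exact two _ a1 _ a2 a3 P fun l hl => ⟨(lab14_mem hl).1, hle.trans_lt (lab14_mem hl).2⟩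
    · have c1 : (R.offDiag.card : ℝ) ≤ (2 * X ^ (3 * σ)) ^ 2 := by
        have : R.offDiag.card ≤ R.card ^ 2 := by
          rw [offDiag_card, sq]; exact Nat.sub_le _ _
        exact le_trans (by exact_mod_cast this) (pow_le_pow_left₀ (Nat.cast_nonneg _) hcard 2)
      have c2 : X ^ (3 * σ) * X ^ (3 * σ) * X ^ (-(10 * σ)) = X ^ (-(4 * σ)) := by
        rw [← Real.rpow_add hX0, ← Real.rpow_add hX0]
        congr 1
        ring
      rw [nsmul_eq_mul]
      refine (mul_le_mul_of_nonneg_right c1 (by positivity)).trans (le_trans (le_of_eq ?_) hηX.le)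
      rw [← c2]
      ring
  set N : ℕ → Finset ℕ := fun q₁ => I.filter fun l => ∀ r ∈ R, G r q₁ → ¬ G r l with hN
  have main : ∀ Bad ⊆ P, (∀ q₁ ∈ Bad, ∀ r ∈ R, G r q₁ → mu (I.filter (G r)) ≤ 2 / 3 * mu I) →
      ∀ q₁ ∈ Bad \ Am, N q₁ ⊆ I ∧ 1 / 5 ≤ mu (N q₁) ∧ ∀ q₂ ∈ N q₁, Unex X σ z b {q₁, q₂} := by
    intro Bad hBad hb q₁ hq
    obtain ⟨hq1, hq2⟩ := mem_sdiff.1 hq
    refine ⟨filter_subset _ _, ?_, fun q₂ hq₂ => ⟨insert_nonempty _ _, fun a q hp => ?_⟩⟩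
    · by_cases hex : ∃ r ∈ R, G r q₁
      · obtain ⟨r, hr, hg⟩ := hex
        have s1 : I.filter (fun l => ¬ G r l) ⊆ N q₁ := by
          intro l hl
          refine mem_filter.2 ⟨(mem_filter.1 hl).1, fun r' hr' hg' => ?_⟩
          have : r = r' := by
            by_contra hne
            exact hq2 (mem_biUnion.2 ⟨(r, r'), mem_offDiag.2 ⟨hr, hr', hne⟩,
              mem_filter.2 ⟨hBad hq1, hg, hg'⟩⟩)
          exact this ▸ (mem_filter.1 hl).2
        linarith [mu_mono s1, lab14_split I (G r), hb q₁ hq1 r hr hg]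
      · have s1 : I ⊆ N q₁ := fun l hl =>
          mem_filter.2 ⟨hl, fun r hr hg => (hex ⟨r, hr, hg⟩).elim⟩
        linarith [mu_mono s1]
    · by_cases hg : G (a, q) q₁
      · exact ⟨q₂, by simp, (mem_filter.1 hq₂).2 _ ((hR (a, q)).2 hp) hg⟩
      · exact ⟨q₁, by simp, hg⟩
  by_cases hA : ∃ r ∈ R, 2 / 3 * mu I < mu (I.filter (G r))
  · obtain ⟨r, hr, hlt⟩ := hA
    refine ⟨_, Am, N, hAm1, Or.inl ⟨r.1, r.2, (hR r).1 hr, rfl⟩,
      main _ (filter_subset _ _) fun q₁ hq r' hr' hg => ?_⟩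
    have hne : r ≠ r' := fun e => (mem_filter.1 hq).2 (e ▸ hg)
    have t1 := two r hr r' hr' hne I fun l hl => lab14_mem hl
    have t2 := lab14_split (I.filter (G r)) (G r')
    have t3 := lab14_split I (G r')
    have t4 : mu ((I.filter (G r)).filter fun l => ¬ G r' l) ≤ mu (I.filter fun l => ¬ G r' l) :=
      mu_mono (filter_subset_filter _ (filter_subset _ _))
    rw [filter_filter] at t2
    linarith
  · push Not at hA
    exact ⟨P, Am, N, hAm1, Or.inr rfl, main _ Subset.rfl fun _ _ r hr _ => hA r hr⟩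

end Crest.Agent.R001
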