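import Crest.Agent.R001.Prim

set_option autoImplicit false

namespace Crest.Agent.R001

open Finset Filter Crest.Agent.R008 Crest.Agent.R026

/-! # Auxiliary results for `pairs_le` -/

theorem m1Aux74_log {L : ℝ} (hL : 2304 ≤ L) : 1 ≤ Real.log L ∧ 6 * Real.log L ≤ L / 4 := by
  have h0 : 0 < L := by linarith
  constructor
  · rw [Real.le_log_iff_exp_le h0]
    linarith [Real.exp_one_lt_d9]
  · have hs : 48 ≤ √L := Real.le_sqrt_of_sq_le (by linarith)
    have h1 : Real.log L = 2 * Real.log √L := by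
      rw [Real.log_sqrt h0.le]; ring
    have h2 := Real.log_le_sub_one_of_pos (show 0 < √L by linarith)
    have h3 : √L * √L = L := Real.mul_self_sqrt h0.le
    nlinarith

theorem m1Aux74_pairs : ∃ C D₀ : ℝ, 0 < C ∧ ∀ w D z : ℝ, 0 ≤ w → D₀ ≤ D →
    z ≤ √D * Real.log D ^ 6 →
    ∑ q ∈ primesIoc w z, ∑ p ∈ primesIoc w z, ind (p < q ∧ (q : ℝ) * p ≤ D) ≤
      C * D * Real.log (Real.log D) / Real.log D ^ 2 := by
  classical
  obtain ⟨C₁, hC₁, h₁⟩ := pi_le
  obtain ⟨C₂, hC₂, h₂⟩ := win_le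
  refine ⟨4 * C₁ ^ 2 + 8 * C₁ * (6 + C₂), Real.exp 2304, by positivity, fun w D z hw hD hz => ?_⟩
  have hD0 : 0 < D := (Real.exp_pos _).trans_le hD
  set L := Real.log D with hLdef
  have hL : 2304 ≤ L := by rw [hLdef, Real.le_log_iff_exp_le hD0]; exact hD
  have hL0 : 0 < L := by linarith
  obtain ⟨hl1, hl2⟩ := m1Aux74_log hL
  have hs0 : 0 < √D := Real.sqrt_pos.2 hD0
  have hss : √D * √D = D := Real.mul_self_sqrt hD0.le
  have hls : Real.log √D = L / 2 := Real.log_sqrt hD0.le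
  have hs2 : 2 ≤ √D := by
    have := Real.add_one_le_exp (Real.log √D)
    rw [Real.exp_log hs0] at this
    linarith
  set P := primesIoc w z with hP
  have hPm : ∀ p ∈ P, p.Prime ∧ (p : ℝ) ≤ z := by
    intro p hp
    have h1 := mem_filter.1 hp
    refine ⟨h1.2, ?_⟩
    have h2 := (mem_Ioc.1 h1.1).2
    have h3 : 0 < ⌊z⌋₊ := h1.2.pos.trans_le h2
    have h4 : 0 ≤ z := by
      have := Nat.floor_pos.1 h3
      linarith
    exact (Nat.le_floor_iff h4).1 h2
  set A := P.filter (fun q : ℕ => (q : ℝ) ≤ √D) with hA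
  set B := P.filter (fun q : ℕ => ¬ (q : ℝ) ≤ √D) with hB
  have hAc : (A.card : ℝ) ≤ 2 * C₁ * √D / L := by
    refine (h₁ (√D) A hs2 fun p hp => ⟨(hPm p (mem_filter.1 hp).1).1, (mem_filter.1 hp).2⟩).trans
      (le_of_eq ?_)
    rw [hls]; field_simp
  have e1 : ∑ q ∈ A, ∑ p ∈ P, ind (p < q ∧ (q : ℝ) * p ≤ D) ≤ 4 * C₁ ^ 2 * D / L ^ 2 := by
    have h1 : ∀ q ∈ A, ∑ p ∈ P, ind (p < q ∧ (q : ℝ) * p ≤ D) ≤ (A.card : ℝ) := by
      intro q hq
      rw [hA, ← sum_ind]
      refine sum_le_sum fun p _ => ind_mono fun h => ?_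
      have : (p : ℝ) ≤ q := by exact_mod_cast h.1.le
      exact this.trans (mem_filter.1 hq).2
    refine (sum_le_card_nsmul _ _ _ h1).trans ?_
    rw [nsmul_eq_mul]
    refine (mul_le_mul hAc hAc (Nat.cast_nonneg _) (by positivity)).trans (le_of_eq ?_)
    conv_rhs => rw [← hss]
    field_simp
    ring
  have hBm : ∀ q ∈ B, q.Prime ∧ L / 2 < Real.log q ∧ L / 2 < Real.log q ∧
      Real.log q ≤ L / 2 + 6 * Real.log L := by
    intro q hq
    obtain ⟨h1, h2⟩ := mem_filter.1 hq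
    obtain ⟨h3, h4⟩ := hPm q h1
    have h5 : L / 2 < Real.log q := hls ▸ Real.log_lt_log hs0 (not_le.1 h2)
    refine ⟨h3, h5, h5, ?_⟩
    have hq0 : (0 : ℝ) < q := by exact_mod_cast h3.pos
    refine (Real.log_le_log hq0 (h4.trans hz)).trans (le_of_eq ?_)
    rw [Real.log_mul hs0.ne' (by positivity), hls, Real.log_pow]
    norm_num
  have e2 : ∑ q ∈ B, ∑ p ∈ P, ind (p < q ∧ (q : ℝ) * p ≤ D) ≤
      8 * C₁ * (6 + C₂) * D * Real.log L / L ^ 2 := by
    have h1 : ∀ q ∈ B, ∑ p ∈ P, ind (p < q ∧ (q : ℝ) * p ≤ D) ≤ 4 * C₁ * D / L * (1 / q) := by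
      intro q hq
      obtain ⟨h3, -, -, h4⟩ := hBm q hq
      have hq0 : (0 : ℝ) < q := by exact_mod_cast h3.pos
      have hDq : 0 < D / q := by positivity
      have hlog : L / 4 ≤ Real.log (D / q) := by
        rw [Real.log_div hD0.ne' hq0.ne']
        linarith
      have h2 : 2 ≤ D / q := by
        have := Real.add_one_le_exp (Real.log (D / q))
        rw [Real.exp_log hDq] at this
        linarith
      rw [sum_ind]
      refine (h₁ (D / q) _ h2 fun p hp => ⟨(hPm p (mem_filter.1 hp).1).1, ?_⟩).trans ?_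
      · rw [le_div_iff₀ hq0, mul_comm]
        exact (mem_filter.1 hp).2.2
      · calc C₁ * (D / q) / Real.log (D / q) ≤ C₁ * (D / q) / (L / 4) :=
              div_le_div_of_nonneg_left (by positivity) (by positivity) hlog
          _ = _ := by field_simp
    refine (sum_le_sum h1).trans ?_
    rw [← mul_sum]
    have h2 := h₂ (L / 2) (L / 2) (6 * Real.log L) B (by linarith) (by linarith) hBm
    unfold mu at h2
    have h3 : (6 * Real.log L + C₂) / (L / 2) ≤ (6 + C₂) * Real.log L / (L / 2) :=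
      div_le_div_of_nonneg_right (by nlinarith) (by positivity)
    refine (mul_le_mul_of_nonneg_left (h2.trans h3) (by positivity)).trans (le_of_eq ?_)
    field_simp
    ring
  rw [← sum_filter_add_sum_filter_not P (fun q : ℕ => (q : ℝ) ≤ √D)]
  have e3 : 4 * C₁ ^ 2 * D / L ^ 2 ≤ 4 * C₁ ^ 2 * D * Real.log L / L ^ 2 :=
    div_le_div_of_nonneg_right (le_mul_of_one_le_right (by positivity) hl1) (by positivity)
  refine (add_le_add (e1.trans e3) e2).trans (le_of_eq ?_)
  ring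

end Crest.Agent.R001
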