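import Crest.Agent.R001.Gb
import Crest.Agent.R001.M1Aux74

set_option autoImplicit false

namespace Crest.Agent.R001

open Finset Filter Crest.Agent.R008 Crest.Agent.R026

/-! # The main term of the lower bound sieve slightly beyond the sifting limit -/

/-- `sum_top`, `valid_one_insert`, `bud D (insert q s) = bud (D / q) s`. -/
theorem err_one (θ : ℝ) {w D z : ℝ} (hD : 0 < D) :
    Err θ 1 w D z ≤ Real.exp (-(θ * Real.log D)) + ∑ q ∈ primesIoc w z, Err θ 0 w (D / q) z / q := by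
  unfold Err
  rw [sum_top]
  apply add_le_add
  · rw [ind_pos (valid_empty 1 D)]
    simp [bud, pr]
  · refine Finset.sum_le_sum fun q hq => ?_
    have hqp : q.Prime := (Finset.mem_filter.1 hq).2
    have hq0 : (0 : ℝ) < q := by exact_mod_cast hqp.pos
    rw [Finset.sum_div]
    refine le_trans (le_of_eq ?_) (Finset.sum_le_sum_of_subset_of_nonneg
      (s := ((primesIoc w z).filter (fun r => r < q)).powerset)
      (Finset.powerset_mono.2 (Finset.filter_subset _ _)) (fun s _ _ => ?_))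
    · refine Finset.sum_congr rfl fun s hs => ?_
      have hs' := Finset.mem_powerset.1 hs
      have hlt : ∀ r ∈ s, r < q := fun r hr => (Finset.mem_filter.1 (hs' hr)).2
      have hpr : ∀ r ∈ s, r.Prime := fun r hr =>
        (Finset.mem_filter.1 (Finset.mem_filter.1 (hs' hr)).1).2
      have hqs : q ∉ s := fun h => lt_irrefl _ (hlt q h)
      have hs0 : (0 : ℝ) < pr s := by exact_mod_cast pr_pos hpr
      have hpi : (pr (insert q s) : ℝ) = q * pr s := by
        unfold pr; rw [Finset.prod_insert hqs]; push_cast; ring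
      have hb : bud D (insert q s) = bud (D / q) s := by
        unfold bud
        rw [hpi, Real.log_mul hq0.ne' hs0.ne', Real.log_div hD.ne' hq0.ne']; ring
      rw [ind_congr (valid_one_insert hqp.pos hlt), hb, hpi]
      field_simp
    · exact div_nonneg (mul_nonneg (ind_nonneg _)
        (div_nonneg (Real.exp_pos _).le (Nat.cast_nonneg _))) hq0.le

/-- `sum_top`, `Bd_one_insert`; `ν = ∅` is impossible (parity). -/
theorem n_one (w D z : ℝ) : N1 w D z ≤ ∑ q ∈ primesIoc w z,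
    (∑ p ∈ primesIoc w z, ind (p < q ∧ (q : ℝ) * p ≤ D) + N0 w (D / q) z) := by
  unfold N1 N0
  simp only [← Finset.sum_add_distrib]
  rw [Finset.sum_comm (s := primesIoc w z) (t := primesIoc w z)]
  refine Finset.sum_le_sum fun p _ => ?_
  rw [sum_top, ind_neg (by
    rintro ⟨⟨-, -, h, -⟩, -⟩
    simp at h), zero_add]
  refine Finset.sum_le_sum fun q hq => ?_
  have hqp : q.Prime := (Finset.mem_filter.1 hq).2
  have key : ∀ s ∈ ((primesIoc w z).filter (fun r => r < q)).powerset,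
      ind (Bd 1 D (insert q s) p ∧ (pr (insert q s) : ℝ) * p ≤ D) ≤
        ind (s = ∅) * ind (p < q ∧ (q : ℝ) * p ≤ D) + ind (Bd 0 (D / q) s p ∧ s.Nonempty) := by
    intro s hs
    have hs' := Finset.mem_powerset.1 hs
    have hlt : ∀ r ∈ s, r < q := fun r hr => (Finset.mem_filter.1 (hs' hr)).2
    by_cases h : Bd 1 D (insert q s) p ∧ (pr (insert q s) : ℝ) * p ≤ D
    · have hpq : p < q := h.1.1 q (Finset.mem_insert_self _ _)
      rw [ind_pos h]
      rcases s.eq_empty_or_nonempty with rfl | hne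
      · have h2 : (q : ℝ) * p ≤ D := by simpa [pr] using h.2
        rw [ind_pos rfl, ind_pos ⟨hpq, h2⟩]
        have := ind_nonneg (Bd 0 (D / q) ∅ p ∧ (∅ : Finset ℕ).Nonempty)
        linarith
      · rw [ind_pos (P := Bd 0 (D / q) s p ∧ s.Nonempty)
          ⟨(Bd_one_insert hqp.pos hlt hpq).1 h.1, hne⟩]
        have := mul_nonneg (ind_nonneg (s = ∅)) (ind_nonneg (p < q ∧ (q : ℝ) * p ≤ D))
        linarith
    · rw [ind_neg h]
      exact add_nonneg (mul_nonneg (ind_nonneg _) (ind_nonneg _)) (ind_nonneg _)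
  refine (Finset.sum_le_sum key).trans ?_
  rw [Finset.sum_add_distrib]
  apply add_le_add
  · rw [← Finset.sum_mul, Finset.sum_eq_single_of_mem ∅ (Finset.empty_mem_powerset _)
      (fun s _ hs => ind_neg hs), ind_pos rfl, one_mul]
  · exact Finset.sum_le_sum_of_subset_of_nonneg
      (Finset.powerset_mono.2 (Finset.filter_subset _ _)) (fun s _ _ => ind_nonneg _)

/-- For `q ≤ √D` at most `π(√D)²` pairs; for `√D < q ≤ z` at most `π(D / q) ≤ C (D/q) / log D`
values of `p` (`D / q ≥ D^(2/5)`), and `∑ 1/q ≤ (6 log log D + C) / (log D / 2)` (`win_le`). -/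
theorem pairs_le : ∃ C D₀ : ℝ, 0 < C ∧ ∀ w D z : ℝ, 0 ≤ w → D₀ ≤ D →
    z ≤ √D * Real.log D ^ 6 →
    ∑ q ∈ primesIoc w z, ∑ p ∈ primesIoc w z, ind (p < q ∧ (q : ℝ) * p ≤ D) ≤
      C * D * Real.log (Real.log D) / Real.log D ^ 2 :=
  m1Aux74_pairs

/-- `SeqH` with `π = 1`, `Y = M = D`: `V1 w D Main ≥ Sq - BS - C D Err`; `Sq_nonneg`, `BS_one_le`,
`n_one`, `pairs_le`, `err_one`, `GB` for `D / q ≥ D^(2/5)`, `mu_le`, `V1_pos`. -/
theorem M1 {θ w : ℝ} (h : Good θ w) : ∃ C D₀ : ℝ, 0 < C ∧ ∀ D z : ℝ, D₀ ≤ D → w ≤ z →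
    z ≤ √D * Real.log D ^ 6 →
    -(C * Real.log (Real.log D) / Real.log D ^ 2) ≤ Main 1 w D z := by
  obtain ⟨Cs, hCs, hs⟩ := h.seq
  obtain ⟨K, M₀, hK, hg⟩ := h.gb
  obtain ⟨Cp, Dp, hCp, hp⟩ := pairs_le
  obtain ⟨Cm, hCm, hm⟩ := mu_le
  obtain ⟨hV, -⟩ := V1_pos w
  have hθ := h.θ0
  have hw := h.w10
  have ev : ∀ᶠ D : ℝ in atTop, Dp ≤ D ∧ 3 ≤ D ∧ 1 ≤ Real.log (Real.log D) ∧
      Real.log (Real.log D) ≤ 1 / 60 * Real.log D ∧ 5 / 2 * M₀ ≤ Real.log D := by
    have e1 := Real.tendsto_log_atTop.eventually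
      (Real.isLittleO_log_id_atTop.bound (show (0 : ℝ) < 1 / 60 by norm_num))
    filter_upwards [eventually_ge_atTop Dp, eventually_ge_atTop 3,
      (Real.tendsto_log_atTop.comp Real.tendsto_log_atTop).eventually_ge_atTop 1, e1,
      Real.tendsto_log_atTop.eventually_ge_atTop (5 / 2 * M₀),
      Real.tendsto_log_atTop.eventually_ge_atTop 0] with D a1 a2 a3 a4 a5 a6
    refine ⟨a1, a2, a3, ?_, a5⟩
    simp only [Real.norm_eq_abs, id, abs_of_nonneg a6] at a4
    exact (le_abs_self _).trans a4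
  obtain ⟨D₀, hD₀⟩ := eventually_atTop.1 ev
  refine ⟨(2 * (Cp + 25 / 4 * K * (1 + Cm)) + Cs * (2 / θ ^ 2 + 25 / 4 * K * (1 + Cm))) / V1 w, D₀,
    by positivity, fun D z hD hwz hz => ?_⟩
  obtain ⟨a1, a2, a3, a4, a5⟩ := hD₀ D hD
  have hD0 : 0 < D := by linarith
  have hL : 0 < Real.log D := Real.log_pos (by linarith)
  have hq : ∀ q ∈ primesIoc w z, (0 : ℝ) < q ∧ (q : ℝ) ≤ D ∧ M₀ ≤ D / q ∧
      K / Real.log (D / q) ^ 2 ≤ 25 / 4 * K / Real.log D ^ 2 := fun q hq => by
    obtain ⟨b1, -, b3⟩ := (mem_primesIoc (by linarith) (by linarith)).1 hq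
    have b0 : (0 : ℝ) < q := by exact_mod_cast b1.pos
    have b4 : Real.log q ≤ 3 / 5 * Real.log D := by
      refine (Real.log_le_log b0 (b3.trans hz)).trans ?_
      rw [Real.log_mul (Real.sqrt_pos.2 hD0).ne' (by positivity), Real.log_sqrt hD0.le,
        Real.log_pow]
      push_cast
      linarith
    have b5 : 2 / 5 * Real.log D ≤ Real.log (D / q) := by
      rw [Real.log_div hD0.ne' b0.ne']
      linarith
    refine ⟨b0, (Real.log_le_log_iff b0 hD0).1 (by linarith), ?_, ?_⟩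
    · have := Real.log_le_sub_one_of_pos (div_pos hD0 b0)
      linarith
    · calc K / Real.log (D / q) ^ 2 ≤ K / (2 / 5 * Real.log D) ^ 2 :=
            div_le_div_of_nonneg_left hK.le (by positivity) (pow_le_pow_left₀ (by positivity) b5 2)
        _ = _ := by field_simp; norm_num
  have hmu : mu (primesIoc w z) ≤ (1 + Cm) * Real.log (Real.log D) := by
    have := (hm D _ a2 fun q hq' => ⟨((mem_primesIoc (by linarith) (by linarith)).1 hq').1, (hq q hq').2.1⟩).1
    nlinarith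
  obtain ⟨R, hR⟩ : ∃ R, R = Real.log (Real.log D) / Real.log D ^ 2 := ⟨_, rfl⟩
  have hsum : ∑ q ∈ primesIoc w z, 25 / 4 * K / Real.log D ^ 2 * (1 / (q : ℝ)) ≤
      25 / 4 * K * (1 + Cm) * R := by
    rw [← Finset.mul_sum]
    refine (mul_le_mul_of_nonneg_left hmu (by positivity)).trans (le_of_eq ?_)
    rw [hR]
    ring
  have hN : N1 w D z ≤ D * ((Cp + 25 / 4 * K * (1 + Cm)) * R) := by
    refine (n_one w D z).trans ?_
    rw [Finset.sum_add_distrib]
    have b1 := hp w D z (by linarith) a1 hz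
    have b2 : ∑ q ∈ primesIoc w z, N0 w (D / q) z ≤
        D * ∑ q ∈ primesIoc w z, 25 / 4 * K / Real.log D ^ 2 * (1 / (q : ℝ)) := by
      rw [Finset.mul_sum]
      refine Finset.sum_le_sum fun q hq' => ?_
      obtain ⟨c0, -, c2, c3⟩ := hq q hq'
      refine (hg _ z c2).2.2.trans ((mul_le_mul_of_nonneg_right c3 (by positivity)).trans
        (le_of_eq (by ring)))
    have b3 := mul_le_mul_of_nonneg_left hsum hD0.le
    have b4 : Cp * D * Real.log (Real.log D) / Real.log D ^ 2 = D * (Cp * R) := by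
      rw [hR]
      ring
    rw [b4] at b1
    nlinarith
  have hE : Err θ 1 w D z ≤ (2 / θ ^ 2 + 25 / 4 * K * (1 + Cm)) * R := by
    refine (err_one θ hD0).trans ?_
    have b1 : Real.exp (-(θ * Real.log D)) ≤ 2 / θ ^ 2 * R := by
      have c1 := Real.pow_div_factorial_le_exp (θ * Real.log D) (by positivity) 2
      rw [Real.exp_neg]
      refine (inv_anti₀ (by positivity) c1).trans ?_
      have c2 : ((θ * Real.log D) ^ 2 / (Nat.factorial 2 : ℕ))⁻¹ =
          2 / θ ^ 2 * (1 / Real.log D ^ 2) := by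
        rw [Nat.factorial_two]
        push_cast
        field_simp
      rw [c2, hR]
      gcongr
    have b2 : ∑ q ∈ primesIoc w z, Err θ 0 w (D / q) z / q ≤
        ∑ q ∈ primesIoc w z, 25 / 4 * K / Real.log D ^ 2 * (1 / (q : ℝ)) := by
      refine Finset.sum_le_sum fun q hq' => ?_
      obtain ⟨c0, -, c2, c3⟩ := hq q hq'
      rw [mul_one_div]
      exact div_le_div_of_nonneg_right ((hg _ z c2).2.1.trans c3) c0.le
    nlinarith
  have h1 := (abs_le.1 (hs 1 D z D hwz hD0 le_rfl)).2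
  have h2 := Sq_nonneg 1 z D
  have h3 := BS_one_le w D z
  have h4 := mul_le_mul_of_nonneg_left hE (by positivity : 0 ≤ Cs * D)
  rw [mul_div_assoc, ← hR, div_mul_eq_mul_div, ← neg_div, div_le_iff₀ hV]
  refine le_of_mul_le_mul_left ?_ hD0
  nlinarith

end Crest.Agent.R001
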