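import Crest.Agent.R001.Gb

set_option autoImplicit false

namespace Crest.Agent.R001

open Finset Filter Crest.Agent.R008 Crest.Agent.R026

/-! # Auxiliary lemmas for `up_high` -/

theorem M2Aux13_geom {b : ℝ} (hb : 0 < b) (J : ℕ) : ∑ j ∈ range J, 1 / (2 ^ j * b) ≤ 2 / b := by
  have h : ∀ J : ℕ, ∑ j ∈ range J, 1 / (2 ^ j * b) = 2 / b - 2 / (2 ^ J * b) := by
    intro J
    induction J with
    | zero => simp
    | succ J ih =>
      rw [sum_range_succ, ih, pow_succ]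
      field_simp
      ring
  rw [h]
  have : 0 ≤ 2 / (2 ^ J * b) := by positivity
  linarith

theorem M2Aux13_sub (P Q : Finset ℕ) (R : Finset ℕ → Prop) {F : Finset ℕ → ℝ}
    (hF : ∀ ν, 0 ≤ F ν) :
    ∑ ν ∈ P.powerset, ind (ν ⊆ Q ∧ R ν) * F ν ≤ ∑ ν ∈ Q.powerset, ind (R ν) * F ν := by
  classical
  have e : ∀ ν, ind (ν ⊆ Q ∧ R ν) * F ν = ind (ν ⊆ Q) * (ind (R ν) * F ν) := fun ν => by
    rw [ind_and, mul_assoc]
  simp only [e]
  rw [sum_ind_mul]
  exact sum_le_sum_of_subset_of_nonneg (fun ν hν => mem_powerset.2 (mem_filter.1 hν).2)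
    fun ν _ _ => mul_nonneg (ind_nonneg _) (hF ν)

/-- The window for `log p` at a boundary node. -/
theorem M2Aux13_win {M l : ℝ} {ν : Finset ℕ} {p : ℕ} (hM : 0 < M) (hp : p.Prime)
    (hν : ∀ q ∈ ν, q.Prime) (h1 : M < (pr ν : ℝ) * (p : ℝ) ^ 3)
    (h2 : (pr ν : ℝ) * (p : ℝ) ^ 3 ≤ M * Real.exp l) :
    bud M ν / 3 < Real.log p ∧ Real.log p ≤ bud M ν / 3 + l / 3 := by
  have hpr : (0 : ℝ) < pr ν := by exact_mod_cast pr_pos hν
  have hp0 : (0 : ℝ) < p := by exact_mod_cast hp.pos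
  have a1 := Real.log_lt_log hM h1
  have a2 := Real.log_le_log (by positivity) h2
  rw [Real.log_mul hpr.ne' (by positivity), Real.log_pow] at a1 a2
  rw [Real.log_mul hM.ne' (Real.exp_pos l).ne', Real.log_exp] at a2
  unfold bud
  push_cast at a1 a2
  constructor <;> linarith

end Crest.Agent.R001
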