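import Crest.Agent.R001.Gb
import Crest.Agent.R001.M2Aux13

set_option autoImplicit false

namespace Crest.Agent.R001

open Finset Filter Crest.Agent.R008 Crest.Agent.R026

/-! # The mass of the boundary at the scale `ℓ` -/

/-- The parent of a boundary node at scale `L` (`bud ν < 3 log p ≤ 6 L`). -/
theorem bd_cut {w M T L : ℝ} {ν : Finset ℕ} {p : ℕ} (hM : 0 < M) (hL : 0 < L) (hp : p.Prime)
    (hν : ν ⊆ primesIoc w T) (h : Bd 0 M ν p) (h1 : L < Real.log p) (h2 : Real.log p ≤ 2 * L) :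
    ν ⊆ primesIoc (Real.exp L) T ∧ 1 ≤ Real.exp 12 * Real.exp (-(2 * bud M ν / L)) := by
  have hp0 : (0 : ℝ) < p := by exact_mod_cast hp.pos
  refine ⟨fun q hq => ?_, ?_⟩
  · obtain ⟨h3, h4⟩ := mem_filter.1 (hν hq)
    refine mem_filter.2 ⟨mem_Ioc.2 ⟨(Nat.floor_lt (Real.exp_pos L).le).2 ?_, (mem_Ioc.1 h3).2⟩, h4⟩
    exact ((Real.lt_log_iff_exp_lt hp0).1 h1).trans (by exact_mod_cast h.1 q hq)
  · have h3 : (0 : ℝ) < pr ν := by exact_mod_cast pr_pos fun q hq => (mem_filter.1 (hν hq)).2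
    have h4 := Real.log_lt_log hM h.2.2.2
    rw [Real.log_mul h3.ne' (by positivity), Real.log_pow] at h4
    rw [← Real.exp_add]
    refine Real.one_le_exp (sub_nonneg.2 ((div_le_iff₀ hL).2 ?_))
    unfold bud
    push_cast at h4
    linarith

theorem m2_97_geom {b t : ℝ} (hb : 0 ≤ b) (ht : 0 ≤ t) (N : ℕ) :
    ∑ j ∈ range N, ind (2 ^ j * b < t) * (2 ^ j * b) ≤ 2 ^ N * b ∧
      ∑ j ∈ range N, ind (2 ^ j * b < t) * (2 ^ j * b) ≤ 2 * t := by
  induction N with
  | zero => simp [hb, ht]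
  | succ N ih =>
    have : 0 ≤ 2 ^ N * b := by positivity
    rw [sum_range_succ, pow_succ]
    by_cases h : 2 ^ N * b < t
    · rw [ind_pos h]
      constructor <;> linarith [ih.1]
    · rw [ind_neg h]
      constructor <;> linarith [ih.1, ih.2]

/-- Dyadic scales `L_j = 2^j log w < t₀` (`dyadic`, `bd_cut`, `win_le`): the scale `j` contributes
at most `e^12 (C / L_j) Gs 2 L_j ≤ C' κ L_j`. -/
theorem up_low : ∃ C : ℝ, 0 < C ∧ ∀ w M T κ t₀ : ℝ, 10 ≤ w → 0 < M → 0 ≤ κ → 0 ≤ t₀ →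
    (∀ L, Real.log w ≤ L → Gs 2 M T L ≤ κ * L ^ 2) →
    Bm 0 w M T (fun p => ind (Real.log p ≤ t₀) / Real.log p) ≤ C * κ * t₀ := by
  classical
  obtain ⟨C, hC, H⟩ := win_le
  refine ⟨2 * ((1 + C) * Real.exp 12), by positivity, fun w M T κ t₀ hw hM hκ ht hG => ?_⟩
  have hb : 1 ≤ Real.log w := by
    rw [Real.le_log_iff_exp_le (by linarith)]
    linarith [Real.exp_one_lt_d9]
  set b := Real.log w with hbdef
  have hL : ∀ j : ℕ, b ≤ 2 ^ j * b := fun j =>
    le_mul_of_one_le_left (by linarith) (one_le_pow₀ one_le_two)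
  set P := primesIoc w T with hP
  set A : ℕ → ℕ → ℝ := fun j p =>
    ind (2 ^ j * b < Real.log p ∧ Real.log p ≤ 2 * (2 ^ j * b)) * (1 / p) with hA
  set B : ℕ → Finset ℕ → ℝ := fun j ν => ind (ν ⊆ primesIoc (Real.exp (2 ^ j * b)) T) *
    (ind (valid 0 M ν) * (Real.exp (-(2 * bud M ν / (2 ^ j * b))) / pr ν)) with hB
  have hA0 : ∀ j p, 0 ≤ A j p := fun j p => mul_nonneg (ind_nonneg _) (by positivity)
  have hB0 : ∀ j ν, 0 ≤ B j ν := fun j ν =>
    mul_nonneg (ind_nonneg _) (mul_nonneg (ind_nonneg _) (by positivity))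
  have hc0 : ∀ j : ℕ, 0 ≤ ind (2 ^ j * b < t₀) * (Real.exp 12 / (2 ^ j * b)) := fun j =>
    mul_nonneg (ind_nonneg _) (by positivity)
  have h1 : ∀ p ∈ P, ∀ ν ∈ P.powerset,
      ind (Bd 0 M ν p) * (ind (Real.log p ≤ t₀) / Real.log p / (pr ν * p)) ≤
        ∑ j ∈ range ⌈t₀⌉₊, ind (2 ^ j * b < t₀) * (Real.exp 12 / (2 ^ j * b)) * (A j p * B j ν) := by
    intro p hp ν hν
    have h0 : ∀ j ∈ range ⌈t₀⌉₊,
        0 ≤ ind (2 ^ j * b < t₀) * (Real.exp 12 / (2 ^ j * b)) * (A j p * B j ν) := fun j _ =>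
      mul_nonneg (hc0 j) (mul_nonneg (hA0 j p) (hB0 j ν))
    by_cases h2 : Bd 0 M ν p
    swap
    · rw [ind_neg h2, zero_mul]
      exact sum_nonneg h0
    by_cases h3 : Real.log p ≤ t₀
    swap
    · rw [ind_neg h3, zero_div, zero_div, mul_zero]
      exact sum_nonneg h0
    obtain ⟨h4, h5⟩ := mem_filter.1 hp
    have h6 : w < p := (Nat.floor_lt (by linarith)).1 (mem_Ioc.1 h4).1
    obtain ⟨j, j1, j2⟩ := dyadic (by linarith : 0 < b) (Real.log_lt_log (by linarith) h6)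
    have hj0 : 0 < 2 ^ j * b := by linarith [hL j]
    obtain ⟨c1, c2⟩ := bd_cut hM hj0 h5 (mem_powerset.1 hν) h2 j1 j2
    have j3 : j ∈ range ⌈t₀⌉₊ := by
      refine mem_range.2 (Nat.lt_ceil.2 ?_)
      have a1 : (j : ℝ) < 2 ^ j := by exact_mod_cast Nat.lt_two_pow_self
      have a2 : (2 : ℝ) ^ j ≤ 2 ^ j * b := le_mul_of_one_le_right (by positivity) hb
      linarith
    refine le_trans ?_ (single_le_sum h0 j3)
    simp only [hA, hB]
    rw [ind_pos h2, ind_pos h3, ind_pos (j1.trans_le h3), ind_pos ⟨j1, j2⟩, ind_pos c1,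
      ind_pos h2.2.1]
    calc _ = 1 / Real.log p * 1 * (1 / p / pr ν) := by ring
      _ ≤ 1 / (2 ^ j * b) * (Real.exp 12 * Real.exp (-(2 * bud M ν / (2 ^ j * b)))) *
          (1 / p / pr ν) := by gcongr
      _ = _ := by ring
  have h2 : ∀ j : ℕ, ∑ p ∈ P, A j p ≤ 1 + C := fun j => by
    have hj := hb.trans (hL j)
    simp only [hA]
    rw [sum_ind_mul]
    refine (H (2 ^ j * b) (2 ^ j * b) (2 ^ j * b) _ hj (by linarith) fun p hp => ?_).trans ?_
    · obtain ⟨a1, a2, a3⟩ := mem_filter.1 hp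
      exact ⟨(mem_filter.1 a1).2, a2, a2, by linarith⟩
    · rw [div_le_iff₀ (by linarith)]
      nlinarith
  have h3 : ∀ j : ℕ, ∑ ν ∈ P.powerset, B j ν ≤ κ * (2 ^ j * b) ^ 2 := fun j => by
    refine le_trans ?_ (hG _ (hL j))
    simp only [hB]
    rw [sum_ind_mul]
    exact sum_le_sum_of_subset_of_nonneg (fun ν hν => mem_powerset.2 (mem_filter.1 hν).2)
      fun ν _ _ => mul_nonneg (ind_nonneg _) (by positivity)
  calc _ ≤ ∑ p ∈ P, ∑ ν ∈ P.powerset, ∑ j ∈ range ⌈t₀⌉₊,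
        ind (2 ^ j * b < t₀) * (Real.exp 12 / (2 ^ j * b)) * (A j p * B j ν) :=
        sum_le_sum fun p hp => sum_le_sum fun ν hν => h1 p hp ν hν
    _ = ∑ j ∈ range ⌈t₀⌉₊, ind (2 ^ j * b < t₀) * (Real.exp 12 / (2 ^ j * b)) *
        ((∑ p ∈ P, A j p) * ∑ ν ∈ P.powerset, B j ν) := by
        simp only [sum_mul_sum]
        simp only [mul_sum]
        rw [sum_comm (s := range _)]
        exact sum_congr rfl fun p _ => sum_comm
    _ ≤ ∑ j ∈ range ⌈t₀⌉₊, (1 + C) * Real.exp 12 * κ * (ind (2 ^ j * b < t₀) * (2 ^ j * b)) := by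
        refine sum_le_sum fun j _ => (mul_le_mul_of_nonneg_left (mul_le_mul (h2 j) (h3 j)
          (sum_nonneg fun ν _ => hB0 j ν) (by positivity)) (hc0 j)).trans (le_of_eq ?_)
        have : 0 < b := by linarith
        field_simp
    _ ≤ _ := by
        rw [← mul_sum]
        exact (mul_le_mul_of_nonneg_left (m2_97_geom (by linarith) ht _).2
          (by positivity)).trans (le_of_eq (by ring))

/-- One dyadic scale of `up_high`. -/
theorem M2_13_scale : ∃ C : ℝ, 0 < C ∧ ∀ w M T κ L l : ℝ, 0 < M → 1 ≤ L → 0 ≤ l →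
    Gs 2 M T L ≤ κ * L ^ 2 →
    ∑ p ∈ primesIoc w T, ∑ ν ∈ (primesIoc w T).powerset,
      ind ((Bd 0 M ν p ∧ (pr ν : ℝ) * (p : ℝ) ^ 3 ≤ M * Real.exp l) ∧
        L < Real.log p ∧ Real.log p ≤ 2 * L) * (1 / (pr ν * p * Real.log p ^ 2)) ≤
      Real.exp 12 * (l + C) * κ * (1 / L) := by
  classical
  obtain ⟨C, hC, hwin⟩ := win_le
  refine ⟨C, hC, fun w M T κ L l hM hL hl hG => ?_⟩
  have hL0 : 0 < L := by linarith
  have hP : ∀ p ∈ primesIoc w T, p.Prime := fun p hp => (mem_filter.1 hp).2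
  rw [sum_comm]
  calc _ ≤ ∑ ν ∈ (primesIoc w T).powerset, Real.exp 12 * (l + C) / L ^ 3 *
        (ind (ν ⊆ primesIoc (Real.exp L) T ∧ valid 0 M ν) *
          (Real.exp (-(2 * bud M ν / L)) / pr ν)) := by
        refine sum_le_sum fun ν hν => ?_
        have hν' : ν ⊆ primesIoc w T := mem_powerset.1 hν
        have hpr : (0 : ℝ) < pr ν := by exact_mod_cast pr_pos fun q hq => hP q (hν' hq)
        set K : ℝ := Real.exp 12 / L ^ 2 * (ind (ν ⊆ primesIoc (Real.exp L) T ∧ valid 0 M ν) *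
          (Real.exp (-(2 * bud M ν / L)) / pr ν)) with hK
        have hK0 : 0 ≤ K := mul_nonneg (by positivity) (mul_nonneg (ind_nonneg _) (by positivity))
        have h1 := hwin L (bud M ν / 3) (l / 3) ((primesIoc w T).filter fun p : ℕ =>
          L < Real.log p ∧ bud M ν / 3 < Real.log p ∧ Real.log p ≤ bud M ν / 3 + l / 3) hL
          (by positivity) fun p hp => ⟨hP p (mem_filter.1 hp).1, (mem_filter.1 hp).2⟩
        unfold mu at h1
        rw [← sum_ind_mul] at h1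
        calc _ ≤ ∑ p ∈ primesIoc w T, K * (ind (L < Real.log p ∧ bud M ν / 3 < Real.log p ∧
              Real.log p ≤ bud M ν / 3 + l / 3) * ((1 : ℝ) / p)) := by
              refine sum_le_sum fun p hp => ?_
              have hpp := hP p hp
              have hp0 : (0 : ℝ) < p := by exact_mod_cast hpp.pos
              by_cases hc : (Bd 0 M ν p ∧ (pr ν : ℝ) * (p : ℝ) ^ 3 ≤ M * Real.exp l) ∧
                  L < Real.log p ∧ Real.log p ≤ 2 * L
              · obtain ⟨⟨h2, h3⟩, h4, h5⟩ := hc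
                obtain ⟨h6, h7⟩ := bd_cut hM hL0 hpp hν' h2 h4 h5
                obtain ⟨h8, h9⟩ := M2Aux13_win hM hpp (fun q hq => hP q (hν' hq)) h2.2.2.2 h3
                rw [ind_pos ⟨⟨h2, h3⟩, h4, h5⟩, ind_pos ⟨h4, h8, h9⟩, hK, ind_pos ⟨h6, h2.2.1⟩]
                have h10 : L ^ 2 ≤ Real.log p ^ 2 := pow_le_pow_left₀ hL0.le h4.le 2
                calc 1 * (1 / ((pr ν : ℝ) * p * Real.log p ^ 2))
                    ≤ (Real.exp 12 * Real.exp (-(2 * bud M ν / L))) * (1 / (pr ν * p * L ^ 2)) :=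
                      mul_le_mul h7 (one_div_le_one_div_of_le (by positivity)
                        (mul_le_mul_of_nonneg_left h10 (by positivity))) (by positivity)
                        (by positivity)
                  _ = _ := by field_simp
              · rw [ind_neg hc, zero_mul]
                exact mul_nonneg hK0 (mul_nonneg (ind_nonneg _) (by positivity))
          _ ≤ K * ((l + C) / L) := by
              rw [← mul_sum]
              refine mul_le_mul_of_nonneg_left (h1.trans ?_) hK0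
              exact div_le_div_of_nonneg_right (by linarith) hL0.le
          _ = _ := by rw [hK]; field_simp
    _ ≤ Real.exp 12 * (l + C) / L ^ 3 * (κ * L ^ 2) := by
        rw [← mul_sum]
        refine mul_le_mul_of_nonneg_left (le_trans ?_ hG) (by positivity)
        exact M2Aux13_sub _ _ _ fun ν => by positivity
    _ = _ := by field_simp

/-- Dyadic scales with `2 L_j > t₀`: for given `ν` the prime `p` has
`bud ν / 3 < log p ≤ (bud ν + l) / 3` (`win_le`), so the scale `j` contributes at most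
`e^12 κ (l + C) / L_j`. -/
theorem up_high : ∃ C : ℝ, 0 < C ∧ ∀ w M T κ t₀ l : ℝ, 10 ≤ w → 0 < M → 0 ≤ κ → 0 < t₀ → 0 ≤ l →
    (∀ L, Real.log w ≤ L → Gs 2 M T L ≤ κ * L ^ 2) →
    ∑ p ∈ primesIoc w T, ∑ ν ∈ (primesIoc w T).powerset,
      ind (Bd 0 M ν p ∧ t₀ < Real.log p ∧ (pr ν : ℝ) * (p : ℝ) ^ 3 ≤ M * Real.exp l) *
        (1 / (pr ν * p * Real.log p ^ 2)) ≤ C * κ * (l + 1) / t₀ := by
  obtain ⟨C, hC, H⟩ := M2_13_scale
  refine ⟨2 * Real.exp 12 * (1 + C), by positivity, fun w M T κ t₀ l hw hM hκ ht hl hG => ?_⟩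
  have hlw : 1 ≤ Real.log w := by
    rw [Real.le_log_iff_exp_le (by linarith)]
    linarith [Real.exp_one_lt_d9]
  set b := max (Real.log w) t₀ with hb
  have hb1 : Real.log w ≤ b := le_max_left _ _
  have hb2 : t₀ ≤ b := le_max_right _ _
  have hb0 : 0 < b := by linarith
  have hbL : ∀ j : ℕ, b ≤ 2 ^ j * b := fun j =>
    le_mul_of_one_le_left hb0.le (one_le_pow₀ (by norm_num))
  calc _ ≤ ∑ p ∈ primesIoc w T, ∑ ν ∈ (primesIoc w T).powerset, ∑ j ∈ range ⌊T⌋₊,
        ind ((Bd 0 M ν p ∧ (pr ν : ℝ) * (p : ℝ) ^ 3 ≤ M * Real.exp l) ∧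
          2 ^ j * b < Real.log p ∧ Real.log p ≤ 2 * (2 ^ j * b)) *
          (1 / (pr ν * p * Real.log p ^ 2)) := by
        refine sum_le_sum fun p hp => sum_le_sum fun ν _ => ?_
        have h0 : ∀ j ∈ range ⌊T⌋₊, 0 ≤
            ind ((Bd 0 M ν p ∧ (pr ν : ℝ) * (p : ℝ) ^ 3 ≤ M * Real.exp l) ∧
              2 ^ j * b < Real.log p ∧ Real.log p ≤ 2 * (2 ^ j * b)) *
              (1 / (pr ν * p * Real.log p ^ 2)) :=
          fun j _ => mul_nonneg (ind_nonneg _) (by positivity)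
        by_cases hc : Bd 0 M ν p ∧ t₀ < Real.log p ∧ (pr ν : ℝ) * (p : ℝ) ^ 3 ≤ M * Real.exp l
        · obtain ⟨h1, h2, h3⟩ := hc
          obtain ⟨h4, h5⟩ := mem_Ioc.1 (mem_filter.1 hp).1
          have h6 : w < p := (Nat.floor_lt (by linarith)).1 h4
          have h7 : b < Real.log p := max_lt (Real.log_lt_log (by linarith) h6) h2
          obtain ⟨j, h8, h9⟩ := dyadic hb0 h7
          have hj : j ∈ range ⌊T⌋₊ := by
            refine mem_range.2 (lt_of_lt_of_le ?_ h5)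
            have a1 : (j : ℝ) < 2 ^ j := by exact_mod_cast Nat.lt_two_pow_self
            have a2 : (2 : ℝ) ^ j ≤ 2 ^ j * b :=
              le_mul_of_one_le_right (by positivity) (by linarith)
            have a3 : Real.log p ≤ p := (Real.log_le_sub_one_of_pos (by linarith)).trans (by linarith)
            have a4 : (j : ℝ) < p := by linarith
            exact_mod_cast a4
          refine le_trans (le_of_eq ?_) (single_le_sum h0 hj)
          rw [ind_pos ⟨h1, h2, h3⟩, ind_pos ⟨⟨h1, h3⟩, h8, h9⟩]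
        · rw [ind_neg hc, zero_mul]
          exact sum_nonneg h0
    _ = ∑ j ∈ range ⌊T⌋₊, ∑ p ∈ primesIoc w T, ∑ ν ∈ (primesIoc w T).powerset,
        ind ((Bd 0 M ν p ∧ (pr ν : ℝ) * (p : ℝ) ^ 3 ≤ M * Real.exp l) ∧
          2 ^ j * b < Real.log p ∧ Real.log p ≤ 2 * (2 ^ j * b)) *
          (1 / (pr ν * p * Real.log p ^ 2)) := by
        rw [sum_congr rfl fun p _ => sum_comm, sum_comm]
    _ ≤ ∑ j ∈ range ⌊T⌋₊, Real.exp 12 * (l + C) * κ * (1 / (2 ^ j * b)) :=
        sum_le_sum fun j _ => H w M T κ _ l hM (by linarith [hbL j]) hl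
          (hG _ (hb1.trans (hbL j)))
    _ ≤ Real.exp 12 * (l + C) * κ * (2 / t₀) := by
        rw [← mul_sum]
        refine mul_le_mul_of_nonneg_left ((M2Aux13_geom hb0 _).trans ?_) (by positivity)
        exact div_le_div_of_nonneg_left (by norm_num) ht hb2
    _ ≤ Real.exp 12 * ((1 + C) * (l + 1)) * κ * (2 / t₀) := by
        refine mul_le_mul_of_nonneg_right (mul_le_mul_of_nonneg_right
          (mul_le_mul_of_nonneg_left ?_ (by positivity)) hκ) (by positivity)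
        nlinarith [mul_nonneg hC.le hl]
    _ = _ := by ring

/-- `cnt2` for `log p ≤ C₁ l`, `cnt3` for `log p > C₁ l ≥ l` (`x = M e^l / d < p² e^l < p³`),
`sum_Bd_le`, `up_low` with `t₀ = l / C₁`, `up_high` with `t₀ = C₁ l`. -/
theorem up_bound : ∃ C : ℝ, 0 < C ∧ ∀ w M T κ l C₁ : ℝ, 10 ≤ w → 0 < M → 0 ≤ T → 0 ≤ κ → 1 ≤ l →
    1 ≤ C₁ → (∀ L, Real.log w ≤ L → Gs 2 M T L ≤ κ * L ^ 2) →
    BS 0 w M T (M * Real.exp l) / (M * Real.exp l) ≤ 2 * (N0 w M T + T) / M +
      C * (Bm 0 w M T (phi (Real.exp (l / C₁)) (Real.exp (C₁ * l))) + κ * l / C₁) := by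
  obtain ⟨C2, hC2, H2⟩ := cnt2
  obtain ⟨C3, hC3, H3⟩ := cnt3
  obtain ⟨Cl, hCl, Hl⟩ := up_low
  obtain ⟨Ch, hCh, Hh⟩ := up_high
  refine ⟨C2 + C2 * Cl + 4 * C3 * Ch, by positivity, fun w M T κ l C₁ hw hM hT hκ hl hC hG => ?_⟩
  have hY : 0 < M * Real.exp l := by positivity
  have hMY : M ≤ M * Real.exp l := le_mul_of_one_le_right hM.le (Real.one_le_exp (by linarith))
  have hCl' : l ≤ C₁ * l := le_mul_of_one_le_left (by linarith) hC
  have key : ∀ p ∈ primesIoc w T, ∀ ν ∈ (primesIoc w T).powerset,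
      ind (Bd 0 M ν p) * cnt p (M * Real.exp l / (pr ν * p)) / (M * Real.exp l) ≤
        2 / M * ind (Bd 0 M ν p) +
        C2 * (ind (Bd 0 M ν p) * (phi (Real.exp (l / C₁)) (Real.exp (C₁ * l)) p / (pr ν * p))) +
        C2 * (ind (Bd 0 M ν p) * (ind (Real.log p ≤ l / C₁) / Real.log p / (pr ν * p))) +
        C3 * (l + 1) * (ind (Bd 0 M ν p ∧ C₁ * l < Real.log p ∧
          (pr ν : ℝ) * (p : ℝ) ^ 3 ≤ M * Real.exp l) * (1 / (pr ν * p * Real.log p ^ 2))) := by
    intro p hp ν hν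
    obtain ⟨hpp, hwp, -⟩ := (mem_primesIoc (by linarith) hT).1 hp
    have hp0 : (0 : ℝ) < p := by linarith
    have hlp : 0 < Real.log p := Real.log_pos (by linarith)
    have hν0 : (0 : ℝ) < pr ν := by
      exact_mod_cast pr_pos fun q hq => (mem_filter.1 (mem_powerset.1 hν hq)).2
    have hx : 0 < M * Real.exp l / (pr ν * p) := by positivity
    have t4 : 0 ≤ C3 * (l + 1) * (ind (Bd 0 M ν p ∧ C₁ * l < Real.log p ∧
        (pr ν : ℝ) * (p : ℝ) ^ 3 ≤ M * Real.exp l) * (1 / (pr ν * p * Real.log p ^ 2))) :=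
      mul_nonneg (by positivity) (mul_nonneg (ind_nonneg _) (by positivity))
    by_cases hB : Bd 0 M ν p
    swap
    · rw [ind_neg hB]
      simpa using t4
    rw [ind_pos hB, one_mul, one_mul, one_mul, mul_one]
    have t2 : 0 ≤ C2 * (phi (Real.exp (l / C₁)) (Real.exp (C₁ * l)) p / (pr ν * p)) :=
      mul_nonneg hC2.le (div_nonneg (phi_nonneg _ _ _) (by positivity))
    have t3 : 0 ≤ C2 * (ind (Real.log p ≤ l / C₁) / Real.log p / (pr ν * p)) :=
      mul_nonneg hC2.le (div_nonneg (div_nonneg (ind_nonneg _) hlp.le) (by positivity))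
    have t1 : 2 * ind (1 ≤ M * Real.exp l / (pr ν * p)) / (M * Real.exp l) ≤ 2 / M :=
      div_le_div₀ (by norm_num) (by linarith [ind_le_one (1 ≤ M * Real.exp l / (pr ν * p))]) hM hMY
    rcases le_or_gt (Real.log p) (C₁ * l) with h1 | h1
    · have a1 := div_le_div_of_nonneg_right (H2 p _ hpp.two_le hx) hY.le
      have a2 : C2 * (M * Real.exp l / (pr ν * p) / Real.log p) / (M * Real.exp l) =
          C2 * (1 / Real.log p / (pr ν * p)) := by field_simp
      rw [add_div, a2] at a1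
      rcases le_or_gt (Real.log p) (l / C₁) with h2 | h2
      · rw [ind_pos h2]
        linarith
      · rw [phi, ind_pos (And.intro ((Real.lt_log_iff_exp_lt hp0).1 h2)
          ((Real.log_le_iff_le_exp hp0).1 h1))]
        linarith
    · have a0 : Real.exp l < p := (Real.lt_log_iff_exp_lt hp0).1 (hCl'.trans_lt h1)
      have a1 : M * Real.exp l / (pr ν * p) / (p : ℝ) ^ 2 < Real.exp l := by
        rw [div_div, div_lt_iff₀ (by positivity)]
        have := mul_lt_mul_of_pos_right hB.2.2.2 (Real.exp_pos l)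
        linarith
      have a2 : M * Real.exp l / (pr ν * p) < (p : ℝ) ^ 3 := by
        have := (div_lt_iff₀ (by positivity)).1 (a1.trans a0)
        linarith
      have a3 := div_le_div_of_nonneg_right
        (H3 p _ (by exact_mod_cast (show (3 : ℝ) ≤ p by linarith)) hx a2) hY.le
      rw [add_div] at a3
      by_cases h2 : (p : ℝ) ^ 2 ≤ M * Real.exp l / (pr ν * p)
      · have a4 : (pr ν : ℝ) * (p : ℝ) ^ 3 ≤ M * Real.exp l := by
          have := (le_div_iff₀ (by positivity)).1 h2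
          linarith
        have a5 : Real.log (M * Real.exp l / (pr ν * p) / (p : ℝ) ^ 2) ≤ l :=
          (Real.log_le_iff_le_exp (by positivity)).2 a1.le
        have a6 : C3 * (M * Real.exp l / (pr ν * p) *
            (Real.log (M * Real.exp l / (pr ν * p) / (p : ℝ) ^ 2) + 1) / Real.log p ^ 2) /
            (M * Real.exp l) ≤ C3 * (l + 1) * (1 / (pr ν * p * Real.log p ^ 2)) := by
          calc _ ≤ C3 * (M * Real.exp l / (pr ν * p) * (l + 1) / Real.log p ^ 2) /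
                (M * Real.exp l) := by gcongr
            _ = _ := by field_simp
        rw [ind_pos h2, one_mul] at a3
        rw [ind_pos (And.intro hB (And.intro h1 a4)), one_mul]
        linarith
      · rw [ind_neg h2, zero_mul, zero_div] at a3
        linarith
  have s1 := sum_le_sum fun p hp => sum_le_sum (key p hp)
  simp only [sum_add_distrib, ← mul_sum, ← sum_div] at s1
  have s2 := mul_le_mul_of_nonneg_left (sum_Bd_le w M hT) (show 0 ≤ 2 / M by positivity)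
  have s3 := mul_le_mul_of_nonneg_left (Hl w M T κ (l / C₁) hw hM hκ (by positivity) hG) hC2.le
  have s4 := mul_le_mul_of_nonneg_left (Hh w M T κ (C₁ * l) l hw hM hκ (by positivity)
    (by linarith) hG) (show 0 ≤ C3 * (l + 1) by positivity)
  have s5 : C3 * (l + 1) * (Ch * κ * (l + 1) / (C₁ * l)) ≤ 4 * C3 * Ch * (κ * l / C₁) := by
    have a1 : (l + 1) ^ 2 / l ≤ 4 * l := by
      rw [div_le_iff₀ (by linarith)]
      nlinarith
    calc _ = C3 * Ch * (κ / C₁) * ((l + 1) ^ 2 / l) := by field_simp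
      _ ≤ C3 * Ch * (κ / C₁) * (4 * l) := by gcongr
      _ = _ := by ring
  have s6 := Bm_nonneg 0 w M T (phi_nonneg (Real.exp (l / C₁)) (Real.exp (C₁ * l)))
  have s7 : 0 ≤ κ * l / C₁ := by positivity
  have s8 := mul_nonneg (show 0 ≤ C2 * Cl + 4 * C3 * Ch by positivity) s6
  have s9 := mul_nonneg hC2.le s7
  have e1 : 2 * (N0 w M T + T) / M = 2 / M * (N0 w M T + T) := by ring
  have e2 : C2 * (Cl * κ * (l / C₁)) = C2 * Cl * (κ * l / C₁) := by ring
  unfold BS
  unfold Bm at s3 s6 s8 ⊢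
  linarith

/-- `delta` (`2/a - 2/(a+l) ≥ l / a²`), `BS_nonneg`, `up_bound` with `κ = K / a²` and `C₁` large,
`T / M ≤ M^(-1/6) ≤ 1 / a²`. -/
theorem M2 (hP : HP) {θ w : ℝ} (h : Good θ w) : ∃ C₁ c l₀ M₀ : ℝ, 1 ≤ C₁ ∧ 0 < c ∧
    ∀ M T l : ℝ, M₀ ≤ M → 0 < T → 6 / 5 * Real.log T ≤ Real.log M →
      Real.log M ≤ 27 / 10 * Real.log T → l₀ ≤ l → l ≤ Real.log M / 10 →
      c * l / Real.log M ^ 2 ≤ Bm 0 w M T (phi (Real.exp (l / C₁)) (Real.exp (C₁ * l))) := by
  obtain ⟨Cd, M₁, hCd, hd⟩ := delta hP h.seq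
  obtain ⟨K, M₂, hK, hg⟩ := h.gb
  obtain ⟨C, hC, hu⟩ := up_bound
  have hCK : 0 < C * K := by positivity
  refine ⟨4 * (C * K) + 1, 1 / (2 * C), max 1 (4 * (Cd * (1 + K) + 2 * K + 144)),
    max M₁ (max M₂ 2), by linarith, by positivity, fun M T l hM hT h1 h2 hl hl' => ?_⟩
  simp only [max_le_iff] at hM hl
  obtain ⟨m1, m2, m3⟩ := hM
  obtain ⟨l1, l2⟩ := hl
  have hM0 : 0 < M := by linarith
  have ha : 0 < Real.log M := Real.log_pos (by linarith)
  obtain ⟨g1, g2, g3⟩ := hg M T m2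
  have a1 := hd M T l m1 hT h1 h2 (by linarith) hl'
  have a2 := hu w M T (K / Real.log M ^ 2) l (4 * (C * K) + 1) h.w10 hM0 hT.le (by positivity) l1
    (by linarith) g1
  have a3 : 0 ≤ BS 0 w M T M / M := div_nonneg (BS_nonneg _ _ _ _ _) hM0.le
  obtain ⟨u, hu'⟩ : ∃ u : ℝ, u = 1 / Real.log M ^ 2 := ⟨_, rfl⟩
  have hu0 : 0 < u := by rw [hu']; positivity
  have hdiv : ∀ x : ℝ, x / Real.log M ^ 2 = x * u := fun x => by rw [hu']; ring
  have a4 : l * u ≤ 2 / Real.log M - 2 / (Real.log M + l) := by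
    rw [← hdiv, div_sub_div _ _ ha.ne' (by linarith), div_le_div_iff₀ (by positivity)
      (mul_pos ha (by linarith))]
    have : 0 ≤ l * Real.log M * (Real.log M - l) :=
      mul_nonneg (mul_nonneg (by linarith) ha.le) (by linarith)
    nlinarith
  have a5 : T / M ≤ 72 * u := by
    have b1 := Real.pow_div_factorial_le_exp (Real.log M / 6) (by positivity) 2
    have b2 : T * Real.exp (Real.log M / 6) ≤ M := by
      rw [← Real.exp_log hT, ← Real.exp_add]
      exact (Real.exp_le_exp.2 (by linarith)).trans_eq (Real.exp_log hM0)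
    have b3 := mul_le_mul_of_nonneg_left b1 hT.le
    rw [← hdiv, div_le_div_iff₀ hM0 (by positivity)]
    norm_num [Nat.factorial] at b3
    nlinarith
  have a6 : N0 w M T / M ≤ K * u := by
    rw [div_le_iff₀ hM0, ← hdiv]
    exact g3
  have a7 : C * (K * u * l / (4 * (C * K) + 1)) ≤ l * u / 4 := by
    rw [← mul_div_assoc, div_le_div_iff₀ (by positivity) (by norm_num)]
    have : 0 ≤ l * u := by positivity
    nlinarith
  have a8 := mul_le_mul_of_nonneg_right l2 hu0.le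
  have a9 := mul_le_mul_of_nonneg_left g2 hCd.le
  have a10 := (abs_le.1 a1).1
  rw [hdiv] at a2 a9 a10 ⊢
  rw [mul_div_assoc, add_div] at a2
  have a11 : 1 / (2 * C) * l * u = l * u / 2 / C := by field_simp
  rw [a11, div_le_iff₀ hC]
  nlinarith

/-- `reach` with `β = c l / (2.7 b)²` and the base case `M2`. -/
theorem M3 (hP : HP) {θ w : ℝ} (h : Good θ w) : ∃ C₁ l₀ : ℝ, 1 ≤ C₁ ∧ 0 ≤ l₀ ∧ ∀ R : ℝ,
    ∃ c κ b₀ : ℝ, 0 < c ∧ 0 < κ ∧ ∀ b M l : ℝ, b₀ ≤ b → 0 < M → 2 * b ≤ Real.log M →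
      Real.log M ≤ R * b → l₀ ≤ l → l ≤ κ * b →
      c * l / b ^ 2 ≤ Bm 1 w M (Real.exp b) (phi (Real.exp (l / C₁)) (Real.exp (C₁ * l))) := by
  obtain ⟨C₁, c, l₀, M₀, hC₁, hc, H⟩ := M2 hP h
  refine ⟨C₁, max l₀ 0, hC₁, le_max_right _ _, fun R => ?_⟩
  obtain ⟨c', θ', b₀, hc', hθ, hθ1, hb₀, hr⟩ := reach R
  refine ⟨c' * c / (27 / 10) ^ 2, θ' / 10, max b₀ (max (w / θ') (M₀ / θ')), by positivity,
    by positivity, fun b M l hb hM h1 h2 hl hl' => ?_⟩
  simp only [max_le_iff] at hb hl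
  obtain ⟨b1, b2, b3⟩ := hb
  obtain ⟨l1, l2⟩ := hl
  rw [div_le_iff₀ hθ] at b2 b3
  have hb0 : 0 < b := by linarith
  have hθb : 0 < θ' * b := by positivity
  have hw := h.w10
  refine le_trans (le_of_eq (by field_simp)) ((hr w _ (c * l / (27 / 10 * b) ^ 2) b M (by linarith)
    (phi_nonneg _ _) (by positivity) b1 (by linarith [Real.add_one_le_exp (θ' * b)])
    (fun M' t hM' t1 t2 t3 t4 => ?_) hM h2).2 h1)
  have a1 : Real.log M' + 1 ≤ M' := (Real.add_one_le_exp _).trans_eq (Real.exp_log hM')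
  refine le_trans ?_ (H M' (Real.exp t) l (by linarith) (Real.exp_pos t)
    (by rwa [Real.log_exp]) (by rwa [Real.log_exp]) l1 (by linarith))
  have a2 : 0 < Real.log M' := by linarith
  have a3 : Real.log M' ≤ 27 / 10 * b := by linarith
  gcongr

end Crest.Agent.R001
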