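import Crest.Agent.R001.Defs
import Crest.Agent.R017.Shift

set_option autoImplicit false

namespace Crest.Agent.R001

open Finset Filter

open Complex MeasureTheory

theorem perr69_summ : Summable fun n : ℕ => (1 + Real.log n) * (n : ℝ) ^ (-3 : ℝ) := by
  refine Summable.of_nonneg_of_le (fun n => ?_) (fun n => ?_)
    ((Real.summable_nat_rpow.2 (show (-2 : ℝ) < -1 by norm_num)))
  · have := Real.log_natCast_nonneg n
    positivity
  · rcases Nat.eq_zero_or_pos n with rfl | hn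
    · simp
    · have h0 : (0 : ℝ) < n := by exact_mod_cast hn
      have h1 : 1 + Real.log n ≤ n := by linarith [Real.log_le_sub_one_of_pos h0]
      calc (1 + Real.log n) * (n : ℝ) ^ (-3 : ℝ) ≤ n * (n : ℝ) ^ (-3 : ℝ) :=
            mul_le_mul_of_nonneg_right h1 (by positivity)
        _ = _ := by
            rw [show (-2 : ℝ) = 1 + -3 by norm_num, Real.rpow_add h0, Real.rpow_one]

theorem perr69_bd {b : ℕ → ℂ} (hb : ∀ n, ‖b n‖ ≤ 1 + Real.log n) (h0 : b 0 = 0) {a : ℝ}
    (ha : 0 < a) (n : ℕ) (u : ℝ) : ‖b n * (R017.W a (n / Real.exp u) : ℂ)‖ ≤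
      (1 + Real.log n) * (n : ℝ) ^ (-3 : ℝ) * (Real.exp (a * (-3) ^ 2) * Real.exp (3 * u)) := by
  rcases Nat.eq_zero_or_pos n with rfl | hn
  · simp [h0]
  · have hn0 : (0 : ℝ) < n := by exact_mod_cast hn
    have h1 := R017.W_le_rpow ha (div_pos hn0 (Real.exp_pos u)) (-3)
    rw [norm_mul, Complex.norm_real, Real.norm_of_nonneg (R017.W_pos _ _).le, mul_assoc]
    refine mul_le_mul (hb n) (h1.trans (le_of_eq ?_)) (R017.W_pos _ _).le
      ((norm_nonneg _).trans (hb n))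
    rw [Real.div_rpow hn0.le (Real.exp_pos u).le, ← Real.exp_mul, div_eq_mul_inv, ← Real.exp_neg]
    have : -(u * -3) = 3 * u := by ring
    rw [this]
    ring

theorem perr69_meas (c : ℂ) (a : ℝ) (n : ℕ) :
    Measurable fun u : ℝ => c * (R017.W a (n / Real.exp u) : ℂ) := by
  unfold R017.W
  fun_prop

theorem perr69_sum {b : ℕ → ℂ} (hb : ∀ n, ‖b n‖ ≤ 1 + Real.log n) (h0 : b 0 = 0) {a : ℝ}
    (ha : 0 < a) (y : ℝ) :
    IntegrableOn (fun u => ∑' n : ℕ, b n * (R017.W a (n / Real.exp u) : ℂ)) (Set.Iic y) ∧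
    HasSum (fun n : ℕ => ∫ u in Set.Iic y, b n * (R017.W a (n / Real.exp u) : ℂ))
      (∫ u in Set.Iic y, ∑' n : ℕ, b n * (R017.W a (n / Real.exp u) : ℂ)) := by
  have hI : IntegrableOn (fun u : ℝ => Real.exp (a * (-3) ^ 2) * Real.exp (3 * u)) (Set.Iic y) :=
    (integrableOn_exp_mul_Iic (by norm_num) y).const_mul _
  refine ⟨?_, hasSum_integral_of_summable_integral_norm (fun n => ?_) ?_⟩
  · refine (hI.const_mul (∑' n : ℕ, (1 + Real.log n) * (n : ℝ) ^ (-3 : ℝ))).mono'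
      (Measurable.tsum fun n => perr69_meas (b n) a n).aestronglyMeasurable
      (Eventually.of_forall fun u => ?_)
    rw [← tsum_mul_right]
    exact tsum_of_norm_bounded (perr69_summ.mul_right _).hasSum fun n => perr69_bd hb h0 ha n u
  · exact (hI.const_mul _).mono' (perr69_meas (b n) a n).aestronglyMeasurable
      (Eventually.of_forall fun u => perr69_bd hb h0 ha n u)
  · refine Summable.of_nonneg_of_le (fun n => integral_nonneg fun _ => norm_nonneg _) (fun n => ?_)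
      (perr69_summ.mul_right (∫ u in Set.Iic y, Real.exp (a * (-3) ^ 2) * Real.exp (3 * u)))
    rw [← integral_const_mul]
    exact integral_mono_of_nonneg (Eventually.of_forall fun _ => norm_nonneg _) (hI.const_mul _)
      (Eventually.of_forall fun u => perr69_bd hb h0 ha n u)

/-- integrate the smooth estimate -/
theorem perr69_int {b : ℕ → ℂ} (hb : ∀ n, ‖b n‖ ≤ 1 + Real.log n) (h0 : b 0 = 0) {a x K : ℝ}
    (ha : 0 < a) (hx : 0 < x) {ρ : ℂ}
    (h : ∀ v : ℝ, 0 < v → ‖∑' n : ℕ, b n * (R017.W a (n / v) : ℂ) -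
      ρ * ((Real.sqrt (4 * Real.pi * a) * Real.exp a * v : ℝ) : ℂ)‖ ≤ K * v ^ (9 / 10 : ℝ)) :
    Summable (fun n : ℕ => b n * (((∫ u in Set.Iic (Real.log x), R017.W a (n / Real.exp u)) /
      Real.sqrt (4 * Real.pi * a) : ℝ) : ℂ)) ∧
    ‖∑' n : ℕ, b n * (((∫ u in Set.Iic (Real.log x), R017.W a (n / Real.exp u)) /
      Real.sqrt (4 * Real.pi * a) : ℝ) : ℂ) - ρ * ((Real.exp a * x : ℝ) : ℂ)‖ ≤
      K * (x ^ (9 / 10 : ℝ) / (9 / 10)) / Real.sqrt (4 * Real.pi * a) := by
  obtain ⟨hS, hH⟩ := perr69_sum hb h0 ha (Real.log x)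
  have hπ := Real.pi_pos
  have hs : 0 < Real.sqrt (4 * Real.pi * a) := by positivity
  obtain ⟨s, hsd⟩ : ∃ s, s = Real.sqrt (4 * Real.pi * a) := ⟨_, rfl⟩
  rw [← hsd] at h hs ⊢
  have hs' : (s : ℂ) ≠ 0 := Complex.ofReal_ne_zero.2 hs.ne'
  have hH2 := hH.div_const (s : ℂ)
  have e1 : (fun n : ℕ => b n * (((∫ u in Set.Iic (Real.log x), R017.W a (n / Real.exp u)) /
      s : ℝ) : ℂ)) = fun n : ℕ =>
      (∫ u in Set.Iic (Real.log x), b n * (R017.W a (n / Real.exp u) : ℂ)) / (s : ℂ) := by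
    funext n
    rw [integral_const_mul, integral_complex_ofReal, Complex.ofReal_div, mul_div_assoc]
  rw [e1]
  refine ⟨hH2.summable, ?_⟩
  rw [hH2.tsum_eq]
  have hG0 : IntegrableOn (fun u : ℝ => s * Real.exp a * Real.exp u) (Set.Iic (Real.log x)) :=
    (integrableOn_exp_Iic _).const_mul _
  have hG : IntegrableOn (fun u : ℝ => ρ * ((s * Real.exp a * Real.exp u : ℝ) : ℂ))
      (Set.Iic (Real.log x)) := hG0.ofReal.const_mul ρ
  have e2 : ∫ u in Set.Iic (Real.log x), ρ * ((s * Real.exp a * Real.exp u : ℝ) : ℂ) =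
      ρ * ((s * Real.exp a * x : ℝ) : ℂ) := by
    rw [integral_const_mul, integral_complex_ofReal, integral_const_mul, integral_exp_Iic,
      Real.exp_log hx]
  have e3 : ρ * ((Real.exp a * x : ℝ) : ℂ) = (∫ u in Set.Iic (Real.log x),
      ρ * ((s * Real.exp a * Real.exp u : ℝ) : ℂ)) / (s : ℂ) := by
    rw [e2]
    push_cast
    field_simp
  rw [e3, ← sub_div, ← integral_sub hS hG, norm_div, Complex.norm_real,
    Real.norm_of_nonneg hs.le]
  refine div_le_div_of_nonneg_right ?_ hs.le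
  have hB : IntegrableOn (fun u : ℝ => K * Real.exp (9 / 10 * u)) (Set.Iic (Real.log x)) :=
    (integrableOn_exp_mul_Iic (by norm_num) _).const_mul _
  refine (norm_integral_le_of_norm_le hB (Eventually.of_forall fun u => ?_)).trans (le_of_eq ?_)
  · refine (h _ (Real.exp_pos u)).trans (le_of_eq ?_)
    rw [← Real.exp_mul, mul_comm u]
  · rw [integral_const_mul, integral_exp_mul_Iic (by norm_num), Real.rpow_def_of_pos hx,
      mul_comm (Real.log x)]

end Crest.Agent.R001
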