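import Crest.Agent.R001.Defs
import Crest.Agent.R017.Shift

set_option autoImplicit false

namespace Crest.Agent.R001

open Finset Filter Crest.Agent.R008 Crest.Agent.R026

open Complex MeasureTheory

theorem perr96_pt (A : ℕ) {a : ℝ} (ha : 0 < a) (ha1 : a ≤ 1) (t : ℝ) :
    (1 + |t|) ^ A * ‖R017.Wh a ((9 / 10 : ℝ) + t * I)‖ ≤
      (Real.exp ((A : ℝ) ^ 2 / 2 + 1) * Real.sqrt (4 * Real.pi * a) / Real.sqrt a ^ A) *
        Real.exp (-(a / 2) * t ^ 2) := by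
  have hr : 0 < Real.sqrt a := Real.sqrt_pos.2 ha
  have hr1 : Real.sqrt a ≤ 1 := Real.sqrt_le_one.2 ha1
  have hrr : Real.sqrt a ^ 2 = a := Real.sq_sqrt ha.le
  rw [R017.rd_norm_Wh ha]
  set r := Real.sqrt a with hrdef
  have ht := abs_nonneg t
  have h1 : 1 + |t| ≤ Real.exp (r * |t|) / r := by
    rw [le_div_iff₀ hr]
    have := Real.add_one_le_exp (r * |t|)
    nlinarith
  have h2 : (1 + |t|) ^ A ≤ Real.exp (A * (r * |t|)) / r ^ A := by
    rw [Real.exp_nat_mul, ← div_pow]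
    exact pow_le_pow_left₀ (by positivity) h1 A
  have h3 : Real.exp (A * (r * |t|)) * (Real.exp (a * (9 / 10) ^ 2) * Real.exp (-(a * t ^ 2))) ≤
      Real.exp ((A : ℝ) ^ 2 / 2 + 1) * Real.exp (-(a / 2) * t ^ 2) := by
    rw [← Real.exp_add, ← Real.exp_add, ← Real.exp_add, Real.exp_le_exp]
    have e : a * t ^ 2 = (r * |t|) ^ 2 := by rw [mul_pow, hrr, sq_abs]
    have e2 : -(a / 2) * t ^ 2 = -((r * |t|) ^ 2 / 2) := by rw [← e]; ring
    rw [e, e2]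
    nlinarith [sq_nonneg ((A : ℝ) - r * |t|)]
  have hS : 0 ≤ Real.sqrt (4 * Real.pi * a) := Real.sqrt_nonneg _
  calc (1 + |t|) ^ A * (Real.sqrt (4 * Real.pi * a) * Real.exp (a * (9 / 10) ^ 2) *
        Real.exp (-(a * t ^ 2)))
      ≤ Real.exp (A * (r * |t|)) / r ^ A * (Real.sqrt (4 * Real.pi * a) *
        Real.exp (a * (9 / 10) ^ 2) * Real.exp (-(a * t ^ 2))) :=
        mul_le_mul_of_nonneg_right h2 (by positivity)
    _ = Real.sqrt (4 * Real.pi * a) / r ^ A * (Real.exp (A * (r * |t|)) *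
        (Real.exp (a * (9 / 10) ^ 2) * Real.exp (-(a * t ^ 2)))) := by ring
    _ ≤ Real.sqrt (4 * Real.pi * a) / r ^ A *
        (Real.exp ((A : ℝ) ^ 2 / 2 + 1) * Real.exp (-(a / 2) * t ^ 2)) :=
        mul_le_mul_of_nonneg_left h3 (by positivity)
    _ = _ := by ring

theorem perr96_integrable (A : ℕ) {a : ℝ} (ha : 0 < a) (ha1 : a ≤ 1) :
    Integrable (fun t : ℝ => (1 + |t|) ^ A * ‖R017.Wh a ((9 / 10 : ℝ) + t * I)‖) := by
  refine ((integrable_exp_neg_mul_sq (half_pos ha)).const_mul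
    (Real.exp ((A : ℝ) ^ 2 / 2 + 1) * Real.sqrt (4 * Real.pi * a) / Real.sqrt a ^ A)).mono' ?_
    (Eventually.of_forall fun t => ?_)
  · have := (R017.differentiable_Wh a).continuous
    exact Continuous.aestronglyMeasurable (by fun_prop)
  · rw [Real.norm_of_nonneg (by positivity)]
    exact perr96_pt A ha ha1 t

theorem perr96_int (A : ℕ) : ∃ C : ℝ, 0 < C ∧ ∀ a : ℝ, 0 < a → a ≤ 1 →
    ∫ t : ℝ, (1 + |t|) ^ A * ‖R017.Wh a ((9 / 10 : ℝ) + t * I)‖ ≤ C / Real.sqrt a ^ A := by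
  refine ⟨Real.exp ((A : ℝ) ^ 2 / 2 + 1) * Real.sqrt (8 * Real.pi ^ 2), by
    have := Real.pi_pos
    positivity, fun a ha ha1 => ?_⟩
  have h1 := integral_mono (perr96_integrable A ha ha1)
    ((integrable_exp_neg_mul_sq (half_pos ha)).const_mul
      (Real.exp ((A : ℝ) ^ 2 / 2 + 1) * Real.sqrt (4 * Real.pi * a) / Real.sqrt a ^ A))
    (fun t => perr96_pt A ha ha1 t)
  refine h1.trans (le_of_eq ?_)
  rw [integral_const_mul, integral_gaussian]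
  have hπ := Real.pi_pos
  have e : Real.sqrt (4 * Real.pi * a) * Real.sqrt (Real.pi / (a / 2)) =
      Real.sqrt (8 * Real.pi ^ 2) := by
    rw [← Real.sqrt_mul (by positivity)]
    congr 1
    field_simp
    norm_num
  rw [← e]
  ring

theorem perr96_cpow {x : ℝ} (hx : 0 < x) (n : ℕ) (s : ℂ) :
    (((n : ℝ) / x : ℝ) : ℂ) ^ (-s) = (n : ℂ) ^ (-s) * (x : ℂ) ^ s := by
  rw [div_eq_mul_inv, ofReal_mul, mul_cpow_ofReal_nonneg (Nat.cast_nonneg n) (inv_nonneg.2 hx.le),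
    ofReal_natCast, ofReal_inv, inv_cpow _ _
      (by rw [arg_ofReal_of_nonneg hx.le]; exact Real.pi_ne_zero.symm), cpow_neg (x : ℂ), inv_inv]

theorem perr96_summable {b : ℕ → ℂ} (hb : ∀ n, ‖b n‖ ≤ 1 + Real.log n) :
    Summable (fun n : ℕ => ‖b n‖ / (n : ℝ) ^ 2) := by
  have h1 : Summable (fun n : ℕ => 3 * (1 / (n : ℝ) ^ (3 / 2 : ℝ))) :=
    (Real.summable_one_div_nat_rpow.2 (by norm_num)).mul_left 3
  refine Summable.of_nonneg_of_le (fun n => by positivity) (fun n => ?_) h1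
  rcases Nat.eq_zero_or_pos n with rfl | hn
  · simp
  have hn' : (1 : ℝ) ≤ n := Nat.one_le_cast.2 hn
  have hn0 : (0 : ℝ) < n := by linarith
  have h2 : Real.log n ≤ (n : ℝ) ^ (1 / 2 : ℝ) / (1 / 2) :=
    Real.log_le_rpow_div hn0.le (by norm_num)
  have h3 : 1 ≤ (n : ℝ) ^ (1 / 2 : ℝ) := Real.one_le_rpow hn' (by norm_num)
  have h4 : (n : ℝ) ^ 2 = (n : ℝ) ^ (1 / 2 : ℝ) * (n : ℝ) ^ (3 / 2 : ℝ) := by
    rw [← Real.rpow_add hn0]
    norm_num
  have h5 : 0 < (n : ℝ) ^ (3 / 2 : ℝ) := Real.rpow_pos_of_pos hn0 _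
  rw [h4, div_le_iff₀ (by positivity)]
  have h6 : 3 * (1 / (n : ℝ) ^ (3 / 2 : ℝ)) * ((n : ℝ) ^ (1 / 2 : ℝ) * (n : ℝ) ^ (3 / 2 : ℝ)) =
      3 * (n : ℝ) ^ (1 / 2 : ℝ) := by field_simp
  rw [h6]
  have := hb n
  linarith

theorem perr96_sum {a : ℝ} (ha : 0 < a) {b : ℕ → ℂ} (hb0 : b 0 = 0)
    (hs : Summable (fun n : ℕ => ‖b n‖ / (n : ℝ) ^ 2)) {x : ℝ} (hx : 0 < x) :
    ∫ t : ℝ, (∑' n : ℕ, b n * (n : ℂ) ^ (-(((2 : ℝ) : ℂ) + t * I))) *
      (x : ℂ) ^ (((2 : ℝ) : ℂ) + t * I) * R017.Wh a (((2 : ℝ) : ℂ) + t * I) =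
      2 * Real.pi * (∑' n : ℕ, b n * (R017.W a (n / x) : ℂ)) := by
  have hW : Integrable (fun t : ℝ => ‖R017.Wh a (((2 : ℝ) : ℂ) + t * I)‖) := by
    simpa using R017.integrable_exp_Wh ha 0 2
  have hWc := (R017.differentiable_Wh a).continuous
  have hπ : (Real.pi : ℂ) ≠ 0 := ofReal_ne_zero.2 Real.pi_ne_zero
  have hn : ∀ (n : ℕ) (t : ℝ), ‖b n * (n : ℂ) ^ (-(((2 : ℝ) : ℂ) + t * I)) *
      (x : ℂ) ^ (((2 : ℝ) : ℂ) + t * I) * R017.Wh a (((2 : ℝ) : ℂ) + t * I)‖ =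
      ‖b n‖ / (n : ℝ) ^ 2 * x ^ 2 * ‖R017.Wh a (((2 : ℝ) : ℂ) + t * I)‖ := fun n t => by
    have e : (((2 : ℝ) : ℂ) + t * I).re = 2 := by simp
    rw [norm_mul, norm_mul, norm_mul,
      norm_natCast_cpow_of_re_ne_zero _ (by rw [neg_re, e]; norm_num),
      norm_cpow_eq_rpow_re_of_pos hx, neg_re, e, Real.rpow_neg (Nat.cast_nonneg n), Real.rpow_two,
      Real.rpow_two, div_eq_mul_inv ‖b n‖]
  have key := hasSum_integral_of_summable_integral_norm (μ := (volume : Measure ℝ))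
    (F := fun (n : ℕ) (t : ℝ) => b n * (n : ℂ) ^ (-(((2 : ℝ) : ℂ) + t * I)) *
      (x : ℂ) ^ (((2 : ℝ) : ℂ) + t * I) * R017.Wh a (((2 : ℝ) : ℂ) + t * I))
    (fun n => by
      refine (hW.const_mul (‖b n‖ / (n : ℝ) ^ 2 * x ^ 2)).mono' ?_
        (Filter.Eventually.of_forall fun t => (hn n t).le)
      refine Measurable.aestronglyMeasurable ?_
      refine ((measurable_const.mul (measurable_const.pow (by fun_prop))).mul
        (measurable_const.pow (by fun_prop))).mul (hWc.measurable.comp (by fun_prop)))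
    (by
      simp only [hn, integral_const_mul]
      exact (hs.mul_right _).mul_right _)
  simp only [tsum_mul_right] at key
  rw [← key.tsum_eq, ← tsum_mul_left]
  refine tsum_congr fun n => ?_
  rcases Nat.eq_zero_or_pos n with rfl | hn0
  · simp [hb0]
  have hn' : (0 : ℝ) < n := Nat.cast_pos.2 hn0
  rw [R017.W_mellin ha (div_pos hn' hx) 2]
  simp only [perr96_cpow hx]
  rw [← mul_assoc, ← mul_assoc, ← integral_const_mul]
  refine integral_congr_ae (Filter.Eventually.of_forall fun t => ?_)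
  field_simp

theorem perr96_LSeries {b : ℕ → ℂ} (hb0 : b 0 = 0) (s : ℂ) :
    LSeries b s = ∑' n : ℕ, b n * (n : ℂ) ^ (-s) := by
  unfold LSeries
  refine tsum_congr fun n => ?_
  rcases Nat.eq_zero_or_pos n with rfl | hn0
  · simp [hb0]
  rw [LSeries.term_of_ne_zero hn0.ne', cpow_neg, div_eq_mul_inv]

theorem perr96_smooth (A : ℕ) : ∃ C : ℝ, 0 < C ∧ ∀ (b : ℕ → ℂ) (F : ℂ → ℂ) (ρ : ℂ) (B a v : ℝ),
    1 ≤ B → ‖ρ‖ ≤ 1 → (∀ n, ‖b n‖ ≤ 1 + Real.log n) → b 0 = 0 →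
    DifferentiableOn ℂ F (R017.strip (9 / 10) 2) →
    (∀ s ∈ R017.strip (9 / 10) 2, ‖F s‖ ≤ B * (1 + |s.im|) ^ A) →
    (∀ s : ℂ, s.re = 2 → LSeries b s = F s + ρ / (s - 1)) → 0 < a → a ≤ 1 → 0 < v →
    ‖∑' n : ℕ, b n * (R017.W a (n / v) : ℂ) -
      ρ * ((Real.sqrt (4 * Real.pi * a) * Real.exp a * v : ℝ) : ℂ)‖ ≤
      C * B * v ^ (9 / 10 : ℝ) / Real.sqrt a ^ A := by
  obtain ⟨K, hK, hI⟩ := perr96_int A
  refine ⟨11 * K, by positivity, fun b F ρ B a x hB hρ hb hb0 hd hF hid ha ha1 hx => ?_⟩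
  have hs := perr96_summable hb
  have hx0 : (x : ℂ) ≠ 0 := ofReal_ne_zero.2 hx.ne'
  have hH : Differentiable ℂ fun s : ℂ => (x : ℂ) ^ s :=
    Differentiable.const_cpow differentiable_id (Or.inl hx0)
  have hLd : DifferentiableOn ℂ (fun s => F s * (x : ℂ) ^ s) (R017.strip (9 / 10) 2) :=
    hd.mul hH.differentiableOn
  have hLg : R017.ExpGr (fun s => F s * (x : ℂ) ^ s) (9 / 10) 2 :=
    (R017.ExpGr.of_poly B A 0 fun s hs _ => by
      rw [Real.rpow_natCast]; exact hF s hs).mul (R017.expGr_cpow hx _ _)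
  have h12 : (9 / 10 : ℝ) ≤ 2 := by norm_num
  have s1 := R017.shift_Wh ha h12 hLd hLg
  have s2 := R017.shift_Wh_pole ha (H := fun s : ℂ => (x : ℂ) ^ s) (σ₁ := 9 / 10) (σ₂ := 2)
    (s₀ := 1) (by norm_num) (by norm_num) hH.differentiableOn (R017.expGr_cpow hx _ _)
  have i1 : Integrable fun t : ℝ => (x : ℂ) ^ (((2 : ℝ) : ℂ) + t * I) /
      (((2 : ℝ) : ℂ) + t * I - 1) * R017.Wh a (((2 : ℝ) : ℂ) + t * I) := by
    refine R017.integrable_mul_Wh ha (F := fun s => (x : ℂ) ^ s / (s - 1)) (σ₁ := 2) (σ₂ := 2) ?_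
      ((R017.expGr_cpow hx _ _).mul (R017.expGr_inv_sub 1 _ _)) le_rfl le_rfl
    refine hH.continuous.continuousOn.div (by fun_prop) fun s hs h0 => ?_
    have := hs.1
    rw [sub_eq_zero.1 h0] at this
    norm_num at this
  have i2 := R017.integrable_mul_Wh ha hLd.continuousOn hLg h12 le_rfl
  have s3 := perr96_sum ha hb0 hs hx
  have e3 : ∀ t : ℝ, (∑' n : ℕ, b n * (n : ℂ) ^ (-(((2 : ℝ) : ℂ) + t * I))) *
      (x : ℂ) ^ (((2 : ℝ) : ℂ) + t * I) * R017.Wh a (((2 : ℝ) : ℂ) + t * I) =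
      F (((2 : ℝ) : ℂ) + t * I) * (x : ℂ) ^ (((2 : ℝ) : ℂ) + t * I) *
        R017.Wh a (((2 : ℝ) : ℂ) + t * I) +
      ρ * ((x : ℂ) ^ (((2 : ℝ) : ℂ) + t * I) /
        (((2 : ℝ) : ℂ) + t * I - 1) * R017.Wh a (((2 : ℝ) : ℂ) + t * I)) := fun t => by
    rw [← perr96_LSeries hb0, hid _ (by simp)]
    ring
  simp only [e3] at s3
  rw [integral_add i2 (i1.const_mul ρ), integral_const_mul, ← s1, s2, cpow_one] at s3
  have hre : ∀ t : ℝ, (((9 / 10 : ℝ) : ℂ) + t * I).re = 9 / 10 := fun t => by simp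
  have hxθ : 0 < x ^ (9 / 10 : ℝ) := Real.rpow_pos_of_pos hx _
  have hint := perr96_integrable A ha ha1
  have hIa := hI a ha ha1
  have hgen : ∀ (f : ℝ → ℂ) (M : ℝ), 0 ≤ M → (∀ t, ‖f t‖ ≤ M * (1 + |t|) ^ A) →
      ‖∫ t : ℝ, f t * R017.Wh a (((9 / 10 : ℝ) : ℂ) + t * I)‖ ≤ M * (K / Real.sqrt a ^ A) := by
    intro f M hM hf
    refine le_trans ?_ (mul_le_mul_of_nonneg_left hIa hM)
    rw [← integral_const_mul]
    refine norm_integral_le_of_norm_le (hint.const_mul M) (Eventually.of_forall fun t => ?_)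
    rw [norm_mul, ← mul_assoc]
    exact mul_le_mul_of_nonneg_right (hf t) (norm_nonneg _)
  have b1 := hgen (fun t => (x : ℂ) ^ (((9 / 10 : ℝ) : ℂ) + t * I) /
      (((9 / 10 : ℝ) : ℂ) + t * I - 1)) (10 * x ^ (9 / 10 : ℝ)) (by positivity) fun t => by
      have a1 : 1 / 10 ≤ ‖((9 / 10 : ℝ) : ℂ) + t * I - 1‖ := by
        refine le_trans ?_ (abs_re_le_norm _)
        rw [sub_re, hre, one_re, le_abs]
        right
        norm_num
      have a3 : 1 ≤ (1 + |t|) ^ A := one_le_pow₀ (by linarith [abs_nonneg t])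
      rw [norm_div, norm_cpow_eq_rpow_re_of_pos hx, hre, div_le_iff₀ (by linarith)]
      have a4 : 1 / 10 ≤ (1 + |t|) ^ A * ‖((9 / 10 : ℝ) : ℂ) + t * I - 1‖ := by nlinarith
      nlinarith
  have b2 := hgen (fun t => F (((9 / 10 : ℝ) : ℂ) + t * I) *
      (x : ℂ) ^ (((9 / 10 : ℝ) : ℂ) + t * I)) (B * x ^ (9 / 10 : ℝ)) (by positivity) fun t => by
      have a1 := hF _ (R017.line_mem_strip le_rfl h12 t)
      have e : (((9 / 10 : ℝ) : ℂ) + t * I).im = t := by simp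
      rw [e] at a1
      rw [norm_mul, norm_cpow_eq_rpow_re_of_pos hx, hre]
      exact (mul_le_mul_of_nonneg_right a1 hxθ.le).trans_eq (by ring)
  have hW1 : R017.Wh a 1 = ((Real.sqrt (4 * Real.pi * a) * Real.exp a : ℝ) : ℂ) := by
    rw [R017.Wh]
    push_cast
    simp
  rw [hW1] at s3
  generalize ∑' n : ℕ, b n * (R017.W a (n / x) : ℂ) = S at s3 ⊢
  generalize ∫ t : ℝ, (x : ℂ) ^ (((9 / 10 : ℝ) : ℂ) + t * I) / (((9 / 10 : ℝ) : ℂ) + t * I - 1) *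
    R017.Wh a (((9 / 10 : ℝ) : ℂ) + t * I) = I₁ at s3 b1
  generalize ∫ t : ℝ, F (((9 / 10 : ℝ) : ℂ) + t * I) * (x : ℂ) ^ (((9 / 10 : ℝ) : ℂ) + t * I) *
    R017.Wh a (((9 / 10 : ℝ) : ℂ) + t * I) = I₂ at s3 b2
  have e4 : ((2 * Real.pi : ℝ) : ℂ) * (S - ρ * ((Real.sqrt (4 * Real.pi * a) * Real.exp a * x : ℝ) : ℂ))
      = I₂ + ρ * I₁ := by
    rw [ofReal_mul (Real.sqrt (4 * Real.pi * a) * Real.exp a) x, ofReal_mul 2 Real.pi, ofReal_ofNat]
    linear_combination -s3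
  have e5 := congrArg norm e4
  rw [norm_mul, Complex.norm_real, Real.norm_of_nonneg Real.two_pi_pos.le] at e5
  have b3 := norm_add_le I₂ (ρ * I₁)
  have b3' : ‖ρ * I₁‖ ≤ ‖I₁‖ := by
    rw [norm_mul]
    exact mul_le_of_le_one_left (norm_nonneg _) hρ
  generalize ‖S - ρ * ((Real.sqrt (4 * Real.pi * a) * Real.exp a * x : ℝ) : ℂ)‖ = D at e5 ⊢
  have hD : D ≤ 2 * Real.pi * D := by
    have hD0 : 0 ≤ 2 * Real.pi * D := by rw [e5]; exact norm_nonneg _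
    have h2π : 1 ≤ 2 * Real.pi := by linarith [Real.pi_gt_three]
    have : 0 ≤ D := by
      by_contra hneg
      push Not at hneg
      nlinarith
    exact le_mul_of_one_le_left this h2π
  have hq : 0 ≤ K / Real.sqrt a ^ A := by positivity
  have b5 : x ^ (9 / 10 : ℝ) * (K / Real.sqrt a ^ A) ≤
      B * (x ^ (9 / 10 : ℝ) * (K / Real.sqrt a ^ A)) := le_mul_of_one_le_left (by positivity) hB
  have e6 : 11 * K * B * x ^ (9 / 10 : ℝ) / Real.sqrt a ^ A =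
      11 * (B * (x ^ (9 / 10 : ℝ) * (K / Real.sqrt a ^ A))) := by ring
  rw [e6]
  nlinarith

end Crest.Agent.R001
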