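import Crest.Agent.R001.Defs
import Crest.Agent.R017.Shift
import Crest.Agent.R001.PerrAux96
import Crest.Agent.R001.PerrAux69

set_option autoImplicit false

namespace Crest.Agent.R001

open Finset Filter Crest.Agent.R008 Crest.Agent.R026

open Complex MeasureTheory

/-! # From a strip of holomorphy to a power saving -/

/-- `‖Wh a (σ + i t)‖ = √(4 π a) exp (a (σ² - t²))` (`R017.norm_Wh`); substitute `t = u / √a` and use
`1 + |u| / √a ≤ (1 + |u|) / √a`, or bound `(1 + |t|)^A exp (-a t² / 2) ≤ C a^(-A/2)` pointwise and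
integrate the remaining Gaussian (`integral_gaussian`). -/
theorem int_Wh_le (A : ℕ) : ∃ C : ℝ, 0 < C ∧ ∀ a : ℝ, 0 < a → a ≤ 1 →
    ∫ t : ℝ, (1 + |t|) ^ A * ‖R017.Wh a ((9 / 10 : ℝ) + t * I)‖ ≤ C / Real.sqrt a ^ A :=
  perr96_int A

/-- The smooth version, as `GC.cpn_sum`, `GC.pnt_abs` in `GQ/CPnt.lean` (copy the proofs, the
width `a` is now a variable): Mellin inversion `R017.W_mellin` on `Re s = 2`, `R017.shift_Wh` for
`F s * v^s`, `R017.shift_Wh_pole` for `v^s / (s - 1)`, `int_Wh_le`. -/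
theorem perron_smooth (A : ℕ) : ∃ C : ℝ, 0 < C ∧ ∀ (b : ℕ → ℂ) (F : ℂ → ℂ) (ρ : ℂ) (B a v : ℝ),
    1 ≤ B → ‖ρ‖ ≤ 1 → (∀ n, ‖b n‖ ≤ 1 + Real.log n) → b 0 = 0 →
    DifferentiableOn ℂ F (R017.strip (9 / 10) 2) →
    (∀ s ∈ R017.strip (9 / 10) 2, ‖F s‖ ≤ B * (1 + |s.im|) ^ A) →
    (∀ s : ℂ, s.re = 2 → LSeries b s = F s + ρ / (s - 1)) → 0 < a → a ≤ 1 → 0 < v →
    ‖∑' n : ℕ, b n * (R017.W a (n / v) : ℂ) -
      ρ * ((Real.sqrt (4 * Real.pi * a) * Real.exp a * v : ℝ) : ℂ)‖ ≤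
      C * B * v ^ (9 / 10 : ℝ) / Real.sqrt a ^ A :=
  perr96_smooth A

/-- The normalised kernel. -/
noncomputable def Kn (a x : ℝ) (n : ℕ) : ℝ :=
  (∫ u in Set.Iic (Real.log x), R017.W a (n / Real.exp u)) / Real.sqrt (4 * Real.pi * a)

theorem perr52_int {a : ℝ} (ha : 0 < a) (c : ℝ) :
    Integrable (fun u : ℝ => Real.exp (-(u - c) ^ 2 / (4 * a))) ∧
      ∫ u : ℝ, Real.exp (-(u - c) ^ 2 / (4 * a)) = Real.sqrt (4 * Real.pi * a) := by
  have hb : 0 < 1 / (4 * a) := by positivity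
  have e : (fun u : ℝ => Real.exp (-(u - c) ^ 2 / (4 * a))) =
      fun u : ℝ => (fun t : ℝ => Real.exp (-(1 / (4 * a)) * t ^ 2)) (u - c) := by
    funext u
    congr 1
    ring
  rw [e]
  refine ⟨(integrable_exp_neg_mul_sq hb).comp_sub_right c, ?_⟩
  rw [integral_sub_right_eq_self (fun t : ℝ => Real.exp (-(1 / (4 * a)) * t ^ 2)) c,
    integral_gaussian]
  congr 1
  field_simp

theorem perr52_tail {a : ℝ} (ha : 0 < a) (c L : ℝ) {s : Set ℝ} (hs : MeasurableSet s)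
    (h : ∀ u ∈ s, 0 ≤ (u - c) * (c - L)) :
    ∫ u in s, Real.exp (-(u - L) ^ 2 / (4 * a)) ≤
      Real.exp (-(L - c) ^ 2 / (4 * a)) * Real.sqrt (4 * Real.pi * a) := by
  rw [← (perr52_int ha c).2, ← integral_const_mul]
  have hi := (perr52_int ha c).1.const_mul (Real.exp (-(L - c) ^ 2 / (4 * a)))
  refine le_trans (setIntegral_mono_on (perr52_int ha L).1.integrableOn hi.integrableOn hs
    fun u hu => ?_) (setIntegral_le_integral hi (Eventually.of_forall fun u => by positivity))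
  rw [← Real.exp_add, ← add_div]
  refine Real.exp_le_exp.2 (div_le_div_of_nonneg_right ?_ (by positivity))
  nlinarith [h u hu]

/-- Gaussian tails.  `W a (n / e^u) = exp (-(u - log n)² / (4a))`, the full integral is `√(4πa)`
(`integral_gaussian`), and for `y ≥ 0`,
`∫_{u ≥ y} exp (-u²/(4a)) = ∫_{u ≥ 0} exp (-(u+y)²/(4a)) ≤ exp (-y²/(4a)) √(4πa)`. -/
theorem Kn_close {a x : ℝ} (ha : 0 < a) (hx : 0 < x) {n : ℕ} (hn : 1 ≤ n) :
    |Kn a x n - ind ((n : ℝ) ≤ x)| ≤ R017.W a (n / x) := by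
  have hn0 : (0 : ℝ) < n := by exact_mod_cast hn
  have hS : 0 < Real.sqrt (4 * Real.pi * a) := Real.sqrt_pos.2 (by positivity)
  have e1 : (fun u : ℝ => R017.W a (n / Real.exp u)) =
      fun u : ℝ => Real.exp (-(u - Real.log n) ^ 2 / (4 * a)) := by
    funext u
    unfold R017.W
    rw [Real.log_div hn0.ne' (Real.exp_pos u).ne', Real.log_exp]
    congr 2
    ring
  have e2 : R017.W a (n / x) = Real.exp (-(Real.log n - Real.log x) ^ 2 / (4 * a)) := by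
    unfold R017.W
    rw [Real.log_div hn0.ne' hx.ne']
  unfold Kn
  rw [e1, e2]
  have hp : ∀ s : Set ℝ, 0 ≤ ∫ u in s, Real.exp (-(u - Real.log n) ^ 2 / (4 * a)) := fun s =>
    integral_nonneg fun u => (Real.exp_pos _).le
  by_cases h : (n : ℝ) ≤ x
  · have hl : Real.log n ≤ Real.log x := Real.log_le_log hn0 h
    have h1 := perr52_tail ha (Real.log x) (Real.log n) (s := Set.Ioi (Real.log x)) measurableSet_Ioi
      fun u hu => mul_nonneg (sub_nonneg.2 (le_of_lt hu)) (sub_nonneg.2 hl)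
    have h2 := intervalIntegral.integral_Iic_add_Ioi (b := Real.log x)
      (perr52_int ha (Real.log n)).1.integrableOn (perr52_int ha (Real.log n)).1.integrableOn
    rw [(perr52_int ha (Real.log n)).2] at h2
    rw [ind_pos h, div_sub_one hS.ne', abs_div, abs_of_pos hS, div_le_iff₀ hS, ← h2,
      sub_add_cancel_left, abs_neg, abs_of_nonneg (hp _), h2]
    exact h1
  · have hl : Real.log x ≤ Real.log n := Real.log_le_log hx (not_le.1 h).le
    have h1 := perr52_tail ha (Real.log x) (Real.log n) (s := Set.Iic (Real.log x)) measurableSet_Iic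
      fun u hu => mul_nonneg_of_nonpos_of_nonpos (sub_nonpos.2 hu) (sub_nonpos.2 hl)
    rw [ind_neg h, sub_zero, abs_div, abs_of_pos hS, div_le_iff₀ hS, abs_of_nonneg (hp _)]
    exact h1

theorem perr17_point {a x : ℝ} (ha : 0 < a) (hx : 1 ≤ x)
    (hδ : 2 * Real.sqrt a * Real.log (2 * x) ≤ 1) (ha1 : a ≤ 1) (n : ℕ) :
    (1 + Real.log n) * ind (1 ≤ n) * R017.W a (n / x) ≤
      (if n ∈ Finset.Icc ⌈x * (1 - 2 * Real.sqrt a * Real.log (2 * x))⌉₊
        ⌊x * (1 + 2 * (2 * Real.sqrt a * Real.log (2 * x)))⌋₊ then 5 * Real.log (2 * x) else 0) +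
        Real.exp 23 * (1 / (n : ℝ) ^ 2) := by
  have hx0 : 0 < x := by linarith
  have hL : 1 / 2 ≤ Real.log (2 * x) := by
    have h1 := Real.log_two_gt_d9
    have h2 : Real.log 2 ≤ Real.log (2 * x) := Real.log_le_log two_pos (by linarith)
    linarith
  have hLx : Real.log x ≤ Real.log (2 * x) := Real.log_le_log hx0 (by linarith)
  have hs := Real.sq_sqrt ha.le
  have hs0 := Real.sqrt_nonneg a
  generalize Real.log (2 * x) = L at hδ hL hLx ⊢
  generalize Real.sqrt a = s at hδ hs hs0 ⊢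
  have hif : (0 : ℝ) ≤ if n ∈ Finset.Icc ⌈x * (1 - 2 * s * L)⌉₊ ⌊x * (1 + 2 * (2 * s * L))⌋₊ then 5 * L
      else 0 := by split_ifs <;> linarith
  have hE : 0 ≤ Real.exp 23 * (1 / (n : ℝ) ^ 2) := by positivity
  by_cases hn : 1 ≤ n
  swap
  · rw [ind_neg hn, mul_zero, zero_mul]
    exact add_nonneg hif hE
  rw [ind_pos hn, mul_one]
  have hn1 : (1 : ℝ) ≤ n := by exact_mod_cast hn
  have hn0 : (0 : ℝ) < n := by linarith
  have hu : Real.log (n / x) = Real.log n - Real.log x := Real.log_div hn0.ne' hx0.ne'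
  have hne : x * Real.exp (Real.log (n / x)) = n := by
    rw [Real.exp_log (by positivity)]; field_simp
  have hl0 : 0 ≤ Real.log n := Real.log_nonneg hn1
  have hδ0 : 0 ≤ 2 * s * L := by positivity
  unfold R017.W
  generalize Real.log (n / x) = u at hu hne ⊢
  by_cases hc : |u| ≤ 2 * s * L
  · have h1 := abs_le.1 hc
    have h2 : Real.exp u ≤ 1 + 2 * (2 * s * L) := by
      have h3 := Real.abs_exp_sub_one_le (x := u) (hc.trans hδ)
      have h4 := le_abs_self (Real.exp u - 1)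
      linarith
    have h3 : 1 - 2 * s * L ≤ Real.exp u := by
      have := Real.add_one_le_exp u
      linarith
    rw [if_pos (Finset.mem_Icc.2 ⟨Nat.ceil_le.2 (by
      rw [← hne]; exact mul_le_mul_of_nonneg_left h3 hx0.le), Nat.le_floor (by
      rw [← hne]; exact mul_le_mul_of_nonneg_left h2 hx0.le)⟩)]
    have h4 : Real.exp (-u ^ 2 / (4 * a)) ≤ 1 := by
      rw [Real.exp_le_one_iff]
      exact div_nonpos_of_nonpos_of_nonneg (neg_nonpos.2 (sq_nonneg u)) (by positivity)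
    have h5 : (1 + Real.log n) * Real.exp (-u ^ 2 / (4 * a)) ≤ 1 + Real.log n :=
      mul_le_of_le_one_right (by linarith) h4
    linarith
  · have h1 : 2 * s * L < |u| := not_le.1 hc
    have h2 : 4 * a * L ^ 2 ≤ u ^ 2 := by
      rw [← sq_abs u, ← hs]
      nlinarith
    have h3 : -u ^ 2 / (4 * a) ≤ 23 - 3 * Real.log n := by
      rw [div_le_iff₀ (by positivity)]
      have h4 : a * u ^ 2 ≤ u ^ 2 := mul_le_of_le_one_left (sq_nonneg u) ha1
      have h5 : a * (Real.log n) ≤ a * (L + u) := mul_le_mul_of_nonneg_left (by linarith) ha.le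
      have h6 : 0 ≤ a * (L - 3) ^ 2 := by positivity
      have h7 : 0 ≤ a * (u - 12) ^ 2 := by positivity
      nlinarith
    have h4 : Real.exp (-u ^ 2 / (4 * a)) ≤ Real.exp 23 * (1 / (n : ℝ) ^ 3) := by
      refine (Real.exp_le_exp.2 h3).trans (le_of_eq ?_)
      rw [Real.exp_sub, show 3 * Real.log n = Real.log ((n : ℝ) ^ 3) by rw [Real.log_pow]; norm_num,
        Real.exp_log (by positivity)]
      ring
    have h5 : 1 + Real.log n ≤ n := by
      have := Real.log_le_sub_one_of_pos hn0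
      linarith
    have h6 : (1 + Real.log n) * Real.exp (-u ^ 2 / (4 * a)) ≤ n * (Real.exp 23 * (1 / (n : ℝ) ^ 3)) :=
      mul_le_mul h5 h4 (Real.exp_pos _).le hn0.le
    have h7 : n * (Real.exp 23 * (1 / (n : ℝ) ^ 3)) = Real.exp 23 * (1 / (n : ℝ) ^ 2) := by
      field_simp
    linarith

/-- Split at `|log (n / x)| ≤ √a log (2x)·2`: there are `≤ C (x √a log (2 x) + 1)` such `n`
(when `2 √a log (2x) ≤ 1`), each `1 + log n ≤ C log (2x)`; for the others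
`W a (n/x) ≤ exp (-log² (2x) / 2) W (2a) (n/x)` and `W (2a) (n/x) ≤ e^(18 a) (n/x)^(-3)` for `n > x`
(`R017.W_le_rpow`). -/
theorem sum_W_le : ∃ C : ℝ, 0 < C ∧ ∀ a x : ℝ, 0 < a → 1 ≤ x →
    2 * Real.sqrt a * Real.log (2 * x) ≤ 1 → a ≤ 1 →
    Summable (fun n : ℕ => (1 + Real.log n) * ind (1 ≤ n) * R017.W a (n / x)) ∧
    ∑' n : ℕ, (1 + Real.log n) * ind (1 ≤ n) * R017.W a (n / x) ≤
      C * (x * Real.sqrt a + 1) * Real.log (2 * x) ^ 2 := by
  have hS : Summable fun n : ℕ => 1 / (n : ℝ) ^ 2 := Real.summable_one_div_nat_pow.2 one_lt_two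
  have hS0 : 0 ≤ ∑' n : ℕ, 1 / (n : ℝ) ^ 2 := tsum_nonneg fun n => by positivity
  refine ⟨30 + 4 * (Real.exp 23 * ∑' n : ℕ, 1 / (n : ℝ) ^ 2), by positivity, fun a x ha hx hδ ha1 => ?_⟩
  have hp := perr17_point ha hx hδ ha1
  have hx0 : 0 < x := by linarith
  have hL : 1 / 2 ≤ Real.log (2 * x) := by
    have h1 := Real.log_two_gt_d9
    have h2 : Real.log 2 ≤ Real.log (2 * x) := Real.log_le_log two_pos (by linarith)
    linarith
  have hs0 := Real.sqrt_nonneg a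
  generalize Real.log (2 * x) = L at hδ hL hp ⊢
  generalize Real.sqrt a = s at hδ hs0 hp ⊢
  have hδ0 : 0 ≤ 2 * s * L := by positivity
  have hcard : ((Finset.Icc ⌈x * (1 - 2 * s * L)⌉₊ ⌊x * (1 + 2 * (2 * s * L))⌋₊).card : ℝ) ≤
      6 * (x * s + 1) * L := by
    rw [Nat.card_Icc]
    have h1 := Nat.le_ceil (x * (1 - 2 * s * L))
    have h2 := Nat.floor_le (a := x * (1 + 2 * (2 * s * L))) (by positivity)
    rcases le_total ⌈x * (1 - 2 * s * L)⌉₊ (⌊x * (1 + 2 * (2 * s * L))⌋₊ + 1) with h | h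
    · rw [Nat.cast_sub h]
      push_cast
      nlinarith
    · rw [Nat.sub_eq_zero_of_le h, Nat.cast_zero]
      positivity
  generalize Finset.Icc ⌈x * (1 - 2 * s * L)⌉₊ ⌊x * (1 + 2 * (2 * s * L))⌋₊ = T at hp hcard
  have h1 : HasSum (fun n : ℕ => if n ∈ T then 5 * L else 0) (T.card * (5 * L)) := by
    have h2 : HasSum (fun n : ℕ => if n ∈ T then 5 * L else 0)
        (∑ n ∈ T, if n ∈ T then 5 * L else 0) :=
      hasSum_sum_of_ne_finset_zero fun n hn => if_neg hn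
    rwa [Finset.sum_congr rfl (fun n hn => if_pos hn), Finset.sum_const, nsmul_eq_mul] at h2
  have h2 := h1.add (hS.hasSum.mul_left (Real.exp 23))
  have h0 : ∀ n : ℕ, 0 ≤ (1 + Real.log n) * ind (1 ≤ n) * R017.W a (n / x) := fun n =>
    mul_nonneg (mul_nonneg (add_nonneg zero_le_one (Real.log_natCast_nonneg n)) (ind_nonneg _))
      (Real.exp_pos _).le
  have h3 := Summable.of_nonneg_of_le h0 hp h2.summable
  refine ⟨h3, (hasSum_le hp h3.hasSum h2).trans ?_⟩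
  have h4 : 0 ≤ Real.exp 23 * ∑' n : ℕ, 1 / (n : ℝ) ^ 2 := by positivity
  generalize Real.exp 23 * ∑' n : ℕ, 1 / (n : ℝ) ^ 2 = E at h4 ⊢
  have h5 : (T.card : ℝ) * (5 * L) ≤ 6 * (x * s + 1) * L * (5 * L) :=
    mul_le_mul_of_nonneg_right hcard (by positivity)
  have h6 : 1 ≤ 4 * L ^ 2 := by nlinarith
  have h7 : 1 ≤ (x * s + 1) * (4 * L ^ 2) := one_le_mul_of_one_le_of_one_le (by
    have : 0 ≤ x * s := by positivity
    linarith) h6
  have h8 : E ≤ E * ((x * s + 1) * (4 * L ^ 2)) := le_mul_of_one_le_right h4 h7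
  nlinarith

/-- Integrate `perron_smooth` with `v = e^u` over `u ≤ log x` (`integral_tsum` or
`hasSum_integral_of_summable_integral_norm`; `W a (n / e^u) ≤ e^(9a) (e^u / n)^3`). -/
theorem perron_Kn (A : ℕ) : ∃ C : ℝ, 0 < C ∧ ∀ (b : ℕ → ℂ) (F : ℂ → ℂ) (ρ : ℂ) (B a x : ℝ),
    1 ≤ B → ‖ρ‖ ≤ 1 → (∀ n, ‖b n‖ ≤ 1 + Real.log n) → b 0 = 0 →
    DifferentiableOn ℂ F (R017.strip (9 / 10) 2) →
    (∀ s ∈ R017.strip (9 / 10) 2, ‖F s‖ ≤ B * (1 + |s.im|) ^ A) →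
    (∀ s : ℂ, s.re = 2 → LSeries b s = F s + ρ / (s - 1)) → 0 < a → a ≤ 1 → 0 < x →
    Summable (fun n : ℕ => b n * (Kn a x n : ℂ)) ∧
    ‖∑' n : ℕ, b n * (Kn a x n : ℂ) - ρ * ((Real.exp a * x : ℝ) : ℂ)‖ ≤
      C * B * x ^ (9 / 10 : ℝ) / Real.sqrt a ^ (A + 1) := by
  obtain ⟨C, hC, h⟩ := perron_smooth A
  refine ⟨C * (10 / 9), by positivity, fun b F ρ B a x hB hρ hb h0 hF hFb hL ha ha1 hx => ?_⟩
  obtain ⟨h1, h2⟩ := perr69_int hb h0 ha hx (K := C * B / Real.sqrt a ^ A) (ρ := ρ) fun v hv =>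
    (h b F ρ B a v hB hρ hb h0 hF hFb hL ha ha1 hv).trans (le_of_eq (by ring))
  refine ⟨h1, h2.trans ?_⟩
  have hs : 0 < Real.sqrt a := Real.sqrt_pos.2 ha
  have hs2 : Real.sqrt a ≤ Real.sqrt (4 * Real.pi * a) :=
    Real.sqrt_le_sqrt (by nlinarith [Real.pi_gt_three])
  refine (div_le_div_of_nonneg_left (by positivity) hs hs2).trans (le_of_eq ?_)
  rw [pow_succ]
  field_simp

theorem Perr81_log {γ : ℝ} (hγ : 0 < γ) (hγ1 : γ ≤ 1) {x : ℝ} (hx : 1 ≤ x) :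
    x * x ^ (-γ) * Real.log (2 * x) ^ 2 ≤ 32 / γ ^ 2 * x ^ (1 - γ / 2) := by
  have hx0 : 0 < x := by linarith
  have h0 : 0 ≤ Real.log (2 * x) := Real.log_nonneg (by linarith)
  have h1 := Real.log_le_rpow_div (x := 2 * x) (by linarith) (ε := γ / 4) (by positivity)
  have h2 : Real.log (2 * x) ^ 2 ≤ ((2 * x) ^ (γ / 4) / (γ / 4)) ^ 2 := pow_le_pow_left₀ h0 h1 2
  have h3 : ((2 * x) ^ (γ / 4)) ^ 2 = 2 ^ (γ / 2) * x ^ (γ / 2) := by
    rw [← Real.rpow_natCast, ← Real.rpow_mul (by linarith), ← Real.mul_rpow (by norm_num) hx0.le]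
    congr 1
    push_cast
    ring
  have h4 : (2 : ℝ) ^ (γ / 2) ≤ 2 := by
    calc (2 : ℝ) ^ (γ / 2) ≤ 2 ^ (1 : ℝ) :=
          Real.rpow_le_rpow_of_exponent_le (by norm_num) (by linarith)
      _ = 2 := Real.rpow_one 2
  have h5 : x * x ^ (-γ) * x ^ (γ / 2) = x ^ (1 - γ / 2) := by
    rw [mul_assoc, ← Real.rpow_add hx0, ← Real.rpow_one_add' hx0.le (by linarith)]
    congr 1
    ring
  have h6 : 0 < x ^ (γ / 2) := Real.rpow_pos_of_pos hx0 _
  have h7 : 0 < x ^ (-γ) := Real.rpow_pos_of_pos hx0 _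
  calc x * x ^ (-γ) * Real.log (2 * x) ^ 2
      ≤ x * x ^ (-γ) * (2 * x ^ (γ / 2) / (γ / 4) ^ 2) := by
        refine mul_le_mul_of_nonneg_left (h2.trans ?_) (by positivity)
        rw [div_pow, h3]
        gcongr
    _ = 32 / γ ^ 2 * (x * x ^ (-γ) * x ^ (γ / 2)) := by field_simp; ring
    _ = _ := by rw [h5]

theorem Perr81_triv {b : ℕ → ℂ} {ρ : ℂ} (hρ : ‖ρ‖ ≤ 1) (hb : ∀ n, ‖b n‖ ≤ 1 + Real.log n) {x : ℝ}
    (hx : 1 ≤ x) : ‖∑ n ∈ natIoc 0 x, b n - ρ * x‖ ≤ 4 * x * Real.log (2 * x) := by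
  have hx0 : 0 < x := by linarith
  have h1 : ‖∑ n ∈ natIoc 0 x, b n‖ ≤ x * (1 + Real.log x) := by
    refine (norm_sum_le _ _).trans ?_
    have h2 : ∑ n ∈ natIoc 0 x, ‖b n‖ ≤ (natIoc 0 x).card • (1 + Real.log x) := by
      refine Finset.sum_le_card_nsmul _ _ _ fun n hn => (hb n).trans ?_
      obtain ⟨a1, a2⟩ := (mem_natIoc le_rfl hx0.le).1 hn
      linarith [Real.log_le_log a1 a2]
    refine h2.trans ?_
    rw [nsmul_eq_mul]
    refine mul_le_mul_of_nonneg_right ?_ (by linarith [Real.log_nonneg hx])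
    rw [natIoc, Nat.card_Ioc, Nat.floor_zero, Nat.sub_zero]
    exact Nat.floor_le hx0.le
  have h3 : ‖ρ * x‖ ≤ x := by
    rw [norm_mul, Complex.norm_real, Real.norm_of_nonneg hx0.le]
    exact mul_le_of_le_one_left hx0.le hρ
  have h4 : Real.log (2 * x) = Real.log 2 + Real.log x := Real.log_mul (by norm_num) hx0.ne'
  have h5 := Real.log_two_gt_d9
  have h6 := Real.log_nonneg hx
  have h7 : 2 + Real.log x ≤ 4 * Real.log (2 * x) := by linarith
  refine (norm_sub_le _ _).trans ?_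
  nlinarith

/-- Take `√a = x^(-1 / (20 (A + 1)))` for large `x` (`perron_Kn`, `Kn_close`, `sum_W_le`,
`e^a - 1 ≤ 2a`), `c = 1 / (40 (A + 1))`; for bounded `x` the trivial bound. -/
theorem pperron (A : ℕ) : ∃ c C : ℝ, 0 < c ∧ c < 1 / 2 ∧ 0 < C ∧
    ∀ (b : ℕ → ℂ) (F : ℂ → ℂ) (ρ : ℂ) (B : ℝ),
    1 ≤ B → ‖ρ‖ ≤ 1 → (∀ n, ‖b n‖ ≤ 1 + Real.log n) → b 0 = 0 →
    DifferentiableOn ℂ F (R017.strip (9 / 10) 2) →
    (∀ s ∈ R017.strip (9 / 10) 2, ‖F s‖ ≤ B * (1 + |s.im|) ^ A) →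
    (∀ s : ℂ, s.re = 2 → LSeries b s = F s + ρ / (s - 1)) →
    ∀ x : ℝ, 1 ≤ x → ‖∑ n ∈ natIoc 0 x, b n - ρ * x‖ ≤ C * B * x ^ (1 - c) := by
  obtain ⟨C1, hC1, h1⟩ := perron_Kn A
  obtain ⟨C2, hC2, h2⟩ := sum_W_le
  set γ : ℝ := 1 / (20 * ((A : ℝ) + 1)) with hγ
  have hA : (0 : ℝ) ≤ A := Nat.cast_nonneg A
  have hγ0 : 0 < γ := by positivity
  have hγ1 : γ ≤ 1 / 20 := one_div_le_one_div_of_le (by norm_num) (by linarith)
  refine ⟨γ / 2, C1 + (2 * C2 + 8) * (32 / γ ^ 2) + 2, by positivity, by linarith, by positivity,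
    fun b F ρ B hB hρ hb hb0 hF hFb hL x hx => ?_⟩
  have hx0 : 0 < x := by linarith
  set r : ℝ := x ^ (-γ) with hr
  have hr0 : 0 < r := Real.rpow_pos_of_pos hx0 _
  have hr1 : r ≤ 1 := Real.rpow_le_one_of_one_le_of_nonpos hx (by linarith)
  have hlog := Perr81_log hγ0 (by linarith) hx
  rw [← hr] at hlog
  have hX : 0 < x ^ (1 - γ / 2) := Real.rpow_pos_of_pos hx0 _
  have hD : 0 < 32 / γ ^ 2 := by positivity
  have hl0 : 0 ≤ Real.log (2 * x) := Real.log_nonneg (by linarith)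
  have hfin : ∀ y : ℝ, y ≤ C1 * B * x ^ (1 - γ / 2) +
      ((2 * C2 + 8) * (32 / γ ^ 2) + 2) * x ^ (1 - γ / 2) →
      y ≤ (C1 + (2 * C2 + 8) * (32 / γ ^ 2) + 2) * B * x ^ (1 - γ / 2) := fun y hy => by
    have : ((2 * C2 + 8) * (32 / γ ^ 2) + 2) * x ^ (1 - γ / 2) ≤
        B * (((2 * C2 + 8) * (32 / γ ^ 2) + 2) * x ^ (1 - γ / 2)) :=
      le_mul_of_one_le_left (by positivity) hB
    linarith
  refine hfin _ ?_
  have hCB : 0 ≤ C1 * B * x ^ (1 - γ / 2) := by positivity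
  have hCD : 0 ≤ C2 * (32 / γ ^ 2 * x ^ (1 - γ / 2)) := by positivity
  by_cases hc : 2 * r * Real.log (2 * x) ≤ 1
  swap
  · have a1 := Perr81_triv hρ hb hx
    have a2 : 4 * x * Real.log (2 * x) ≤ 4 * x * Real.log (2 * x) * (2 * r * Real.log (2 * x)) :=
      le_mul_of_one_le_right (by positivity) (not_le.1 hc).le
    nlinarith
  have ha0 : 0 < r ^ 2 := by positivity
  have ha1 : r ^ 2 ≤ 1 := pow_le_one₀ hr0.le hr1
  have hs : Real.sqrt (r ^ 2) = r := Real.sqrt_sq hr0.le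
  obtain ⟨s1, b1⟩ := h1 b F ρ B (r ^ 2) x hB hρ hb hb0 hF hFb hL ha0 ha1 hx0
  obtain ⟨s2, b2⟩ := h2 (r ^ 2) x ha0 hx (by rwa [hs]) ha1
  rw [hs] at b1 b2
  have e1 : HasSum (fun n : ℕ => b n * (ind ((n : ℝ) ≤ x) : ℂ)) (∑ n ∈ natIoc 0 x, b n) := by
    have : ∑ n ∈ natIoc 0 x, b n = ∑ n ∈ natIoc 0 x, b n * (ind ((n : ℝ) ≤ x) : ℂ) :=
      Finset.sum_congr rfl fun n hn => by
        rw [ind_pos ((mem_natIoc le_rfl hx0.le).1 hn).2, ofReal_one, mul_one]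
    rw [this]
    refine hasSum_sum_of_ne_finset_zero fun n hn => ?_
    rcases Nat.eq_zero_or_pos n with rfl | hn0
    · rw [hb0, zero_mul]
    · rw [ind_neg fun h => hn ((mem_natIoc le_rfl hx0.le).2 ⟨by exact_mod_cast hn0, h⟩),
        ofReal_zero, mul_zero]
  have b3 : ‖∑' n : ℕ, b n * (Kn (r ^ 2) x n : ℂ) - ∑ n ∈ natIoc 0 x, b n‖ ≤
      C2 * (x * r + 1) * Real.log (2 * x) ^ 2 := by
    rw [← (s1.hasSum.sub e1).tsum_eq]
    refine (tsum_of_norm_bounded s2.hasSum fun n => ?_).trans b2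
    rcases Nat.eq_zero_or_pos n with rfl | hn0
    · simp [hb0, ind]
    · rw [← mul_sub, ← ofReal_sub, norm_mul, Complex.norm_real, Real.norm_eq_abs,
        ind_pos (show 1 ≤ n from hn0), mul_one]
      exact mul_le_mul (hb n) (Kn_close ha0 hx0 hn0) (abs_nonneg _) ((norm_nonneg _).trans (hb n))
  have hxr : x * r = x ^ (1 - γ) := by
    rw [hr, ← Real.rpow_one_add' hx0.le (by linarith), sub_eq_add_neg]
  have hxr1 : 1 ≤ x * r := hxr ▸ Real.one_le_rpow hx (by linarith)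
  have hxr2 : x * r ≤ x ^ (1 - γ / 2) :=
    hxr ▸ Real.rpow_le_rpow_of_exponent_le hx (by linarith)
  have b4 : ‖ρ * ((Real.exp (r ^ 2) * x : ℝ) : ℂ) - ρ * x‖ ≤ 2 * x ^ (1 - γ / 2) := by
    rw [← mul_sub, ← ofReal_sub, norm_mul, Complex.norm_real, Real.norm_eq_abs]
    have a1 := Real.abs_exp_sub_one_le (x := r ^ 2) (by rwa [abs_of_pos ha0])
    rw [abs_of_pos ha0] at a1
    have a2 : |Real.exp (r ^ 2) * x - x| ≤ 2 * r ^ 2 * x := by
      rw [← sub_one_mul, abs_mul, abs_of_pos hx0]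
      exact mul_le_mul_of_nonneg_right a1 hx0.le
    have a3 : r ^ 2 * x ≤ x * r := by nlinarith [mul_pos hx0 hr0]
    calc _ ≤ 1 * (2 * r ^ 2 * x) := mul_le_mul hρ a2 (abs_nonneg _) zero_le_one
      _ ≤ _ := by linarith
  have b5 : C1 * B * x ^ (9 / 10 : ℝ) / r ^ (A + 1) ≤ C1 * B * x ^ (1 - γ / 2) := by
    rw [mul_div_assoc]
    refine mul_le_mul_of_nonneg_left ?_ (by positivity)
    rw [hr, ← Real.rpow_natCast, ← Real.rpow_mul hx0.le, ← Real.rpow_sub hx0]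
    refine Real.rpow_le_rpow_of_exponent_le hx ?_
    have : γ * ((A : ℝ) + 1) = 1 / 20 := by rw [hγ]; field_simp
    push_cast
    linarith
  have b6 : C2 * (x * r + 1) * Real.log (2 * x) ^ 2 ≤
      2 * (C2 * (32 / γ ^ 2 * x ^ (1 - γ / 2))) := by
    calc _ ≤ C2 * (x * r + x * r) * Real.log (2 * x) ^ 2 := by gcongr
      _ = 2 * (C2 * (x * r * Real.log (2 * x) ^ 2)) := by ring
      _ ≤ _ := by gcongr
  have e2 : ∑ n ∈ natIoc 0 x, b n - ρ * x =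
      (∑' n : ℕ, b n * (Kn (r ^ 2) x n : ℂ) - ρ * ((Real.exp (r ^ 2) * x : ℝ) : ℂ)) -
      (∑' n : ℕ, b n * (Kn (r ^ 2) x n : ℂ) - ∑ n ∈ natIoc 0 x, b n) +
      (ρ * ((Real.exp (r ^ 2) * x : ℝ) : ℂ) - ρ * x) := by ring
  rw [e2]
  refine (norm_add_le _ _).trans ((add_le_add (norm_sub_le _ _) le_rfl).trans ?_)
  have hD' : 0 ≤ 32 / γ ^ 2 * x ^ (1 - γ / 2) := by positivity
  nlinarith

end Crest.Agent.R001
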