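import Crest.Agent.R001.Perr
import Crest.Agent.R001.LBd
import Crest.Agent.R001.Cnt

set_option autoImplicit false

namespace Crest.Agent.R001

open Finset Filter Crest.Agent.R008 Crest.Agent.R026

open Complex ArithmeticFunction

/-! # Primes in progressions and sums of `λ` with a power saving -/

/-- `pperron` for a logarithmic derivative -/
theorem Pnt49_core : ∃ c C : ℝ, 0 < c ∧ c < 1 / 2 ∧ 0 < C ∧
    ∀ (Φ : ℂ → ℂ) (b : ℕ → ℂ) (ρ : ℂ) (B : ℝ), 1 ≤ B → Differentiable ℂ Φ →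
    (∀ s : ℂ, 7 / 8 < s.re → Φ s ≠ 0) →
    (∀ s : ℂ, 7 / 8 < s.re → s.re ≤ 4 → ‖Φ s‖ ≤ B * (1 + |s.im|) ^ 2) →
    (∀ s : ℂ, s.re = 2 → 1 / 4 ≤ ‖Φ s‖) → ‖ρ‖ ≤ 1 → (∀ n, ‖b n‖ ≤ Λ n) →
    (∀ s : ℂ, s.re = 2 → LSeries b s = -(deriv Φ s / Φ s) + ρ / (s - 1)) →
    ∀ x : ℝ, 1 ≤ x → ‖∑ n ∈ natIoc 0 x, b n - ρ * x‖ ≤ C * (1 + Real.log B) * x ^ (1 - c) := by
  obtain ⟨c, C, hc, hc', hC, H⟩ := pperron 1
  obtain ⟨D, hD, G⟩ := logder
  refine ⟨c, C * (D + 1), hc, hc', by positivity, fun Φ b ρ B hB hΦ hne hup hlo hρ hb hL x hx => ?_⟩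
  have hl := Real.log_nonneg hB
  refine (H b (fun s => -(deriv Φ s / Φ s)) ρ ((D + 1) * (1 + Real.log B)) (by nlinarith) hρ
    (fun n => (hb n).trans (vonMangoldt_le_log.trans (le_add_of_nonneg_left zero_le_one)))
    (norm_le_zero_iff.1 (by simpa using hb 0))
    ((hΦ.deriv.differentiableOn.div hΦ.differentiableOn
      fun s hs => hne s (by linarith [hs.1])).neg) (fun s hs => ?_) hL x hx).trans
    (le_of_eq (by ring))
  rw [norm_neg, pow_one]
  refine (G Φ B hB hΦ.differentiableOn hne hup hlo s hs).trans ?_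
  have a1 : Real.log (1 + |s.im|) ≤ |s.im| := by
    linarith [Real.log_le_sub_one_of_pos (show 0 < 1 + |s.im| by positivity)]
  have a2 := abs_nonneg s.im
  have a3 := Real.log_nonneg (show 1 ≤ 1 + |s.im| by linarith)
  rw [mul_assoc]
  exact mul_le_mul (by linarith) (by nlinarith) (by positivity) (by positivity)

/-- `pperron 1` with `b = Λ χ`, `F = -L'/L`, `ρ = 0`
(`DirichletCharacter.LSeries_twist_vonMangoldt_eq`, `logder`, `L_bound`, `L_low`). -/
theorem psi_nontriv (h : QRH) : ∃ c C : ℝ, 0 < c ∧ c < 1 / 2 ∧ 0 < C ∧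
    ∀ (N : ℕ) [NeZero N] (χ : DirichletCharacter ℂ N), χ ≠ 1 → ∀ x : ℝ, 1 ≤ x →
      ‖∑ n ∈ natIoc 0 x, ((Λ n : ℝ) : ℂ) * χ (n : ZMod N)‖ ≤
        C * (1 + Real.log N) * x ^ (1 - c) := by
  obtain ⟨c, C, hc, hc', hC, H⟩ := Pnt49_core
  obtain ⟨D, hD, G⟩ := L_bound
  have hl := Real.log_nonneg hD
  refine ⟨c, C * (1 + Real.log D), hc, hc', by positivity, fun N _ χ hχ x hx => ?_⟩
  have hN : (1 : ℝ) ≤ N := by exact_mod_cast NeZero.pos N
  have hlN := Real.log_nonneg hN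
  have := H χ.LFunction (fun n => ((Λ n : ℝ) : ℂ) * χ (n : ZMod N)) 0 (D * N) (by nlinarith)
    (DirichletCharacter.differentiable_LFunction hχ) (fun s hs => h N χ s (Or.inl hχ) hs)
    (G N χ hχ) (fun s hs => L_low N χ hs) (by simp)
    (fun n => by
      rw [norm_mul, Complex.norm_real, Real.norm_of_nonneg vonMangoldt_nonneg]
      exact mul_le_of_le_one_right vonMangoldt_nonneg (χ.norm_le_one _))
    (fun s hs => by
      have h1 : 1 < s.re := by linarith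
      rw [zero_div, add_zero, χ.LFunction_eq_LSeries h1, χ.deriv_LFunction_eq_deriv_LSeries h1,
        ← neg_div, ← χ.LSeries_twist_vonMangoldt_eq h1]
      congr 1
      ext n
      exact mul_comm _ _) x hx
  rw [zero_mul, sub_zero, Real.log_mul (by positivity) (by positivity)] at this
  refine this.trans ?_
  rw [mul_assoc C (1 + Real.log D)]
  gcongr
  nlinarith

/-- `pperron 1` with `b = Λ`, `F = -ζ₁'/ζ₁`, `ρ = 1`
(`LSeries_vonMangoldt_eq_deriv_riemannZeta_div`, `riemannZeta_eq_inv_sub_mul`). -/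
theorem psi_triv (h : QRH) : ∃ c C : ℝ, 0 < c ∧ c < 1 / 2 ∧ 0 < C ∧
    ∀ x : ℝ, 1 ≤ x → |∑ n ∈ natIoc 0 x, Λ n - x| ≤ C * x ^ (1 - c) := by
  obtain ⟨c, C, hc, hc', hC, H⟩ := Pnt49_core
  obtain ⟨D, hD, G⟩ := zeta_bound
  have hl := Real.log_nonneg hD
  refine ⟨c, C * (1 + Real.log D), hc, hc', by positivity, fun x hx => ?_⟩
  have := H riemannZeta₁ (fun n => ((Λ n : ℝ) : ℂ)) 1 D hD differentiable_riemannZeta₁
    (fun s hs => zeta1_ne h hs) G (fun s hs => LBd19_low hs) (by simp)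
    (fun n => by rw [Complex.norm_real, Real.norm_of_nonneg vonMangoldt_nonneg])
    (fun s hs => by
      have h1 : 1 < s.re := by linarith
      have h2 : s ≠ 1 := by
        rintro rfl
        simp at h1
      have h3 := zeta1_ne h (show 7 / 8 < s.re by linarith)
      have h4 := sub_ne_zero.2 h2
      rw [LSeries_vonMangoldt_eq_deriv_riemannZeta_div h1,
        deriv_riemannZeta_eq_neg_inv_sub_sq_mul_add h2, riemannZeta_eq_inv_sub_mul h2]
      field_simp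
      ring) x hx
  rwa [one_mul, ← Complex.ofReal_sum, ← Complex.ofReal_sub, Complex.norm_real,
    Real.norm_eq_abs] at this

/-- The prime powers not coprime to `N`: at most `log x` for every prime dividing `N`. -/
theorem psi_cop (N : ℕ) (hN : 1 ≤ N) {x : ℝ} (hx : 1 ≤ x) :
    ∑ n ∈ natIoc 0 x, Λ n * ind (¬ Nat.Coprime n N) ≤ 2 * Real.log N * Real.log x := by
  have hx0 : (0 : ℝ) ≤ x := by linarith
  have hX : ⌊x⌋₊ ≠ 0 := (Nat.floor_pos.2 hx).ne'
  obtain ⟨Q, hQ⟩ : ∃ Q, Q = ∏ p ∈ N.primeFactors, p ^ Nat.log p ⌊x⌋₊ := ⟨_, rfl⟩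
  have hQ0 : Q ≠ 0 := by
    rw [hQ]
    exact prod_ne_zero_iff.2 fun p hp => pow_ne_zero _ (Nat.prime_of_mem_primeFactors hp).ne_zero
  have h1 : ∑ n ∈ natIoc 0 x, Λ n * ind (¬ Nat.Coprime n N) ≤ ∑ n ∈ Q.divisors, Λ n := by
    have e : ∑ n ∈ natIoc 0 x, Λ n * ind (¬ Nat.Coprime n N) =
        ∑ n ∈ (natIoc 0 x).filter (fun n => IsPrimePow n ∧ ¬ Nat.Coprime n N), Λ n := by
      rw [sum_filter]
      refine sum_congr rfl fun n _ => ?_
      by_cases a : IsPrimePow n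
      · by_cases b : Nat.Coprime n N
        · rw [ind_neg (not_not.2 b), if_neg (fun h => h.2 b), mul_zero]
        · rw [ind_pos b, if_pos ⟨a, b⟩, mul_one]
      · rw [vonMangoldt_eq_zero_iff.2 a, zero_mul, if_neg (fun h => a h.1)]
    rw [e]
    refine sum_le_sum_of_subset_of_nonneg (fun n hn => ?_) fun _ _ _ => vonMangoldt_nonneg
    obtain ⟨a1, a2, a3⟩ := mem_filter.1 hn
    obtain ⟨p, k, hp, -, rfl⟩ := (isPrimePow_nat_iff _).1 a2
    have a4 : p ∣ N := by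
      by_contra a5
      exact a3 (Nat.Coprime.pow_left _ ((Nat.Prime.coprime_iff_not_dvd hp).2 a5))
    have a6 : p ^ k ≤ ⌊x⌋₊ := (mem_Ioc.1 a1).2
    refine Nat.mem_divisors.2 ⟨?_, hQ0⟩
    rw [hQ]
    exact (pow_dvd_pow p (Nat.le_log_of_pow_le hp.one_lt a6)).trans
      (dvd_prod_of_mem _ (Nat.mem_primeFactors.2 ⟨hp, a4, by omega⟩))
  have h2 : Real.log Q ≤ N.primeFactors.card * Real.log x := by
    rw [hQ, Nat.cast_prod, Real.log_prod (fun p hp => by
      exact_mod_cast pow_ne_zero _ (Nat.prime_of_mem_primeFactors hp).ne_zero), ← nsmul_eq_mul]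
    refine sum_le_card_nsmul _ _ _ fun p hp => Real.log_le_log ?_ ?_
    · exact_mod_cast pow_pos (Nat.prime_of_mem_primeFactors hp).pos _
    · exact (Nat.cast_le.2 (Nat.pow_log_le_self p hX)).trans (Nat.floor_le hx0)
  have h3 : (N.primeFactors.card : ℝ) ≤ 2 * Real.log N := by
    have a1 : 2 ^ N.primeFactors.card ≤ N :=
      (pow_card_le_prod _ _ _ fun p hp => (Nat.prime_of_mem_primeFactors hp).two_le).trans
        (Nat.le_of_dvd hN (Nat.prod_primeFactors_dvd N))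
    have a2 : (N.primeFactors.card : ℝ) * Real.log 2 ≤ Real.log N := by
      rw [← Real.log_pow]
      exact Real.log_le_log (by positivity) (by exact_mod_cast a1)
    have a3 := Real.log_two_gt_d9
    have a4 : (0 : ℝ) ≤ N.primeFactors.card := Nat.cast_nonneg _
    nlinarith
  rw [vonMangoldt_sum] at h1
  exact h1.trans (h2.trans (mul_le_mul_of_nonneg_right h3 (Real.log_nonneg hx)))

theorem Pnt83_orth (m : ℕ) [NeZero m] (a : ℤ) (ha : IsCoprime a (m : ℤ)) (s : Finset ℕ) :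
    (((m.totient : ℝ) * ∑ n ∈ s, Λ n * ind ((m : ℤ) ∣ (n : ℤ) - a) -
      ∑ n ∈ s, (Λ n - Λ n * ind (¬ Nat.Coprime n m)) : ℝ) : ℂ) =
      ∑ χ ∈ (univ : Finset (DirichletCharacter ℂ m)).erase 1,
        χ (a : ZMod m)⁻¹ * ∑ n ∈ s, ((Λ n : ℝ) : ℂ) * χ (n : ZMod m) := by
  have hu : IsUnit (a : ZMod m) := (ZMod.coe_int_isUnit_iff_isCoprime a m).2 ha.symm
  have hu' : IsUnit (a : ZMod m)⁻¹ := IsUnit.of_mul_eq_one _ (ZMod.inv_mul_of_unit _ hu)
  have h1 : ∑ χ : DirichletCharacter ℂ m,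
      χ (a : ZMod m)⁻¹ * ∑ n ∈ s, ((Λ n : ℝ) : ℂ) * χ (n : ZMod m) =
      (((m.totient : ℝ) * ∑ n ∈ s, Λ n * ind ((m : ℤ) ∣ (n : ℤ) - a) : ℝ) : ℂ) := by
    simp_rw [mul_sum]
    rw [sum_comm, Complex.ofReal_sum]
    refine sum_congr rfl fun n _ => ?_
    have e : ∀ χ : DirichletCharacter ℂ m, χ (a : ZMod m)⁻¹ * (((Λ n : ℝ) : ℂ) * χ (n : ZMod m)) =
        ((Λ n : ℝ) : ℂ) * (χ (a : ZMod m)⁻¹ * χ (n : ZMod m)) := fun χ => by ring
    simp_rw [e]
    rw [← mul_sum, DirichletCharacter.sum_char_inv_mul_char_eq ℂ hu]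
    have e2 : (a : ZMod m) = (n : ZMod m) ↔ (m : ℤ) ∣ (n : ℤ) - a := by
      rw [← ZMod.intCast_eq_intCast_iff_dvd_sub, Int.cast_natCast]
    by_cases b : (m : ℤ) ∣ (n : ℤ) - a
    · rw [if_pos (e2.2 b), ind_pos b]
      push_cast
      ring
    · rw [if_neg (fun c => b (e2.1 c)), ind_neg b]
      push_cast
      ring
  have h2 : (1 : DirichletCharacter ℂ m) (a : ZMod m)⁻¹ *
      ∑ n ∈ s, ((Λ n : ℝ) : ℂ) * (1 : DirichletCharacter ℂ m) (n : ZMod m) =
      ((∑ n ∈ s, (Λ n - Λ n * ind (¬ Nat.Coprime n m)) : ℝ) : ℂ) := by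
    rw [MulChar.one_apply hu', one_mul, Complex.ofReal_sum]
    refine sum_congr rfl fun n _ => ?_
    by_cases b : Nat.Coprime n m
    · rw [MulChar.one_apply ((ZMod.isUnit_iff_coprime n m).2 b), ind_neg (not_not.2 b)]
      push_cast
      ring
    · rw [MulChar.map_nonunit _ (fun c => b ((ZMod.isUnit_iff_coprime n m).1 c)), ind_pos b]
      push_cast
      ring
  rw [Complex.ofReal_sub, ← h1, ← h2, ← add_sum_erase _ _ (mem_univ 1), add_sub_cancel_left]

theorem Pnt83_primes {x : ℝ} (P : ℕ → Prop) :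
    |∑ p ∈ primesIoc 0 x, ind (P p) * Real.log p - ∑ n ∈ natIoc 0 x, Λ n * ind (P n)| ≤
      Chebyshev.psi x - Chebyshev.theta x := by
  rw [Chebyshev.psi_sub_theta_eq_sum_not_prime, primesIoc, natIoc, Nat.floor_zero, sum_filter,
    sum_filter, ← sum_sub_distrib]
  refine (abs_sum_le_sum_abs _ _).trans (sum_le_sum fun n _ => ?_)
  by_cases b : n.Prime
  · rw [if_pos b, if_neg (not_not.2 b), vonMangoldt_apply_prime b, mul_comm, sub_self, abs_zero]
  · rw [if_neg b, if_pos b, zero_sub, abs_neg,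
      abs_of_nonneg (mul_nonneg vonMangoldt_nonneg (ind_nonneg _))]
    exact mul_le_of_le_one_right vonMangoldt_nonneg (ind_le_one _)

/-- Orthogonality (`DirichletCharacter.sum_char_inv_mul_char_eq`,
`card_eq_totient_of_hasEnoughRootsOfUnity`), `psi_nontriv`, `psi_triv`, `psi_cop`,
`Chebyshev.abs_psi_sub_theta_le_sqrt_mul_log` for the proper prime powers; all logarithms are at
most `C x^(c/4)`. -/
theorem hp_of_qrh (h : QRH) : HP := by
  obtain ⟨c1, C1, hc1, hc1', hC1, H1⟩ := psi_nontriv h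
  obtain ⟨c2, C2, hc2, -, hC2, H2⟩ := psi_triv h
  obtain ⟨C3, H3⟩ := Chebyshev.psi_sub_theta_le_mul_sqrt
  obtain ⟨c, hc, hcc1, hcc2⟩ : ∃ c : ℝ, 0 < c ∧ 2 * c ≤ c1 ∧ c ≤ c2 :=
    ⟨min (c1 / 2) c2, lt_min (by positivity) hc2, by linarith [min_le_left (c1 / 2) c2],
      min_le_right _ _⟩
  refine ⟨c, |C3| + C2 + 32 + C1 * (1 + 1 / c), hc, by linarith, by positivity, ?_⟩
  intro x m a hm hmx ha
  have : NeZero m := ⟨by omega⟩
  have hm1 : (1 : ℝ) ≤ m := by exact_mod_cast hm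
  have hx : 1 ≤ x := hm1.trans hmx
  have hx0 : 0 < x := by linarith
  have hφ : (1 : ℝ) ≤ m.totient := by exact_mod_cast Nat.totient_pos.2 hm
  have hlm : Real.log m ≤ Real.log x := Real.log_le_log (by linarith) hmx
  have hlm0 : 0 ≤ Real.log m := Real.log_nonneg hm1
  have hl0 : 0 ≤ Real.log x := Real.log_nonneg hx
  have hpow : ∀ u : ℝ, u ≤ 1 - c → x ^ u ≤ x ^ (1 - c) := fun u hu =>
    Real.rpow_le_rpow_of_exponent_le hx hu
  obtain ⟨A, hA⟩ : ∃ A, A = ∑ n ∈ natIoc 0 x, Λ n * ind ((m : ℤ) ∣ (n : ℤ) - a) := ⟨_, rfl⟩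
  obtain ⟨E, hE⟩ : ∃ E, E = C1 * (1 + Real.log m) * x ^ (1 - c1) := ⟨_, rfl⟩
  have hE0 : 0 ≤ E := by rw [hE]; positivity
  have b1 : |(m.totient : ℝ) * A - ∑ n ∈ natIoc 0 x, (Λ n - Λ n * ind (¬ Nat.Coprime n m))| ≤
      m.totient * E := by
    rw [← Real.norm_eq_abs, ← Complex.norm_real, hA, Pnt83_orth m a ha]
    refine (norm_sum_le _ _).trans ((sum_le_card_nsmul _ _ E fun χ hχ => ?_).trans ?_)
    · rw [norm_mul, hE]
      exact (mul_le_of_le_one_left (norm_nonneg _) (χ.norm_le_one _)).trans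
        (H1 m χ (ne_of_mem_erase hχ) x hx)
    · rw [nsmul_eq_mul]
      refine mul_le_mul_of_nonneg_right ?_ hE0
      rw [← DirichletCharacter.card_eq_totient_of_hasEnoughRootsOfUnity ℂ m,
        Nat.card_eq_fintype_card]
      exact_mod_cast card_le_univ _
  rw [sum_sub_distrib] at b1
  have b2 := H2 x hx
  have b3 := psi_cop m hm hx
  have b4 : 0 ≤ ∑ n ∈ natIoc 0 x, Λ n * ind (¬ Nat.Coprime n m) :=
    sum_nonneg fun _ _ => mul_nonneg vonMangoldt_nonneg (ind_nonneg _)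
  have b5 := Pnt83_primes (x := x) (fun n => (m : ℤ) ∣ (n : ℤ) - a)
  rw [← hA] at b5
  have hP0 : 0 ≤ x ^ (1 - c) := by positivity
  have d1 : E ≤ C1 * (1 + 1 / c) * x ^ (1 - c) := by
    have e1 : Real.log x ≤ x ^ c / c := Real.log_le_rpow_div hx0.le hc
    have e2 : 1 ≤ x ^ c := Real.one_le_rpow hx hc.le
    have e3 : 1 + Real.log m ≤ (1 + 1 / c) * x ^ c := by
      rw [add_mul, one_mul, one_div, mul_comm c⁻¹, ← div_eq_mul_inv]
      linarith
    have e4 : x ^ c * x ^ (1 - c1) ≤ x ^ (1 - c) := by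
      rw [← Real.rpow_add hx0]
      exact hpow _ (by linarith)
    calc E = C1 * ((1 + Real.log m) * x ^ (1 - c1)) := by rw [hE, mul_assoc]
      _ ≤ C1 * ((1 + 1 / c) * x ^ c * x ^ (1 - c1)) := by gcongr
      _ = C1 * (1 + 1 / c) * (x ^ c * x ^ (1 - c1)) := by ring
      _ ≤ _ := by gcongr
  have hs : x ^ (1 / 2 : ℝ) ≤ x ^ (1 - c) := hpow _ (by linarith)
  have d2 : 2 * Real.log m * Real.log x ≤ 32 * x ^ (1 - c) := by
    have e1 : Real.log x ≤ x ^ (1 / 4 : ℝ) / (1 / 4) := Real.log_le_rpow_div hx0.le (by norm_num)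
    have e2 : x ^ (1 / 4 : ℝ) * x ^ (1 / 4 : ℝ) = x ^ (1 / 2 : ℝ) := by
      rw [← Real.rpow_add hx0]
      norm_num
    have e3 : Real.log m * Real.log x ≤ (4 * x ^ (1 / 4 : ℝ)) * (4 * x ^ (1 / 4 : ℝ)) :=
      mul_le_mul (by linarith) (by linarith) hl0 (by positivity)
    linarith
  have d3 : Chebyshev.psi x - Chebyshev.theta x ≤ |C3| * x ^ (1 - c) := by
    refine (H3 x).trans ?_
    rw [Real.sqrt_eq_rpow]
    exact mul_le_mul (le_abs_self _) hs (by positivity) (abs_nonneg _)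
  have d4 := mul_le_mul_of_nonneg_left (hpow (1 - c2) (by linarith)) hC2.le
  have d5 : |A - x / m.totient| ≤ (C2 + 32) * x ^ (1 - c) + E := by
    have e1 : A - x / m.totient = ((m.totient : ℝ) * A - x) / m.totient := by field_simp
    rw [e1, abs_div, abs_of_pos (show (0 : ℝ) < m.totient by linarith),
      div_le_iff₀ (by linarith)]
    have e2 : (C2 + 32) * x ^ (1 - c) ≤ (C2 + 32) * x ^ (1 - c) * m.totient :=
      le_mul_of_one_le_right (by positivity) hφ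
    obtain ⟨f1, f2⟩ := abs_le.1 b1
    obtain ⟨f3, f4⟩ := abs_le.1 b2
    rw [abs_le]
    constructor <;> linarith
  obtain ⟨f1, f2⟩ := abs_le.1 d5
  obtain ⟨f3, f4⟩ := abs_le.1 b5
  rw [abs_le]
  constructor <;> linarith

/-- `L(λ, s) ζ(s) = ζ(2 s)`: Euler products of completely multiplicative functions
(`EulerProduct.eulerProduct_completely_multiplicative_hasProd`, `riemannZeta_eulerProduct_hasProd`),
`(1 + x)⁻¹ (1 - x)⁻¹ = (1 - x²)⁻¹`; or `λ * 1 = 1_{squares}`. -/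
theorem LSeries_lam {s : ℂ} (hs : s.re = 2) :
    LSeries (fun n => (lam n : ℂ)) s * riemannZeta s = riemannZeta (2 * s) := by
  have hs1 : 1 < s.re := by rw [hs]; norm_num
  have hs2 : 1 < (2 * s).re := by simp [hs]; norm_num
  have hs0 : s ≠ 0 := ne_zero_of_one_lt_re hs1
  let g : ℕ →*₀ ℂ :=
    { toFun := fun n => (lam n : ℂ)
      map_zero' := by simp [lam]
      map_one' := by simp [lam, liouville_apply_one]
      map_mul' := fun m n => by simp [lam, liouville_apply_mul] }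
  let f : ℕ →*₀ ℂ := g * riemannZetaSummandHom hs0
  have hf : ∀ n, f n = (lam n : ℂ) * (n : ℂ) ^ (-s) := fun n => rfl
  have hg : ∀ n, ‖(lam n : ℂ)‖ ≤ 1 := by
    intro n
    by_cases h : n = 0
    · simp [h, lam]
    · simp [lam, liouville_apply h]
  have hsum : Summable (fun n => ‖f n‖) := by
    refine (summable_riemannZetaSummand hs1).of_nonneg_of_le (fun _ => norm_nonneg _) fun n => ?_
    rw [hf, norm_mul]
    exact mul_le_of_le_one_left (norm_nonneg _) (hg n)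
  have h1 := EulerProduct.eulerProduct_completely_multiplicative_hasProd hsum
  have e : ∑' n, f n = LSeries (fun n => (lam n : ℂ)) s := by
    simp only [hf, LSeries, LSeries.term_of_ne_zero' hs0, cpow_neg, div_eq_mul_inv]
  rw [e] at h1
  have h2 := h1.mul (riemannZeta_eulerProduct_hasProd hs1)
  refine h2.unique ?_
  convert riemannZeta_eulerProduct_hasProd hs2 using 2 with p
  have hp : lam p = -1 := by
    simp [lam, liouville_apply p.prop.ne_zero, cardFactors_apply_prime p.prop]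
  have hp0 : (p : ℂ) ≠ 0 := by exact_mod_cast p.prop.ne_zero
  rw [hf, hp, ← mul_inv, show -(2 * s) = -s + -s by ring, cpow_add _ _ hp0]
  congr 1
  push_cast
  ring

/-- `pperron` with `b = λ`, `F s = ζ(2s) (s - 1) / ζ₁(s)`, `ρ = 0`; `‖ζ(2s)‖ ≤ ζ(9/5)`. -/
theorem hl_of_qrh (h : QRH) : HL := by
  obtain ⟨A, B, hB, hA⟩ := inv_zeta h
  obtain ⟨C0, hC0, hZ⟩ := zeta_bound
  obtain ⟨c, C, hc, hc', hC, H⟩ := pperron (A + 3)
  refine ⟨c, C * (5 * C0 * B), hc, by linarith, by positivity, fun x hx => ?_⟩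
  by_cases hx1 : 1 ≤ x
  swap
  · have : natIoc 0 x = ∅ := by
      unfold natIoc
      rw [Nat.floor_zero, Nat.floor_eq_zero.2 (not_le.1 hx1), Ioc_self]
    rw [this, sum_empty, abs_zero]
    positivity
  have key := H (fun n => (lam n : ℂ)) (fun s => riemannZeta (2 * s) * (s - 1) * (riemannZeta₁ s)⁻¹)
    0 (5 * C0 * B) (by nlinarith) (by simp) ?_ ?_ ?_ ?_ ?_ x hx1
  · rw [zero_mul, sub_zero, ← Complex.ofReal_sum, Complex.norm_real, Real.norm_eq_abs] at key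
    exact key
  · intro n
    rw [Complex.norm_real, Real.norm_eq_abs]
    linarith [abs_lam_le n, Real.log_natCast_nonneg n]
  · simp [lam]
  · intro s hs
    obtain ⟨h1, h2⟩ := R017.mem_strip.1 hs
    have h3 : 2 * s ≠ 1 := by
      intro e
      have := congrArg Complex.re e
      simp at this
      linarith
    have h4 : riemannZeta₁ s ≠ 0 := zeta1_ne h (by linarith)
    have d1 : DifferentiableAt ℂ (fun s : ℂ => riemannZeta (2 * s)) s :=
      (differentiableAt_riemannZeta h3).comp s (by fun_prop)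
    have d2 : DifferentiableAt ℂ (fun s : ℂ => (riemannZeta₁ s)⁻¹) s :=
      (differentiable_riemannZeta₁ s).inv h4
    exact ((d1.mul (by fun_prop)).mul d2).differentiableWithinAt
  · intro s hs
    obtain ⟨h1, h2⟩ := R017.mem_strip.1 hs
    have h3 : 2 * s ≠ 1 := by
      intro e
      have := congrArg Complex.re e
      simp at this
      linarith
    have t0 : 0 ≤ |s.im| := abs_nonneg _
    have b1 : ‖riemannZeta₁ (2 * s)‖ ≤ C0 * (1 + |(2 * s).im|) ^ 2 :=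
      hZ _ (by simp; linarith) (by simp; linarith)
    have b2 : |(2 * s).im| = 2 * |s.im| := by simp [abs_mul]
    have b3 : ‖(2 * s - 1)⁻¹‖ ≤ 5 / 4 := by
      have a1 : (4 / 5 : ℝ) ≤ ‖2 * s - 1‖ := by
        refine le_trans ?_ (Complex.re_le_norm _)
        simp
        linarith
      rw [norm_inv]
      calc ‖2 * s - 1‖⁻¹ ≤ (4 / 5 : ℝ)⁻¹ := inv_anti₀ (by norm_num) a1
        _ = 5 / 4 := by norm_num
    have b4 : ‖riemannZeta (2 * s)‖ ≤ 5 * C0 * (1 + |s.im|) ^ 2 := by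
      rw [riemannZeta_eq_inv_sub_mul h3, norm_mul]
      rw [b2] at b1
      have a2 : C0 * (1 + 2 * |s.im|) ^ 2 ≤ C0 * (4 * (1 + |s.im|) ^ 2) := by
        gcongr
        nlinarith
      calc ‖(2 * s - 1)⁻¹‖ * ‖riemannZeta₁ (2 * s)‖ ≤ 5 / 4 * (C0 * (4 * (1 + |s.im|) ^ 2)) := by
            gcongr
            exact b1.trans a2
        _ = 5 * C0 * (1 + |s.im|) ^ 2 := by ring
    have b5 : ‖s - 1‖ ≤ 1 + |s.im| := by
      refine (Complex.norm_le_abs_re_add_abs_im _).trans ?_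
      simp only [sub_re, one_re, sub_im, one_im, sub_zero]
      have : |s.re - 1| ≤ 1 := abs_le.2 ⟨by linarith, by linarith⟩
      linarith
    have b6 := hA s hs
    rw [norm_mul, norm_mul]
    calc ‖riemannZeta (2 * s)‖ * ‖s - 1‖ * ‖(riemannZeta₁ s)⁻¹‖
        ≤ (5 * C0 * (1 + |s.im|) ^ 2) * (1 + |s.im|) * (B * (1 + |s.im|) ^ A) := by gcongr
      _ = 5 * C0 * B * (1 + |s.im|) ^ (A + 3) := by ring
  · intro s hs
    have h1 : s ≠ 1 := by
      intro e
      rw [e] at hs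
      norm_num at hs
    have h4 : riemannZeta₁ s ≠ 0 := zeta1_ne h (by rw [hs]; norm_num)
    have h5 := LSeries_lam hs
    rw [riemannZeta_eq_inv_sub_mul h1] at h5
    have h6 : s - 1 ≠ 0 := sub_ne_zero.2 h1
    rw [zero_div, add_zero, ← h5]
    field_simp

end Crest.Agent.R001
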