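import Crest.Agent.R001.Tree2
import Crest.Agent.R001.Prim

set_option autoImplicit false

namespace Crest.Agent.R001

open Finset Filter Crest.Agent.R008 Crest.Agent.R026

/-! # Reaching the base configuration -/

theorem Base.mono {w β lo hi lo' hi' : ℝ} {φ : ℕ → ℝ} (h : Base w φ β lo hi) (h1 : lo ≤ lo')
    (h2 : hi' ≤ hi) : Base w φ β lo' hi' := by
  intro M t hM a b c d
  exact h M t hM (h1.trans a) (b.trans h2) c d

theorem Reach60_win {κ : ℝ} (hκ : 0 < κ) : ∃ a₀ : ℝ, 1 ≤ a₀ ∧ ∀ a b : ℝ, a₀ ≤ a → a ≤ b →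
    a ≤ (1 - κ) * b → κ / 2 ≤ mu (primesIoc (Real.exp a) (Real.exp b)) := by
  obtain ⟨C, hC, h⟩ := win
  refine ⟨max 1 (2 * C / κ), le_max_left _ _, fun a b ha hab hk => ?_⟩
  have ha1 : 1 ≤ a := (le_max_left _ _).trans ha
  have ha2 : 2 * C / κ ≤ a := (le_max_right _ _).trans ha
  have ha0 : 0 < a := by linarith
  have hb0 : 0 < b := by linarith
  have h1 := (abs_le.1 (h a b ha1 hab)).1
  have h2 : C / a ≤ κ / 2 := by
    rw [div_le_iff₀ hκ] at ha2
    rw [div_le_iff₀ ha0]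
    linarith
  have h3 : κ ≤ Real.log (b / a) := by
    have h4 := Real.one_sub_inv_le_log_of_pos (div_pos hb0 ha0)
    rw [inv_div] at h4
    have h5 : a / b ≤ 1 - κ := by
      rw [div_le_iff₀ hb0]
      exact hk
    linarith
  linarith

theorem Reach60_log {a b : ℝ} {q : ℕ} (h : q ∈ primesIoc (Real.exp a) (Real.exp b)) :
    0 < (q : ℝ) ∧ a < Real.log q ∧ Real.log q ≤ b := by
  obtain ⟨-, h1, h2⟩ := (mem_primesIoc (Real.exp_pos a).le (Real.exp_pos b).le).1 h
  have h0 : 0 < (q : ℝ) := (Real.exp_pos a).trans h1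
  exact ⟨h0, (Real.lt_log_iff_exp_lt h0).2 h1, (Real.log_le_iff_le_exp h0).2 h2⟩

/-- Two steps: a prime of `(e^((1-κ) b), e^b]` (`stepC`, `q³ ≤ e^(3b) ≤ M`), then a prime of
`(e^((1-2κ) b), e^((1-κ) b)]` (`stepF`); both windows have mass at least `κ / 2` (`win`). -/
theorem reach_two {κ : ℝ} (hκ : 0 < κ) (hκ' : κ ≤ 1 / 4) : ∃ b₀ : ℝ, 1 ≤ b₀ ∧
    ∀ (w : ℝ) (φ : ℕ → ℝ) (β b M : ℝ), 0 ≤ w → (∀ p, 0 ≤ φ p) → 0 ≤ β → b₀ ≤ b →
      w ≤ Real.exp ((1 - 2 * κ) * b) → 0 < M → 3 * b ≤ Real.log M →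
      (∀ M' : ℝ, 0 < M' → Real.log M - 2 * b ≤ Real.log M' →
        Real.log M' ≤ Real.log M - 2 * (1 - 2 * κ) * b →
        β ≤ Bm 0 w M' (Real.exp ((1 - 2 * κ) * b)) φ) →
      κ ^ 2 / 4 * β ≤ Bm 0 w M (Real.exp b) φ := by
  obtain ⟨a₀, ha₀, hw⟩ := Reach60_win hκ
  refine ⟨2 * a₀, by linarith, fun w φ β b M h0 hφ hβ hb hwb hM h3 H => ?_⟩
  have hb0 : 0 < b := by linarith
  have hκb : 0 < κ * b := mul_pos hκ hb0
  have hκb' : κ * b ≤ 1 / 4 * b := mul_le_mul_of_nonneg_right hκ' hb0.le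
  have e21 : (1 - 2 * κ) * b ≤ (1 - κ) * b := by nlinarith
  have e10 : (1 - κ) * b ≤ b := by nlinarith
  have m1 : κ / 2 ≤ mu (primesIoc (Real.exp ((1 - κ) * b)) (Real.exp b)) :=
    hw _ _ (by nlinarith) e10 le_rfl
  have m2 : κ / 2 ≤ mu (primesIoc (Real.exp ((1 - 2 * κ) * b)) (Real.exp ((1 - κ) * b))) :=
    hw _ _ (by nlinarith) e21 (by nlinarith [mul_nonneg (sq_nonneg κ) hb0.le])
  have y21 := Real.exp_le_exp.2 e21
  have y10 := Real.exp_le_exp.2 e10
  refine le_trans ?_ (stepC M h0 (hwb.trans y21) y10 hφ)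
  have key : ∀ q ∈ primesIoc (Real.exp ((1 - κ) * b)) (Real.exp b),
      κ / 2 * β * (1 / (q : ℝ)) ≤
        ind ((q : ℝ) ^ 3 ≤ M) * (Bm 1 w (M / q) (Real.exp ((1 - κ) * b)) φ / q) := by
    intro q hq
    obtain ⟨hq0, hq1, hq2⟩ := Reach60_log hq
    have hq3 : (q : ℝ) ^ 3 ≤ M := by
      rw [← Real.log_le_log_iff (pow_pos hq0 3) hM, Real.log_pow]
      push_cast
      linarith
    rw [ind_pos hq3, one_mul, mul_one_div]
    refine div_le_div_of_nonneg_right ?_ hq0.le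
    refine le_trans ?_ (stepF (M / q) h0 hwb y21 hφ)
    have key2 : ∀ r ∈ primesIoc (Real.exp ((1 - 2 * κ) * b)) (Real.exp ((1 - κ) * b)),
        β * (1 / (r : ℝ)) ≤ Bm 0 w (M / q / r) (Real.exp ((1 - 2 * κ) * b)) φ / r := by
      intro r hr
      obtain ⟨hr0, hr1, hr2⟩ := Reach60_log hr
      rw [mul_one_div]
      refine div_le_div_of_nonneg_right ?_ hr0.le
      have hl : Real.log (M / q / r) = Real.log M - Real.log q - Real.log r := by
        rw [Real.log_div (div_pos hM hq0).ne' hr0.ne', Real.log_div hM.ne' hq0.ne']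
      refine H _ (div_pos (div_pos hM hq0) hr0) ?_ ?_
      · rw [hl]; linarith
      · rw [hl]; linarith
    refine le_trans ?_ (sum_le_sum key2)
    rw [← mul_sum, mul_comm]
    exact mul_le_mul_of_nonneg_left m2 hβ
  refine le_trans ?_ (sum_le_sum key)
  rw [← mul_sum]
  have : κ ^ 2 / 4 * β = κ / 2 * β * (κ / 2) := by ring
  rw [this]
  exact mul_le_mul_of_nonneg_left m1 (by positivity)

/-- Induction on `n`.  `n = 0`: `t = min b (5/6 log M) ≥ 5/6 b`, `Bm_mono`.  Step: if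
`log M ≤ (2.7 + 1.5 n) b` use the hypothesis; otherwise replace `b` by `b' = min b (log M / 3) ≥ 0.9 b`
(`Bm_mono`), so that `s = log M / b'` lies in `[3, 2.7 + 1.5 (n+1)]`, and apply `reach_two` with
`κ = 1 / (2 (1 + 2 s₀))`, `s₀ = 2.7 + 1.5 (n + 1)`: the new ratio is at least one and at most
`s₀ - 1.5`. -/
theorem reachC (n : ℕ) : ∃ c θ b₀ : ℝ, 0 < c ∧ 0 < θ ∧ θ ≤ 1 ∧ 1 ≤ b₀ ∧
    ∀ (w : ℝ) (φ : ℕ → ℝ) (β b M : ℝ), 0 ≤ w → (∀ p, 0 ≤ φ p) → 0 ≤ β → b₀ ≤ b →
      w ≤ Real.exp (θ * b) → Base w φ β (θ * b) b → 0 < M → b ≤ Real.log M →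
      Real.log M ≤ (27 / 10 + 3 / 2 * n) * b → c * β ≤ Bm 0 w M (Real.exp b) φ := by
  induction n with
  | zero =>
    refine ⟨1, 5 / 6, 1, one_pos, by norm_num, by norm_num, le_rfl,
      fun w φ β b M _ hφ _ hb _ hB hM h1 h2 => ?_⟩
    have h3 : min b (5 / 6 * Real.log M) ≤ b := min_le_left _ _
    have h4 : min b (5 / 6 * Real.log M) ≤ 5 / 6 * Real.log M := min_le_right _ _
    have h5 := hB M (min b (5 / 6 * Real.log M)) hM (le_min (by linarith) (by linarith)) h3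
      (by linarith) (by
        rcases min_choice b (5 / 6 * Real.log M) with e | e <;> rw [e]
        · simpa using h2
        · linarith)
    rw [one_mul]
    exact h5.trans (Bm_mono 0 w M (Real.exp_le_exp.2 h3) hφ)
  | succ n ih =>
    obtain ⟨c, θ, b₀, hc, hθ, hθ1, hb₀, ih⟩ := ih
    obtain ⟨s₀, hs₀⟩ : ∃ s₀ : ℝ, s₀ = 27 / 10 + 3 / 2 * ((n : ℝ) + 1) := ⟨_, rfl⟩
    have hn : (0 : ℝ) ≤ n := Nat.cast_nonneg n
    have hs4 : 4 ≤ s₀ := by linarith
    obtain ⟨κ, hκ⟩ : ∃ κ : ℝ, κ = 1 / (2 * (1 + 2 * s₀)) := ⟨_, rfl⟩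
    have hκ0 : 0 < κ := by rw [hκ]; positivity
    have hκ1 : κ ≤ 1 / 18 := by
      rw [hκ]; exact one_div_le_one_div_of_le (by norm_num) (by linarith)
    have hκe : (1 - 2 * κ) * (s₀ + 1 / 2) = s₀ := by
      rw [hκ]; field_simp; ring
    obtain ⟨b₁, hb₁, h2⟩ := reach_two hκ0 (by linarith)
    have hk2 : κ ^ 2 / 4 ≤ 1 := by nlinarith
    refine ⟨κ ^ 2 / 4 * c, θ / 2, 2 * (b₀ + b₁), by positivity, by positivity, by linarith,
      by linarith, fun w φ β b M hw hφ hβ hb hwb hB hM h3 h4 => ?_⟩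
    have hb0 : 0 ≤ b := by linarith
    have hθb : 0 ≤ θ * b := by positivity
    have hcβ : 0 ≤ c * β := by positivity
    by_cases hcase : Real.log M ≤ (27 / 10 + 3 / 2 * n) * b
    · have h5 := ih w φ β b M hw hφ hβ (by linarith)
        (hwb.trans (Real.exp_le_exp.2 (by linarith))) (hB.mono (by linarith) le_rfl) hM h3 hcase
      refine le_trans ?_ h5
      rw [mul_assoc]
      exact mul_le_of_le_one_left hcβ hk2
    · push Not at hcase
      have hnb : 0 ≤ (n : ℝ) * b := by positivity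
      obtain ⟨b', hb'⟩ : ∃ b' : ℝ, b' = min b (Real.log M / 3) := ⟨_, rfl⟩
      have e1 : b' ≤ b := hb' ▸ min_le_left _ _
      have e2 : b' ≤ Real.log M / 3 := hb' ▸ min_le_right _ _
      have e3 : 9 / 10 * b ≤ b' := hb' ▸ le_min (by linarith) (by linarith)
      have e0 : 0 ≤ b' := by linarith
      have e4 : Real.log M ≤ s₀ * b' := by
        rcases min_choice b (Real.log M / 3) with e | e
        · rw [hb', e, hs₀]; exact_mod_cast h4
        · rw [hb', e]; nlinarith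
      have e5 : κ * b' ≤ 1 / 18 * b' := mul_le_mul_of_nonneg_right hκ1 e0
      have e6 : 0 ≤ κ * b' := by positivity
      have e7 : b / 2 ≤ (1 - 2 * κ) * b' := by linarith
      have e8 : θ * (b / 2) ≤ θ * ((1 - 2 * κ) * b') := mul_le_mul_of_nonneg_left e7 hθ.le
      have e9 : θ * b ≤ 1 * b := mul_le_mul_of_nonneg_right hθ1 hb0
      have h5 := h2 w φ (c * β) b' M hw hφ hcβ (by linarith)
        (hwb.trans (Real.exp_le_exp.2 (by linarith))) hM (by linarith) (fun M' hM' a1 a2 =>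
          ih w φ β ((1 - 2 * κ) * b') M' hw hφ hβ (by linarith)
            (hwb.trans (Real.exp_le_exp.2 (by linarith)))
            (hB.mono (by linarith) (by linarith)) hM' (by linarith) (by
              have e10 : (27 / 10 + 3 / 2 * (n : ℝ)) = s₀ - 3 / 2 := by linarith
              have e11 : (1 - 2 * κ) * (s₀ + 1 / 2) * b' = s₀ * b' := by rw [hκe]
              rw [e10]
              linarith))
      rw [mul_assoc]
      exact h5.trans (Bm_mono 0 w M (Real.exp_le_exp.2 e1) hφ)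

/-- For the free nodes take first a prime of `(e^(b/2), e^b]` (`stepF`) and then use `reachC` at
the scale `b / 2` with the ratio `2 R`. -/
theorem reach (R : ℝ) : ∃ c θ b₀ : ℝ, 0 < c ∧ 0 < θ ∧ θ ≤ 1 ∧ 1 ≤ b₀ ∧
    ∀ (w : ℝ) (φ : ℕ → ℝ) (β b M : ℝ), 0 ≤ w → (∀ p, 0 ≤ φ p) → 0 ≤ β → b₀ ≤ b →
      w ≤ Real.exp (θ * b) → Base w φ β (θ * b) b → 0 < M → Real.log M ≤ R * b →
      (b ≤ Real.log M → c * β ≤ Bm 0 w M (Real.exp b) φ) ∧
      (2 * b ≤ Real.log M → c * β ≤ Bm 1 w M (Real.exp b) φ) := by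
  obtain ⟨n, hn⟩ := exists_nat_ge (2 * |R|)
  obtain ⟨c, θ, b₀, hc, hθ, hθ1, hb₀, h⟩ := reachC n
  obtain ⟨C, hC, hW⟩ := win
  have hR : R ≤ |R| := le_abs_self R
  have hR0 : 0 ≤ |R| := abs_nonneg R
  refine ⟨c / 2, θ / 2, 2 * b₀ + 20 * C, by positivity, by positivity, by linarith, by linarith,
    fun w φ β b M hw hφ hβ hb hwb hB hM hR1 => ⟨fun h1 => ?_, fun h1 => ?_⟩⟩
  · have hb0 : 0 ≤ b := by linarith
    have hθb : 0 ≤ θ * b := by positivity
    have h2 := h w φ β b M hw hφ hβ (by linarith) (hwb.trans (Real.exp_le_exp.2 (by linarith)))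
      (hB.mono (by linarith) le_rfl) hM h1
      (hR1.trans (mul_le_mul_of_nonneg_right (by linarith) hb0))
    have : 0 ≤ c * β := by positivity
    linarith
  · have hb0 : 0 < b := by linarith
    have e9 : θ * b ≤ 1 * b := mul_le_mul_of_nonneg_right hθ1 hb0.le
    have h2 := stepF (w := w) (y := Real.exp (b / 2)) (T := Real.exp b) M hw
      (hwb.trans (Real.exp_le_exp.2 (by linarith))) (Real.exp_le_exp.2 (by linarith)) hφ
    refine le_trans ?_ h2
    have h3 := (abs_le.1 (hW (b / 2) b (by linarith) (by linarith))).1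
    have e1 : b / (b / 2) = 2 := by field_simp
    have e2 : C / (b / 2) ≤ 1 / 10 := by
      rw [div_le_iff₀ (by linarith)]; linarith
    rw [e1] at h3
    have e3 := Real.log_two_gt_d9
    have h4 : 1 / 2 ≤ mu (primesIoc (Real.exp (b / 2)) (Real.exp b)) := by linarith
    have hcβ : 0 ≤ c * β := by positivity
    calc c / 2 * β = c * β * (1 / 2) := by ring
      _ ≤ c * β * mu (primesIoc (Real.exp (b / 2)) (Real.exp b)) :=
          mul_le_mul_of_nonneg_left h4 hcβ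
      _ = ∑ q ∈ primesIoc (Real.exp (b / 2)) (Real.exp b), c * β / q := by
          unfold mu
          rw [mul_sum]
          exact sum_congr rfl fun q _ => by ring
      _ ≤ _ := by
          refine sum_le_sum fun q hq => div_le_div_of_nonneg_right ?_ (Nat.cast_nonneg q)
          obtain ⟨-, q1, q2⟩ := (mem_primesIoc (Real.exp_pos _).le (Real.exp_pos _).le).1 hq
          have q0 : (0 : ℝ) < q := (Real.exp_pos _).trans q1
          have l1 : b / 2 < Real.log q := (Real.lt_log_iff_exp_lt q0).2 q1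
          have l2 : Real.log q ≤ b := (Real.log_le_iff_le_exp q0).2 q2
          have l3 : Real.log (M / q) = Real.log M - Real.log q := Real.log_div hM.ne' q0.ne'
          have l4 : 2 * R * (b / 2) ≤ (27 / 10 + 3 / 2 * n) * (b / 2) :=
            mul_le_mul_of_nonneg_right (by linarith) (by linarith)
          exact h w φ β (b / 2) (M / q) hw hφ hβ (by linarith)
            (hwb.trans (Real.exp_le_exp.2 (by linarith)))
            (hB.mono (by linarith) (by linarith)) (by positivity) (by linarith) (by linarith)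

end Crest.Agent.R001
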