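import Crest.Agent.R001.Defs

set_option autoImplicit false

namespace Crest.Agent.R001

open Finset Filter Crest.Agent.R008 Crest.Agent.R026

/-! # Numerical lemmas for the reduction -/

theorem RedAux20_log_le {y : ℝ} (hy : 0 < y) : Real.log y ≤ 2 * √y := by
  have h1 := Real.log_le_sub_one_of_pos (Real.sqrt_pos.2 hy)
  rw [Real.log_sqrt hy.le] at h1
  linarith

theorem RedAux20_log3 : 1 < Real.log 3 ∧ Real.log 3 ≤ 2 := by
  constructor
  · rw [Real.lt_log_iff_exp_lt (by norm_num)]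
    linarith [Real.exp_one_lt_d9]
  · linarith [Real.log_le_sub_one_of_pos (show (0 : ℝ) < 3 by norm_num)]

theorem RedAux20_ll_pos {k : ℝ} (hk : 1 ≤ k) : 1 < Real.log (3 * k) ∧
    0 < Real.log (Real.log (3 * k)) := by
  have h1 : 1 < Real.log (3 * k) :=
    RedAux20_log3.1.trans_le (Real.log_le_log (by norm_num) (by linarith))
  exact ⟨h1, Real.log_pos h1⟩

theorem RedAux20_one_le_ratio {k : ℕ} (hk : 1 ≤ k) :
    1 ≤ (k : ℝ) ^ 2 / Real.log (Real.log (3 * (k : ℝ))) ^ 2 := by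
  have hk1 : (1 : ℝ) ≤ k := by exact_mod_cast hk
  obtain ⟨h1, h2⟩ := RedAux20_ll_pos hk1
  rw [le_div_iff₀ (by positivity), one_mul]
  refine pow_le_pow_left₀ h2.le ?_ 2
  have h3 := Real.log_le_sub_one_of_pos (show 0 < Real.log (3 * (k : ℝ)) by linarith)
  have h4 := Real.log_le_sub_one_of_pos (show (0 : ℝ) < k by linarith)
  have h5 : Real.log (3 * (k : ℝ)) = Real.log 3 + Real.log k :=
    Real.log_mul (by norm_num) (by linarith)
  linarith [RedAux20_log3.2]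

theorem RedAux20_ll_sq {k : ℝ} (hk : 192 ≤ k) : Real.log (Real.log (3 * k)) ^ 2 ≤ k := by
  obtain ⟨h1, h2⟩ := RedAux20_ll_pos (show 1 ≤ k by linarith)
  have h3 := RedAux20_log_le (show 0 < Real.log (3 * k) by linarith)
  have h4 := RedAux20_log_le (show 0 < 3 * k by linarith)
  have h5 : Real.log (Real.log (3 * k)) ^ 2 ≤ (2 * √(Real.log (3 * k))) ^ 2 :=
    pow_le_pow_left₀ h2.le h3 2
  rw [mul_pow, Real.sq_sqrt (by linarith)] at h5
  have h6 : √(3 * k) ≤ k / 8 := by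
    rw [Real.sqrt_le_left (by linarith)]
    nlinarith
  linarith

theorem RedAux20_red_num {c₀ : ℝ} (hc : 0 < c₀) (w : ℝ) (X₀ : ℕ) : ∀ᶠ k : ℕ in atTop, ∃ X : ℕ,
    X₀ ≤ X ∧ (X : ℝ) ≤ (k : ℝ) ^ 2 / Real.log (Real.log (3 * (k : ℝ))) ^ 2 ∧ w ≤ zX X ∧ 0 < zX X ∧
    k * ((X : ℝ) / zX X + 1) < c₀ * X / Real.log X ^ 2 := by
  obtain ⟨c, hc0, hc1, hc2⟩ : ∃ c : ℝ, 0 < c ∧ c ≤ c₀ / 4 ∧ c ≤ 1 :=
    ⟨min (c₀ / 4) 1, lt_min (by linarith) one_pos, min_le_left _ _, min_le_right _ _⟩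
  have hT := tendsto_natCast_atTop_atTop (R := ℝ)
  have hTl : Tendsto (fun X : ℕ => Real.log X) atTop atTop := Real.tendsto_log_atTop.comp hT
  have h6 := hT.eventually ((Real.isLittleO_pow_log_id_atTop (n := 6)).bound
    (show 0 < c₀ ^ 2 / 16 by positivity))
  have hev : ∀ᶠ X : ℕ in atTop, X₀ ≤ X ∧ 2 ≤ Real.log X ∧ 8 / c ^ 2 ≤ Real.log X ∧
      w ^ 2 ≤ (X : ℝ) ∧ Real.log X ^ 6 ≤ c₀ ^ 2 / 16 * X := by
    filter_upwards [eventually_ge_atTop X₀, hTl.eventually_ge_atTop 2,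
      hTl.eventually_ge_atTop (8 / c ^ 2), hT.eventually_ge_atTop (w ^ 2), h6] with X a1 a2 a3 a4 a5
    refine ⟨a1, a2, a3, a4, ?_⟩
    simp only [id, Real.norm_eq_abs, Nat.abs_cast] at a5
    exact (le_abs_self _).trans a5
  obtain ⟨X₁, hX₁⟩ := eventually_atTop.1 hev
  filter_upwards [eventually_ge_atTop X₁, eventually_ge_atTop 192] with k hk1 hk2
  have hk : (192 : ℝ) ≤ k := by exact_mod_cast hk2
  obtain ⟨h1, h2⟩ := RedAux20_ll_pos (show (1 : ℝ) ≤ k by linarith)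
  have h3 := RedAux20_ll_sq hk
  set l := Real.log (Real.log (3 * (k : ℝ))) with hl
  have hkY : (k : ℝ) ≤ (k : ℝ) ^ 2 / l ^ 2 := by
    rw [le_div_iff₀ (by positivity)]
    nlinarith
  set X := ⌊(k : ℝ) ^ 2 / l ^ 2⌋₊ with hX
  have hkX : k ≤ X := Nat.le_floor hkY
  have hkX' : (k : ℝ) ≤ X := by exact_mod_cast hkX
  obtain ⟨a1, a2, a3, a4, a5⟩ := hX₁ X (hk1.trans hkX)
  have hX0 : (0 : ℝ) < X := by linarith
  set u := Real.log X with hu
  have hu0 : 0 < u := by linarith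
  have hsq : 0 < √(X : ℝ) := Real.sqrt_pos.2 hX0
  have hz : zX X = √(X : ℝ) * u ^ 3 := rfl
  have hu3 : 1 ≤ u ^ 3 := one_le_pow₀ (by linarith)
  have b1 : (k : ℝ) ^ 2 ≤ 2 * X * l ^ 2 := by
    have := (Nat.lt_floor_add_one ((k : ℝ) ^ 2 / l ^ 2)).le
    rw [← hX, div_le_iff₀ (by positivity)] at this
    have h4 : (X : ℝ) + 1 ≤ 2 * X := by linarith
    exact this.trans (mul_le_mul_of_nonneg_right h4 (by positivity))
  have b2 : l ≤ c * u := by
    have e1 : Real.log (3 * (k : ℝ)) ≤ 2 * u := by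
      rw [Real.log_mul (by norm_num) (by linarith)]
      have := Real.log_le_log (by linarith) hkX'
      linarith [RedAux20_log3.2]
    have e2 := RedAux20_log_le (show 0 < Real.log (3 * (k : ℝ)) by linarith)
    have e3 : √(Real.log (3 * (k : ℝ))) ≤ c * u / 2 := by
      rw [Real.sqrt_le_left (by positivity)]
      rw [div_le_iff₀ (by positivity)] at a3
      nlinarith
    linarith
  refine ⟨X, a1, Nat.floor_le (by positivity), ?_, by rw [hz]; positivity, ?_⟩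
  · rw [hz]
    have := (le_abs_self w).trans (Real.abs_le_sqrt a4)
    nlinarith
  · have hXs : (X : ℝ) = √(X : ℝ) * √(X : ℝ) := (Real.mul_self_sqrt hX0.le).symm
    have c1 : (k : ℝ) < c₀ / 2 * (√(X : ℝ) * u) := by
      refine lt_of_pow_lt_pow_left₀ 2 (by positivity) ?_
      have e1 : l ^ 2 ≤ (c₀ / 4 * u) ^ 2 :=
        pow_le_pow_left₀ h2.le (b2.trans (mul_le_mul_of_nonneg_right hc1 hu0.le)) 2
      have e2 : (c₀ / 2 * (√(X : ℝ) * u)) ^ 2 = 4 * X * (c₀ / 4 * u) ^ 2 := by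
        rw [mul_pow, mul_pow, Real.sq_sqrt hX0.le]; ring
      have e3 : 0 < (X : ℝ) * (c₀ / 4 * u) ^ 2 := by positivity
      rw [e2]
      nlinarith
    have c2 : (k : ℝ) * u ^ 2 ≤ c₀ / 2 * X := by
      refine le_of_pow_le_pow_left₀ two_ne_zero (by positivity) ?_
      have e1 : l ^ 2 ≤ u ^ 2 :=
        pow_le_pow_left₀ h2.le (b2.trans (mul_le_of_le_one_left hu0.le hc2)) 2
      have e2 : (k : ℝ) ^ 2 ≤ 2 * X * u ^ 2 :=
        b1.trans (mul_le_mul_of_nonneg_left e1 (by positivity))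
      calc ((k : ℝ) * u ^ 2) ^ 2 = (k : ℝ) ^ 2 * u ^ 4 := by ring
        _ ≤ 2 * X * u ^ 2 * u ^ 4 := mul_le_mul_of_nonneg_right e2 (by positivity)
        _ = 2 * X * u ^ 6 := by ring
        _ ≤ 2 * X * (c₀ ^ 2 / 16 * X) := mul_le_mul_of_nonneg_left a5 (by positivity)
        _ ≤ (c₀ / 2 * X) ^ 2 := by
          have : 0 ≤ c₀ ^ 2 * (X : ℝ) ^ 2 := by positivity
          nlinarith
    rw [lt_div_iff₀ (by positivity), hz]
    have e1 : (X : ℝ) / (√(X : ℝ) * u ^ 3) * u ^ 2 = √(X : ℝ) / u := by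
      rw [div_mul_eq_mul_div, div_eq_div_iff (by positivity) hu0.ne']
      nth_rewrite 1 [hXs]
      ring
    have e2 : (k : ℝ) * (√(X : ℝ) / u) < c₀ / 2 * X := by
      rw [← mul_div_assoc, div_lt_iff₀ hu0]
      calc (k : ℝ) * √(X : ℝ) < c₀ / 2 * (√(X : ℝ) * u) * √(X : ℝ) :=
            mul_lt_mul_of_pos_right c1 hsq
        _ = c₀ / 2 * (√(X : ℝ) * √(X : ℝ)) * u := by ring
        _ = _ := by rw [← hXs]
    calc (k : ℝ) * (X / (√(X : ℝ) * u ^ 3) + 1) * u ^ 2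
        = k * (X / (√(X : ℝ) * u ^ 3) * u ^ 2) + k * u ^ 2 := by ring
      _ < c₀ * X := by rw [e1]; linarith

end Crest.Agent.R001
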