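import Crest.Agent.R001.Tree2
import Crest.Agent.R001.Prim
import Crest.Agent.R001.RedAux20

set_option autoImplicit false

namespace Crest.Agent.R001

open Finset Filter Crest.Agent.R008 Crest.Agent.R026

/-! # Reduction of Jacobsthal's problem to the sifting problem -/

theorem red14_count (X : ℕ) (x₀ : ℤ) {W p : ℕ} (hp : p.Prime) (hW : ¬ p ∣ W) :
    ∑ j ∈ Icc 1 X, ind ((p : ℤ) ∣ x₀ + W * (j : ℕ)) ≤ (X : ℝ) / p + 1 := by
  classical
  rw [sum_ind]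
  have h1 : ((Icc 1 X).filter fun j : ℕ => (p : ℤ) ∣ x₀ + W * (j : ℕ)).card ≤
      (range (X / p + 1)).card := by
    refine card_le_card_of_injOn (fun j => j / p) (fun j hj => ?_) fun j hj j' hj' e => ?_
    · have := (mem_Icc.1 (mem_filter.1 hj).1).2
      exact mem_coe.2 (mem_range.2 (Nat.lt_succ_of_le (Nat.div_le_div_right this)))
    · have a1 : (p : ℤ) ∣ W * ((j' : ℤ) - j) := by
        have := dvd_sub (mem_filter.1 hj').2 (mem_filter.1 hj).2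
        rwa [show x₀ + W * (j' : ℤ) - (x₀ + W * (j : ℤ)) = W * ((j' : ℤ) - j) by ring] at this
      have a2 : (p : ℤ) ∣ (j' : ℤ) - j :=
        ((Nat.prime_iff_prime_int.1 hp).dvd_or_dvd a1).resolve_left
          fun h => hW (Int.natCast_dvd_natCast.1 h)
      have a3 : j % p = j' % p := Nat.modEq_iff_dvd.2 a2
      have e' : j / p = j' / p := e
      rw [← Nat.div_add_mod j p, ← Nat.div_add_mod j' p, a3, e']
  rw [card_range] at h1
  have h2 : ((X / p + 1 : ℕ) : ℝ) ≤ (X : ℝ) / p + 1 := by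
    push_cast
    linarith [Nat.cast_div_le (α := ℝ) (m := X) (n := p)]
  exact le_trans (by exact_mod_cast h1) h2

/-- Let `W = pr (primesIoc 0 w)`, `x₀ ∈ [a - W, a)` with `x₀ ≡ 1 (mod W)`, `x = x₀ + W j`,
`j ∈ [1, X]`.  `W` is invertible modulo `Π = pr (primesIoc w z)`, so there is `b` with
`Π ∣ x₀ + W b`; for `p ∈ primesIoc w z`, `p ∣ x ↔ p ∣ j - b`.  A prime `p > z ≥ w` divides `x` for at
most `X / z + 1` values of `j`. -/
theorem red_core {w z : ℝ} (hw : 0 ≤ w) (hz : w ≤ z) (hz0 : 0 < z) {X k : ℕ}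
    (h : ∀ b : ℤ, k * ((X : ℝ) / z + 1) < surv X b w z) {n : ℕ} (hn : 0 < n)
    (hk : n.primeFactors.card ≤ k) (a : ℤ) {m : ℕ} (hm : pr (primesIoc 0 w) * X ≤ m) :
    ∃ x : ℤ, a ≤ x ∧ x < a + m ∧ Int.gcd x n = 1 := by
  classical
  set W := pr (primesIoc 0 w) with hWdef
  have hW0 : 0 < W := pr_pos fun p hp => ((mem_primesIoc le_rfl hw).1 hp).1
  have hW1 : (0 : ℤ) < W := by exact_mod_cast hW0
  have hWp : ∀ p : ℕ, p.Prime → w < p → ¬ p ∣ W := by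
    intro p hp hlt hd
    obtain ⟨q, hq, hpq⟩ := (Prime.dvd_finsetProd_iff hp.prime _).1 hd
    obtain ⟨q1, -, q2⟩ := (mem_primesIoc le_rfl hw).1 hq
    rw [(Nat.prime_dvd_prime_iff_eq hp q1).1 hpq] at hlt
    linarith
  set x₀ : ℤ := a - W + (1 - a) % W with hx₀
  have hx1 : a - W ≤ x₀ := by linarith [Int.emod_nonneg (1 - a) hW1.ne']
  have hx2 : x₀ < a := by linarith [Int.emod_lt_of_pos (1 - a) hW1]
  have hx3 : (W : ℤ) ∣ x₀ - 1 :=
    ⟨-1 - (1 - a) / W, by linear_combination hx₀ + Int.emod_add_mul_ediv (1 - a) W⟩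
  have hco : IsCoprime (W : ℤ) (pr (primesIoc w z) : ℕ) := by
    refine Nat.isCoprime_iff_coprime.2 (Nat.Coprime.prod_right fun p hp => ?_)
    obtain ⟨p1, p2, -⟩ := (mem_primesIoc hw hz0.le).1 hp
    exact ((Nat.Prime.coprime_iff_not_dvd p1).2 (hWp p p1 p2)).symm
  obtain ⟨u, v, huv⟩ := hco
  have hb : ∀ p ∈ primesIoc w z, ∀ j : ℕ, (p : ℤ) ∣ x₀ + W * j → (p : ℤ) ∣ (j : ℤ) - -x₀ * u := by
    intro p hp j hd
    have d1 : (p : ℤ) ∣ (pr (primesIoc w z) : ℕ) :=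
      Int.natCast_dvd_natCast.2 (dvd_prod_of_mem (fun p => p) hp)
    have e : (j : ℤ) - -x₀ * u = u * (x₀ + W * j) + j * v * (pr (primesIoc w z) : ℕ) := by
      linear_combination (-(j : ℤ)) * huv
    rw [e]
    exact dvd_add (hd.mul_left _) (d1.mul_left _)
  by_contra hcon
  push Not at hcon
  refine absurd (h (-x₀ * u)) (not_lt.2 ?_)
  have s1 : ∀ j ∈ Icc 1 X, ind (∀ p ∈ primesIoc w z, ¬ (p : ℤ) ∣ ((j : ℕ) : ℤ) - -x₀ * u) ≤
      ∑ p ∈ n.primeFactors, ind (z < p) * ind ((p : ℤ) ∣ x₀ + W * (j : ℕ)) := by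
    intro j hj
    have hnn : ∀ p ∈ n.primeFactors, 0 ≤ ind (z < p) * ind ((p : ℤ) ∣ x₀ + W * (j : ℕ)) :=
      fun p _ => mul_nonneg (ind_nonneg _) (ind_nonneg _)
    by_cases hs : ∀ p ∈ primesIoc w z, ¬ (p : ℤ) ∣ ((j : ℕ) : ℤ) - -x₀ * u
    swap
    · rw [ind_neg hs]; exact sum_nonneg hnn
    obtain ⟨j1, j2⟩ := mem_Icc.1 hj
    have j1' : (1 : ℤ) ≤ j := by exact_mod_cast j1
    have j2' : (j : ℤ) ≤ X := by exact_mod_cast j2
    have hm' : (W : ℤ) * X ≤ m := by exact_mod_cast hm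
    have hg := hcon (x₀ + W * j) (by nlinarith) (by nlinarith)
    obtain ⟨p, hp, hd⟩ := Nat.exists_prime_and_dvd hg
    have d1 : (p : ℤ) ∣ x₀ + W * j := (Int.natCast_dvd_natCast.2 hd).trans (Int.gcd_dvd_left _ _)
    have d2 : p ∣ n := Int.natCast_dvd_natCast.1
      ((Int.natCast_dvd_natCast.2 hd).trans (Int.gcd_dvd_right _ _))
    have hwp : w < p := by
      by_contra hc
      have d3 : (p : ℤ) ∣ W := Int.natCast_dvd_natCast.2 (dvd_prod_of_mem (fun p => p)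
        ((mem_primesIoc le_rfl hw).2 ⟨hp, by exact_mod_cast hp.pos, not_lt.1 hc⟩))
      have d4 : (p : ℤ) ∣ 1 := by
        have := dvd_sub (dvd_sub d1 (d3.mul_right j)) (d3.trans hx3)
        rwa [show x₀ + W * (j : ℤ) - W * j - (x₀ - 1) = 1 by ring] at this
      exact hp.one_lt.ne' (by exact_mod_cast Int.eq_one_of_dvd_one (by positivity) d4)
    have hzp : z < p := by
      by_contra hc
      have hmem := (mem_primesIoc hw hz0.le).2 ⟨hp, hwp, not_lt.1 hc⟩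
      exact hs p hmem (hb p hmem j d1)
    refine le_trans ?_ (single_le_sum hnn (Nat.mem_primeFactors.2 ⟨hp, d2, hn.ne'⟩))
    rw [ind_pos hs, ind_pos hzp, ind_pos d1, one_mul]
  refine (sum_le_sum s1).trans ?_
  rw [sum_comm]
  refine (sum_le_card_nsmul _ _ ((X : ℝ) / z + 1) fun p hp => ?_).trans ?_
  · rw [← mul_sum]
    by_cases hzp : z < p
    · rw [ind_pos hzp, one_mul]
      have p1 := Nat.prime_of_mem_primeFactors hp
      refine (red14_count X x₀ p1 (hWp p p1 (hz.trans_lt hzp))).trans ?_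
      gcongr
    · rw [ind_neg hzp, zero_mul]
      positivity
  · rw [nsmul_eq_mul]
    exact mul_le_mul_of_nonneg_right (by exact_mod_cast hk) (by positivity)

/-- With `X = ⌊k² / (log log 3k)²⌋₊`: `X → ∞`, `k² ≤ 2 X (log log 3 k)²`, `k ≤ X` so
`log log 3k ≤ √(log X)`, `k ≤ 2 √X √(log X)`. -/
theorem red_num {c₀ : ℝ} (hc : 0 < c₀) (w : ℝ) (X₀ : ℕ) : ∀ᶠ k : ℕ in atTop, ∃ X : ℕ, X₀ ≤ X ∧
    (X : ℝ) ≤ (k : ℝ) ^ 2 / Real.log (Real.log (3 * (k : ℝ))) ^ 2 ∧ w ≤ zX X ∧ 0 < zX X ∧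
    k * ((X : ℝ) / zX X + 1) < c₀ * X / Real.log X ^ 2 :=
  RedAux20_red_num hc w X₀

theorem one_le_ratio {k : ℕ} (hk : 1 ≤ k) :
    1 ≤ (k : ℝ) ^ 2 / Real.log (Real.log (3 * (k : ℝ))) ^ 2 :=
  RedAux20_one_le_ratio hk

/-- For `k ≥ k₀` use `red_num`, `red_core`; for `k ≤ k₀` use the case `k₀` and `one_le_ratio`. -/
theorem reduce {w c₀ : ℝ} (hw : 10 ≤ w) (hc : 0 < c₀) (h : ∀ᶠ X : ℕ in atTop, ∀ b : ℤ,
    c₀ * X / Real.log X ^ 2 ≤ surv X b w (zX X)) :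
    ∃ C : ℝ, 0 < C ∧ ∀ (k : ℕ), 1 ≤ k → ∀ (n : ℕ), 0 < n → n.primeFactors.card ≤ k →
      ∀ (a : ℤ) (m : ℕ), C * (k : ℝ) ^ 2 / (Real.log (Real.log (3 * (k : ℝ)))) ^ 2 ≤ (m : ℝ) →
        ∃ x : ℤ, a ≤ x ∧ x < a + m ∧ Int.gcd x n = 1 := by
  obtain ⟨X₀, hX₀⟩ := eventually_atTop.1 h
  obtain ⟨k₀, hk₀⟩ := eventually_atTop.1 ((red_num hc w X₀).and (eventually_ge_atTop 1))
  have hw0 : (0 : ℝ) ≤ w := by linarith
  have hW : (1 : ℝ) ≤ pr (primesIoc 0 w) := by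
    exact_mod_cast pr_pos fun p hp => ((mem_primesIoc le_rfl hw0).1 hp).1
  have hr0 := one_le_ratio (hk₀ k₀ le_rfl).2
  have key : ∀ k : ℕ, k₀ ≤ k → ∀ n : ℕ, 0 < n → n.primeFactors.card ≤ k → ∀ (a : ℤ) (m : ℕ),
      pr (primesIoc 0 w) * ((k : ℝ) ^ 2 / Real.log (Real.log (3 * (k : ℝ))) ^ 2) ≤ m →
      ∃ x : ℤ, a ≤ x ∧ x < a + m ∧ Int.gcd x n = 1 := by
    intro k hk n hn hc' a m hm
    obtain ⟨⟨X, h1, h2, h3, h4, h5⟩, -⟩ := hk₀ k hk
    refine red_core hw0 h3 h4 (X := X) (k := k) (fun b => h5.trans_le (hX₀ X h1 b)) hn hc' a ?_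
    have := (mul_le_mul_of_nonneg_left h2 (by linarith : (0 : ℝ) ≤ pr (primesIoc 0 w))).trans hm
    exact_mod_cast this
  refine ⟨pr (primesIoc 0 w) * ((k₀ : ℝ) ^ 2 / Real.log (Real.log (3 * (k₀ : ℝ))) ^ 2),
    by positivity, fun k hk n hn hc' a m hm => ?_⟩
  have hr := one_le_ratio hk
  rw [mul_div_assoc] at hm
  rcases le_total k₀ k with h1 | h1
  · refine key k h1 n hn hc' a m (le_trans ?_ hm)
    refine mul_le_mul_of_nonneg_right ?_ (by linarith)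
    exact le_mul_of_one_le_right (by linarith) hr0
  · refine key k₀ le_rfl n hn (hc'.trans h1) a m (le_trans ?_ hm)
    exact le_mul_of_one_le_right (by positivity) hr

end Crest.Agent.R001
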