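import Crest.Agent.R001.AB
import Crest.Agent.R001.Lab
import Crest.Agent.R001.Cc
import Crest.Agent.R001.M1
import Crest.Agent.R001.M2
import Crest.Agent.R001.Boot

set_option autoImplicit false

namespace Crest.Agent.R001

open Finset Filter Crest.Agent.R008 Crest.Agent.R026

/-! # The main theorem -/

/-- Sizes of the parameters. -/
theorem top_num : ∀ᶠ X : ℕ in atTop, 3 ≤ Real.log X ∧ 1 ≤ Real.log (Real.log X) ∧
    zX X ≤ (X : ℝ) ^ (3 / 5 : ℝ) ∧ (X : ℝ) ^ (1 / 2 : ℝ) ≤ zX X ∧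
    zX X ≤ √(DX X) * Real.log (DX X) ^ 6 ∧ (X : ℝ) ^ (9 / 10 : ℝ) ≤ DX X ∧ DX X ≤ X ∧
    (X : ℝ) / 3 ≤ ((X / 2 : ℕ) : ℝ) := by
  have hT := tendsto_natCast_atTop_atTop (R := ℝ)
  have hTl : Tendsto (fun X : ℕ => Real.log X) atTop atTop := Real.tendsto_log_atTop.comp hT
  have ho := (isLittleO_log_rpow_rpow_atTop (3 : ℝ) (show (0 : ℝ) < 1 / 10 by norm_num)).bound
    one_pos
  filter_upwards [hTl.eventually_ge_atTop 3, hT.eventually ho, eventually_ge_atTop 2]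
    with X h1 h2 h3
  have hX2 : (2 : ℝ) ≤ X := by exact_mod_cast h3
  have hX0 : (0 : ℝ) < X := by linarith
  obtain ⟨L, hL⟩ : ∃ L : ℝ, L = Real.log X := ⟨_, rfl⟩
  have hz : zX X = √X * L ^ 3 := by rw [hL]; rfl
  have hD : DX X = ((X / 2 : ℕ) : ℝ) / L ^ 2 := by rw [hL]; rfl
  rw [← hL] at h1 h2
  have hL0 : 0 < L := by linarith
  have h4 : L ^ 3 ≤ (X : ℝ) ^ (1 / 10 : ℝ) := by
    rw [Real.norm_of_nonneg (by positivity), Real.norm_of_nonneg (by positivity), one_mul] at h2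
    rwa [← Real.rpow_natCast, Nat.cast_ofNat]
  have h5 : (X : ℝ) / 3 ≤ ((X / 2 : ℕ) : ℝ) := by
    have a1 : X ≤ 3 * (X / 2) := by omega
    have a2 : (X : ℝ) ≤ 3 * ((X / 2 : ℕ) : ℝ) := by exact_mod_cast a1
    linarith
  have h6 : ((X / 2 : ℕ) : ℝ) ≤ X := by exact_mod_cast Nat.div_le_self X 2
  have hs : √(X : ℝ) = (X : ℝ) ^ (1 / 2 : ℝ) := Real.sqrt_eq_rpow _
  have hs0 : 0 < √(X : ℝ) := Real.sqrt_pos.2 hX0
  have hL2 : 9 ≤ L ^ 2 := by nlinarith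
  have hL3 : 3 * L ^ 2 ≤ L ^ 3 := by nlinarith
  have h7 : (X : ℝ) ^ (9 / 10 : ℝ) ≤ DX X := by
    rw [hD, le_div_iff₀ (by positivity)]
    refine le_trans ?_ h5
    have a1 : (X : ℝ) ^ (9 / 10 : ℝ) * (X : ℝ) ^ (1 / 10 : ℝ) = X := by
      rw [← Real.rpow_add hX0]; norm_num
    have a2 : 0 < (X : ℝ) ^ (9 / 10 : ℝ) := by positivity
    have a3 := mul_le_mul_of_nonneg_left (hL3.trans h4) a2.le
    linarith
  have h8 : 9 / 10 * L ≤ Real.log (DX X) := by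
    have := Real.log_le_log (by positivity) h7
    rwa [Real.log_rpow hX0, ← hL] at this
  have h9 : √(X : ℝ) / (2 * L) ≤ √(DX X) := by
    refine Real.le_sqrt_of_sq_le ?_
    rw [div_pow, Real.sq_sqrt hX0.le, hD, div_le_div_iff₀ (by positivity) (by positivity)]
    nlinarith
  refine ⟨hL ▸ h1, ?_, ?_, ?_, ?_, h7, ?_, h5⟩
  · rw [← hL, Real.le_log_iff_exp_le hL0]
    linarith [Real.exp_one_lt_d9]
  · rw [hz, hs]
    calc (X : ℝ) ^ (1 / 2 : ℝ) * L ^ 3 ≤ (X : ℝ) ^ (1 / 2 : ℝ) * (X : ℝ) ^ (1 / 10 : ℝ) := by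
          gcongr
      _ = _ := by rw [← Real.rpow_add hX0]; norm_num
  · rw [hz, ← hs]
    exact le_mul_of_one_le_right hs0.le (by linarith)
  · rw [hz]
    calc √(X : ℝ) * L ^ 3 ≤ √(X : ℝ) / (2 * L) * (9 / 10 * L) ^ 6 := by
          have a1 : √(X : ℝ) / (2 * L) * (9 / 10 * L) ^ 6 =
              √(X : ℝ) * L ^ 3 * ((9 / 10) ^ 6 / 2 * L ^ 2) := by
            field_simp
          rw [a1]
          exact le_mul_of_one_le_right (by positivity) (by nlinarith)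
      _ ≤ _ := by gcongr
  · rw [hD]
    exact (div_le_self (Nat.cast_nonneg _) (by linarith)).trans h6

/-- `stepQ` with `y = X^(10σ) = e^b`, `b = 10 σ ℒ`, `A = Bad \ Am`; `q₁ q₂³ ≤ X^(3/5 + 3/10) ≤ D`;
`M3` with `R = 1 / (10 σ)`, `M = D / (q₁ q₂) ≥ X^(9/10 - 3/5 - 1/10)`, so `2 b ≤ ℒ / 10 ≤ log M ≤ ℒ`;
`l = K log ℒ`. -/
theorem mass_low (hP : HP) {θ w : ℝ} (h : Good θ w) {σ : ℝ} (hσ : 0 < σ) (hσ1 : σ ≤ 1 / 200) :
    ∃ C₁ c : ℝ, 1 ≤ C₁ ∧ 0 < c ∧ ∀ K : ℝ, 0 < K → ∀ᶠ X : ℕ in atTop,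
      ∀ (Q : Finset ℕ → Prop) (A : Finset ℕ) (N : ℕ → Finset ℕ),
      A ⊆ primesIoc ((X : ℝ) ^ (20 * σ)) (zX X) →
      (∀ q₁ ∈ A, N q₁ ⊆ primesIoc ((X : ℝ) ^ (10 * σ)) ((X : ℝ) ^ (20 * σ)) ∧ 1 / 5 ≤ mu (N q₁) ∧
        ∀ q₂ ∈ N q₁, Q {q₁, q₂}) →
      c * mu A * (K * Real.log (Real.log X)) / Real.log X ^ 2 ≤
        BmQ 1 w (DX X) (zX X) ((X : ℝ) ^ (10 * σ)) Q
          (phi (Real.exp (K * Real.log (Real.log X) / C₁))
            (Real.exp (C₁ * (K * Real.log (Real.log X))))) := by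
  obtain ⟨C₁, l₀, hC₁, -, hM⟩ := M3 hP h
  obtain ⟨c, κ, b₀, hc, hκ, hM⟩ := hM (1 / (10 * σ))
  refine ⟨C₁, c / (5 * (10 * σ) ^ 2), hC₁, by positivity, fun K hK => ?_⟩
  have hT := tendsto_natCast_atTop_atTop (R := ℝ)
  have hTl : Tendsto (fun X : ℕ => Real.log X) atTop atTop := Real.tendsto_log_atTop.comp hT
  have hTll : Tendsto (fun X : ℕ => K * Real.log (Real.log X)) atTop atTop :=
    (Real.tendsto_log_atTop.comp hTl).const_mul_atTop hK
  have hTb : Tendsto (fun X : ℕ => 10 * σ * Real.log X) atTop atTop :=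
    hTl.const_mul_atTop (by positivity)
  have ho := Real.isLittleO_log_id_atTop.bound (show 0 < κ * (10 * σ) / K by positivity)
  filter_upwards [top_num, hTll.eventually_ge_atTop l₀, hTb.eventually_ge_atTop b₀,
    hTl.eventually ho,
    ((tendsto_rpow_atTop (show (0 : ℝ) < 10 * σ by positivity)).comp hT).eventually_ge_atTop w,
    eventually_ge_atTop 1] with X h1 h2 h3 h4 h5 h6 Q A N hA hN
  obtain ⟨t1, t2, t3, t4, -, t6, t7, -⟩ := h1
  simp only [Function.comp] at h5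
  have hX1 : (1 : ℝ) ≤ X := by exact_mod_cast h6
  have hX0 : (0 : ℝ) < X := by linarith
  have hL0 : 0 < Real.log X := by linarith
  have hw0 : 0 ≤ w := by linarith [h.w10]
  have h7 : K * Real.log (Real.log X) ≤ κ * (10 * σ * Real.log X) := by
    rw [Real.norm_of_nonneg (by linarith), id, Real.norm_of_nonneg hL0.le] at h4
    have := mul_le_mul_of_nonneg_left h4 hK.le
    refine this.trans_eq ?_
    field_simp
  have p1 : (X : ℝ) ^ (10 * σ) ≤ (X : ℝ) ^ (20 * σ) :=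
    Real.rpow_le_rpow_of_exponent_le hX1 (by linarith)
  have p2 : (X : ℝ) ^ (20 * σ) ≤ (X : ℝ) ^ (1 / 10 : ℝ) :=
    Real.rpow_le_rpow_of_exponent_le hX1 (by linarith)
  have p3 : (X : ℝ) ^ (20 * σ) ≤ zX X :=
    (Real.rpow_le_rpow_of_exponent_le hX1 (by linarith)).trans t4
  have hz0 : 0 ≤ zX X := le_trans (by positivity) p3
  have hq : ∀ q ∈ A, (1 : ℝ) ≤ q ∧ (q : ℝ) ≤ (X : ℝ) ^ (3 / 5 : ℝ) := fun q hq => by
    have := (mem_primesIoc (by positivity) hz0).1 (hA hq)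
    exact ⟨by exact_mod_cast this.1.one_le, this.2.2.trans t3⟩
  have hr : ∀ q ∈ A, ∀ r ∈ N q, (1 : ℝ) ≤ r ∧ (r : ℝ) ≤ (X : ℝ) ^ (1 / 10 : ℝ) :=
    fun q hq r hr => by
      have := (mem_primesIoc (by positivity) (by positivity)).1 ((hN q hq).1 hr)
      exact ⟨by exact_mod_cast this.1.one_le, this.2.2.trans p2⟩
  have hy : (X : ℝ) ^ (10 * σ) = Real.exp (10 * σ * Real.log X) := by
    rw [Real.rpow_def_of_pos hX0, mul_comm]
  refine le_trans ?_ (stepQ (DX X) hw0 h5 (p1.trans p3) Q (phi_nonneg _ _) A N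
    (hA.trans (primesIoc_mono p1 le_rfl))
    (fun q hq => (hN q hq).1.trans (primesIoc_mono le_rfl p3))
    (fun q hq' r hr' => ⟨primesIoc_lt (hA hq') ((hN q hq').1 hr'), ?_, (hN q hq').2.2 r hr'⟩))
  · obtain ⟨β, hβ⟩ : ∃ β : ℝ, β = c * (K * Real.log (Real.log X)) / (10 * σ * Real.log X) ^ 2 :=
      ⟨_, rfl⟩
    have hβ0 : 0 ≤ β := by
      rw [hβ]
      have : 0 ≤ Real.log (Real.log X) := by linarith
      positivity
    have e1 : c / (5 * (10 * σ) ^ 2) * mu A * (K * Real.log (Real.log X)) / Real.log X ^ 2 =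
        ∑ q ∈ A, β * (1 / (q : ℝ)) * (1 / 5) := by
      rw [← sum_mul, ← mul_sum, hβ]
      unfold mu
      field_simp
    rw [e1]
    refine sum_le_sum fun q hq' => ?_
    obtain ⟨q1, q2⟩ := hq q hq'
    refine (mul_le_mul_of_nonneg_left (hN q hq').2.1 (by positivity)).trans ?_
    unfold mu
    rw [mul_sum]
    refine sum_le_sum fun r hr' => ?_
    obtain ⟨r1, r2⟩ := hr q hq' r hr'
    have e2 : β * (1 / (q : ℝ)) * (1 / (r : ℝ)) = β / (q * r) := by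
      field_simp
    rw [e2]
    have hqr : (1 : ℝ) ≤ q * r := one_le_mul_of_one_le_of_one_le q1 r1
    refine div_le_div_of_nonneg_right ?_ (by linarith)
    have hD0 : 0 < DX X := lt_of_lt_of_le (by positivity) t6
    have hM0 : 0 < DX X / (q * r) := div_pos hD0 (by linarith)
    rw [hβ, hy]
    refine hM _ _ _ h3 hM0 ?_ ?_ h2 h7
    · have a1 : (X : ℝ) ^ (1 / 5 : ℝ) ≤ DX X / (q * r) := by
        rw [le_div_iff₀ (by linarith)]
        refine le_trans ?_ t6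
        calc (X : ℝ) ^ (1 / 5 : ℝ) * (q * r)
            ≤ (X : ℝ) ^ (1 / 5 : ℝ) * ((X : ℝ) ^ (3 / 5 : ℝ) * (X : ℝ) ^ (1 / 10 : ℝ)) := by
              gcongr
          _ = _ := by rw [← Real.rpow_add hX0, ← Real.rpow_add hX0]; norm_num
      have a2 := Real.log_le_log (by positivity) a1
      rw [Real.log_rpow hX0] at a2
      nlinarith
    · have a1 : DX X / (q * r) ≤ X := (div_le_self hD0.le hqr).trans t7
      refine (Real.log_le_log hM0 a1).trans_eq ?_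
      field_simp
  · obtain ⟨q1, q2⟩ := hq q hq'
    obtain ⟨r1, r2⟩ := hr q hq' r hr'
    refine le_trans ?_ t6
    calc (q : ℝ) * (r : ℝ) ^ 3 ≤ (X : ℝ) ^ (3 / 5 : ℝ) * ((X : ℝ) ^ (1 / 10 : ℝ)) ^ 3 := by
          gcongr
      _ = _ := by
          rw [← Real.rpow_natCast, ← Real.rpow_mul hX0.le, ← Real.rpow_add hX0]; norm_num

theorem top_aux {cV c η C K m l u B : ℝ} (hcV : 0 < cV) (hc : 0 < c) (hη0 : 0 < η) (hC0 : 0 < C)
    (hK : K = 2 * (2 * C + 6) / (cV * c * η)) (hu : 0 < u) (hl : 1 ≤ l)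
    (k1 : c * m * (K * l) / u ≤ B) (k6 : -(2 * C * l / u) + cV * B - 3 / u ≤ 3 / u) :
    m ≤ η / 2 := by
  have a1 := mul_le_mul_of_nonneg_left k1 hcV.le
  have a2 : cV * (c * m * (K * l) / u) ≤ (2 * C * l + 6) / u := by
    have : (2 * C * l + 6) / u = 2 * C * l / u + 3 / u + 3 / u := by ring
    linarith
  rw [← mul_div_assoc, div_le_div_iff_of_pos_right hu] at a2
  have a3 : cV * (c * m * (K * l)) = (2 * (2 * C + 6) * l) * (m / η) := by
    rw [hK]; field_simp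
  rw [a3] at a2
  have a4 : (2 * (2 * C + 6) * l) * (m / η) ≤ (2 * (2 * C + 6) * l) * (1 / 2) := by linarith
  have a5 := le_of_mul_le_mul_left a4 (by positivity)
  rw [div_le_iff₀ hη0] at a5
  linarith

theorem top_log5 : 3 / 2 < Real.log 5 := by
  rw [Real.lt_log_iff_exp_lt (by norm_num)]
  have b1 : Real.exp (3 / 2) ^ 2 = Real.exp 1 ^ 3 := by
    rw [← Real.exp_nat_mul, ← Real.exp_nat_mul]; norm_num
  have b2 := Real.exp_one_lt_d9
  have b3 : Real.exp 1 ^ 3 < 25 :=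
    (pow_le_pow_left₀ (Real.exp_pos _).le b2.le 3).trans_lt (by norm_num)
  nlinarith [Real.exp_pos (3 / 2)]

set_option maxHeartbeats 800000 in
/-- Let `ε = min ε₀ (1/10)`, `σ = ε / 20`, `η, c₁` from `thmC` (with `η ≤ 1`), `c₀ = min c₁ 1`.
If `surv < c₀ X / ℒ²` then `thmAB` (`A₀ = ⌈C₁ K⌉₊`), `M1` give `cV BmQ ≤ (C log ℒ + 6) / ℒ²`, so by
`mass_low` `mu (Bad \ Am) ≤ η / 2` for `K` large, `mu Bad ≤ η` with `lab σ (η/2)`.  The second
alternative of `lab` is impossible, `mu (primesIoc (X^ε) z) ≥ log 5 - o(1) > 1` (`dk_mertens`); in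
the first one `thmC` applies. -/
theorem thmT (hP : HP) (hL : HL) : ∃ w c₀ : ℝ, 10 ≤ w ∧ 0 < c₀ ∧ ∀ᶠ X : ℕ in atTop, ∀ b : ℤ,
    c₀ * X / Real.log X ^ 2 ≤ surv X b w (zX X) := by
  obtain ⟨θ, w, hg⟩ := good_exists hP hL
  obtain ⟨ε₀, hε₀, hC⟩ := thmC hP
  obtain ⟨ε, hε0, hε1, hε2⟩ : ∃ ε : ℝ, 0 < ε ∧ ε ≤ ε₀ ∧ ε ≤ 1 / 10 :=
    ⟨min ε₀ (1 / 10), lt_min hε₀ (by norm_num), min_le_left _ _, min_le_right _ _⟩
  obtain ⟨η', c₁, hη', hc₁, hC⟩ := hC ε hε0 hε1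
  obtain ⟨η, hη0, hη1, hη2⟩ : ∃ η : ℝ, 0 < η ∧ η ≤ η' ∧ η ≤ 1 :=
    ⟨min η' 1, lt_min hη' one_pos, min_le_left _ _, min_le_right _ _⟩
  obtain ⟨σ, hσ⟩ : ∃ σ : ℝ, ε = 20 * σ := ⟨ε / 20, by ring⟩
  have hσ0 : 0 < σ := by linarith
  have hσ1 : σ ≤ 1 / 200 := by linarith
  obtain ⟨cV, hcV, hAB⟩ := thmAB hP
  obtain ⟨C, D₀, hC0, hM1⟩ := M1 hg
  obtain ⟨C₁, c, hC₁, hc, hml⟩ := mass_low hP hg hσ0 hσ1
  obtain ⟨Cm, hCm, hmer⟩ := R005.dk_mertens
  obtain ⟨K, hK⟩ : ∃ K : ℝ, K = 2 * (2 * C + 6) / (cV * c * η) := ⟨_, rfl⟩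
  have hK0 : 0 < K := by rw [hK]; positivity
  refine ⟨w, min c₁ 1, hg.w10, lt_min hc₁ one_pos, ?_⟩
  have hT := tendsto_natCast_atTop_atTop (R := ℝ)
  have hTl : Tendsto (fun X : ℕ => Real.log X) atTop atTop := Real.tendsto_log_atTop.comp hT
  filter_upwards [hC, hAB w σ hg.w10 hσ0 hσ1 ⌈C₁ * K⌉₊, hml K hK0, top_num,
    hT.eventually (lab hσ0 hσ1 (half_pos hη0)),
    ((tendsto_rpow_atTop (show (0 : ℝ) < 9 / 10 by norm_num)).comp hT).eventually_ge_atTop D₀,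
    ((tendsto_rpow_atTop (show (0 : ℝ) < 1 / 2 by norm_num)).comp hT).eventually_ge_atTop w,
    ((tendsto_rpow_atTop hε0).comp hT).eventually_ge_atTop 2,
    hTl.eventually_ge_atTop (2 * Cm / ε), eventually_ge_atTop 1]
    with X h1 h2 h3 h4 h5 h6 h7 h8 h9 h10 b
  obtain ⟨t1, t2, t3, t4, t5, t6, t7, t8⟩ := h4
  simp only [Function.comp] at h6 h7 h8
  have hX1 : (1 : ℝ) ≤ X := by exact_mod_cast h10
  have hX0 : (0 : ℝ) < X := by linarith
  have hL0 : 0 < Real.log X := by linarith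
  by_contra hcon
  rw [not_le] at hcon
  have hzX : zX X ≤ X := t3.trans (by
    calc (X : ℝ) ^ (3 / 5 : ℝ) ≤ (X : ℝ) ^ (1 : ℝ) :=
          Real.rpow_le_rpow_of_exponent_le hX1 (by norm_num)
      _ = X := Real.rpow_one _)
  obtain ⟨Bad, Am, N, hAm, hBad, hN⟩ := h5 (zX X) b hzX
  have hBsub : Bad ⊆ primesIoc ((X : ℝ) ^ (20 * σ)) (zX X) := by
    rcases hBad with ⟨a, q, -, rfl⟩ | rfl
    · exact filter_subset _ _
    · exact Subset.rfl
  have k1 := h3 (Unex X σ (zX X) b) (Bad \ Am) N (sdiff_subset.trans hBsub) hN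
  have k2 := h2 b (Real.exp (K * Real.log (Real.log X) / C₁))
    (Real.exp (C₁ * (K * Real.log (Real.log X)))) (Real.one_le_exp (by positivity)) (by
      rw [← Real.rpow_natCast, Real.rpow_def_of_pos hL0, Real.exp_le_exp]
      have := Nat.le_ceil (C₁ * K)
      nlinarith)
  have k3 := hM1 (DX X) (zX X) (h6.trans t6) (h7.trans t4) t5
  have hD0 : 0 < DX X := lt_of_lt_of_le (by positivity) t6
  have hD1 : 9 / 10 * Real.log X ≤ Real.log (DX X) := by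
    have := Real.log_le_log (by positivity) t6
    rwa [Real.log_rpow hX0] at this
  have hD2 : Real.log (DX X) ≤ Real.log X := Real.log_le_log hD0 t7
  have hD3 : Real.log (Real.log (DX X)) ≤ Real.log (Real.log X) :=
    Real.log_le_log (by linarith) hD2
  have k4 : C * Real.log (Real.log (DX X)) / Real.log (DX X) ^ 2 ≤
      2 * C * Real.log (Real.log X) / Real.log X ^ 2 := by
    refine (div_le_div_of_nonneg_right (mul_le_mul_of_nonneg_left hD3 hC0.le)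
      (by positivity)).trans ?_
    rw [div_le_div_iff₀ (by nlinarith) (by positivity)]
    have a1 : Real.log X ^ 2 ≤ 2 * Real.log (DX X) ^ 2 := by nlinarith
    have a2 : 0 ≤ C * Real.log (Real.log X) := by positivity
    nlinarith
  have k5 : surv X b w (zX X) ≤ ((X / 2 : ℕ) : ℝ) * (3 / Real.log X ^ 2) := by
    refine hcon.le.trans ?_
    rw [mul_div_assoc', mul_comm _ (3 : ℝ)]
    refine div_le_div_of_nonneg_right ?_ (by positivity)
    have := min_le_right c₁ 1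
    nlinarith
  have k6 := le_of_mul_le_mul_left (k2.trans k5) (by linarith)
  have k7 : mu (Bad \ Am) ≤ η / 2 :=
    top_aux hcV hc hη0 hC0 hK (by positivity) t2 k1 (by linarith)
  have k8 : mu Bad ≤ η := by
    have a1 : mu Bad ≤ mu (Bad \ Am) + mu Am := by
      have a2 : mu (Bad \ Am) + mu Am = mu (Bad \ Am ∪ Am) := by
        unfold mu; rw [sum_union sdiff_disjoint]
      rw [a2]
      exact mu_mono (by rw [sdiff_union_self_eq_union]; exact subset_union_left)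
    linarith
  rcases hBad with ⟨a, q, ⟨p1, p2, p3, p4, -⟩, rfl⟩ | rfl
  · have k9 := h1 w (zX X) a b q (by linarith [hg.w10]) t3 p1
      (p2.trans (Real.rpow_le_rpow_of_exponent_le hX1 (by linarith)))
      (p3.trans (mul_le_mul_of_nonneg_left (Real.rpow_le_rpow_of_exponent_le hX1 (by linarith))
        (Nat.cast_nonneg _))) p4 (by rw [hσ]; exact k8.trans hη1)
    refine absurd (k9.trans_lt hcon) (not_lt.2 ?_)
    exact div_le_div_of_nonneg_right (mul_le_mul_of_nonneg_right (min_le_left _ _) hX0.le)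
      (by positivity)
  · rw [← hσ] at k8
    have a1 : (X : ℝ) ^ ε ≤ (X : ℝ) ^ (1 / 2 : ℝ) :=
      Real.rpow_le_rpow_of_exponent_le hX1 (by linarith)
    have a2 := (abs_le.1 (hmer _ _ h8 a1)).1
    have a3 : mu (primesIoc ((X : ℝ) ^ ε) ((X : ℝ) ^ (1 / 2 : ℝ))) ≤ η :=
      (mu_mono (primesIoc_mono le_rfl t4)).trans k8
    rw [Real.log_rpow hX0, Real.log_rpow hX0, Real.log_mul (by norm_num) hL0.ne',
      Real.log_mul hε0.ne' hL0.ne'] at a2
    have a4 : Cm / (ε * Real.log X) ≤ 1 / 2 := by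
      rw [div_le_iff₀ hε0] at h9
      rw [div_le_iff₀ (by positivity)]
      linarith
    have a5 : Real.log ε ≤ Real.log (1 / 10) := Real.log_le_log hε0 hε2
    have a6 : Real.log (1 / 2) - Real.log (1 / 10) = Real.log 5 := by
      rw [← Real.log_div (by norm_num) (by norm_num)]; norm_num
    have a7 := top_log5
    unfold mu at a3
    linarith

end Crest.Agent.R001
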