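import Crest.Agent.R001.Defs

set_option autoImplicit false

namespace Crest.Agent.R001

open Finset Filter Crest.Agent.R008 Crest.Agent.R026

/-! # Combinatorics of Rosser's tree -/

theorem valid_empty (π : ℕ) (M : ℝ) : valid π M ∅ := by
  intro q hq; simp at hq

theorem valid_parity {π π' : ℕ} (h : π % 2 = π' % 2) (M : ℝ) (s : Finset ℕ) :
    valid π M s ↔ valid π' M s := by
  have : ∀ k : ℕ, Even (k + π) ↔ Even (k + π') := fun k => by
    simp only [Nat.even_iff]; omega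
  simp only [valid, this]

theorem Bd_parity {π π' : ℕ} (h : π % 2 = π' % 2) (M : ℝ) (ν : Finset ℕ) (p : ℕ) :
    Bd π M ν p ↔ Bd π' M ν p := by
  have : ∀ k : ℕ, Even (k + π) ↔ Even (k + π') := fun k => by
    simp only [Nat.even_iff]; omega
  simp only [Bd, this, valid_parity h]

/-- `up (insert p ν) p = ν` and `up (insert p ν) q = up ν q` for `q ∈ ν`. -/
theorem valid_insert_min {π : ℕ} {M : ℝ} {ν : Finset ℕ} {p : ℕ} (h : ∀ q ∈ ν, p < q) :
    valid π M (insert p ν) ↔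
      valid π M ν ∧ (Even (ν.card + π) → (pr ν : ℝ) * (p : ℝ) ^ 3 ≤ M) := by
  have h1 : up (insert p ν) p = ν := by
    ext q
    simp only [up, mem_filter, mem_insert]
    exact ⟨fun hq => hq.1.resolve_left hq.2.ne', fun hq => ⟨Or.inr hq, h q hq⟩⟩
  have h2 : ∀ q ∈ ν, up (insert p ν) q = up ν q := fun q hq => by
    unfold up
    rw [filter_insert, if_neg (h q hq).not_gt]
  unfold valid
  rw [forall_mem_insert, h1, and_comm]
  exact and_congr_left' (forall₂_congr fun q hq => by rw [h2 q hq])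

/-- An upward closed subset of a valid node is valid (`up t q = up s q` for `q ∈ t`). -/
theorem valid_of_upper {π : ℕ} {M : ℝ} {s t : Finset ℕ} (h : valid π M s) (hts : t ⊆ s)
    (hu : ∀ q ∈ t, ∀ r ∈ s, q < r → r ∈ t) : valid π M t := by
  intro q hq
  have : up t q = up s q := by
    ext r
    simp only [up, mem_filter]
    exact ⟨fun hr => ⟨hts hr.1, hr.2⟩, fun hr => ⟨hu q hq r hr.1 hr.2, hr.2⟩⟩
  rw [this]
  exact h q (hts hq)

/-- Prefix and suffix: for `r ∈ s`, `up (ν ∪ s) r = ν ∪ up s r` (disjoint union). -/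
theorem valid_union {π : ℕ} {M : ℝ} {ν s : Finset ℕ} (h0 : ∀ q ∈ ν, 0 < q)
    (h : ∀ q ∈ ν, ∀ r ∈ s, r < q) :
    valid π M (ν ∪ s) ↔ valid π M ν ∧ valid (ν.card + π) (M / pr ν) s := by
  have hp : (0 : ℝ) < pr ν := by exact_mod_cast prod_pos h0
  have h1 : ∀ q ∈ ν, up (ν ∪ s) q = up ν q := fun q hq => by
    unfold up
    rw [filter_union, filter_eq_empty_iff.2 fun r hr => (h q hq r hr).not_gt, union_empty]
  have h2 : ∀ r ∈ s, up (ν ∪ s) r = ν ∪ up s r := fun r hr => by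
    unfold up
    rw [filter_union, filter_true_of_mem fun q hq => h q hq r hr]
  have h3 : ∀ r, Disjoint ν (up s r) := fun r => disjoint_left.2 fun q hq hq' =>
    lt_irrefl _ (h q hq q (mem_filter.1 hq').1)
  unfold valid
  rw [forall_mem_union]
  refine and_congr (forall₂_congr fun q hq => by rw [h1 q hq]) (forall₂_congr fun r hr => ?_)
  rw [h2 r hr, card_union_of_disjoint (h3 r), pr_union (h3 r), le_div_iff₀ hp, Nat.cast_mul,
    show ν.card + (up s r).card + π = (up s r).card + (ν.card + π) by ring,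
    show (pr ν : ℝ) * pr (up s r) * (r : ℝ) ^ 3 = pr (up s r) * (r : ℝ) ^ 3 * pr ν by ring]

theorem Bd_union {π : ℕ} {M : ℝ} {ν s : Finset ℕ} {p : ℕ} (h0 : ∀ q ∈ ν, 0 < q)
    (h : ∀ q ∈ ν, ∀ r ∈ s, r < q) (hp : ∀ q ∈ ν, p < q) :
    Bd π M (ν ∪ s) p ↔ valid π M ν ∧ Bd (ν.card + π) (M / pr ν) s p := by
  have hp' : (0 : ℝ) < pr ν := by exact_mod_cast prod_pos h0
  have h3 : Disjoint ν s := disjoint_left.2 fun q hq hq' => lt_irrefl _ (h q hq q hq')
  unfold Bd
  rw [forall_mem_union, valid_union h0 h, card_union_of_disjoint h3, pr_union h3, div_lt_iff₀ hp',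
    Nat.cast_mul, show ν.card + s.card + π = s.card + (ν.card + π) by ring,
    show (pr ν : ℝ) * pr s * (p : ℝ) ^ 3 = pr s * (p : ℝ) ^ 3 * pr ν by ring]
  tauto

/-- Removing the largest prime from a node of the lower bound tree. -/
theorem valid_one_insert {M : ℝ} {s : Finset ℕ} {q : ℕ} (h0 : 0 < q) (h : ∀ r ∈ s, r < q) :
    valid 1 M (insert q s) ↔ valid 0 (M / q) s := by
  have hv : valid 1 M {q} := fun r hr he => by
    rw [mem_singleton.1 hr] at he
    simp [up, filter_singleton] at he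
  rw [insert_eq, valid_union (by simpa using h0) (by simpa using h), and_iff_right hv,
    valid_parity (π' := 0) (by simp)]
  simp [pr]

theorem Bd_one_insert {M : ℝ} {s : Finset ℕ} {q p : ℕ} (h0 : 0 < q) (h : ∀ r ∈ s, r < q)
    (hp : p < q) : Bd 1 M (insert q s) p ↔ Bd 0 (M / q) s p := by
  have hv : valid 1 M {q} := fun r hr he => by
    rw [mem_singleton.1 hr] at he
    simp [up, filter_singleton] at he
  rw [insert_eq, Bd_union (by simpa using h0) (by simpa using h) (by simpa using hp),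
    and_iff_right hv, Bd_parity (π' := 0) (by simp)]
  simp [pr]

/-- The condition at the smallest element `m`: `up ν m = ν.erase m`. -/
theorem valid_min_odd {π : ℕ} {M : ℝ} {ν : Finset ℕ} {m : ℕ} (h : valid π M ν) (hm : m ∈ ν)
    (hmin : ∀ q ∈ ν, m ≤ q) (ho : Odd (ν.card + π)) : (pr ν : ℝ) * (m : ℝ) ^ 2 ≤ M := by
  have hlt : ∀ q ∈ ν.erase m, m < q := fun q hq =>
    lt_of_le_of_ne (hmin q (mem_erase.1 hq).2) (mem_erase.1 hq).1.symm
  have hc := card_erase_add_one hm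
  have hpr : pr ν = m * pr (ν.erase m) := (mul_prod_erase ν (fun p => p) hm).symm
  rw [← insert_erase hm, valid_insert_min hlt] at h
  have := h.2 (by rw [Nat.even_iff]; rw [Nat.odd_iff] at ho; omega)
  rw [hpr]
  push_cast
  linarith

/-- If `ν.card + π` is even use `valid_min_odd` for `ν.erase m` and its minimum `m' > m`. -/
theorem valid_min_two {π : ℕ} {M : ℝ} {ν : Finset ℕ} {m : ℕ} (h : valid π M ν) (hm : m ∈ ν)
    (hmin : ∀ q ∈ ν, m ≤ q) (h1 : 1 ≤ m) (h2 : 2 ≤ ν.card) : (pr ν : ℝ) * m ≤ M := by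
  have h1' : (1 : ℝ) ≤ m := by exact_mod_cast h1
  rcases Nat.even_or_odd (ν.card + π) with he | ho
  · have hc := card_erase_add_one hm
    obtain ⟨m', hm', hmin'⟩ := (ν.erase m).exists_min_image id (card_pos.1 (by omega))
    have hv : valid π M (ν.erase m) := valid_of_upper h (erase_subset _ _) fun q hq r hr hlt =>
      mem_erase.2 ⟨((hmin q (mem_erase.1 hq).2).trans_lt hlt).ne', hr⟩
    have h3 := valid_min_odd hv hm' hmin' (by rw [Nat.odd_iff]; rw [Nat.even_iff] at he; omega)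
    have hpr : pr ν = m * pr (ν.erase m) := (mul_prod_erase ν (fun p => p) hm).symm
    have h4 : (m : ℝ) ≤ m' := by exact_mod_cast hmin m' (mem_erase.1 hm').2
    refine le_trans ?_ h3
    rw [hpr]
    push_cast
    have h5 : (m : ℝ) ^ 2 ≤ (m' : ℝ) ^ 2 := pow_le_pow_left₀ (by linarith) h4 2
    have h6 := mul_le_mul_of_nonneg_left h5 (Nat.cast_nonneg (α := ℝ) (pr (ν.erase m)))
    linarith
  · refine le_trans (mul_le_mul_of_nonneg_left ?_ (Nat.cast_nonneg _)) (valid_min_odd h hm hmin ho)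
    nlinarith

theorem valid_zero_min {M : ℝ} {ν : Finset ℕ} {m : ℕ} (h : valid 0 M ν) (hm : m ∈ ν)
    (hmin : ∀ q ∈ ν, m ≤ q) (h1 : 1 ≤ m) : (pr ν : ℝ) * m ≤ M := by
  rcases Nat.even_or_odd ν.card with he | ho
  · have := card_pos.2 ⟨m, hm⟩
    exact valid_min_two h hm hmin h1 (by rw [Nat.even_iff] at he; omega)
  · have h1' : (1 : ℝ) ≤ m := by exact_mod_cast h1
    refine le_trans (mul_le_mul_of_nonneg_left ?_ (Nat.cast_nonneg _)) (valid_min_odd h hm hmin ho)
    nlinarith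

/-- The condition at the largest element. -/
theorem valid_zero_cube {M : ℝ} {ν : Finset ℕ} {q : ℕ} (h : valid 0 M ν) (hq : q ∈ ν) :
    (q : ℝ) ^ 3 ≤ M := by
  obtain ⟨m, hm, hmax⟩ := ν.exists_max_image id ⟨q, hq⟩
  have h1 : up ν m = ∅ := filter_eq_empty_iff.2 fun r hr => not_lt.2 (hmax r hr)
  have h2 := h m hm (by simp [h1])
  rw [h1] at h2
  simp only [pr, prod_empty, Nat.cast_one, one_mul] at h2
  exact (pow_le_pow_left₀ (Nat.cast_nonneg _) (by exact_mod_cast hmax q hq) 3).trans h2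

theorem valid_zero_le {M : ℝ} {ν : Finset ℕ} (h : valid 0 M ν) (hM : 1 ≤ M)
    (h1 : ∀ q ∈ ν, 1 ≤ q) : (pr ν : ℝ) ≤ M := by
  rcases ν.eq_empty_or_nonempty with rfl | hne
  · simpa [pr] using hM
  obtain ⟨m, hm, hmin⟩ := ν.exists_min_image id hne
  exact (le_mul_of_one_le_right (Nat.cast_nonneg _) (by exact_mod_cast h1 m hm)).trans
    (valid_zero_min h hm hmin (h1 m hm))

theorem valid_le {π : ℕ} {M : ℝ} {ν : Finset ℕ} (h : valid π M ν) (hM : 1 ≤ M)
    (h1 : ∀ q ∈ ν, 1 ≤ q ∧ (q : ℝ) ≤ M) : (pr ν : ℝ) ≤ M := by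
  rcases ν.eq_empty_or_nonempty with rfl | hne
  · simpa [pr] using hM
  obtain ⟨m, hm, hmin⟩ := ν.exists_min_image id hne
  rcases le_or_gt 2 ν.card with h2 | h2
  · exact (le_mul_of_one_le_right (Nat.cast_nonneg _) (by exact_mod_cast (h1 m hm).1)).trans
      (valid_min_two h hm hmin (h1 m hm).1 h2)
  · obtain ⟨q, rfl⟩ := card_eq_one.1 (show ν.card = 1 by have := card_pos.2 hne; omega)
    simpa [pr] using (h1 q (mem_singleton_self _)).2

theorem bud_nonneg {M : ℝ} {ν : Finset ℕ} (h : valid 0 M ν) (hM : 1 ≤ M)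
    (h1 : ∀ q ∈ ν, 1 ≤ q) : 0 ≤ bud M ν := by
  have hp : (0 : ℝ) < pr ν := by exact_mod_cast prod_pos h1
  exact sub_nonneg.2 (Real.log_le_log hp (valid_zero_le h hM h1))

/-- The budget of a valid node all of whose primes exceed `e^L`. -/
theorem bud_ge {M L : ℝ} {ν : Finset ℕ} (h : valid 0 M ν) (hL : 0 ≤ L) (hM : L ≤ Real.log M)
    (h1 : ∀ q ∈ ν, Real.exp L < q) :
    L ≤ bud M ν ∧ (Odd ν.card → 2 * L ≤ bud M ν) := by
  rcases ν.eq_empty_or_nonempty with rfl | hne
  · simpa [bud, pr] using hM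
  obtain ⟨m, hm, hmin⟩ := ν.exists_min_image id hne
  have h0 : ∀ q ∈ ν, 1 ≤ q := fun q hq => by
    have : (0 : ℝ) < q := (Real.exp_pos _).trans (h1 q hq)
    exact_mod_cast this
  have hp : (0 : ℝ) < pr ν := by exact_mod_cast prod_pos h0
  have hm0 : (0 : ℝ) < m := (Real.exp_pos _).trans (h1 m hm)
  have hl : L ≤ Real.log m := ((Real.lt_log_iff_exp_lt hm0).2 (h1 m hm)).le
  unfold bud
  constructor
  · have := Real.log_le_log (by positivity) (valid_zero_min h hm hmin (h0 m hm))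
    rw [Real.log_mul hp.ne' hm0.ne'] at this
    linarith
  · intro ho
    have := Real.log_le_log (by positivity) (valid_min_odd h hm hmin ho)
    rw [Real.log_mul hp.ne' (by positivity), Real.log_pow] at this
    push_cast at this
    linarith

/-- The number of sets of primes with product at most `D` (`pr_inj`). -/
theorem card_pr_le (P : Finset ℕ) (hP : ∀ p ∈ P, p.Prime) {D : ℝ} (hD : 0 ≤ D)
    (Q : Finset ℕ → Prop) (hQ : ∀ s ⊆ P, Q s → (pr s : ℝ) ≤ D) :
    ∑ s ∈ P.powerset, ind (Q s) ≤ D := by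
  classical
  rw [sum_ind]
  have h1 : (P.powerset.filter Q).card ≤ (Ioc 0 ⌊D⌋₊).card := by
    refine card_le_card_of_injOn pr (fun s hs => ?_) fun s hs t ht h => ?_
    · obtain ⟨h1, h2⟩ := mem_filter.1 (mem_coe.1 hs)
      have h3 := mem_powerset.1 h1
      exact mem_coe.2 (mem_Ioc.2 ⟨pr_pos fun p hp => hP p (h3 hp), Nat.le_floor (hQ s h3 h2)⟩)
    · exact pr_inj (fun p hp => hP p (mem_powerset.1 (mem_filter.1 (mem_coe.1 hs)).1 hp))
        (fun p hp => hP p (mem_powerset.1 (mem_filter.1 (mem_coe.1 ht)).1 hp)) h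
  rw [Nat.card_Ioc, Nat.sub_zero] at h1
  exact le_trans (by exact_mod_cast h1) (Nat.floor_le hD)

theorem two_pow_card_le {s : Finset ℕ} (h : ∀ p ∈ s, p.Prime) : 2 ^ s.card ≤ pr s :=
  pow_card_le_prod s (fun p => p) 2 fun p hp => (h p hp).two_le

/-- `∑ κ^|s| / pr s = ∏ (1 + κ / p)` (`Finset.prod_one_add`). -/
theorem sum_pow_div_pr (P : Finset ℕ) {κ : ℝ} (hκ : 0 ≤ κ) :
    ∑ s ∈ P.powerset, κ ^ s.card / pr s ≤ Real.exp (κ * mu P) := by
  have h1 : ∑ s ∈ P.powerset, κ ^ s.card / pr s = ∏ p ∈ P, (1 + κ / (p : ℝ)) := by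
    rw [prod_one_add]
    refine sum_congr rfl fun s _ => ?_
    rw [prod_div_distrib, prod_const]
    simp [pr]
  rw [h1, mu, mul_sum, Real.exp_sum]
  refine prod_le_prod (fun p _ => by positivity) fun p _ => ?_
  rw [mul_one_div, add_comm]
  exact Real.add_one_le_exp _

/-- The sets containing a given set `t`. -/
theorem sum_supset_le (P t : Finset ℕ) :
    ∑ s ∈ P.powerset, ind (t ⊆ s) * (1 / (pr s : ℝ)) ≤ 1 / pr t * Real.exp (mu P) := by
  have h1 := sum_pow_div_pr P (κ := 1) zero_le_one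
  simp only [one_pow, one_mul] at h1
  refine le_trans ?_ (mul_le_mul_of_nonneg_left h1 (by positivity))
  rw [sum_ind_mul, mul_sum]
  have h2 : ∀ s ∈ P.powerset.filter (fun s => t ⊆ s),
      1 / (pr s : ℝ) = 1 / (pr t : ℝ) * (1 / (pr (s \ t) : ℝ)) := by
    intro s hs
    conv_lhs => rw [← union_sdiff_of_subset (mem_filter.1 hs).2, pr_union disjoint_sdiff]
    push_cast
    rw [one_div_mul_one_div]
  rw [sum_congr rfl h2, ← sum_image (s := P.powerset.filter (fun s => t ⊆ s)) (g := fun s => s \ t)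
    (f := fun u => 1 / (pr t : ℝ) * (1 / (pr u : ℝ)))]
  · refine sum_le_sum_of_subset_of_nonneg (fun u hu => ?_) fun u _ _ => by positivity
    obtain ⟨s, hs, rfl⟩ := mem_image.1 hu
    exact mem_powerset.2 (sdiff_subset.trans (mem_powerset.1 (mem_filter.1 hs).1))
  · intro s hs s' hs' h
    have h3 := union_sdiff_of_subset (mem_filter.1 (mem_coe.1 hs)).2
    have h4 := union_sdiff_of_subset (mem_filter.1 (mem_coe.1 hs')).2
    simp only at h
    rw [← h3, h, h4]

end Crest.Agent.R001
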