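import Crest.Agent.R001.Cls

set_option autoImplicit false

namespace Crest.Agent.R001

open Finset Filter Crest.Agent.R008 Crest.Agent.R026

namespace AP

variable {g : AP}

theorem uncAux1_inner (h : g.OK) :
    ∑ ν ∈ g.P.powerset, ind (¬ g.Cl2 ν) * (1 / (pr ν : ℝ)) ≤
      mu g.P * (Real.exp (-(g.t : ℝ)) + 1 / g.J) * Real.exp (mu g.P) := by
  classical
  have hJ : 1 ≤ g.J := by have := h.nJ; omega
  have hJ' : (0 : ℝ) < g.J := by exact_mod_cast hJ
  have hprime : ∀ q ∈ g.P, q.Prime := fun q hq => (mem_filter.1 hq).2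
  set C : ℕ → ℕ → Prop := fun q q' => q ≠ q' ∧ g.B 0 ≤ ci g.J q ∧ ci g.J q = ci g.J q' with hC
  have h1 : ∀ ν ∈ g.P.powerset, ind (¬ g.Cl2 ν) * (1 / (pr ν : ℝ)) ≤
      ∑ q ∈ g.P, ∑ q' ∈ g.P, ind (C q q') * (ind (({q, q'} : Finset ℕ) ⊆ ν) * (1 / (pr ν : ℝ))) := by
    intro ν hν
    have hn : ∀ q q' : ℕ, 0 ≤ ind (C q q') * (ind (({q, q'} : Finset ℕ) ⊆ ν) * (1 / (pr ν : ℝ))) :=
      fun q q' => mul_nonneg (ind_nonneg _) (mul_nonneg (ind_nonneg _) (by positivity))
    by_cases hc : g.Cl2 ν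
    · rw [ind_neg (not_not.2 hc), zero_mul]
      exact sum_nonneg fun q _ => sum_nonneg fun q' _ => hn q q'
    · rw [ind_pos hc, one_mul]
      unfold Cl2 at hc
      push Not at hc
      obtain ⟨q, hq, q', hq', h2, h3, h4⟩ := hc
      have hν' := mem_powerset.1 hν
      refine le_trans ?_ (single_le_sum (f := fun q => ∑ q' ∈ g.P,
        ind (C q q') * (ind (({q, q'} : Finset ℕ) ⊆ ν) * (1 / (pr ν : ℝ))))
        (fun q _ => sum_nonneg fun q' _ => hn q q') (hν' hq))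
      refine le_trans ?_ (single_le_sum (f := fun q' =>
        ind (C q q') * (ind (({q, q'} : Finset ℕ) ⊆ ν) * (1 / (pr ν : ℝ))))
        (fun q' _ => hn q q') (hν' hq'))
      rw [ind_pos (show C q q' from ⟨h4, h2, h3⟩), ind_pos (by
        intro x hx
        rcases mem_insert.1 hx with rfl | hx
        · exact hq
        · rw [mem_singleton.1 hx]; exact hq'), one_mul, one_mul]
  refine (sum_le_sum h1).trans ?_
  rw [sum_comm, mu, sum_mul, sum_mul]
  refine sum_le_sum fun q hq => ?_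
  rw [sum_comm]
  have hq0 : (0 : ℝ) < q := by exact_mod_cast (hprime q hq).pos
  have h2 : ∀ q' ∈ g.P, ∑ ν ∈ g.P.powerset,
      ind (C q q') * (ind (({q, q'} : Finset ℕ) ⊆ ν) * (1 / (pr ν : ℝ))) ≤
      1 / (q : ℝ) * (ind (C q q') * (1 / (q' : ℝ))) * Real.exp (mu g.P) := by
    intro q' _
    rw [← mul_sum]
    by_cases hc : C q q'
    · rw [ind_pos hc, one_mul, one_mul]
      refine (sum_supset_le g.P {q, q'}).trans (le_of_eq ?_)
      rw [pr, prod_pair hc.1]
      push_cast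
      rw [one_div_mul_one_div]
    · rw [ind_neg hc]; simp
  refine (sum_le_sum h2).trans ?_
  rw [← sum_mul, ← mul_sum]
  refine mul_le_mul_of_nonneg_right (mul_le_mul_of_nonneg_left ?_ (by positivity))
    (Real.exp_pos _).le
  rw [sum_ind_mul]
  have h3 := mu_window (y := Real.exp g.t) (a := (ci g.J q : ℝ) / g.J) (l := 1 / g.J)
    (Real.exp_pos _) (by positivity) (g.P.filter (C q)) (by
      intro n hn
      obtain ⟨hn1, -, hn2, hn3⟩ := mem_filter.1 hn
      have hn0 := (hprime n hn1).one_le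
      have hn0' : (0 : ℝ) < n := by exact_mod_cast hn0
      obtain ⟨h4, h5⟩ := (ci_eq_iff hJ hn0).1 hn3.symm
      refine ⟨?_, h4, ?_⟩
      · rw [hn3, B, zero_add, pow_one, le_ci_iff hJ hn0] at hn2
        exact (Real.le_log_iff_exp_le hn0').1 hn2
      · rw [← add_div]; exact h5.le)
  rw [Real.exp_neg, ← one_div]
  exact h3

theorem uncAux1_main (h : g.OK) :
    ∑ p ∈ g.P, ∑ ν ∈ g.P.powerset, ind (¬ g.Cl2 ν) * (1 / ((pr ν : ℝ) * p)) ≤
      mu g.P * (mu g.P * (Real.exp (-(g.t : ℝ)) + 1 / g.J) * Real.exp (mu g.P)) := by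
  conv_rhs => rw [mu, sum_mul]
  refine sum_le_sum fun p _ => ?_
  refine le_trans (le_of_eq ?_) (mul_le_mul_of_nonneg_left (uncAux1_inner h) (by positivity))
  rw [mul_sum]
  refine sum_congr rfl fun ν _ => ?_
  rw [← one_div_mul_one_div]
  ring

end AP

end Crest.Agent.R001
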