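import Crest.Agent.R001.Cls

set_option autoImplicit false

namespace Crest.Agent.R001

open Finset Filter Crest.Agent.R008 Crest.Agent.R026

/-! # The nodes without margin -/

/-- The centres of the windows. -/
noncomputable def UncAux20_cen (D : ℝ) (p : ℕ) (s : Finset ℕ) : Finset ℝ :=
  insert (Real.log D / 3)
    ((insert p s).image fun q : ℕ => Real.log D - 3 * Real.log q - Real.log (pr (up s q)))

theorem UncAux20_card (D : ℝ) (p : ℕ) (s : Finset ℕ) :
    ((UncAux20_cen D p s).card : ℝ) ≤ s.card + 2 := by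
  have h1 : (UncAux20_cen D p s).card ≤ s.card + 2 := by
    unfold UncAux20_cen
    refine (card_insert_le _ _).trans ?_
    have := (card_image_le (s := insert p s)
      (f := fun q : ℕ => Real.log D - 3 * Real.log q - Real.log (pr (up s q)))).trans
      (card_insert_le p s)
    omega
  exact_mod_cast h1

theorem UncAux20_win {y η : ℝ} (hy : 0 < y) (hη : 0 ≤ η) (P : Finset ℕ) (C : Finset ℝ) :
    ∑ q ∈ P, ind (y ≤ q ∧ ∃ c ∈ C, |Real.log q - c| ≤ η) * (1 / (q : ℝ)) ≤
      C.card * (1 / y + 2 * η) := by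
  classical
  calc _ ≤ ∑ q ∈ P, ∑ c ∈ C, ind (y ≤ q ∧ |Real.log q - c| ≤ η) * (1 / (q : ℝ)) := by
        refine sum_le_sum fun q _ => ?_
        by_cases h : y ≤ q ∧ ∃ c ∈ C, |Real.log q - c| ≤ η
        · obtain ⟨h1, c, hc, h2⟩ := h
          refine le_trans ?_ (single_le_sum
            (f := fun c => ind (y ≤ q ∧ |Real.log q - c| ≤ η) * (1 / (q : ℝ)))
            (fun c _ => mul_nonneg (ind_nonneg _) (by positivity)) hc)
          exact mul_le_mul_of_nonneg_right (ind_mono fun _ => ⟨h1, h2⟩) (by positivity)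
        · rw [ind_neg h, zero_mul]
          exact sum_nonneg fun c _ => mul_nonneg (ind_nonneg _) (by positivity)
    _ = ∑ c ∈ C, ∑ q ∈ P, ind (y ≤ q ∧ |Real.log q - c| ≤ η) * (1 / (q : ℝ)) := sum_comm
    _ ≤ ∑ _c ∈ C, (1 / y + 2 * η) := by
        refine sum_le_sum fun c _ => ?_
        rw [sum_ind_mul]
        refine mu_window (a := c - η) hy (by positivity) _ fun n hn => ?_
        obtain ⟨-, h1, h2⟩ := mem_filter.1 hn
        rw [abs_le] at h2
        exact ⟨h1, by linarith [h2.1], by linarith [h2.2]⟩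
    _ = _ := by rw [sum_const, nsmul_eq_mul]

namespace AP

variable {g : AP}

theorem UncAux20_pt (h : g.OK) {p q₁ : ℕ} {s : Finset ℕ} (hp : p ∈ g.P) (hq : q₁ ∈ g.P)
    (hs : s ⊆ g.P.filter (fun r => r < q₁)) (hF : g.Fam p (insert q₁ s))
    (h3 : ¬ g.Cl3 p (insert q₁ s)) :
    (s.card : ℝ) ≤ 2 * Real.log g.D ∧ g.Xt ≤ q₁ ∧
      ∃ c ∈ UncAux20_cen g.D p s, |Real.log q₁ - c| ≤ ((g.n : ℝ) + 4) / g.J := by
  obtain ⟨-, -, -, hD1, hwz, hJ⟩ := h.basic
  have hw : 0 ≤ g.w := by linarith [h.w10]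
  have hPp : ∀ q ∈ g.P, q.Prime := fun q hq => ((mem_primesIoc hw (hw.trans hwz)).1 hq).1
  have hsP : s ⊆ g.P := hs.trans (filter_subset _ _)
  have hlt : ∀ r ∈ s, r < q₁ := fun r hr => (mem_filter.1 (hs hr)).2
  have hν : insert q₁ s ⊆ g.P := insert_subset hq hsP
  have hq0 : (0 : ℝ) < q₁ := by exact_mod_cast (hPp q₁ hq).pos
  refine ⟨?_, ?_, ?_⟩
  · have h1 := (fam_le h hp hν hF).1
    have h2 : (2 : ℝ) ^ (insert q₁ s).card ≤ pr (insert q₁ s) := by
      exact_mod_cast two_pow_card_le fun r hr => hPp r (hν hr)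
    have h4 : (2 : ℝ) ^ s.card ≤ 2 ^ (insert q₁ s).card :=
      pow_le_pow_right₀ (by norm_num) (card_le_card (subset_insert _ _))
    have hp1 : (1 : ℝ) ≤ p := by exact_mod_cast (hPp p hp).one_le
    have h5 : (2 : ℝ) ^ s.card ≤ g.D := by
      have : (0 : ℝ) ≤ pr (insert q₁ s) := Nat.cast_nonneg _
      nlinarith
    have h6 := Real.log_le_log (by positivity) h5
    rw [Real.log_pow] at h6
    have h7 := Real.log_two_gt_d9
    have h8 : (0 : ℝ) ≤ s.card := Nat.cast_nonneg _
    nlinarith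
  · obtain ⟨r, hr⟩ := h.Qne _ hF.2.2.2
    obtain ⟨hr1, hr2⟩ := mem_filter.1 hr
    refine hr2.le.trans ?_
    rcases mem_insert.1 hr1 with rfl | hr1
    · exact le_rfl
    · exact_mod_cast (hlt r hr1).le
  · unfold Cl3 at h3
    push Not at h3
    obtain ⟨q, hq', hle⟩ := h3
    have hη : 0 ≤ ((g.n : ℝ) + 4) / g.J := by positivity
    by_cases hqq : q = q₁
    · subst hqq
      refine ⟨Real.log g.D / 3, mem_insert_self _ _, ?_⟩
      have e : up (insert q s) q = ∅ := by
        refine filter_false_of_mem fun r hr => ?_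
        rcases mem_insert.1 hr with rfl | hr
        · exact lt_irrefl _
        · exact not_lt.2 (hlt r hr).le
      rw [e] at hle
      simp only [pr, prod_empty, Nat.cast_one, Real.log_one, zero_add] at hle
      rw [abs_le] at hle ⊢
      constructor <;> linarith [hle.1, hle.2]
    · have hqm : q ∈ insert p s := by
        rcases mem_insert.1 hq' with rfl | h1
        · exact mem_insert_self _ _
        · rcases mem_insert.1 h1 with rfl | h1
          · exact absurd rfl hqq
          · exact mem_insert_of_mem h1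
      have hqlt : q < q₁ := by
        rcases mem_insert.1 hqm with rfl | h1
        · exact hF.1.1 q₁ (mem_insert_self _ _)
        · exact hlt q h1
      refine ⟨_, mem_insert_of_mem (mem_image_of_mem _ hqm), ?_⟩
      have e : up (insert q₁ s) q = insert q₁ (up s q) := by
        unfold up
        rw [filter_insert, if_pos hqlt]
      have hn : q₁ ∉ up s q := fun h1 => lt_irrefl _ (hlt q₁ (mem_filter.1 h1).1)
      have hpos : (0 : ℝ) < pr (up s q) := by
        exact_mod_cast pr_pos fun r hr => hPp r (hsP (mem_filter.1 hr).1)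
      have e2 : (pr (insert q₁ (up s q)) : ℝ) = q₁ * pr (up s q) := by
        unfold pr
        rw [prod_insert hn, Nat.cast_mul]
      rw [e, e2, Real.log_mul hq0.ne' hpos.ne'] at hle
      rw [abs_le] at hle ⊢
      constructor <;> linarith [hle.1, hle.2]

theorem UncAux20_main (h : g.OK) :
    ∑ p ∈ g.P, ∑ ν ∈ g.P.powerset, ind (g.Fam p ν ∧ ¬ g.Cl3 p ν) * (1 / ((pr ν : ℝ) * p)) ≤
      mu g.P * (Real.exp (mu g.P) * ((2 * Real.log g.D + 2) *
        (1 / g.Xt + 2 * (((g.n : ℝ) + 4) / g.J)))) := by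
  obtain ⟨-, hX1, -, hD1, hwz, hJ⟩ := h.basic
  have hη : 0 ≤ ((g.n : ℝ) + 4) / g.J := by positivity
  have hK : 0 ≤ 2 * Real.log g.D + 2 := by linarith [Real.log_nonneg hD1]
  have hW : 0 ≤ 1 / g.Xt + 2 * (((g.n : ℝ) + 4) / g.J) := by positivity
  set η := ((g.n : ℝ) + 4) / g.J
  conv_rhs => rw [mu, sum_mul]
  refine sum_le_sum fun p hp => ?_
  rw [sum_top]
  have h0 : ind (g.Fam p ∅ ∧ ¬ g.Cl3 p ∅) * (1 / ((pr ∅ : ℝ) * p)) = 0 := by
    rw [ind_neg, zero_mul]
    intro hF
    have := h.Qne _ hF.1.2.2.2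
    simp [big] at this
  rw [h0, zero_add]
  set G : ℕ → Finset ℕ → ℝ := fun q s => 1 / (p : ℝ) * (ind ((s.card : ℝ) ≤ 2 * Real.log g.D) *
    (1 / (pr s : ℝ)) * (ind (g.Xt ≤ q ∧ ∃ c ∈ UncAux20_cen g.D p s, |Real.log q - c| ≤ η) *
      (1 / (q : ℝ)))) with hG
  have hG0 : ∀ q s, 0 ≤ G q s := fun q s => mul_nonneg (by positivity)
    (mul_nonneg (mul_nonneg (ind_nonneg _) (by positivity))
      (mul_nonneg (ind_nonneg _) (by positivity)))
  calc _ ≤ ∑ q ∈ g.P, ∑ s ∈ g.P.powerset, G q s := by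
        refine sum_le_sum fun q hq => ?_
        refine le_trans (sum_le_sum fun s hs => ?_) (sum_le_sum_of_subset_of_nonneg
          (powerset_mono.2 (filter_subset (fun r => r < q) g.P)) fun s _ _ => hG0 q s)
        by_cases hc : g.Fam p (insert q s) ∧ ¬ g.Cl3 p (insert q s)
        · obtain ⟨h1, h2⟩ := UncAux20_pt h hp hq (mem_powerset.1 hs) hc.1 hc.2
          have hn : q ∉ s := fun h1 => lt_irrefl _ (mem_filter.1 (mem_powerset.1 hs h1)).2
          have e2 : (pr (insert q s) : ℝ) = q * pr s := by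
            unfold pr
            rw [prod_insert hn, Nat.cast_mul]
          simp only [hG]
          rw [ind_pos hc, ind_pos h1, ind_pos h2, e2]
          refine le_of_eq ?_
          simp only [one_div, mul_inv]
          ring
        · rw [ind_neg hc, zero_mul]
          exact hG0 q s
    _ = ∑ s ∈ g.P.powerset, ∑ q ∈ g.P, G q s := sum_comm
    _ ≤ ∑ s ∈ g.P.powerset, 1 / (p : ℝ) * (1 ^ s.card / (pr s : ℝ) *
          ((2 * Real.log g.D + 2) * (1 / g.Xt + 2 * η))) := by
        refine sum_le_sum fun s _ => ?_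
        simp only [hG]
        rw [← mul_sum, ← mul_sum]
        refine mul_le_mul_of_nonneg_left ?_ (by positivity)
        by_cases hs : (s.card : ℝ) ≤ 2 * Real.log g.D
        · rw [ind_pos hs, one_mul, one_pow]
          refine mul_le_mul_of_nonneg_left ?_ (by positivity)
          refine (UncAux20_win (by linarith) hη _ _).trans ?_
          refine mul_le_mul_of_nonneg_right ?_ hW
          linarith [UncAux20_card g.D p s]
        · rw [ind_neg hs, zero_mul, zero_mul]
          positivity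
    _ ≤ _ := by
        rw [← mul_sum, ← sum_mul]
        refine mul_le_mul_of_nonneg_left ?_ (by positivity)
        refine mul_le_mul_of_nonneg_right ?_ (mul_nonneg hK hW)
        have := sum_pow_div_pr g.P (κ := 1) zero_le_one
        rw [one_mul] at this
        exact this

end AP

end Crest.Agent.R001
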