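import Crest.Agent.R001.Cls
import Crest.Agent.R001.UncAux1
import Crest.Agent.R001.UncAux20

set_option autoImplicit false

namespace Crest.Agent.R001

open Finset Filter Crest.Agent.R008 Crest.Agent.R026

/-! # The nodes which are not clean -/

namespace AP

variable {g : AP}

/-- Rankin's trick.  If `ν` misses the range `j`, let `L₁ = t^(j+1)`, `L₂ = t L₁`, `ν_hi` the primes
with `log q ≥ L₂` (valid by `valid_of_upper`, nonempty by `Qne`, `top`), `ν_lo` the primes with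
`log q < L₁`.  Then `pr ν_hi e^L₂ ≤ D` (`valid_min_two`, or `zD` for one element) and
`D < pr ν p³ ≤ pr ν_hi pr ν_lo e^t`, so `log (pr ν_lo) ≥ (t - 1) L₁` and
`1 ≤ e^(1-t) ∏_{q ∈ ν_lo} q^(1/L₁) ≤ e^(1-t) 3^|ν|`. -/
theorem unc1_pt (h : g.OK) {p : ℕ} {ν : Finset ℕ} (hν : ν ⊆ g.P) (hF : g.Fam p ν)
    (h1 : ¬ g.Cl1 ν) : 1 ≤ Real.exp (1 - g.t) * 3 ^ ν.card := by
  obtain ⟨-, -, -, -, hwz, hJ⟩ := h.basic
  have hw : 0 ≤ g.w := by linarith [h.w10]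
  have hmem : ∀ q ∈ ν, q.Prime ∧ g.w < q ∧ (q : ℝ) ≤ g.z := fun q hq =>
    (mem_primesIoc hw (hw.trans hwz)).1 (hν hq)
  obtain ⟨j, hj⟩ := not_forall.1 h1
  have ht : (2 : ℝ) ≤ g.t := by exact_mod_cast h.t2
  have hL : (g.t : ℝ) ≤ (g.t : ℝ) ^ ((j : ℕ) + 1) := le_self_pow₀ (by linarith) (by omega)
  have hL2 : (g.t : ℝ) ^ ((j : ℕ) + 2) ≤ (g.t : ℝ) ^ (g.n + 2) :=
    pow_le_pow_right₀ (by linarith) (by have := j.2; omega)
  have hgap : ∀ q ∈ ν, ¬ (g.t : ℝ) ^ ((j : ℕ) + 2) ≤ Real.log q →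
      Real.log q ≤ (g.t : ℝ) ^ ((j : ℕ) + 1) := by
    intro q hq h2
    by_contra h3
    have h4 := (hmem q hq).1.one_le
    refine hj ⟨q, hq, (le_ci_iff hJ h4).2 (by push_cast; linarith), not_le.1 fun h5 => h2 ?_⟩
    have := (le_ci_iff hJ h4).1 h5
    push_cast at this
    exact this
  set hi := ν.filter (fun q : ℕ => (g.t : ℝ) ^ ((j : ℕ) + 2) ≤ Real.log q) with hhi
  set lo := ν.filter (fun q : ℕ => ¬ (g.t : ℝ) ^ ((j : ℕ) + 2) ≤ Real.log q) with hlo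
  have hpr : (pr ν : ℝ) = pr hi * pr lo := by
    rw [← Nat.cast_mul, pr, pr, pr, prod_filter_mul_prod_filter_not]
  have hne : hi.Nonempty := by
    obtain ⟨q, hq⟩ := h.Qne _ hF.2.2.2
    obtain ⟨hq1, hq2⟩ := mem_filter.1 hq
    refine ⟨q, mem_filter.2 ⟨hq1, hL2.trans ?_⟩⟩
    rw [Real.le_log_iff_exp_le (by linarith [(hmem q hq1).2.1])]
    linarith [h.top]
  have hval : valid 1 g.D hi := by
    refine valid_of_upper hF.1.2.1 (filter_subset _ _) fun q hq r hr hqr => mem_filter.2 ⟨hr, ?_⟩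
    refine (mem_filter.1 hq).2.trans (Real.log_le_log ?_ (by exact_mod_cast hqr.le))
    exact_mod_cast (hmem q (mem_filter.1 hq).1).1.pos
  have hpos : (0 : ℝ) < pr hi := by
    exact_mod_cast pr_pos fun q hq => (hmem q (mem_filter.1 hq).1).1
  have hlopos : (0 : ℝ) < pr lo := by
    exact_mod_cast pr_pos fun q hq => (hmem q (mem_filter.1 hq).1).1
  have hD : (pr hi : ℝ) * Real.exp ((g.t : ℝ) ^ ((j : ℕ) + 2)) ≤ g.D := by
    have hm := hi.min'_mem hne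
    obtain ⟨hm1, hm2⟩ := mem_filter.1 hm
    obtain ⟨hm3, hm4, hm5⟩ := hmem _ hm1
    rcases le_or_gt 2 hi.card with hc | hc
    · refine le_trans (mul_le_mul_of_nonneg_left ?_ hpos.le)
        (valid_min_two hval hm (fun q hq => hi.min'_le q hq) hm3.one_le hc)
      exact (Real.le_log_iff_exp_le (by linarith)).1 hm2
    · have hc1 : hi.card = 1 := by have := hne.card_pos; omega
      obtain ⟨a, ha⟩ := card_eq_one.1 hc1
      have ha' : a ∈ ν := (mem_filter.1 (show a ∈ hi by rw [ha]; exact mem_singleton_self a)).1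
      have e : pr hi = a := by rw [ha, pr, prod_singleton]
      rw [e]
      exact le_trans (mul_le_mul (hmem a ha').2.2 (Real.exp_le_exp.2 hL2) (Real.exp_pos _).le
        (hw.trans hwz)) h.zD
  have hp3 : (p : ℝ) ^ 3 ≤ Real.exp g.t :=
    (pow_le_pow_left₀ (Nat.cast_nonneg p) hF.2.2.1 3).trans h.yt
  have h2 : Real.exp ((g.t : ℝ) ^ ((j : ℕ) + 2)) ≤ pr lo * Real.exp g.t := by
    refine le_of_mul_le_mul_left (hD.trans (hF.1.2.2.2.le.trans ?_)) hpos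
    rw [hpr, mul_assoc]
    gcongr
  have h3 : (pr lo : ℝ) ≤ Real.exp (ν.card * (g.t : ℝ) ^ ((j : ℕ) + 1)) := by
    have h4 : (pr lo : ℝ) ≤ Real.exp ((g.t : ℝ) ^ ((j : ℕ) + 1)) ^ lo.card := by
      rw [pr, Nat.cast_prod, ← prod_const]
      refine prod_le_prod (fun q _ => Nat.cast_nonneg q) fun q hq => ?_
      obtain ⟨hq1, hq2⟩ := mem_filter.1 hq
      exact (Real.log_le_iff_le_exp (by linarith [(hmem q hq1).2.1])).1 (hgap q hq1 hq2)
    rw [Real.exp_nat_mul]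
    exact h4.trans (pow_le_pow_right₀ (Real.one_le_exp (by positivity)) (card_filter_le _ _))
  have h4 : (g.t : ℝ) ^ ((j : ℕ) + 2) ≤ ν.card * (g.t : ℝ) ^ ((j : ℕ) + 1) + g.t := by
    rw [← Real.exp_le_exp, Real.exp_add]
    exact h2.trans (mul_le_mul_of_nonneg_right h3 (Real.exp_pos _).le)
  have h5 : (g.t : ℝ) - 1 ≤ ν.card := by
    refine le_of_mul_le_mul_right ?_ (show 0 < (g.t : ℝ) ^ ((j : ℕ) + 1) by positivity)
    rw [pow_succ (g.t : ℝ) ((j : ℕ) + 1)] at h4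
    linarith
  have h6 : Real.exp ν.card ≤ 3 ^ ν.card := by
    rw [← mul_one (ν.card : ℝ), Real.exp_nat_mul]
    exact pow_le_pow_left₀ (Real.exp_pos _).le (by linarith [Real.exp_one_lt_d9]) _
  calc (1 : ℝ) ≤ Real.exp (1 - g.t + ν.card) := Real.one_le_exp (by linarith)
    _ ≤ _ := by
      rw [Real.exp_add]
      exact mul_le_mul_of_nonneg_left h6 (Real.exp_pos _).le

/-- `unc1_pt`, `sum_pow_div_pr`. -/
theorem unc1 (h : g.OK) :
    ∑ p ∈ g.P, ∑ ν ∈ g.P.powerset, ind (g.Fam p ν ∧ ¬ g.Cl1 ν) * (1 / ((pr ν : ℝ) * p)) ≤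
      mu g.P * (Real.exp (1 - g.t) * Real.exp (3 * mu g.P)) := by
  rw [mu, sum_mul]
  refine sum_le_sum fun p _ => ?_
  refine le_trans ?_ (mul_le_mul_of_nonneg_left (mul_le_mul_of_nonneg_left
    (sum_pow_div_pr g.P (κ := 3) (by norm_num)) (Real.exp_pos _).le) (by positivity))
  rw [mul_sum, mul_sum]
  refine sum_le_sum fun ν hν => ?_
  by_cases hc : g.Fam p ν ∧ ¬ g.Cl1 ν
  · rw [ind_pos hc]
    have h1 := unc1_pt h (mem_powerset.1 hν) hc.1 hc.2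
    calc 1 * (1 / ((pr ν : ℝ) * p)) ≤ (Real.exp (1 - g.t) * 3 ^ ν.card) * (1 / ((pr ν : ℝ) * p)) :=
          mul_le_mul_of_nonneg_right h1 (by positivity)
      _ = _ := by ring
  · rw [ind_neg hc, zero_mul]
    positivity

/-- Sum over the pairs `q ≠ q'` in the same cell: `sum_supset_le`, `mu_window` with `y = e^t`,
`l = 1 / J`. -/
theorem unc2 (h : g.OK) :
    ∑ p ∈ g.P, ∑ ν ∈ g.P.powerset, ind (¬ g.Cl2 ν) * (1 / ((pr ν : ℝ) * p)) ≤
      mu g.P * (mu g.P * (Real.exp (-(g.t : ℝ)) + 1 / g.J) * Real.exp (mu g.P)) :=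
  uncAux1_main h

/-- `sum_top`: `ν = insert q₁ s` with `q₁ > Xt` the largest prime.  For fixed `p, s` the prime `q₁`
lies in one of `|s| + 2` windows of logarithmic length `2 (n+4)/J` (for `q ∈ insert p s`,
`pr (up ν q) = q₁ pr (up s q)`; for `q = q₁` the condition is on `3 log q₁`), `mu_window`;
`2^|s| ≤ pr ν ≤ D` (`two_pow_card_le`, `fam_le`); `sum_pow_div_pr`. -/
theorem unc3 (h : g.OK) :
    ∑ p ∈ g.P, ∑ ν ∈ g.P.powerset, ind (g.Fam p ν ∧ ¬ g.Cl3 p ν) * (1 / ((pr ν : ℝ) * p)) ≤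
      mu g.P * (Real.exp (mu g.P) * ((2 * Real.log g.D + 2) *
        (1 / g.Xt + 2 * (((g.n : ℝ) + 4) / g.J)))) :=
  UncAux20_main h

/-- The total loss. -/
noncomputable def loss (g : AP) : ℝ :=
  mu g.P * (Real.exp (1 - g.t) * Real.exp (3 * mu g.P)) +
    mu g.P * (mu g.P * (Real.exp (-(g.t : ℝ)) + 1 / g.J) * Real.exp (mu g.P)) +
    mu g.P * (Real.exp (mu g.P) * ((2 * Real.log g.D + 2) *
      (1 / g.Xt + 2 * (((g.n : ℝ) + 4) / g.J))))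

/-- `le_csum`, `unc1`, `unc2`, `unc3`, `1 / log p ≤ 1`. -/
theorem mass_le (h : g.OK) : BmQ 1 g.w g.D g.z g.Xt g.Q (phi g.y₁ g.y₂) ≤
    g.csum (fun p ν => 1 / ((pr ν : ℝ) * p * Real.log p)) + g.loss := by
  obtain ⟨-, -, -, -, hwz, -⟩ := h.basic
  have hw : 0 ≤ g.w := by linarith [h.w10]
  have h0 := le_csum h (fun p ν => 1 / ((pr ν : ℝ) * p * Real.log p)) fun p ν =>
    one_div_nonneg.2 (mul_nonneg (by positivity) (Real.log_natCast_nonneg p))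
  refine le_trans ?_ (add_le_add h0 (add_le_add (add_le_add (unc1 h) (unc2 h)) (unc3 h)))
  simp only [← sum_add_distrib]
  refine sum_le_sum fun p hp => sum_le_sum fun ν _ => ?_
  have hp1 : g.w < p := ((mem_primesIoc hw (hw.trans hwz)).1 hp).2.1
  have hlog : 1 ≤ Real.log p := by
    rw [Real.le_log_iff_exp_le (by linarith)]
    linarith [Real.exp_one_lt_d9, h.w10]
  have hG : 0 ≤ 1 / ((pr ν : ℝ) * p) := by positivity
  have hF0 : 0 ≤ 1 / ((pr ν : ℝ) * p * Real.log p) := by positivity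
  have hFG : 1 / ((pr ν : ℝ) * p * Real.log p) ≤ 1 / ((pr ν : ℝ) * p) := by
    rw [← div_div]
    exact div_le_self hG hlog
  have e : ind (Bd 1 g.D ν p ∧ g.Q (big g.Xt ν)) * (phi g.y₁ g.y₂ p / (pr ν * p)) =
      ind (g.Fam p ν) * (1 / ((pr ν : ℝ) * p * Real.log p)) := by
    rw [phi, ind_congr (show g.Fam p ν ↔ (Bd 1 g.D ν p ∧ g.Q (big g.Xt ν)) ∧
      (g.y₁ < p ∧ (p : ℝ) ≤ g.y₂) by unfold Fam; tauto), ind_and (_ ∧ _) (_ ∧ _)]
    ring
  rw [e]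
  have a0 := mul_nonneg (ind_nonneg (g.Fam p ν ∧ g.Cl1 ν ∧ g.Cl2 ν ∧ g.Cl3 p ν)) hF0
  have a1 := mul_nonneg (ind_nonneg (g.Fam p ν ∧ ¬ g.Cl1 ν)) hG
  have a2 := mul_nonneg (ind_nonneg (¬ g.Cl2 ν)) hG
  have a3 := mul_nonneg (ind_nonneg (g.Fam p ν ∧ ¬ g.Cl3 p ν)) hG
  by_cases hF : g.Fam p ν
  swap
  · rw [ind_neg hF]
    linarith
  rw [ind_pos hF]
  by_cases h1 : g.Cl1 ν
  swap
  · rw [ind_pos (show g.Fam p ν ∧ ¬ g.Cl1 ν from ⟨hF, h1⟩)]
    linarith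
  by_cases h2 : g.Cl2 ν
  swap
  · rw [ind_pos h2]
    linarith
  by_cases h3 : g.Cl3 p ν
  swap
  · rw [ind_pos (show g.Fam p ν ∧ ¬ g.Cl3 p ν from ⟨hF, h3⟩)]
    linarith
  rw [ind_pos (show g.Fam p ν ∧ g.Cl1 ν ∧ g.Cl2 ν ∧ g.Cl3 p ν from ⟨hF, h1, h2, h3⟩)]
  linarith

end AP

end Crest.Agent.R001
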